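import Vale.Agent.Lib.P321.CoreStmt

/-!
P321: final assembly. The analytic core implies the lower bound `n^(3/2 + 1/50)` on the number of traces.
-/

namespace Vale.Agent.Lib.P321

open Finset

/-- Every word of length `n` is the list of values of a function on `Fin n`. -/
theorem word_ofFn {n : ℕ} (w : Word) (h : w.length = n) : ∃ x : Fin n → Bool, List.ofFn x = w := by
  subst h
  exact ⟨fun i => w.get i, List.ofFn_get w⟩

theorem block_inj {a b : Bool} (h : block a = block b) : a = b := by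
  cases a <;> cases b <;> simp_all [block]

/-- The string determines the sites. -/
theorem blockStr_eq_mem {D D' : Finset ℤ} : ∀ (n : ℕ) (s : ℤ), blockStr D s n = blockStr D' s n →
    ∀ i : ℤ, s < i → i ≤ s + n → (i ∈ D ↔ i ∈ D') := by
  intro n
  induction n with
  | zero =>
    intro s _ i h1 h2
    exfalso
    simp at h2
    omega
  | succ n ih =>
    intro s h i h1 h2
    simp only [blockStr] at h
    have h3 := List.append_inj h (by simp)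
    by_cases hi : i = s + 1
    · subst hi
      have h4 := block_inj h3.1
      simpa using h4
    · apply ih (s + 1) h3.2 i (by omega)
      push_cast at h2
      omega

/-- Existence of an integer root. -/
theorem exists_root {a : ℕ} (ha : a ≠ 0) (A : ℕ) : ∃ lam : ℕ, lam ^ a ≤ A ∧ A < (lam + 1) ^ a := by
  classical
  refine ⟨Nat.findGreatest (fun l => l ^ a ≤ A) A, ?_, ?_⟩
  · exact Nat.findGreatest_spec (P := fun l => l ^ a ≤ A) (m := 0) (Nat.zero_le _) (by simp [ha])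
  · by_contra hcon
    have h1 : (Nat.findGreatest (fun l => l ^ a ≤ A) A + 1) ^ a ≤ A := not_lt.mp hcon
    have h2 : Nat.findGreatest (fun l => l ^ a ≤ A) A + 1 ≤ A :=
      le_trans (Nat.le_self_pow ha _) h1
    have h3 := Nat.le_findGreatest (P := fun l => l ^ a ≤ A) h2 h1
    omega

/-- Neighbouring powers are comparable. -/
theorem succ_pow_le {a lam : ℕ} (hlam : 2 * a ≤ lam) (hlam1 : 1 ≤ lam) : (lam + 1) ^ a ≤ 2 * lam ^ a := by
  have hl1 : (1 : ℝ) ≤ lam := by exact_mod_cast hlam1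
  have hl : 2 * (a : ℝ) ≤ lam := by exact_mod_cast hlam
  have hl0 : (0 : ℝ) < lam := by linarith
  have h1 : ((lam : ℝ) + 1) ≤ lam * Real.exp (1 / lam) := by
    have := Real.add_one_le_exp (1 / (lam : ℝ))
    calc (lam : ℝ) + 1 = lam * (1 / lam + 1) := by field_simp; ring
      _ ≤ lam * Real.exp (1 / lam) := mul_le_mul_of_nonneg_left this hl0.le
  have h2 : Real.exp (1 / (lam : ℝ)) ^ a ≤ 2 := by
    rw [← Real.exp_nat_mul]
    have h4 : (a : ℝ) * (1 / (lam : ℝ)) ≤ Real.log 2 := by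
      have := Real.log_two_gt_d9
      have h5 : (a : ℝ) * (1 / (lam : ℝ)) ≤ 1 / 2 := by
        rw [mul_one_div, div_le_iff₀ hl0]
        linarith
      linarith
    calc Real.exp ((a : ℝ) * (1 / (lam : ℝ))) ≤ Real.exp (Real.log 2) := Real.exp_le_exp.mpr h4
      _ = 2 := Real.exp_log (by norm_num)
  have h5 : ((lam : ℝ) + 1) ^ a ≤ 2 * (lam : ℝ) ^ a := by
    calc ((lam : ℝ) + 1) ^ a ≤ (lam * Real.exp (1 / lam)) ^ a :=
          pow_le_pow_left₀ (by positivity) h1 _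
      _ = (lam : ℝ) ^ a * Real.exp (1 / lam) ^ a := mul_pow _ _ _
      _ ≤ (lam : ℝ) ^ a * 2 := mul_le_mul_of_nonneg_left h2 (by positivity)
      _ = 2 * (lam : ℝ) ^ a := by ring
  exact_mod_cast h5

/-- The final arithmetic with real exponents. -/
theorem n_rpow_le {n lam a H : ℕ} {α : ℝ} (hlam : 1 ≤ lam) (hn : n ≤ 5 * lam ^ a) (hα0 : 0 ≤ α)
    (hα : α * a ≤ H) :
    (n : ℝ) ^ α ≤ (5 : ℝ) ^ α * (lam : ℝ) ^ H := by
  have hl : (1 : ℝ) ≤ lam := by exact_mod_cast hlam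
  have hl0 : (0 : ℝ) ≤ lam := by linarith
  have hn' : (n : ℝ) ≤ 5 * (lam : ℝ) ^ a := by exact_mod_cast hn
  calc (n : ℝ) ^ α ≤ (5 * (lam : ℝ) ^ a) ^ α :=
        Real.rpow_le_rpow (by positivity) hn' hα0
    _ = (5 : ℝ) ^ α * ((lam : ℝ) ^ a) ^ α :=
        Real.mul_rpow (by norm_num) (by positivity)
    _ ≤ (5 : ℝ) ^ α * (lam : ℝ) ^ H := by
        apply mul_le_mul_of_nonneg_left _ (by positivity)
        have h1 : ((lam : ℝ) ^ a) = (lam : ℝ) ^ ((a : ℕ) : ℝ) := (Real.rpow_natCast _ _).symm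
        rw [h1, ← Real.rpow_mul hl0]
        calc (lam : ℝ) ^ (((a : ℕ) : ℝ) * α) ≤ (lam : ℝ) ^ ((H : ℕ) : ℝ) :=
              Real.rpow_le_rpow_of_exponent_le hl (by linarith)
          _ = (lam : ℝ) ^ H := Real.rpow_natCast _ _

/-- Exponentials beat powers. -/
theorem exp_small {C K : ℝ} (hC : 0 < C) (hK : 0 < K) (N : ℕ) :
    ∃ L : ℕ, ∀ lam : ℕ, L ≤ lam → K * Real.exp (-(lam : ℝ) / C) ≤ 1 / (lam : ℝ) ^ N := by
  have h := Real.tendsto_pow_mul_exp_neg_atTop_nhds_zero N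
  have hpos : 0 < 1 / (K * C ^ N) := by positivity
  have h2 := (h.eventually (gt_mem_nhds hpos))
  obtain ⟨X, hX⟩ := Filter.eventually_atTop.mp h2
  refine ⟨max 1 (⌈C * max X 1⌉₊), ?_⟩
  intro lam hlam
  have hlam1 : 1 ≤ lam := le_trans (le_max_left _ _) hlam
  have hl1 : (1 : ℝ) ≤ lam := by exact_mod_cast hlam1
  have hl0 : (0 : ℝ) < lam := by linarith
  have hl2 : C * max X 1 ≤ lam := by
    have : ((⌈C * max X 1⌉₊ : ℕ) : ℝ) ≤ lam := by exact_mod_cast le_trans (le_max_right _ _) hlam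
    exact le_trans (Nat.le_ceil _) this
  have hx : X ≤ (lam : ℝ) / C := by
    rw [le_div_iff₀ hC]
    have h3 : X ≤ max X 1 := le_max_left _ _
    nlinarith
  have h4 := hX _ hx
  have h5 : ((lam : ℝ) / C) ^ N * Real.exp (-((lam : ℝ) / C)) * (K * C ^ N) < 1 := by
    have h6 : 0 < K * C ^ N := by positivity
    rwa [lt_div_iff₀ h6] at h4
  rw [le_div_iff₀ (by positivity), show -(lam : ℝ) / C = -((lam : ℝ) / C) by ring]
  have h7 : ((lam : ℝ) / C) ^ N * (K * C ^ N) = K * (lam : ℝ) ^ N := by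
    rw [div_pow]
    field_simp
  have h8 : K * Real.exp (-((lam : ℝ) / C)) * (lam : ℝ) ^ N =
      ((lam : ℝ) / C) ^ N * Real.exp (-((lam : ℝ) / C)) * (K * C ^ N) := by
    calc K * Real.exp (-((lam : ℝ) / C)) * (lam : ℝ) ^ N
        = Real.exp (-((lam : ℝ) / C)) * (K * (lam : ℝ) ^ N) := by ring
      _ = Real.exp (-((lam : ℝ) / C)) * (((lam : ℝ) / C) ^ N * (K * C ^ N)) := by rw [h7]
      _ = _ := by ring
  rw [h8]
  exact h5.le


open Classical in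
/-- The real analysis of the assembly. -/
theorem first_term_bound {q C c : ℝ} {Cg lam A a' Hh V : ℕ} {K1 : ℝ} {F : ℤ → Word → ℝ} (h0 : 0 < q) (h1 : q < 1)
    (hC : 0 < C) (hc : 0 < c) (hK1 : K1 = C / c * 2 * (2 * Cg + 1)) (hK1l : 3 * K1 ≤ lam) (hlam1 : (1 : ℝ) ≤ lam)
    (hA2 : (A : ℝ) ≤ 2 * (lam : ℝ) ^ (2 * a')) (hV : V = Hh + a' + 2)
    (hnsq : ∀ g : ℤ, |g| ≤ Cg * lam → nsq q (2 * A) (F g) ≤ 1 / (lam : ℝ) ^ V)
    (Typ' : Word → Prop) :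
    C / c * √(A : ℝ) * ∑ g ∈ Icc (-(Cg * lam : ℤ)) (Cg * lam : ℤ),
        ∑ t ∈ (W (2 * A)).filter Typ', piT q t * (F g t) ^ 2 ≤ 1 / 3 * (1 / (lam : ℝ) ^ Hh) := by
  have hlam0 : (0 : ℝ) < lam := by linarith
  have hinner : ∀ g ∈ Icc (-(Cg * lam : ℤ)) (Cg * lam : ℤ),
      ∑ t ∈ (W (2 * A)).filter Typ', piT q t * (F g t) ^ 2 ≤ 1 / (lam : ℝ) ^ V := by
    intro g hg
    have hg' : |g| ≤ Cg * lam := abs_le.mpr ⟨(mem_Icc.mp hg).1, (mem_Icc.mp hg).2⟩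
    refine le_trans ?_ (hnsq g hg')
    unfold nsq
    apply sum_le_sum_of_subset_of_nonneg (filter_subset _ _)
    intro t _ _
    exact mul_nonneg (piT_nonneg h0 h1 t) (sq_nonneg _)
  have hcard : ((Icc (-(Cg * lam : ℤ)) (Cg * lam : ℤ)).card : ℝ) ≤ (2 * Cg + 1) * lam := by
    have h2 : (((Icc (-(Cg * lam : ℤ)) (Cg * lam : ℤ)).card : ℕ) : ℤ) = 2 * (Cg * lam) + 1 := by
      have hnn : (0 : ℤ) ≤ (Cg : ℤ) * lam := by positivity
      rw [Int.card_Icc, Int.toNat_of_nonneg (by linarith)]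
      ring
    have h3 : ((Icc (-(Cg * lam : ℤ)) (Cg * lam : ℤ)).card : ℝ) = 2 * (Cg * lam) + 1 := by
      exact_mod_cast h2
    rw [h3]
    have : (0 : ℝ) ≤ Cg := by positivity
    nlinarith
  have hsum : ∑ g ∈ Icc (-(Cg * lam : ℤ)) (Cg * lam : ℤ),
        ∑ t ∈ (W (2 * A)).filter Typ', piT q t * (F g t) ^ 2 ≤ (2 * Cg + 1) * lam * (1 / (lam : ℝ) ^ V) := by
    calc _ ≤ ∑ _g ∈ Icc (-(Cg * lam : ℤ)) (Cg * lam : ℤ), 1 / (lam : ℝ) ^ V := sum_le_sum hinner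
      _ = ((Icc (-(Cg * lam : ℤ)) (Cg * lam : ℤ)).card : ℝ) * (1 / (lam : ℝ) ^ V) := by
          rw [sum_const, nsmul_eq_mul]
      _ ≤ _ := mul_le_mul_of_nonneg_right hcard (by positivity)
  have hsq : √(A : ℝ) ≤ 2 * (lam : ℝ) ^ a' := by
    apply Real.sqrt_le_iff.mpr
    refine ⟨by positivity, ?_⟩
    have h4 : (lam : ℝ) ^ (2 * a') = ((lam : ℝ) ^ a') ^ 2 := by rw [mul_comm, pow_mul]
    have h5 : 0 ≤ (lam : ℝ) ^ (2 * a') := by positivity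
    rw [mul_pow]
    rw [← h4]
    nlinarith
  obtain ⟨S, hS⟩ : ∃ S, S = ∑ g ∈ Icc (-(Cg * lam : ℤ)) (Cg * lam : ℤ),
        ∑ t ∈ (W (2 * A)).filter Typ', piT q t * (F g t) ^ 2 := ⟨_, rfl⟩
  rw [← hS] at hsum ⊢
  obtain ⟨B, hB⟩ : ∃ B, B = (2 * (Cg : ℝ) + 1) * lam * (1 / (lam : ℝ) ^ V) := ⟨_, rfl⟩
  rw [← hB] at hsum
  have hB0 : 0 ≤ B := by rw [hB]; positivity
  have hCc : 0 ≤ C / c := by positivity
  have h6 : C / c * √(A : ℝ) * S ≤ C / c * (2 * (lam : ℝ) ^ a') * B := by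
    calc C / c * √(A : ℝ) * S ≤ C / c * √(A : ℝ) * B :=
          mul_le_mul_of_nonneg_left hsum (by positivity)
      _ ≤ C / c * (2 * (lam : ℝ) ^ a') * B :=
          mul_le_mul_of_nonneg_right (mul_le_mul_of_nonneg_left hsq hCc) hB0
  refine le_trans h6 ?_
  obtain ⟨X, hX⟩ : ∃ X, X = (lam : ℝ) ^ Hh := ⟨_, rfl⟩
  obtain ⟨Z, hZ⟩ : ∃ Z, Z = (lam : ℝ) ^ (a' + 1) := ⟨_, rfl⟩
  have hX0 : 0 < X := by rw [hX]; positivity
  have hZ0 : 0 < Z := by rw [hZ]; positivity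
  have hV2 : (lam : ℝ) ^ V = Z * X * lam := by
    rw [hV, hZ, hX]
    ring
  have hZ1 : (lam : ℝ) ^ a' * lam = Z := by
    rw [hZ, pow_succ]
  have h7 : C / c * (2 * (lam : ℝ) ^ a') * B = K1 * (Z * (1 / (Z * X * lam))) := by
    rw [hB, hK1, hV2, ← hZ1]
    ring
  rw [h7, ← hX]
  have h8 : Z * (1 / (Z * X * lam)) = 1 / X * (1 / lam) := by
    field_simp
  rw [h8]
  have h9 : K1 * (1 / (lam : ℝ)) ≤ 1 / 3 := by
    rw [mul_one_div, div_le_iff₀ hlam0]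
    linarith
  have h10 : 0 ≤ 1 / X := by positivity
  calc K1 * (1 / X * (1 / lam)) = (K1 * (1 / lam)) * (1 / X) := by ring
    _ ≤ 1 / 3 * (1 / X) := mul_le_mul_of_nonneg_right h9 h10

open Classical in
theorem hell_core {q C c C2 C3 K1 : ℝ} {Cg lam A Le1 a' pP crd Hh V : ℕ} {Dx Dy : Finset ℤ} (h0 : 0 < q) (h1 : q < 1)
    (hC : 0 < C) (hc : 0 < c) (hC3 : 0 < C3) (hK1 : K1 = C / c * 2 * (2 * Cg + 1))
    (hV : V = Hh + a' + 2) (ha4 : 4 ≤ 2 * a') (hcrd : 3 ≤ crd) (hp : pP + 9 ≤ 2 * a') (hcrd2 : crd + 1 ≤ a')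
    (hred : ∀ (lam A : ℕ) (x y : Word) (c : ℝ), C ≤ lam → (lam : ℝ) ^ 4 ≤ A →
      x.length = 2 * A → y.length = 2 * A → 0 < c →
      Hell q (2 * A) x y ≤
        C / c * √(A : ℝ) * ∑ g ∈ Icc (-(Cg * lam : ℤ)) (Cg * lam : ℤ),
            ∑ t ∈ (W (2 * A)).filter (Typ q lam A), piT q t *
              (((cnt x t : ℝ) - cnt y t) * (1 - th q A g) ^ (t.length + 1) *
                th q A g ^ ((A : ℤ) - (H t : ℤ))) ^ 2
          + 2 * c * ∑ t ∈ (W (2 * A)).filter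
              (fun t => (cnt x t : ℝ) < c * (cnt (blockStr ∅ 0 A) t : ℝ)),
              trW q (2 * A) t * (cnt (blockStr ∅ 0 A) t : ℝ)
          + ∑ t ∈ (W (2 * A)).filter (fun t => ¬ Typ q lam A t),
              trW q (2 * A) t * ((cnt x t : ℝ) + cnt y t))
    (hlt : ∀ (lam A δ Xz : ℕ) (D : Finset ℤ), C2 ≤ lam →
      (∀ d ∈ D, (δ : ℤ) ≤ d ∧ d ≤ (Xz : ℤ)) →
      (∀ d ∈ D, ∀ d' ∈ D, d ≠ d' → (δ : ℤ) ≤ |d - d'|) →
      (D.card : ℝ) * (lam : ℝ) ^ 3 ≤ √(δ : ℝ) →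
      (Xz : ℝ) * (lam : ℝ) ^ 8 ≤ A →
      ∑ t ∈ (W (2 * A)).filter
          (fun t => (cnt (blockStr D 0 A) t : ℝ) < c * (cnt (blockStr ∅ 0 A) t : ℝ)),
        trW q (2 * A) t * (cnt (blockStr ∅ 0 A) t : ℝ) ≤ Real.exp (-(lam : ℝ) / C2))
    (htt : ∀ (lam A : ℕ) (D : Finset ℤ), C3 ≤ lam → (lam : ℝ) ^ 4 ≤ A →
      (D.card : ℝ) * (lam * √(A : ℝ)) ≤ A →
      ∑ t ∈ (W (2 * A)).filter (fun t => ¬ Typ q lam A t),
        trW q (2 * A) t * (cnt (blockStr D 0 A) t : ℝ) ≤ Real.exp (-((lam : ℝ) ^ 2) / C3))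
    (hLe1 : ∀ lam : ℕ, Le1 ≤ lam → (6 * c) * Real.exp (-(lam : ℝ) / C2) ≤ 1 / (lam : ℝ) ^ Hh)
    (hL5 : Le1 ≤ lam)
    (hLe2 : 6 * Real.exp (-(lam : ℝ) / C3) ≤ 1 / (lam : ℝ) ^ Hh)
    (hCl : C ≤ lam) (hC2l : C2 ≤ lam) (hC3l : C3 ≤ lam) (hK1l : 3 * K1 ≤ lam) (hlam2 : (2 : ℝ) ≤ lam)
    (hA1 : lam ^ (2 * a') ≤ A) (hA2 : A ≤ 2 * lam ^ (2 * a'))
    (hDx1 : ∀ d ∈ Dx, ((lam : ℤ) ^ (2 * crd) ≤ d ∧ d ≤ 2 * (lam : ℤ) ^ pP))
    (hDx2 : ∀ d ∈ Dx, ∀ d' ∈ Dx, d ≠ d' → (lam : ℤ) ^ (2 * crd) ≤ |d - d'|)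
    (hDx3 : Dx.card * lam ^ 3 ≤ lam ^ crd) (hDy3 : Dy.card * lam ^ 3 ≤ lam ^ crd)
    (hnsq : ∀ g : ℤ, |g| ≤ Cg * lam →
        nsq q (2 * A) (fun t => ((cnt (blockStr Dx 0 A) t : ℝ) - cnt (blockStr Dy 0 A) t) *
          (1 - th q A g) ^ (t.length + 1) * th q A g ^ ((A : ℤ) - (H t : ℤ))) ≤ 1 / (lam : ℝ) ^ V) :
    Hell q (2 * A) (blockStr Dx 0 A) (blockStr Dy 0 A) ≤ 1 / (lam : ℝ) ^ Hh := by
  have hlam1 : (1 : ℝ) ≤ lam := by linarith
  have hlam0 : (0 : ℝ) < lam := by linarith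
  have hA1' : (lam : ℝ) ^ (2 * a') ≤ A := by exact_mod_cast hA1
  have hA2' : (A : ℝ) ≤ 2 * (lam : ℝ) ^ (2 * a') := by exact_mod_cast hA2
  have hA0 : (0 : ℝ) ≤ A := by positivity
  have hl4 : (lam : ℝ) ^ 4 ≤ A :=
    le_trans (pow_le_pow_right₀ hlam1 ha4) hA1'
  have hR := hred lam A (blockStr Dx 0 A) (blockStr Dy 0 A) c hCl hl4
    (length_blockStr _ _ _) (length_blockStr _ _ _) hc
  have hT1 := first_term_bound (F := fun g t => ((cnt (blockStr Dx 0 A) t : ℝ) - cnt (blockStr Dy 0 A) t) *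
          (1 - th q A g) ^ (t.length + 1) * th q A g ^ ((A : ℤ) - (H t : ℤ))) h0 h1 hC hc hK1 hK1l hlam1 hA2' hV hnsq
    (Typ q lam A)
  have hT2 := hlt lam A (lam ^ (2 * crd)) (2 * lam ^ pP) Dx hC2l
    (by intro d hd; have := hDx1 d hd; push_cast; exact this)
    (by intro d hd d' hd' hne; have := hDx2 d hd d' hd' hne; push_cast; exact this)
    (by
      have h3 : √(((lam ^ (2 * crd) : ℕ) : ℝ)) = (lam : ℝ) ^ crd := by
        push_cast
        rw [show (lam : ℝ) ^ (2 * crd) = ((lam : ℝ) ^ crd) ^ 2 by rw [mul_comm, pow_mul]]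
        exact Real.sqrt_sq (by positivity)
      rw [h3]
      exact_mod_cast hDx3)
    (by
      push_cast
      calc 2 * (lam : ℝ) ^ pP * (lam : ℝ) ^ 8 ≤ (lam : ℝ) * (lam : ℝ) ^ pP * (lam : ℝ) ^ 8 := by
            apply mul_le_mul_of_nonneg_right _ (by positivity)
            exact mul_le_mul_of_nonneg_right hlam2 (by positivity)
        _ = (lam : ℝ) ^ (pP + 9) := by ring
        _ ≤ (lam : ℝ) ^ (2 * a') := pow_le_pow_right₀ hlam1 hp
        _ ≤ A := hA1')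
  have hsqA : (lam : ℝ) ^ a' ≤ √(A : ℝ) := by
    apply Real.le_sqrt_of_sq_le
    calc ((lam : ℝ) ^ a') ^ 2 = (lam : ℝ) ^ (2 * a') := by rw [← pow_mul, mul_comm]
      _ ≤ A := hA1'
  have hcardb : ∀ D : Finset ℤ, D.card * lam ^ 3 ≤ lam ^ crd → (D.card : ℝ) * (lam * √(A : ℝ)) ≤ A := by
    intro D hD
    have h3 : (D.card : ℝ) * (lam : ℝ) ^ 3 ≤ (lam : ℝ) ^ crd := by exact_mod_cast hD
    have h4 : (D.card : ℝ) * lam ≤ (lam : ℝ) ^ a' := by
      have h5 : 0 < (lam : ℝ) ^ 2 := by positivity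
      have h6 : ((D.card : ℝ) * lam) * (lam : ℝ) ^ 2 ≤ (lam : ℝ) ^ a' * (lam : ℝ) ^ 2 := by
        calc ((D.card : ℝ) * lam) * (lam : ℝ) ^ 2 = (D.card : ℝ) * (lam : ℝ) ^ 3 := by ring
          _ ≤ (lam : ℝ) ^ crd := h3
          _ ≤ (lam : ℝ) ^ (a' + 2) := pow_le_pow_right₀ hlam1 (by omega)
          _ = (lam : ℝ) ^ a' * (lam : ℝ) ^ 2 := by ring
      exact le_of_mul_le_mul_right h6 h5
    calc (D.card : ℝ) * (lam * √(A : ℝ)) = ((D.card : ℝ) * lam) * √(A : ℝ) := by ring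
      _ ≤ √(A : ℝ) * √(A : ℝ) := mul_le_mul_of_nonneg_right (le_trans h4 hsqA) (Real.sqrt_nonneg _)
      _ = A := Real.mul_self_sqrt hA0
  have hT3x := htt lam A Dx hC3l hl4 (hcardb Dx hDx3)
  have hT3y := htt lam A Dy hC3l hl4 (hcardb Dy hDy3)
  have hexp : Real.exp (-((lam : ℝ) ^ 2) / C3) ≤ Real.exp (-(lam : ℝ) / C3) := by
    apply Real.exp_le_exp.mpr
    apply div_le_div_of_nonneg_right _ hC3.le
    nlinarith
  have hT3 : ∑ t ∈ (W (2 * A)).filter (fun t => ¬ Typ q lam A t),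
      trW q (2 * A) t * ((cnt (blockStr Dx 0 A) t : ℝ) + cnt (blockStr Dy 0 A) t) ≤
      2 * Real.exp (-(lam : ℝ) / C3) := by
    have : ∑ t ∈ (W (2 * A)).filter (fun t => ¬ Typ q lam A t),
      trW q (2 * A) t * ((cnt (blockStr Dx 0 A) t : ℝ) + cnt (blockStr Dy 0 A) t) =
      ∑ t ∈ (W (2 * A)).filter (fun t => ¬ Typ q lam A t), trW q (2 * A) t * (cnt (blockStr Dx 0 A) t : ℝ) +
      ∑ t ∈ (W (2 * A)).filter (fun t => ¬ Typ q lam A t), trW q (2 * A) t * (cnt (blockStr Dy 0 A) t : ℝ) := by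
      rw [← sum_add_distrib]
      apply sum_congr rfl
      intro t _
      ring
    rw [this]
    linarith
  have hE1 := hLe1 lam hL5
  have hT2' : 2 * c * ∑ t ∈ (W (2 * A)).filter
        (fun t => (cnt (blockStr Dx 0 A) t : ℝ) < c * (cnt (blockStr ∅ 0 A) t : ℝ)),
        trW q (2 * A) t * (cnt (blockStr ∅ 0 A) t : ℝ) ≤ 2 * c * Real.exp (-(lam : ℝ) / C2) := by
    apply mul_le_mul_of_nonneg_left _ (by positivity)
    convert hT2
  have hX : 0 < 1 / (lam : ℝ) ^ Hh := by positivity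
  linarith

open Classical in
/-- The Hellinger distance of the two strings of the core is tiny. -/
theorem hell_small {q : ℝ} (h0 : 0 < q) (h1 : q < 1) {a' pP crd V Hh : ℕ}
    (ha4 : 4 ≤ 2 * a') (hcrd : 3 ≤ crd) (hp : pP + 9 ≤ 2 * a') (hcrd2 : crd + 1 ≤ a')
    (hV : V = Hh + a' + 2) (hcore : CoreStatement q (2 * a') pP (2 * crd) crd V) :
    ∃ L : ℕ, ∀ lam A : ℕ, L ≤ lam → lam ^ (2 * a') ≤ A → A ≤ 2 * lam ^ (2 * a') →
      ∃ Dx Dy : Finset ℤ, blockStr Dx 0 A ≠ blockStr Dy 0 A ∧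
        Hell q (2 * A) (blockStr Dx 0 A) (blockStr Dy 0 A) ≤ 1 / (lam : ℝ) ^ Hh := by
  obtain ⟨C, Cg, hC, hred⟩ := reduce h0 h1
  obtain ⟨lam₀, hcoreL⟩ := hcore Cg
  obtain ⟨c, C2, hc, hC2, hlt⟩ := lower_tail h0 h1
  obtain ⟨C3, hC3, htt⟩ := typical_tail h0 h1
  obtain ⟨K1, hK1⟩ : ∃ K1 : ℝ, K1 = C / c * 2 * (2 * Cg + 1) := ⟨_, rfl⟩
  have hK10 : 0 < K1 := by rw [hK1]; positivity
  obtain ⟨Le1, hLe1⟩ := exp_small hC2 (show 0 < 6 * c by positivity) Hh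
  obtain ⟨Le2, hLe2⟩ := exp_small hC3 (show (0 : ℝ) < 6 by norm_num) Hh
  refine ⟨max lam₀ (max ⌈C⌉₊ (max ⌈C2⌉₊ (max ⌈C3⌉₊ (max 2 (max Le1 (max Le2 ⌈3 * K1⌉₊)))))), ?_⟩
  intro lam A hL hA1 hA2
  have hL0 : lam₀ ≤ lam := le_trans (le_max_left _ _) hL
  have hL1 : ⌈C⌉₊ ≤ lam := le_trans (le_trans (le_max_left _ _) (le_max_right _ _)) hL
  have hL2 : ⌈C2⌉₊ ≤ lam :=
    le_trans (le_trans (le_trans (le_max_left _ _) (le_max_right _ _)) (le_max_right _ _)) hL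
  have hrest : max ⌈C3⌉₊ (max 2 (max Le1 (max Le2 ⌈3 * K1⌉₊))) ≤ lam :=
    le_trans (le_trans (le_max_right _ _) (le_trans (le_max_right _ _) (le_max_right _ _))) hL
  have hL3 : ⌈C3⌉₊ ≤ lam := le_trans (le_max_left _ _) hrest
  have hrest2 : max 2 (max Le1 (max Le2 ⌈3 * K1⌉₊)) ≤ lam := le_trans (le_max_right _ _) hrest
  have hL4 : 2 ≤ lam := le_trans (le_max_left _ _) hrest2
  have hrest3 : max Le1 (max Le2 ⌈3 * K1⌉₊) ≤ lam := le_trans (le_max_right _ _) hrest2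
  have hL5 : Le1 ≤ lam := le_trans (le_max_left _ _) hrest3
  have hL6 : Le2 ≤ lam := le_trans (le_trans (le_max_left _ _) (le_max_right _ _)) hrest3
  have hL7 : ⌈3 * K1⌉₊ ≤ lam := le_trans (le_trans (le_max_right _ _) (le_max_right _ _)) hrest3
  have hCl : C ≤ lam := le_trans (Nat.le_ceil _) (by exact_mod_cast hL1)
  have hC2l : C2 ≤ lam := le_trans (Nat.le_ceil _) (by exact_mod_cast hL2)
  have hC3l : C3 ≤ lam := le_trans (Nat.le_ceil _) (by exact_mod_cast hL3)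
  have hK1l : 3 * K1 ≤ lam := le_trans (Nat.le_ceil _) (by exact_mod_cast hL7)
  have hlam2 : (2 : ℝ) ≤ lam := by exact_mod_cast hL4
  have hlam1 : (1 : ℝ) ≤ lam := by linarith
  have hlam0 : (0 : ℝ) < lam := by linarith
  obtain ⟨Dx, Dy, hne, hDx1, hDy1, hDx2, hDy2, hDx3, hDy3, hnsq⟩ :=
    hcoreL lam A hL0 hA1 hA2
  have hAz : (2 : ℤ) * (lam : ℤ) ^ pP ≤ (A : ℤ) := by
    have h3 : 2 * lam ^ pP ≤ lam ^ (2 * a') := by
      calc 2 * lam ^ pP ≤ lam * lam ^ pP := Nat.mul_le_mul_right _ hL4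
        _ = lam ^ (pP + 1) := by rw [pow_succ, mul_comm]
        _ ≤ lam ^ (2 * a') := Nat.pow_le_pow_right (by omega) (by omega)
    exact_mod_cast le_trans h3 hA1
  have hsite : ∀ i : ℤ, ((lam : ℤ) ^ (2 * crd) ≤ i ∧ i ≤ 2 * (lam : ℤ) ^ pP) → 0 < i ∧ i ≤ 0 + (A : ℤ) := by
    intro i hi
    have h3 : (0 : ℤ) < (lam : ℤ) ^ (2 * crd) := by
      have : (0 : ℤ) < lam := by omega
      positivity
    exact ⟨lt_of_lt_of_le h3 hi.1, by linarith [hi.2]⟩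
  refine ⟨Dx, Dy, ?_, ?_⟩
  · intro heq
    apply hne
    ext i
    constructor
    · intro hi
      have := hsite i (hDx1 i hi)
      exact (blockStr_eq_mem A 0 heq i this.1 this.2).1 hi
    · intro hi
      have := hsite i (hDy1 i hi)
      exact (blockStr_eq_mem A 0 heq i this.1 this.2).2 hi
  · have hE2 : 6 * Real.exp (-(lam : ℝ) / C3) ≤ 1 / (lam : ℝ) ^ Hh := hLe2 lam hL6
    exact hell_core h0 h1 hC hc hC3 hK1 hV ha4 hcrd hp hcrd2 hred hlt htt hLe1 hL5 hE2 hCl hC2l hC3l hK1l hlam2 hA1 hA2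
      hDx1 hDx2 hDx3 hDy3 hnsq

/-- Main theorem: the analytic core implies the lower bound `c n^α` on the number of traces. -/
theorem main_of_core {q : ℝ} (h0 : 0 < q) (h1 : q < 1) {a a' pP dlt crd V Hh : ℕ} {α : ℝ}
    (ha : a = 2 * a') (ha4 : 4 ≤ a) (hδ : dlt = 2 * crd) (hcrd : 3 ≤ crd) (hp : pP + 9 ≤ a)
    (hcrd2 : crd + 1 ≤ a') (hV : V = Hh + a' + 2) (hα0 : 0 ≤ α) (hα : α * a ≤ Hh)
    (hcore : CoreStatement q a pP dlt crd V) :
    ∃ c : ℝ, 0 < c ∧ ∃ n₀ : ℕ, ∀ n ≥ n₀, ∀ m : ℕ, CanReconstruct q n m →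
      c * (n : ℝ) ^ α ≤ (m : ℝ) := by
  subst ha hδ
  obtain ⟨L, hL⟩ := hell_small h0 h1 ha4 hcrd hp hcrd2 hV hcore
  obtain ⟨L', hL'⟩ : ∃ L', L' = max L (max (2 * (2 * a')) 1) := ⟨_, rfl⟩
  have hL'1 : L ≤ L' := by rw [hL']; exact le_max_left _ _
  have hL'2 : 2 * (2 * a') ≤ L' := by rw [hL']; exact le_trans (le_max_left _ _) (le_max_right _ _)
  have hL'3 : 1 ≤ L' := by rw [hL']; exact le_trans (le_max_right _ _) (le_max_right _ _)
  have h5α : (0 : ℝ) < (5 : ℝ) ^ α := by positivity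
  refine ⟨1 / (36 * (5 : ℝ) ^ α), by positivity, 2 * L' ^ (2 * a'), ?_⟩
  intro n hn m ⟨E, hE⟩
  have hA0 : L' ^ (2 * a') ≤ n / 2 := by omega
  obtain ⟨lam, hl1, hl2⟩ := exists_root (a := 2 * a') (by omega) (n / 2)
  have hlam : L' ≤ lam := by
    by_contra hcon
    have h3 : lam + 1 ≤ L' := by omega
    have h4 : (lam + 1) ^ (2 * a') ≤ L' ^ (2 * a') := Nat.pow_le_pow_left h3 _
    omega
  have hlam2k : 2 * (2 * a') ≤ lam := le_trans hL'2 hlam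
  have hlam1 : 1 ≤ lam := le_trans hL'3 hlam
  have hA2 : n / 2 ≤ 2 * lam ^ (2 * a') := le_trans hl2.le (succ_pow_le hlam2k hlam1)
  obtain ⟨Dx, Dy, hne, hH⟩ := hL lam (n / 2) (le_trans hL'1 hlam) hl1 hA2
  have hlam0 : (0 : ℝ) < lam := by
    have : 0 < lam := by omega
    exact_mod_cast this
  have hHpos : 0 < (lam : ℝ) ^ Hh := by positivity
  -- the two point bound on the (possibly padded) strings
  have hkey : 1 ≤ 36 * (m : ℝ) * (1 / (lam : ℝ) ^ Hh) := by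
    rcases Nat.even_or_odd' n with ⟨k, hk | hk⟩
    · have hk2 : n / 2 = k := by omega
      rw [hk2] at hne hH
      obtain ⟨x, hx⟩ := word_ofFn (n := n) (blockStr Dx 0 k) (by rw [length_blockStr]; omega)
      obtain ⟨y, hy⟩ := word_ofFn (n := n) (blockStr Dy 0 k) (by rw [length_blockStr]; omega)
      have hxy : x ≠ y := by
        intro h
        apply hne
        rw [← hx, ← hy, h]
      have h3 := two_point h0 h1 E x y hxy (hE x) (hE y)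
      rw [hx, hy, hk] at h3
      refine le_trans h3 ?_
      exact mul_le_mul_of_nonneg_left hH (by positivity)
    · have hk2 : n / 2 = k := by omega
      rw [hk2] at hne hH
      obtain ⟨x, hx⟩ := word_ofFn (n := n) (blockStr Dx 0 k ++ [false])
        (by rw [List.length_append, length_blockStr]; simp; omega)
      obtain ⟨y, hy⟩ := word_ofFn (n := n) (blockStr Dy 0 k ++ [false])
        (by rw [List.length_append, length_blockStr]; simp; omega)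
      have hxy : x ≠ y := by
        intro h
        apply hne
        have h4 : blockStr Dx 0 k ++ [false] = blockStr Dy 0 k ++ [false] := by
          rw [← hx, ← hy, h]
        exact List.append_cancel_right h4
      have h3 := two_point h0 h1 E x y hxy (hE x) (hE y)
      rw [hx, hy] at h3
      have h5 := Hell_append_le h0 h1 (blockStr Dx 0 k) (blockStr Dy 0 k)
        (by rw [length_blockStr, length_blockStr]) false
      rw [length_blockStr] at h5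
      rw [hk] at h3
      refine le_trans h3 ?_
      exact mul_le_mul_of_nonneg_left (le_trans h5 hH) (by positivity)
  have hm : (lam : ℝ) ^ Hh ≤ 36 * m := by
    have h3 : 36 * (m : ℝ) * (1 / (lam : ℝ) ^ Hh) = 36 * m / (lam : ℝ) ^ Hh := by ring
    rw [h3, le_div_iff₀ hHpos] at hkey
    linarith
  have hn5 : n ≤ 5 * lam ^ (2 * a') := by
    have h3 : 1 ≤ lam ^ (2 * a') := Nat.one_le_pow _ _ (by omega)
    omega
  have h6 := n_rpow_le hlam1 hn5 hα0 hα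
  calc 1 / (36 * (5 : ℝ) ^ α) * (n : ℝ) ^ α ≤ 1 / (36 * (5 : ℝ) ^ α) * ((5 : ℝ) ^ α * (lam : ℝ) ^ Hh) :=
        mul_le_mul_of_nonneg_left h6 (by positivity)
    _ = (lam : ℝ) ^ Hh / 36 := by field_simp
    _ ≤ m := by linarith

end Vale.Agent.Lib.P321
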