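import Mathlib

/-!
P321 basic definitions for the analytic layer (not used by the hand-in statement).
Words are lists of booleans, false = letter 0, true = letter 1.
-/

namespace Vale.Agent.Lib.P321

open Finset

/-- Words. -/
abbrev Word := List Bool

/-- Cost of an adjacent pair: the pair (0,1) costs nothing, all others cost one. -/
def pc : Bool → Bool → ℕ
  | false, true => 0
  | _, _ => 1

/-- `H w` is the least number of periods of `(01)^Z` into which `w` embeds. -/
def H : Word → ℕ
  | [] => 0
  | [_] => 1
  | a :: b :: l => pc a b + H (b :: l)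

/-- Negative binomial weights: `NB θ l z = C(z+l-1, z) (1-θ)^l θ^z` for `z ≥ 0`, zero for `z < 0`. -/
noncomputable def NB (θ : ℝ) (l : ℕ) (z : ℤ) : ℝ :=
  if 0 ≤ z then (Nat.multichoose l z.toNat : ℝ) * (1 - θ) ^ l * θ ^ z.toNat else 0

/-- Iterated differences of `NB`: `ker θ (a :: as) r z = ker θ as r z - ker θ as r (z - a)`. -/
noncomputable def ker (θ : ℝ) : List ℕ → ℕ → ℤ → ℝ
  | [], r, z => NB θ r z
  | a :: as, r, z => ker θ as r z - ker θ as r (z - a)

/-- All finite initial sums of `|g|` are at most `b`. -/
def L1le (g : ℤ → ℝ) (b : ℝ) : Prop := ∀ S : Finset ℤ, ∑ z ∈ S, |g z| ≤ b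

/-- Words of length exactly `r`. -/
def Weq : ℕ → Finset Word
  | 0 => {[]}
  | r + 1 => (Weq r).biUnion fun l => {false :: l, true :: l}

theorem mem_Weq {r : ℕ} {l : Word} : l ∈ Weq r ↔ l.length = r := by
  induction r generalizing l with
  | zero => simp [Weq]
  | succ r ih =>
    simp only [Weq, mem_biUnion, mem_insert, mem_singleton]
    constructor
    · rintro ⟨l', hl', rfl | rfl⟩ <;> simp [ih.mp hl']
    · intro h
      cases l with
      | nil => simp at h
      | cons a l =>
        refine ⟨l, ih.mpr (by simpa using h), ?_⟩
        cases a <;> simp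

/-- Words of length at most `B`. -/
def W (B : ℕ) : Finset Word := (range (B + 1)).biUnion Weq

theorem mem_W {B : ℕ} {l : Word} : l ∈ W B ↔ l.length ≤ B := by
  simp [W, mem_Weq]

/-- The reference weight on words. -/
noncomputable def piT (q : ℝ) (w : Word) : ℝ :=
  (1 / (1 - q ^ 2)) * (1 / (q * (1 + q))) ^ w.length * q ^ (2 * H w)

/-- Squared norm of a function on words, truncated to length at most `B`. -/
noncomputable def nsq (q : ℝ) (B : ℕ) (f : Word → ℝ) : ℝ :=
  ∑ w ∈ W B, piT q w * f w ^ 2

/-- The Markov weight on words (law of the letters of the trace of the infinite periodic string). -/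
noncomputable def flipW (q : ℝ) (a b : Bool) : ℝ := if a = b then q / (1 + q) else 1 / (1 + q)

/-- Markov chain weight of a word started from previous letter `c`. -/
noncomputable def mkFrom (q : ℝ) : Bool → Word → ℝ
  | _, [] => 1
  | c, a :: l => flipW q c a * mkFrom q a l

/-- Markov law of words: the virtual previous letter is `true`. -/
noncomputable def Mk (q : ℝ) (w : Word) : ℝ := mkFrom q true w

/-- Block word for one period: plain `01` or flipped `10`. -/
def block (b : Bool) : Word := if b then [true, false] else [false, true]

/-- The string made of periods `s+1, ..., s+n`, period `i` flipped exactly when `i ∈ D`. -/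
def blockStr (D : Finset ℤ) (s : ℤ) : ℕ → Word
  | 0 => []
  | n + 1 => block (decide ((s + 1) ∈ D)) ++ blockStr D (s + 1) n

/-- Embedding count (number of position sets of `x` spelling `t`). -/
def cnt : Word → Word → ℕ
  | [], [] => 1
  | [], _ :: _ => 0
  | _ :: x, [] => cnt x []
  | c :: x, a :: t => cnt x (a :: t) + if c = a then cnt x t else 0

end Vale.Agent.Lib.P321
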