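import Vale.Agent.Lib.P321.Basic

/-!
P321: toolkit for the negative binomial weights `NB` and the difference kernels `ker`.
All constants are uniform for `θ ∈ [θ₀, θ₁] ⊂ (0,1)`.
-/

namespace Vale.Agent.Lib.P321

open Finset

section basic
variable {θ : ℝ} {l : ℕ} {z : ℤ}

theorem NB_nonneg (h0 : 0 < θ) (h1 : θ < 1) (l : ℕ) (z : ℤ) : 0 ≤ NB θ l z := by
  unfold NB
  have h2 : 0 < 1 - θ := by linarith
  split_ifs <;> positivity

theorem NB_of_neg (hz : z < 0) : NB θ l z = 0 := by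
  simp [NB, not_le.mpr hz]

/-- Formula at a natural argument. -/
theorem NB_natCast (θ : ℝ) (l k : ℕ) :
    NB θ l (k : ℤ) = (Nat.multichoose l k : ℝ) * (1 - θ) ^ l * θ ^ k := by
  simp [NB]

theorem NB_zero_left (θ : ℝ) (z : ℤ) : NB θ 0 z = if z = 0 then 1 else 0 := by
  rcases lt_or_ge z 0 with hz | hz
  · rw [NB_of_neg hz, if_neg (ne_of_lt hz)]
  · obtain ⟨k, rfl⟩ := Int.eq_ofNat_of_zero_le hz
    rw [NB_natCast]
    cases k with
    | zero => simp [Nat.multichoose_zero_right]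
    | succ k =>
      have : ((k + 1 : ℕ) : ℤ) ≠ 0 := by positivity
      rw [if_neg this, Nat.multichoose_zero_succ]
      simp

/-- Pascal rule, valid for every integer `z`. -/
theorem NB_pascal (θ : ℝ) (l : ℕ) (z : ℤ) :
    NB θ (l + 1) z = θ * NB θ (l + 1) (z - 1) + (1 - θ) * NB θ l z := by
  rcases lt_or_ge z 0 with hz | hz
  · rw [NB_of_neg hz, NB_of_neg hz, NB_of_neg (by omega)]
    ring
  · obtain ⟨k, rfl⟩ := Int.eq_ofNat_of_zero_le hz
    cases k with
    | zero =>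
      have e : ((0 : ℕ) : ℤ) - 1 < 0 := by norm_num
      rw [NB_of_neg e, NB_natCast, NB_natCast, Nat.multichoose_zero_right, Nat.multichoose_zero_right]
      push_cast
      ring
    | succ k =>
      have e : ((k + 1 : ℕ) : ℤ) - 1 = (k : ℤ) := by push_cast; ring
      rw [e, NB_natCast, NB_natCast, NB_natCast, Nat.multichoose_succ_succ]
      push_cast
      ring

theorem multichoose_vandermonde (a b k : ℕ) :
    Nat.multichoose (a + b) k = ∑ i ∈ range (k + 1), Nat.multichoose a i * Nat.multichoose b (k - i) := by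
  induction a generalizing k with
  | zero =>
    rw [Finset.sum_range_succ']
    simp [Nat.multichoose_zero_right, Nat.multichoose_zero_succ]
  | succ a iha =>
    induction k with
    | zero => simp [Nat.multichoose_zero_right]
    | succ k ihk =>
      have e1 : (a + 1 + b) = (a + b) + 1 := by ring
      rw [e1, Nat.multichoose_succ_succ, iha (k + 1), ← e1, ihk]
      rw [Finset.sum_range_succ' _ (k + 1), Finset.sum_range_succ' _ (k + 1)]
      simp only [Nat.multichoose_zero_right, Nat.sub_zero, Nat.add_sub_add_right]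
      have : ∀ i ∈ range (k + 1), Nat.multichoose (a + 1) (i + 1) * Nat.multichoose b (k - i)
          = Nat.multichoose a (i + 1) * Nat.multichoose b (k - i)
            + Nat.multichoose (a + 1) i * Nat.multichoose b (k - i) := by
        intro i _
        rw [Nat.multichoose_succ_succ, Nat.add_mul]
      rw [Finset.sum_congr rfl this, Finset.sum_add_distrib]
      omega

/-- Convolution. For `y < 0` both sides vanish. -/
theorem NB_conv (θ : ℝ) (a b : ℕ) (y : ℤ) :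
    NB θ (a + b) y = ∑ i ∈ Icc 0 y, NB θ a i * NB θ b (y - i) := by
  rcases lt_or_ge y 0 with hy | hy
  · rw [NB_of_neg hy, Finset.Icc_eq_empty (by omega)]
    simp
  · obtain ⟨k, rfl⟩ := Int.eq_ofNat_of_zero_le hy
    have hIcc : Icc (0 : ℤ) (k : ℤ) = (range (k + 1)).map ⟨fun n : ℕ => (n : ℤ), Nat.cast_injective⟩ := by
      ext x
      simp only [mem_Icc, mem_map, mem_range, Function.Embedding.coeFn_mk]
      constructor
      · rintro ⟨h1, h2⟩
        refine ⟨x.toNat, by omega, by omega⟩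
      · rintro ⟨n, hn, rfl⟩
        omega
    rw [hIcc, Finset.sum_map, NB_natCast, multichoose_vandermonde]
    push_cast
    rw [Finset.sum_mul, Finset.sum_mul]
    refine Finset.sum_congr rfl fun i hi => ?_
    have hi' : i ≤ k := by simpa [Nat.lt_succ_iff] using hi
    have e : (k : ℤ) - (i : ℤ) = ((k - i : ℕ) : ℤ) := by omega
    simp only [Function.Embedding.coeFn_mk]
    rw [e, NB_natCast, NB_natCast]
    have e2 : θ ^ k = θ ^ i * θ ^ (k - i) := by
      rw [← pow_add]; congr 1; omega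
    rw [e2, pow_add]
    ring

/-- Finite sums over initial segments are at most one. -/
theorem NB_sum_range_le (h0 : 0 < θ) (h1 : θ < 1) (l K : ℕ) :
    ∑ k ∈ range K, NB θ l (k : ℤ) ≤ 1 := by
  induction l generalizing K with
  | zero =>
    cases K with
    | zero => simp
    | succ K =>
      rw [Finset.sum_range_succ']
      have : ∀ k ∈ range K, NB θ 0 (((k + 1 : ℕ)) : ℤ) = 0 := by
        intro k _
        rw [NB_zero_left, if_neg (by positivity)]
      rw [Finset.sum_congr rfl this]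
      simp [NB_zero_left]
  | succ l ih =>
    have h2 : 0 < 1 - θ := by linarith
    have key : ∀ K : ℕ, ∑ k ∈ range K, NB θ (l + 1) (k : ℤ) ≤ 1 := by
      intro K
      induction K with
      | zero => simp
      | succ K ihK =>
        -- recursion through Pascal
        have hp : ∑ k ∈ range (K + 1), NB θ (l + 1) (k : ℤ) =
            θ * ∑ k ∈ range K, NB θ (l + 1) (k : ℤ) + (1 - θ) * ∑ k ∈ range (K + 1), NB θ l (k : ℤ) := by
          rw [Finset.mul_sum, Finset.mul_sum]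
          rw [Finset.sum_range_succ' _ K, Finset.sum_range_succ' _ K]
          have : ∀ k ∈ range K, NB θ (l + 1) (((k + 1 : ℕ)) : ℤ) =
              θ * NB θ (l + 1) (k : ℤ) + (1 - θ) * NB θ l (((k + 1 : ℕ)) : ℤ) := by
            intro k _
            rw [NB_pascal]
            have : (((k + 1 : ℕ)) : ℤ) - 1 = (k : ℤ) := by push_cast; ring
            rw [this]
          rw [Finset.sum_congr rfl this, Finset.sum_add_distrib]
          have h00 := NB_pascal θ l 0
          rw [NB_of_neg (z := (0 : ℤ) - 1) (by norm_num)] at h00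
          simp only [Nat.cast_zero]
          rw [h00]
          ring
        rw [hp]
        have := ih (K + 1)
        nlinarith
    exact key K

/-- All finite masses are at most one. -/
theorem NB_sum_le (h0 : 0 < θ) (h1 : θ < 1) (l : ℕ) (S : Finset ℤ) : ∑ z ∈ S, NB θ l z ≤ 1 := by
  classical
  -- reduce to nonnegative integers
  set K := (S.image Int.toNat).sup id + 1 with hK
  have hsub : ∀ z ∈ S, NB θ l z ≠ 0 → z ∈ (range K).map ⟨fun n : ℕ => (n : ℤ), Nat.cast_injective⟩ := by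
    intro z hz hne
    have hz0 : 0 ≤ z := by
      by_contra hc
      exact hne (NB_of_neg (not_le.mp hc))
    simp only [mem_map, mem_range, Function.Embedding.coeFn_mk]
    refine ⟨z.toNat, ?_, by omega⟩
    have : z.toNat ≤ (S.image Int.toNat).sup id :=
      Finset.le_sup (f := id) (Finset.mem_image_of_mem _ hz)
    omega
  have h3 : ∑ z ∈ S, NB θ l z = ∑ z ∈ S.filter (fun z => NB θ l z ≠ 0), NB θ l z := by
    rw [Finset.sum_filter_ne_zero]
  rw [h3]
  calc ∑ z ∈ S.filter (fun z => NB θ l z ≠ 0), NB θ l z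
      ≤ ∑ z ∈ (range K).map ⟨fun n : ℕ => (n : ℤ), Nat.cast_injective⟩, NB θ l z := by
        apply Finset.sum_le_sum_of_subset_of_nonneg
        · intro z hz
          rw [mem_filter] at hz
          exact hsub z hz.1 hz.2
        · intro i _ _
          exact NB_nonneg h0 h1 l i
    _ = ∑ k ∈ range K, NB θ l (k : ℤ) := by
        rw [Finset.sum_map]
        rfl
    _ ≤ 1 := NB_sum_range_le h0 h1 l K

theorem NB_le_one (h0 : 0 < θ) (h1 : θ < 1) (l : ℕ) (z : ℤ) : NB θ l z ≤ 1 := by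
  simpa using NB_sum_le h0 h1 l {z}

/-- Ratio of consecutive values. -/
theorem NB_ratio (θ : ℝ) (l k : ℕ) :
    ((k : ℝ) + 1) * NB θ (l + 1) ((k : ℤ) + 1) = θ * ((k : ℝ) + (l : ℝ) + 1) * NB θ (l + 1) (k : ℤ) := by
  have e : (k : ℤ) + 1 = ((k + 1 : ℕ) : ℤ) := by push_cast; ring
  rw [e, NB_natCast, NB_natCast, Nat.multichoose_eq, Nat.multichoose_eq]
  have e1 : l + 1 + (k + 1) - 1 = l + k + 1 := by omega
  have e2 : l + 1 + k - 1 = l + k := by omega
  rw [e1, e2]
  have h := Nat.add_one_mul_choose_eq (l + k) k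
  have h' : ((l + k + 1 : ℕ) : ℝ) * ((l + k).choose k : ℝ) = ((l + k + 1).choose (k + 1) : ℝ) * ((k + 1 : ℕ) : ℝ) := by
    exact_mod_cast h
  push_cast at h'
  rw [pow_succ θ k]
  have : ((k : ℝ) + 1) * (((l + k + 1).choose (k + 1) : ℝ)) = ((l : ℝ) + k + 1) * ((l + k).choose k : ℝ) := by
    linarith
  calc ((k : ℝ) + 1) * (((l + k + 1).choose (k + 1) : ℝ) * (1 - θ) ^ (l + 1) * (θ ^ k * θ))
      = (((k : ℝ) + 1) * (((l + k + 1).choose (k + 1) : ℝ))) * ((1 - θ) ^ (l + 1) * (θ ^ k * θ)) := by ring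
    _ = _ := by rw [this]; ring

/-- Exponential tilt. -/
theorem NB_tilt {θ' : ℝ} (h0 : 0 < θ) (h1 : θ < 1) (l : ℕ) (k : ℕ) :
    NB θ' l (k : ℤ) = ((1 - θ') / (1 - θ)) ^ l * (θ' / θ) ^ k * NB θ l (k : ℤ) := by
  rw [NB_natCast, NB_natCast, div_pow, div_pow]
  have h2 : (1 - θ) ≠ 0 := by linarith
  have h3 : θ ≠ 0 := ne_of_gt h0
  field_simp

/-- Exponential moment bound from the tilt: for `θ e^s < 1`, any finite set of naturals. -/
theorem NB_exp_moment {t : ℝ} (h0 : 0 < θ) (h1 : θ < 1) (ht : 0 < t) (ht1 : θ * t < 1) (l : ℕ)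
    (S : Finset ℕ) :
    ∑ k ∈ S, NB θ l (k : ℤ) * t ^ k ≤ ((1 - θ) / (1 - θ * t)) ^ l := by
  have h2 : 0 < 1 - θ := by linarith
  have h3 : 0 < 1 - θ * t := by linarith
  have e : ∀ k ∈ S, NB θ l (k : ℤ) * t ^ k = ((1 - θ) / (1 - θ * t)) ^ l * NB (θ * t) l (k : ℤ) := by
    intro k _
    rw [NB_natCast, NB_natCast, mul_pow, div_pow]
    field_simp
  rw [Finset.sum_congr rfl e, ← Finset.mul_sum]
  have h4 : ∑ k ∈ S, NB (θ * t) l (k : ℤ) ≤ 1 := by
    have := NB_sum_le (θ := θ * t) (by positivity) ht1 l (S.map ⟨fun n : ℕ => (n : ℤ), Nat.cast_injective⟩)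
    rw [Finset.sum_map] at this
    exact this
  have h5 : 0 ≤ ((1 - θ) / (1 - θ * t)) ^ l := by positivity
  nlinarith

/-- Crude exponential bound. -/
theorem NB_exp_bound (h0 : 0 < θ) (h1 : θ < 1) (l k : ℕ) :
    NB θ l (k : ℤ) ≤ 2 ^ l * (2 * θ / (1 + θ)) ^ k := by
  have h2 : 0 < 1 - θ := by linarith
  set t : ℝ := (1 + θ) / (2 * θ) with ht
  have htpos : 0 < t := by positivity
  have hth : θ * t = (1 + θ) / 2 := by rw [ht]; field_simp
  have ht1 : θ * t < 1 := by rw [hth]; linarith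
  have h := NB_exp_moment h0 h1 htpos ht1 l {k}
  simp only [sum_singleton] at h
  have e : (1 - θ) / (1 - θ * t) = 2 := by
    rw [hth]
    have : 1 - (1 + θ) / 2 = (1 - θ) / 2 := by ring
    rw [this]
    field_simp
  rw [e] at h
  have e2 : (2 * θ / (1 + θ)) = t⁻¹ := by rw [ht]; field_simp
  rw [e2, inv_pow]
  have htk : 0 < t ^ k := by positivity
  rw [← div_eq_mul_inv, le_div_iff₀ htk]
  exact h

end basic

section uniform
variable {θ₀ θ₁ : ℝ}

theorem NB_step_up (h0 : 0 < θ₀) {θ : ℝ} (hθ : θ₀ ≤ θ) (h1 : θ < 1) (l k : ℕ)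
    (h : (k : ℝ) + 1 ≤ θ * ((k : ℝ) + l + 1)) :
    NB θ (l + 1) (k : ℤ) ≤ NB θ (l + 1) ((k : ℤ) + 1) := by
  have hθ0 : 0 < θ := lt_of_lt_of_le h0 hθ
  have hr := NB_ratio θ l k
  have hn := NB_nonneg hθ0 h1 (l + 1) (k : ℤ)
  have hk : (0 : ℝ) < (k : ℝ) + 1 := by positivity
  have : ((k : ℝ) + 1) * NB θ (l + 1) (k : ℤ) ≤ ((k : ℝ) + 1) * NB θ (l + 1) ((k : ℤ) + 1) := by
    rw [hr]
    exact mul_le_mul_of_nonneg_right h hn
  exact le_of_mul_le_mul_left this hk

theorem NB_step_down (h0 : 0 < θ₀) {θ : ℝ} (hθ : θ₀ ≤ θ) (h1 : θ < 1) (l k : ℕ)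
    (h : θ * ((k : ℝ) + l + 1) ≤ (k : ℝ) + 1) :
    NB θ (l + 1) ((k : ℤ) + 1) ≤ NB θ (l + 1) (k : ℤ) := by
  have hθ0 : 0 < θ := lt_of_lt_of_le h0 hθ
  have hr := NB_ratio θ l k
  have hn := NB_nonneg hθ0 h1 (l + 1) (k : ℤ)
  have hk : (0 : ℝ) < (k : ℝ) + 1 := by positivity
  have : ((k : ℝ) + 1) * NB θ (l + 1) ((k : ℤ) + 1) ≤ ((k : ℝ) + 1) * NB θ (l + 1) (k : ℤ) := by
    rw [hr]
    exact mul_le_mul_of_nonneg_right h hn
  exact le_of_mul_le_mul_left this hk

/-- Stirling lower bound for the binomial term at its own mode. -/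
theorem binom_mode_lower :
    ∃ c : ℝ, 0 < c ∧ ∀ S m : ℕ, 1 ≤ S → 1 ≤ m →
      c * √(((S : ℝ) + m) / ((S : ℝ) * m)) ≤
        ((S + m).choose m : ℝ) * ((S : ℝ) / (S + m)) ^ S * ((m : ℝ) / (S + m)) ^ m := by
  have he : (0 : ℝ) < Real.exp 1 := Real.exp_pos 1
  -- upper bound for factorials
  have hup : ∀ n : ℕ, 1 ≤ n → (n.factorial : ℝ) ≤ Real.exp 1 * √(n : ℝ) * ((n : ℝ) / Real.exp 1) ^ n := by
    intro n hn
    have h1 : Stirling.stirlingSeq n ≤ Stirling.stirlingSeq 1 := by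
      have hanti := Stirling.stirlingSeq'_antitone
      obtain ⟨p, rfl⟩ : ∃ p, n = p + 1 := ⟨n - 1, by omega⟩
      exact hanti (Nat.zero_le p)
    rw [Stirling.stirlingSeq_one] at h1
    unfold Stirling.stirlingSeq at h1
    have hn0 : (0 : ℝ) < n := by exact_mod_cast hn
    have hpos : 0 < √(2 * (n : ℝ)) * ((n : ℝ) / Real.exp 1) ^ n := by positivity
    rw [div_le_iff₀ hpos] at h1
    have e : √(2 * (n : ℝ)) = √2 * √(n : ℝ) := by
      rw [Real.sqrt_mul (by norm_num)]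
    rw [e] at h1
    have hs2 : (0 : ℝ) < √2 := by positivity
    calc (n.factorial : ℝ) ≤ Real.exp 1 / √2 * (√2 * √(n : ℝ) * ((n : ℝ) / Real.exp 1) ^ n) := h1
      _ = _ := by field_simp
  refine ⟨√(2 * Real.pi) / (Real.exp 1) ^ 2, by positivity, ?_⟩
  intro S m hS hm
  have hS0 : (0 : ℝ) < S := by exact_mod_cast hS
  have hm0 : (0 : ℝ) < m := by exact_mod_cast hm
  set n := S + m with hn
  have hn0 : (0 : ℝ) < (n : ℝ) := by rw [hn]; push_cast; positivity
  have hnc : (n : ℝ) = (S : ℝ) + m := by rw [hn]; push_cast; ring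
  have hlow := Stirling.le_factorial_stirling n
  have hS' := hup S hS
  have hm' := hup m hm
  have hch : ((n.choose m : ℕ) : ℝ) * (S.factorial : ℝ) * (m.factorial : ℝ) = (n.factorial : ℝ) := by
    have := Nat.choose_mul_factorial_mul_factorial (n := n) (k := m) (by omega)
    have e : n - m = S := by omega
    rw [e] at this
    have h2 : ((n.choose m * m.factorial * S.factorial : ℕ) : ℝ) = (n.factorial : ℝ) := by
      exact_mod_cast this
    push_cast at h2
    linarith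
  -- main estimate
  set A : ℝ := ((S : ℝ) / n) ^ S * ((m : ℝ) / n) ^ m with hA
  have hApos : 0 < A := by positivity
  have hfS : (0 : ℝ) < (S.factorial : ℝ) := by exact_mod_cast Nat.factorial_pos S
  have hfm : (0 : ℝ) < (m.factorial : ℝ) := by exact_mod_cast Nat.factorial_pos m
  have hsn : √(2 * Real.pi * (n : ℝ)) = √(2 * Real.pi) * √(n : ℝ) := by
    rw [Real.sqrt_mul (by positivity)]
  have hpS : (0 : ℝ) < √(S : ℝ) := by positivity
  have hpm : (0 : ℝ) < √(m : ℝ) := by positivity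
  have hpn : (0 : ℝ) < √(n : ℝ) := by positivity
  have hsq : √((n : ℝ) / ((S : ℝ) * m)) = √(n : ℝ) / (√(S : ℝ) * √(m : ℝ)) := by
    rw [Real.sqrt_div (by positivity), Real.sqrt_mul (by positivity)]
  -- identity among powers
  have hpow : ((n : ℝ) / Real.exp 1) ^ n * A =
      ((S : ℝ) / Real.exp 1) ^ S * ((m : ℝ) / Real.exp 1) ^ m := by
    rw [hA, hn]
    rw [pow_add]
    have hnne : ((S + m : ℕ) : ℝ) ≠ 0 := by push_cast; positivity
    simp only [div_pow]
    have h3 := he.ne'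
    field_simp
  have hbound : √(2 * Real.pi) * √(n : ℝ) * ((S : ℝ) / Real.exp 1) ^ S * ((m : ℝ) / Real.exp 1) ^ m
      ≤ (n.factorial : ℝ) * A := by
    have := mul_le_mul_of_nonneg_right hlow hApos.le
    rw [hsn, mul_assoc, hpow] at this
    linarith
  have hupper : (S.factorial : ℝ) * (m.factorial : ℝ) ≤
      (Real.exp 1 * √(S : ℝ) * ((S : ℝ) / Real.exp 1) ^ S) *
      (Real.exp 1 * √(m : ℝ) * ((m : ℝ) / Real.exp 1) ^ m) :=
    mul_le_mul hS' hm' hfm.le (by positivity)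
  rw [← hnc, hsq]
  set PS := ((S : ℝ) / Real.exp 1) ^ S with hPS
  set Pm := ((m : ℝ) / Real.exp 1) ^ m with hPm
  have hPSpos : 0 < PS := by positivity
  have hPmpos : 0 < Pm := by positivity
  -- target: c * sqrt n / (sqrt S sqrt m) ≤ choose * A
  have hgoal : √(2 * Real.pi) / Real.exp 1 ^ 2 * (√(n : ℝ) / (√(S : ℝ) * √(m : ℝ))) *
      ((S.factorial : ℝ) * (m.factorial : ℝ)) ≤ (n.factorial : ℝ) * A := by
    calc √(2 * Real.pi) / Real.exp 1 ^ 2 * (√(n : ℝ) / (√(S : ℝ) * √(m : ℝ))) *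
        ((S.factorial : ℝ) * (m.factorial : ℝ))
        ≤ √(2 * Real.pi) / Real.exp 1 ^ 2 * (√(n : ℝ) / (√(S : ℝ) * √(m : ℝ))) *
          ((Real.exp 1 * √(S : ℝ) * PS) * (Real.exp 1 * √(m : ℝ) * Pm)) :=
          mul_le_mul_of_nonneg_left hupper (by positivity)
      _ = √(2 * Real.pi) * √(n : ℝ) * PS * Pm := by field_simp
      _ ≤ (n.factorial : ℝ) * A := hbound
  have hprod : 0 < (S.factorial : ℝ) * (m.factorial : ℝ) := by positivity
  have hfinal : (n.factorial : ℝ) * A = ((n.choose m : ℕ) : ℝ) * A * ((S.factorial : ℝ) * (m.factorial : ℝ)) := by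
    rw [← hch]; ring
  rw [hfinal] at hgoal
  have := le_of_mul_le_mul_right hgoal hprod
  calc _ ≤ ((n.choose m : ℕ) : ℝ) * A := this
    _ = _ := by rw [hA]; ring

/-- The mean identity. -/
theorem NB_pos {θ : ℝ} (h0 : 0 < θ) (h1 : θ < 1) (l k : ℕ) : 0 < NB θ (l + 1) (k : ℤ) := by
  rw [NB_natCast, Nat.multichoose_eq]
  have h2 : 0 < 1 - θ := by linarith
  have h3 : 0 < (l + 1 + k - 1).choose k := Nat.choose_pos (by omega)
  have h4 : (0 : ℝ) < ((l + 1 + k - 1).choose k : ℝ) := by exact_mod_cast h3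
  positivity

theorem aux_exp1 {a : ℝ} (h0 : 0 ≤ a) (h1 : a ≤ 1 / 2) : Real.exp (-(2 * a)) ≤ 1 - a := by
  have h2 : 1 + 2 * a ≤ Real.exp (2 * a) := by linarith [Real.add_one_le_exp (2 * a)]
  have h3 : 0 < Real.exp (2 * a) := Real.exp_pos _
  have h4 : 1 ≤ (1 - a) * (1 + 2 * a) := by nlinarith
  have h5 : 1 ≤ (1 - a) * Real.exp (2 * a) :=
    le_trans h4 (mul_le_mul_of_nonneg_left h2 (by linarith))
  rw [Real.exp_neg, inv_eq_one_div, div_le_iff₀ h3]
  exact h5

theorem aux_exp2 {a : ℝ} (h0 : 0 ≤ a) : Real.exp (-(2 * a)) * (1 + a) ≤ 1 := by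
  have h2 : 1 + 2 * a ≤ Real.exp (2 * a) := by linarith [Real.add_one_le_exp (2 * a)]
  have h3 : 0 < Real.exp (2 * a) := Real.exp_pos _
  rw [Real.exp_neg, inv_mul_le_iff₀ h3]
  linarith

/-- One step of the flatness estimate. -/
theorem NB_one_step (h0 : 0 < θ₀) (h1 : θ₁ < 1) {θ : ℝ} (hθ : θ ∈ Set.Icc θ₀ θ₁) (l j : ℕ) {X : ℝ}
    (hj : |(j : ℝ) - θ * ((l + 1 : ℕ) : ℝ) / (1 - θ)| ≤ X) (hX : X + 1 ≤ θ₀ / 4 * ((l + 1 : ℕ) : ℝ)) :
    Real.exp (-(4 / θ₀ * (X + 1) / ((l + 1 : ℕ) : ℝ))) * NB θ (l + 1) (j : ℤ) ≤ NB θ (l + 1) ((j : ℤ) + 1) ∧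
    Real.exp (-(4 / θ₀ * (X + 1) / ((l + 1 : ℕ) : ℝ))) * NB θ (l + 1) ((j : ℤ) + 1) ≤ NB θ (l + 1) (j : ℤ) := by
  obtain ⟨hθ0', hθ1'⟩ := hθ
  have hθ0 : 0 < θ := lt_of_lt_of_le h0 hθ0'
  have hθ1 : θ < 1 := lt_of_le_of_lt hθ1' h1
  have h1θ : 0 < 1 - θ := by linarith
  set L : ℝ := ((l + 1 : ℕ) : ℝ) with hL
  have hLpos : 0 < L := by rw [hL]; positivity
  set m : ℝ := θ * L / (1 - θ) with hm
  have hmid : m * (1 - θ) = θ * L := by rw [hm]; field_simp
  have hX0 : 0 ≤ X := le_trans (abs_nonneg _) hj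
  obtain ⟨hj1, hj2⟩ := abs_le.mp hj
  have hm_ge : θ₀ * L ≤ m := by
    have h5 : θ * L ≤ m := by nlinarith
    nlinarith
  have hXle : X ≤ θ₀ * L / 4 := by nlinarith
  have hjpos : θ₀ * L / 2 ≤ (j : ℝ) + 1 := by nlinarith
  have hj1pos : (0 : ℝ) < (j : ℝ) + 1 := by positivity
  have hr := NB_ratio θ l j
  have hn := NB_pos hθ0 hθ1 l j
  have hLc : L = (l : ℝ) + 1 := by rw [hL]; push_cast; ring
  -- r (j+1) = θ (j + L)
  have hrv : θ * ((j : ℝ) + l + 1) = (j : ℝ) + 1 - ((1 - θ) * ((j : ℝ) - m) + 1) := by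
    have e : θ * ((j : ℝ) + l + 1) = θ * j + θ * L := by rw [hLc]; ring
    rw [e, ← hmid]
    ring
  set K : ℝ := 4 / θ₀ * (X + 1) / L with hK
  have hKpos : 0 < K := by rw [hK]; positivity
  have hKval : K = 2 * (2 * (X + 1) / (θ₀ * L)) := by
    rw [hK]; field_simp; ring
  set a : ℝ := 2 * (X + 1) / (θ₀ * L) with ha
  have hapos : 0 < a := by rw [ha]; positivity
  have ha_le : a ≤ 1 / 2 := by
    rw [ha, div_le_iff₀ (by positivity)]
    nlinarith
  -- the numerator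
  set N : ℝ := (1 - θ) * ((j : ℝ) - m) + 1 with hN
  have hnum : N ≤ X + 1 := by
    have : (1 - θ) * ((j : ℝ) - m) ≤ X := by
      rcases le_or_gt ((j : ℝ) - m) 0 with he | he
      · have : (1 - θ) * ((j : ℝ) - m) ≤ 0 := mul_nonpos_of_nonneg_of_nonpos h1θ.le he
        linarith
      · have : (1 - θ) * ((j : ℝ) - m) ≤ 1 * ((j : ℝ) - m) :=
          mul_le_mul_of_nonneg_right (by linarith) he.le
        linarith
    rw [hN]; linarith
  have hnum2 : -N ≤ X := by
    have : -((1 - θ) * ((j : ℝ) - m)) ≤ X := by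
      rcases le_or_gt ((j : ℝ) - m) 0 with he | he
      · have : (1 - θ) * (-((j : ℝ) - m)) ≤ 1 * (-((j : ℝ) - m)) :=
          mul_le_mul_of_nonneg_right (by linarith) (by linarith)
        linarith
      · have : 0 ≤ (1 - θ) * ((j : ℝ) - m) := mul_nonneg h1θ.le he.le
        linarith
    rw [hN]; linarith
  have hrel : ((j : ℝ) + 1) * NB θ (l + 1) ((j : ℤ) + 1) = (((j : ℝ) + 1) - N) * NB θ (l + 1) (j : ℤ) := by
    rw [hr, hrv]
  have haj : X + 1 ≤ a * ((j : ℝ) + 1) := by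
    have h6 : a * (θ₀ * L / 2) = X + 1 := by rw [ha]; field_simp
    calc X + 1 = a * (θ₀ * L / 2) := h6.symm
      _ ≤ a * ((j : ℝ) + 1) := mul_le_mul_of_nonneg_left hjpos hapos.le
  have hexp1 : Real.exp (-K) ≤ 1 - a := by
    rw [hKval]; exact aux_exp1 hapos.le ha_le
  have hexp2 : Real.exp (-K) * (1 + a) ≤ 1 := by
    rw [hKval]; exact aux_exp2 hapos.le
  constructor
  · -- lower bound
    have h11 : (1 - a) * NB θ (l + 1) (j : ℤ) ≤ NB θ (l + 1) ((j : ℤ) + 1) := by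
      have h12 : ((j : ℝ) + 1) * ((1 - a) * NB θ (l + 1) (j : ℤ)) ≤
          ((j : ℝ) + 1) * NB θ (l + 1) ((j : ℤ) + 1) := by
        rw [hrel, ← mul_assoc]
        apply mul_le_mul_of_nonneg_right _ hn.le
        nlinarith
      exact le_of_mul_le_mul_left h12 hj1pos
    exact le_trans (mul_le_mul_of_nonneg_right hexp1 hn.le) h11
  · have h11 : NB θ (l + 1) ((j : ℤ) + 1) ≤ (1 + a) * NB θ (l + 1) (j : ℤ) := by
      have h12 : ((j : ℝ) + 1) * NB θ (l + 1) ((j : ℤ) + 1) ≤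
          ((j : ℝ) + 1) * ((1 + a) * NB θ (l + 1) (j : ℤ)) := by
        rw [hrel, ← mul_assoc]
        apply mul_le_mul_of_nonneg_right _ hn.le
        nlinarith
      exact le_of_mul_le_mul_left h12 hj1pos
    calc Real.exp (-K) * NB θ (l + 1) ((j : ℤ) + 1)
        ≤ Real.exp (-K) * ((1 + a) * NB θ (l + 1) (j : ℤ)) :=
          mul_le_mul_of_nonneg_left h11 (Real.exp_pos _).le
      _ = (Real.exp (-K) * (1 + a)) * NB θ (l + 1) (j : ℤ) := by ring
      _ ≤ 1 * NB θ (l + 1) (j : ℤ) := mul_le_mul_of_nonneg_right hexp2 hn.le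
      _ = _ := one_mul _

/-- Near the mode ratio control (flatness). For `l ≥ 1`, and `k, k'` naturals with
`|k - θ l/(1-θ)| ≤ x`, `|k' - k| ≤ s`, `x + s + 1 ≤ c l`, the ratio of `NB` values is at least
`exp (-C s (x + s + 1) / l)`. -/
theorem NB_flat (h0 : 0 < θ₀) (h1 : θ₁ < 1) :
    ∃ C c : ℝ, 0 < C ∧ 0 < c ∧ ∀ θ ∈ Set.Icc θ₀ θ₁, ∀ l k k' : ℕ, ∀ x s : ℝ, 1 ≤ l →
      |(k : ℝ) - θ * l / (1 - θ)| ≤ x → |(k' : ℝ) - k| ≤ s → 0 ≤ x → 0 ≤ s → x + s + 1 ≤ c * l →
      Real.exp (-(C * s * (x + s + 1) / l)) * NB θ l (k : ℤ) ≤ NB θ l (k' : ℤ) := by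
  refine ⟨4 / θ₀, θ₀ / 4, by positivity, by positivity, ?_⟩
  intro θ hθ l k k' x s hl hk hs hx hs0 hbd
  obtain ⟨p, rfl⟩ : ∃ p, l = p + 1 := ⟨l - 1, by omega⟩
  have hθ0 : 0 < θ := lt_of_lt_of_le h0 hθ.1
  have hθ1 : θ < 1 := lt_of_le_of_lt hθ.2 h1
  set m : ℝ := θ * ((p + 1 : ℕ) : ℝ) / (1 - θ) with hm
  set K : ℝ := 4 / θ₀ * (x + s + 1) / ((p + 1 : ℕ) : ℝ) with hK
  have hLpos : (0 : ℝ) < ((p + 1 : ℕ) : ℝ) := by positivity
  have hKpos : 0 ≤ K := by rw [hK]; positivity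
  have hexpo : 4 / θ₀ * s * (x + s + 1) / ((p + 1 : ℕ) : ℝ) = K * s := by
    rw [hK]; field_simp
  rw [hexpo]
  have hstep : ∀ j : ℕ, |(j : ℝ) - m| ≤ x + s →
      Real.exp (-K) * NB θ (p + 1) (j : ℤ) ≤ NB θ (p + 1) ((j : ℤ) + 1) ∧
      Real.exp (-K) * NB θ (p + 1) ((j : ℤ) + 1) ≤ NB θ (p + 1) (j : ℤ) := by
    intro j hj
    have := NB_one_step h0 h1 hθ p j (X := x + s) hj hbd
    simpa [hK] using this
  rcases le_total k k' with hkk | hkk
  · obtain ⟨n, rfl⟩ := Nat.exists_eq_add_of_le hkk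
    have hns : (n : ℝ) ≤ s := by
      have : |(((k + n : ℕ) : ℝ)) - k| = n := by push_cast; simp
      rw [this] at hs
      exact hs
    have hchain : ∀ i : ℕ, i ≤ n → Real.exp (-(K * i)) * NB θ (p + 1) (k : ℤ) ≤ NB θ (p + 1) ((k + i : ℕ) : ℤ) := by
      intro i
      induction i with
      | zero => intro _; simp
      | succ i ih =>
        intro hi
        have hih := ih (by omega)
        have hj : |((k + i : ℕ) : ℝ) - m| ≤ x + s := by
          have e : ((k + i : ℕ) : ℝ) - m = ((k : ℝ) - m) + i := by push_cast; ring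
          rw [e]
          have hi' : (i : ℝ) ≤ s := by
            have : (i : ℝ) ≤ n := by exact_mod_cast (by omega : i ≤ n)
            linarith
          calc |(k : ℝ) - m + i| ≤ |(k : ℝ) - m| + |(i : ℝ)| := abs_add_le _ _
            _ ≤ x + s := by rw [Nat.abs_cast]; linarith
        have h2 := (hstep (k + i) hj).1
        have e3 : ((k + i : ℕ) : ℤ) + 1 = ((k + (i + 1) : ℕ) : ℤ) := by push_cast; ring
        rw [e3] at h2
        calc Real.exp (-(K * ((i + 1 : ℕ) : ℝ))) * NB θ (p + 1) (k : ℤ)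
            = Real.exp (-K) * (Real.exp (-(K * i)) * NB θ (p + 1) (k : ℤ)) := by
              rw [← mul_assoc, ← Real.exp_add]; congr 2; push_cast; ring
          _ ≤ Real.exp (-K) * NB θ (p + 1) ((k + i : ℕ) : ℤ) :=
              mul_le_mul_of_nonneg_left hih (Real.exp_pos _).le
          _ ≤ _ := h2
    have h3 := hchain n le_rfl
    refine le_trans ?_ h3
    apply mul_le_mul_of_nonneg_right _ (NB_nonneg hθ0 hθ1 _ _)
    apply Real.exp_le_exp.mpr
    have : K * n ≤ K * s := mul_le_mul_of_nonneg_left hns hKpos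
    linarith
  · obtain ⟨n, rfl⟩ := Nat.exists_eq_add_of_le hkk
    have hns : (n : ℝ) ≤ s := by
      have : |((k' : ℝ)) - ((k' + n : ℕ) : ℝ)| = n := by push_cast; simp
      rw [this] at hs
      exact hs
    have hk' : |(k' : ℝ) + n - m| ≤ x := by
      have e : ((k' + n : ℕ) : ℝ) = (k' : ℝ) + n := by push_cast; ring
      rw [e] at hk
      exact hk
    have hchain : ∀ i : ℕ, i ≤ n → Real.exp (-(K * i)) * NB θ (p + 1) ((k' + n : ℕ) : ℤ) ≤
        NB θ (p + 1) ((k' + (n - i) : ℕ) : ℤ) := by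
      intro i
      induction i with
      | zero => intro _; simp
      | succ i ih =>
        intro hi
        have hih := ih (by omega)
        obtain ⟨r, hr⟩ : ∃ r, n - i = r + 1 := ⟨n - i - 1, by omega⟩
        have hr2 : n - (i + 1) = r := by omega
        rw [hr] at hih
        rw [hr2]
        have hj : |((k' + r : ℕ) : ℝ) - m| ≤ x + s := by
          have e : ((k' + r : ℕ) : ℝ) - m = ((k' : ℝ) + n - m) - ((n : ℝ) - r) := by push_cast; ring
          rw [e]
          have hnr : (r : ℝ) ≤ n := by exact_mod_cast (by omega : r ≤ n)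
          calc |(k' : ℝ) + n - m - ((n : ℝ) - r)| ≤ |(k' : ℝ) + n - m| + |(n : ℝ) - r| := abs_sub _ _
            _ ≤ x + s := by
              rw [abs_of_nonneg (by linarith : (0 : ℝ) ≤ (n : ℝ) - r)]
              have : (0 : ℝ) ≤ r := by positivity
              linarith
        have h2 := (hstep (k' + r) hj).2
        have e3 : ((k' + r : ℕ) : ℤ) + 1 = ((k' + (r + 1) : ℕ) : ℤ) := by push_cast; ring
        rw [e3] at h2
        calc Real.exp (-(K * ((i + 1 : ℕ) : ℝ))) * NB θ (p + 1) ((k' + n : ℕ) : ℤ)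
            = Real.exp (-K) * (Real.exp (-(K * i)) * NB θ (p + 1) ((k' + n : ℕ) : ℤ)) := by
              rw [← mul_assoc, ← Real.exp_add]; congr 2; push_cast; ring
          _ ≤ Real.exp (-K) * NB θ (p + 1) ((k' + (r + 1) : ℕ) : ℤ) :=
              mul_le_mul_of_nonneg_left hih (Real.exp_pos _).le
          _ ≤ _ := h2
    have h3 := hchain n le_rfl
    rw [Nat.sub_self, Nat.add_zero] at h3
    refine le_trans ?_ h3
    apply mul_le_mul_of_nonneg_right _ (NB_nonneg hθ0 hθ1 _ _)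
    apply Real.exp_le_exp.mpr
    have : K * n ≤ K * s := mul_le_mul_of_nonneg_left hns hKpos
    linarith

end uniform


section modeS
variable {θ₀ θ₁ : ℝ}

/-- Existence of a mode with explicit location. -/
theorem NB_mode {θ : ℝ} (h0 : 0 < θ) (h1 : θ < 1) (p : ℕ) :
    ∃ k : ℕ, (∀ j : ℕ, j < k → NB θ (p + 1) (j : ℤ) ≤ NB θ (p + 1) ((j : ℤ) + 1)) ∧
      (∀ j : ℕ, k ≤ j → NB θ (p + 1) ((j : ℤ) + 1) ≤ NB θ (p + 1) (j : ℤ)) ∧
      |(k : ℝ) - θ * ((p + 1 : ℕ) : ℝ) / (1 - θ)| ≤ 1 / (1 - θ) + 1 := by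
  have h1θ : 0 < 1 - θ := by linarith
  set m : ℝ := θ * ((p + 1 : ℕ) : ℝ) / (1 - θ) with hm
  have hmid : m * (1 - θ) = θ * ((p + 1 : ℕ) : ℝ) := by rw [hm]; field_simp
  have hmpos : 0 ≤ m := by rw [hm]; positivity
  set w : ℝ := 1 / (1 - θ) with hw
  have hwpos : 0 < w := by rw [hw]; positivity
  have hwid : w * (1 - θ) = 1 := by rw [hw]; field_simp
  refine ⟨⌈m - w⌉₊, ?_, ?_, ?_⟩
  · intro j hj
    apply NB_step_up h0 le_rfl h1
    have h2 : (j : ℝ) < m - w := Nat.lt_ceil.mp hj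
    have h3 : (j : ℝ) * (1 - θ) ≤ (m - w) * (1 - θ) := mul_le_mul_of_nonneg_right h2.le h1θ.le
    have h4 : (m - w) * (1 - θ) = θ * ((p + 1 : ℕ) : ℝ) - 1 := by
      rw [sub_mul, hmid, hwid]
    push_cast at h4
    nlinarith
  · intro j hj
    apply NB_step_down h0 le_rfl h1
    have h2 : m - w ≤ (j : ℝ) := Nat.ceil_le.mp hj
    have h3 : (m - w) * (1 - θ) ≤ (j : ℝ) * (1 - θ) := mul_le_mul_of_nonneg_right h2 h1θ.le
    have h4 : (m - w) * (1 - θ) = θ * ((p + 1 : ℕ) : ℝ) - 1 := by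
      rw [sub_mul, hmid, hwid]
    push_cast at h4
    nlinarith
  · rw [abs_le]
    have h5 : m - w ≤ (⌈m - w⌉₊ : ℝ) := Nat.le_ceil _
    constructor
    · linarith
    · rcases le_or_gt 0 (m - w) with h6 | h6
      · have := Nat.ceil_lt_add_one h6
        linarith
      · have : ⌈m - w⌉₊ = 0 := Nat.ceil_eq_zero.mpr h6.le
        rw [this]
        push_cast
        linarith

/-- Global maximality of a mode. -/
theorem NB_mode_max {θ : ℝ} (h0 : 0 < θ) (h1 : θ < 1) (p k : ℕ)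
    (hup : ∀ j : ℕ, j < k → NB θ (p + 1) (j : ℤ) ≤ NB θ (p + 1) ((j : ℤ) + 1))
    (hdn : ∀ j : ℕ, k ≤ j → NB θ (p + 1) ((j : ℤ) + 1) ≤ NB θ (p + 1) (j : ℤ)) (z : ℤ) :
    NB θ (p + 1) z ≤ NB θ (p + 1) (k : ℤ) := by
  rcases lt_or_ge z 0 with hz | hz
  · rw [NB_of_neg hz]
    exact NB_nonneg h0 h1 _ _
  obtain ⟨j, rfl⟩ := Int.eq_ofNat_of_zero_le hz
  rcases le_total j k with hjk | hjk
  · have hmono : ∀ n : ℕ, j + n ≤ k → NB θ (p + 1) (j : ℤ) ≤ NB θ (p + 1) ((j + n : ℕ) : ℤ) := by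
      intro n
      induction n with
      | zero => intro _; simp
      | succ n ih =>
        intro h
        have h2 := ih (by omega)
        have h3 := hup (j + n) (by omega)
        have e : ((j + n : ℕ) : ℤ) + 1 = ((j + (n + 1) : ℕ) : ℤ) := by push_cast; ring
        rw [e] at h3
        exact le_trans h2 h3
    have := hmono (k - j) (by omega)
    have e : j + (k - j) = k := by omega
    rwa [e] at this
  · have hmono : ∀ n : ℕ, NB θ (p + 1) ((k + n : ℕ) : ℤ) ≤ NB θ (p + 1) (k : ℤ) := by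
      intro n
      induction n with
      | zero => simp
      | succ n ih =>
        have h3 := hdn (k + n) (by omega)
        have e : ((k + n : ℕ) : ℤ) + 1 = ((k + (n + 1) : ℕ) : ℤ) := by push_cast; ring
        rw [e] at h3
        exact le_trans h3 ih
    have := hmono (j - k)
    have e : k + (j - k) = j := by omega
    rwa [e] at this

/-- Sup bound. -/
theorem NB_sup (h0 : 0 < θ₀) (h1 : θ₁ < 1) :
    ∃ C : ℝ, 0 < C ∧ ∀ θ ∈ Set.Icc θ₀ θ₁, ∀ l : ℕ, 1 ≤ l → ∀ z : ℤ, NB θ l z ≤ C / √(l : ℝ) := by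
  obtain ⟨C, c, hC, hc, hflat⟩ := NB_flat h0 h1
  have h1θ₁ : 0 < 1 - θ₁ := by linarith
  set B : ℝ := 1 / (1 - θ₁) + 1 with hB
  have hBpos : 0 < B := by rw [hB]; positivity
  set L : ℝ := 2 * (B + 2) / c + 1 with hL
  have hLpos : 1 ≤ L := by
    rw [hL]
    have : 0 ≤ 2 * (B + 2) / c := by positivity
    linarith
  set E : ℝ := Real.exp (C * (B + 2)) with hE
  have hEpos : 0 < E := Real.exp_pos _
  refine ⟨E + L, by linarith, ?_⟩
  intro θ hθ l hl z
  obtain ⟨p, rfl⟩ : ∃ p, l = p + 1 := ⟨l - 1, by omega⟩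
  have hθ0 : 0 < θ := lt_of_lt_of_le h0 hθ.1
  have hθ1 : θ < 1 := lt_of_le_of_lt hθ.2 h1
  set l : ℕ := p + 1 with hl'
  have hl0 : (1 : ℝ) ≤ (l : ℝ) := by exact_mod_cast hl
  set q : ℝ := √(l : ℝ) with hq
  have hq1 : 1 ≤ q := by rw [hq]; exact Real.one_le_sqrt.mpr hl0
  have hqq : q * q = (l : ℝ) := by rw [hq]; exact Real.mul_self_sqrt (by linarith)
  have hqpos : 0 < q := by linarith
  rcases lt_or_ge q L with hsmall | hlarge
  · have h2 := NB_le_one hθ0 hθ1 l z
    rw [le_div_iff₀ hqpos]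
    calc NB θ l z * q ≤ 1 * q := mul_le_mul_of_nonneg_right h2 hqpos.le
      _ ≤ E + L := by linarith
  · obtain ⟨k, hup, hdn, hk⟩ := NB_mode hθ0 hθ1 p
    have hmax := NB_mode_max hθ0 hθ1 p k hup hdn z
    have hkB : |(k : ℝ) - θ * (l : ℝ) / (1 - θ)| ≤ B := by
      refine le_trans hk ?_
      have h3 : 0 < 1 - θ := by linarith
      have h4 : 1 / (1 - θ) ≤ 1 / (1 - θ₁) :=
        one_div_le_one_div_of_le h1θ₁ (by linarith [hθ.2])
      rw [hB]
      linarith
    -- size condition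
    have hcond : B + q + 1 ≤ c * (l : ℝ) := by
      have h5 : 2 * (B + 2) / c ≤ q := by rw [hL] at hlarge; linarith
      have h6 : 2 * (B + 2) ≤ c * q := by
        rw [div_le_iff₀ hc] at h5
        linarith
      rw [← hqq]
      nlinarith
    have hexpo : C * q * (B + q + 1) / (l : ℝ) ≤ C * (B + 2) := by
      rw [div_le_iff₀ (by linarith)]
      rw [← hqq]
      have h10 : q ≤ q * q := by nlinarith
      have h11 : B * q ≤ B * (q * q) := mul_le_mul_of_nonneg_left h10 hBpos.le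
      have : q * (B + q + 1) ≤ (B + 2) * (q * q) := by nlinarith
      calc C * q * (B + q + 1) = C * (q * (B + q + 1)) := by ring
        _ ≤ C * ((B + 2) * (q * q)) := mul_le_mul_of_nonneg_left this hC.le
        _ = _ := by ring
    set n : ℕ := ⌊q⌋₊ with hn
    have hn1 : q < (n : ℝ) + 1 := Nat.lt_floor_add_one q
    have hn2 : (n : ℝ) ≤ q := Nat.floor_le hqpos.le
    have hterm : ∀ i ∈ range (n + 1), (E⁻¹) * NB θ l (k : ℤ) ≤ NB θ l ((k + i : ℕ) : ℤ) := by
      intro i hi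
      have hi' : i ≤ n := by simpa [Nat.lt_succ_iff] using hi
      have hi2 : (i : ℝ) ≤ q := le_trans (by exact_mod_cast hi') hn2
      have hs : |((k + i : ℕ) : ℝ) - (k : ℝ)| ≤ q := by
        have : ((k + i : ℕ) : ℝ) - (k : ℝ) = (i : ℝ) := by push_cast; ring
        rw [this, Nat.abs_cast]
        exact hi2
      have hf := hflat θ hθ l k (k + i) B q hl hkB hs hBpos.le hqpos.le hcond
      refine le_trans ?_ hf
      apply mul_le_mul_of_nonneg_right _ (NB_nonneg hθ0 hθ1 _ _)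
      rw [hE, ← Real.exp_neg]
      apply Real.exp_le_exp.mpr
      linarith
    have hinj : Set.InjOn (fun i : ℕ => (((k + i : ℕ) : ℤ))) (range (n + 1) : Set ℕ) := by
      intro a _ b _ hab
      simp only at hab
      omega
    have hsum : ∑ i ∈ range (n + 1), NB θ l ((k + i : ℕ) : ℤ) ≤ 1 := by
      have := NB_sum_le hθ0 hθ1 l ((range (n + 1)).image (fun i : ℕ => (((k + i : ℕ) : ℤ))))
      rwa [sum_image hinj] at this
    have hsum2 : ((n : ℝ) + 1) * (E⁻¹ * NB θ l (k : ℤ)) ≤ 1 := by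
      have h7 := sum_le_sum hterm
      rw [sum_const, card_range, nsmul_eq_mul] at h7
      have e : ((n + 1 : ℕ) : ℝ) = (n : ℝ) + 1 := by push_cast; ring
      rw [e] at h7
      linarith
    have hNBk := NB_nonneg hθ0 hθ1 l (k : ℤ)
    have hq3 : q * NB θ l (k : ℤ) ≤ E := by
      have h8 : q * (E⁻¹ * NB θ l (k : ℤ)) ≤ 1 := by
        refine le_trans ?_ hsum2
        apply mul_le_mul_of_nonneg_right hn1.le
        positivity
      have h9 : E * (q * (E⁻¹ * NB θ l (k : ℤ))) = q * NB θ l (k : ℤ) := by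
        field_simp
      rw [← h9]
      calc E * (q * (E⁻¹ * NB θ l (k : ℤ))) ≤ E * 1 := mul_le_mul_of_nonneg_left h8 hEpos.le
        _ = E := mul_one _
    rw [le_div_iff₀ hqpos]
    calc NB θ l z * q ≤ NB θ l (k : ℤ) * q := mul_le_mul_of_nonneg_right hmax hqpos.le
      _ = q * NB θ l (k : ℤ) := mul_comm _ _
      _ ≤ E := hq3
      _ ≤ E + L := by linarith

/-- Total variation of a unimodal nonnegative function. -/
theorem tv_up {g : ℤ → ℝ} {K : ℤ} (hg : ∀ z, 0 ≤ g z) (hup : ∀ z ≤ K, g (z - 1) ≤ g z)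
    (T : Finset ℤ) : ∀ k ≤ K, (∀ z ∈ T, z ≤ k) → ∑ z ∈ T, (g z - g (z - 1)) ≤ g k := by
  have hmono : ∀ a k : ℤ, a ≤ k → k ≤ K → g a ≤ g k := by
    intro a k hak
    induction k, hak using Int.le_induction with
    | base => intro _; exact le_rfl
    | succ k hk ih =>
      intro h
      have := hup (k + 1) h
      have e : k + 1 - 1 = k := by ring
      rw [e] at this
      exact le_trans (ih (by omega)) this
  induction T using Finset.induction_on_max with
  | empty => intro k _ _; simpa using hg k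
  | insert a T hT ih =>
    intro k hk hz
    have ha : a ∉ T := fun h => lt_irrefl a (hT a h)
    rw [sum_insert ha]
    have hak : a ≤ k := hz a (mem_insert_self _ _)
    have h2 := ih (a - 1) (by omega) (fun z hzT => by have := hT z hzT; omega)
    have h3 := hmono a k hak hk
    linarith

theorem tv_down {g : ℤ → ℝ} {K : ℤ} (hg : ∀ z, 0 ≤ g z) (hdn : ∀ z, K < z → g z ≤ g (z - 1))
    (T : Finset ℤ) : ∀ k, K ≤ k → (∀ z ∈ T, k < z) → ∑ z ∈ T, (g (z - 1) - g z) ≤ g k := by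
  have hmono : ∀ k a : ℤ, K ≤ k → k ≤ a → g a ≤ g k := by
    intro k a hk hka
    induction a, hka using Int.le_induction with
    | base => exact le_rfl
    | succ a ha ih =>
      have := hdn (a + 1) (by omega)
      have e : a + 1 - 1 = a := by ring
      rw [e] at this
      exact le_trans this ih
  induction T using Finset.induction_on_min with
  | empty => intro k _ _; simpa using hg k
  | insert a T hT ih =>
    intro k hk hz
    have ha : a ∉ T := fun h => lt_irrefl a (hT a h)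
    rw [sum_insert ha]
    have hak : k < a := hz a (mem_insert_self _ _)
    have h2 := ih a (by omega) (fun z hzT => hT z hzT)
    have h3 := hmono k (a - 1) hk (by omega)
    linarith

theorem tv_unimodal {g : ℤ → ℝ} {K : ℤ} (hg : ∀ z, 0 ≤ g z) (hup : ∀ z ≤ K, g (z - 1) ≤ g z)
    (hdn : ∀ z, K < z → g z ≤ g (z - 1)) : L1le (fun z => g z - g (z - 1)) (2 * g K) := by
  intro S
  have h1 : ∑ z ∈ S.filter (· ≤ K), |g z - g (z - 1)| ≤ g K := by
    have := tv_up hg hup (S.filter (· ≤ K)) K le_rfl (fun z hz => (mem_filter.mp hz).2)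
    refine le_trans (le_of_eq ?_) this
    apply sum_congr rfl
    intro z hz
    exact abs_of_nonneg (by linarith [hup z (mem_filter.mp hz).2])
  have h2 : ∑ z ∈ S.filter (fun z => ¬ z ≤ K), |g z - g (z - 1)| ≤ g K := by
    have := tv_down hg hdn (S.filter (fun z => ¬ z ≤ K)) K le_rfl
      (fun z hz => not_le.mp (mem_filter.mp hz).2)
    refine le_trans (le_of_eq ?_) this
    apply sum_congr rfl
    intro z hz
    rw [abs_of_nonpos (by linarith [hdn z (not_le.mp (mem_filter.mp hz).2)])]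
    ring
  rw [← sum_filter_add_sum_filter_not S (· ≤ K)]
  linarith

/-- Total variation of `NB` (unimodality: twice the maximum). -/
theorem NB_diff_L1 (h0 : 0 < θ₀) (h1 : θ₁ < 1) :
    ∃ C : ℝ, 0 < C ∧ ∀ θ ∈ Set.Icc θ₀ θ₁, ∀ l : ℕ, 1 ≤ l →
      L1le (fun z => NB θ l z - NB θ l (z - 1)) (C / √(l : ℝ)) := by
  obtain ⟨C, hC, hsup⟩ := NB_sup h0 h1
  refine ⟨2 * C, by positivity, ?_⟩
  intro θ hθ l hl
  obtain ⟨p, rfl⟩ : ∃ p, l = p + 1 := ⟨l - 1, by omega⟩
  have hθ0 : 0 < θ := lt_of_lt_of_le h0 hθ.1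
  have hθ1 : θ < 1 := lt_of_le_of_lt hθ.2 h1
  obtain ⟨k, hup, hdn, _⟩ := NB_mode hθ0 hθ1 p
  have hmain : L1le (fun z => NB θ (p + 1) z - NB θ (p + 1) (z - 1)) (2 * NB θ (p + 1) (k : ℤ)) := by
    apply tv_unimodal (NB_nonneg hθ0 hθ1 _)
    · intro z hz
      rcases le_or_gt z 0 with hz0 | hz0
      · rw [NB_of_neg (by omega : z - 1 < 0)]
        exact NB_nonneg hθ0 hθ1 _ _
      · obtain ⟨j, hj⟩ := Int.eq_ofNat_of_zero_le (by omega : 0 ≤ z - 1)
        have hz' : z = (j : ℤ) + 1 := by omega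
        rw [hj, hz']
        exact hup j (by omega)
    · intro z hz
      obtain ⟨j, hj⟩ := Int.eq_ofNat_of_zero_le (by omega : 0 ≤ z - 1)
      have hz' : z = (j : ℤ) + 1 := by omega
      rw [hj, hz']
      exact hdn j (by omega)
  intro S
  refine le_trans (hmain S) ?_
  have := hsup θ hθ (p + 1) hl (k : ℤ)
  rw [mul_div_assoc]
  linarith

end modeS


section kernel
variable {θ : ℝ}

theorem ker_of_neg (as : List ℕ) (r : ℕ) {z : ℤ} (hz : z < 0) : ker θ as r z = 0 := by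
  induction as generalizing z with
  | nil => exact NB_of_neg hz
  | cons a as ih =>
    unfold ker
    rw [ih hz, ih (by omega)]
    ring

/-- Convolution with `NB` from the left. -/
theorem ker_conv (as : List ℕ) (a b : ℕ) (y : ℤ) :
    ker θ as (a + b) y = ∑ i ∈ Icc 0 y, NB θ a i * ker θ as b (y - i) := by
  induction as generalizing y with
  | nil => exact NB_conv θ a b y
  | cons c as ih =>
    unfold ker
    rw [ih y, ih (y - c)]
    have hsub : Icc 0 (y - c) ⊆ Icc 0 y := by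
      intro i hi
      rw [mem_Icc] at hi ⊢
      omega
    have hext : ∑ i ∈ Icc 0 (y - c), NB θ a i * ker θ as b (y - c - i) =
        ∑ i ∈ Icc 0 y, NB θ a i * ker θ as b (y - c - i) := by
      apply sum_subset hsub
      intro i hi hi'
      rw [mem_Icc] at hi hi'
      rw [ker_of_neg as b (by omega : y - c - i < 0)]
      ring
    rw [hext, ← sum_sub_distrib]
    apply sum_congr rfl
    intro i _
    have e : y - i - (c : ℤ) = y - c - i := by ring
    rw [e]
    ring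

/-- `ker` as a signed sum of shifts of `NB`: crude pointwise bound by shifts. -/
theorem ker_abs_le_sum (h0 : 0 < θ) (h1 : θ < 1) (as : List ℕ) (r : ℕ) (z : ℤ) :
    |ker θ as r z| ≤ 2 ^ as.length * ⨆ g : Fin (as.sum + 1), NB θ r (z - (g : ℕ)) := by
  induction as generalizing z with
  | nil =>
    simp only [List.length_nil, pow_zero, one_mul]
    unfold ker
    rw [abs_of_nonneg (NB_nonneg h0 h1 _ _)]
    simp
  | cons a as ih =>
    unfold ker
    set M : ℝ := ⨆ g : Fin ((a :: as).sum + 1), NB θ r (z - (g : ℕ)) with hM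
    have hb : BddAbove (Set.range fun g : Fin ((a :: as).sum + 1) => NB θ r (z - (g : ℕ))) :=
      (Set.finite_range _).bddAbove
    have hsum : (a :: as).sum = a + as.sum := by simp
    have hNM : ∀ n : ℕ, n ≤ a + as.sum → NB θ r (z - (n : ℤ)) ≤ M := by
      intro n hn
      exact le_ciSup hb (⟨n, by omega⟩ : Fin ((a :: as).sum + 1))
    have h2 : ∀ w : ℤ, (∀ n : ℕ, n ≤ as.sum → NB θ r (w - (n : ℤ)) ≤ M) → |ker θ as r w| ≤ 2 ^ as.length * M := by
      intro w hw
      refine le_trans (ih w) ?_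
      apply mul_le_mul_of_nonneg_left _ (by positivity)
      apply ciSup_le
      intro g
      exact hw g (by have := g.2; omega)
    have h3 := h2 z (fun n hn => hNM n (by omega))
    have h4 := h2 (z - a) (fun n hn => by
      have e : z - (a : ℤ) - (n : ℤ) = z - ((a + n : ℕ) : ℤ) := by push_cast; ring
      rw [e]
      exact hNM (a + n) (by omega))
    simp only [List.length_cons, pow_succ]
    calc |ker θ as r z - ker θ as r (z - a)| ≤ |ker θ as r z| + |ker θ as r (z - a)| := abs_sub _ _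
      _ ≤ 2 ^ as.length * M + 2 ^ as.length * M := add_le_add h3 h4
      _ = _ := by ring

/-- Exponential smallness of `ker` for short blocks: if `z ≥ as.sum` then
`|ker θ as r z| ≤ 2^as.length * 2^r * ρ^(z - as.sum)` with `ρ = 2θ/(1+θ)`. -/
theorem ker_exp_bound (h0 : 0 < θ) (h1 : θ < 1) (as : List ℕ) (r k : ℕ) (hk : as.sum ≤ k) :
    |ker θ as r (k : ℤ)| ≤ 2 ^ as.length * 2 ^ r * (2 * θ / (1 + θ)) ^ (k - as.sum) := by
  induction as generalizing k with
  | nil =>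
    unfold ker
    rw [abs_of_nonneg (NB_nonneg h0 h1 _ _)]
    simpa using NB_exp_bound h0 h1 r k
  | cons a as ih =>
    unfold ker
    have hsum : (a :: as).sum = a + as.sum := by simp
    rw [hsum] at hk ⊢
    set ρ : ℝ := 2 * θ / (1 + θ) with hρ
    have hρ0 : 0 ≤ ρ := by rw [hρ]; positivity
    have hρ1 : ρ ≤ 1 := by
      rw [hρ, div_le_one (by linarith)]
      linarith
    have h2 := ih k (by omega)
    have h3 := ih (k - a) (by omega)
    have e : ((k - a : ℕ) : ℤ) = (k : ℤ) - a := by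
      rw [Nat.cast_sub (by omega)]
    rw [e] at h3
    have e2 : k - a - as.sum = k - (a + as.sum) := by omega
    rw [e2] at h3
    have h4 : ρ ^ (k - as.sum) ≤ ρ ^ (k - (a + as.sum)) :=
      pow_le_pow_of_le_one hρ0 hρ1 (by omega)
    have h5 : (2 : ℝ) ^ as.length * 2 ^ r * ρ ^ (k - as.sum) ≤
        2 ^ as.length * 2 ^ r * ρ ^ (k - (a + as.sum)) :=
      mul_le_mul_of_nonneg_left h4 (by positivity)
    simp only [List.length_cons, pow_succ]
    calc |ker θ as r (k : ℤ) - ker θ as r ((k : ℤ) - a)| ≤ |ker θ as r (k : ℤ)| + |ker θ as r ((k : ℤ) - a)| :=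
          abs_sub _ _
      _ ≤ 2 ^ as.length * 2 ^ r * ρ ^ (k - (a + as.sum)) + 2 ^ as.length * 2 ^ r * ρ ^ (k - (a + as.sum)) :=
          add_le_add (le_trans h2 h5) h3
      _ = _ := by ring

theorem L1le_nonneg {g : ℤ → ℝ} {b : ℝ} (hg : L1le g b) : 0 ≤ b := by
  simpa using hg ∅

theorem L1le_abs_le {g : ℤ → ℝ} {b : ℝ} (hg : L1le g b) (z : ℤ) : |g z| ≤ b := by
  simpa using hg {z}

/-- Shifts do not change the bound. -/
theorem L1le_shift {g : ℤ → ℝ} {b : ℝ} (hg : L1le g b) (a : ℤ) : L1le (fun z => g (z - a)) b := by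
  intro S
  have hinj : Set.InjOn (fun z : ℤ => z - a) (S : Set ℤ) := by
    intro x _ y _ h
    simp only at h
    omega
  have := hg (S.image (fun z : ℤ => z - a))
  rwa [sum_image hinj] at this

theorem L1le_sub {f g : ℤ → ℝ} {b c : ℝ} (hf : L1le f b) (hg : L1le g c) :
    L1le (fun z => f z - g z) (b + c) := by
  intro S
  calc ∑ z ∈ S, |f z - g z| ≤ ∑ z ∈ S, (|f z| + |g z|) := sum_le_sum (fun z _ => abs_sub _ _)
    _ = ∑ z ∈ S, |f z| + ∑ z ∈ S, |g z| := sum_add_distrib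
    _ ≤ b + c := add_le_add (hf S) (hg S)

theorem L1le_add {f g : ℤ → ℝ} {b c : ℝ} (hf : L1le f b) (hg : L1le g c) :
    L1le (fun z => f z + g z) (b + c) := by
  intro S
  calc ∑ z ∈ S, |f z + g z| ≤ ∑ z ∈ S, (|f z| + |g z|) := sum_le_sum (fun z _ => abs_add_le _ _)
    _ = ∑ z ∈ S, |f z| + ∑ z ∈ S, |g z| := sum_add_distrib
    _ ≤ b + c := add_le_add (hf S) (hg S)

/-- `L¹` bound for a convolution. -/
theorem L1le_conv {f g : ℤ → ℝ} {b c : ℝ} (hf : L1le f b) (hg : L1le g c) :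
    L1le (fun y => ∑ i ∈ Icc 0 y, f i * g (y - i)) (b * c) := by
  intro S
  obtain ⟨K, hK⟩ : ∃ K : ℤ, ∀ y ∈ S, y ≤ K := by
    obtain ⟨K, hK⟩ := S.bddAbove
    exact ⟨K, fun y hy => hK hy⟩
  have hc : 0 ≤ c := L1le_nonneg hg
  calc ∑ y ∈ S, |∑ i ∈ Icc 0 y, f i * g (y - i)|
      ≤ ∑ y ∈ S, ∑ i ∈ Icc 0 K, |f i| * |g (y - i)| := by
        apply sum_le_sum
        intro y hy
        calc |∑ i ∈ Icc 0 y, f i * g (y - i)| ≤ ∑ i ∈ Icc 0 y, |f i * g (y - i)| :=
              abs_sum_le_sum_abs _ _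
          _ = ∑ i ∈ Icc 0 y, |f i| * |g (y - i)| := by simp only [abs_mul]
          _ ≤ ∑ i ∈ Icc 0 K, |f i| * |g (y - i)| := by
              apply sum_le_sum_of_subset_of_nonneg
              · intro i hi
                rw [mem_Icc] at hi ⊢
                have := hK y hy
                omega
              · intro i _ _
                positivity
    _ = ∑ i ∈ Icc 0 K, |f i| * ∑ y ∈ S, |g (y - i)| := by
        rw [sum_comm]
        simp only [mul_sum]
    _ ≤ ∑ i ∈ Icc 0 K, |f i| * c := by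
        apply sum_le_sum
        intro i _
        exact mul_le_mul_of_nonneg_left (L1le_shift hg i S) (abs_nonneg _)
    _ = (∑ i ∈ Icc 0 K, |f i|) * c := by rw [sum_mul]
    _ ≤ b * c := mul_le_mul_of_nonneg_right (hf _) hc

/-- Difference with a larger step. -/
theorem L1le_step {h : ℤ → ℝ} {b : ℝ} (hd : L1le (fun z => h z - h (z - 1)) b) (a : ℕ) :
    L1le (fun z => h z - h (z - a)) (a * b) := by
  induction a with
  | zero =>
    intro S
    simp
  | succ a ih =>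
    have h2 := L1le_add ih (L1le_shift hd a)
    have e : (fun z => h z - h (z - ((a + 1 : ℕ) : ℤ))) =
        fun z => (h z - h (z - (a : ℤ))) + (h (z - (a : ℤ)) - h (z - (a : ℤ) - 1)) := by
      funext z
      have e2 : z - ((a + 1 : ℕ) : ℤ) = z - (a : ℤ) - 1 := by push_cast; ring
      rw [e2]
      ring
    rw [e]
    have e3 : (((a + 1 : ℕ) : ℝ)) * b = (a : ℝ) * b + b := by push_cast; ring
    rw [e3]
    exact h2

/-- Shift inside a convolution. -/
theorem conv_shift (F G : ℤ → ℝ) (a : ℕ) (hF : ∀ i < 0, F i = 0) (y : ℤ) :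
    ∑ i ∈ Icc 0 y, F (i - a) * G (y - i) = ∑ i ∈ Icc 0 (y - a), F i * G (y - a - i) := by
  have hsub : Icc (a : ℤ) y ⊆ Icc 0 y := by
    intro i hi
    rw [mem_Icc] at hi ⊢
    omega
  have h1 : ∑ i ∈ Icc (a : ℤ) y, F (i - a) * G (y - i) = ∑ i ∈ Icc 0 y, F (i - a) * G (y - i) := by
    apply sum_subset hsub
    intro i hi hi'
    rw [mem_Icc] at hi hi'
    rw [hF _ (by omega : i - (a : ℤ) < 0)]
    ring
  rw [← h1]
  apply sum_nbij' (fun i => i - (a : ℤ)) (fun i => i + (a : ℤ))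
  · intro i hi
    rw [mem_Icc] at hi ⊢
    omega
  · intro i hi
    rw [mem_Icc] at hi ⊢
    omega
  · intro i _
    ring
  · intro i _
    ring
  · intro i _
    have e : y - (a : ℤ) - (i - (a : ℤ)) = y - i := by ring
    rw [e]

/-- Factorisation of a kernel through one difference of `NB`. -/
theorem ker_cons_conv (a : ℕ) (as : List ℕ) (r₁ r₂ : ℕ) (y : ℤ) :
    ker θ (a :: as) (r₁ + r₂) y =
      ∑ i ∈ Icc 0 y, (NB θ r₁ i - NB θ r₁ (i - a)) * ker θ as r₂ (y - i) := by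
  change ker θ as (r₁ + r₂) y - ker θ as (r₁ + r₂) (y - a) = _
  rw [ker_conv as r₁ r₂ y, ker_conv as r₁ r₂ (y - a)]
  rw [← conv_shift (NB θ r₁) (ker θ as r₂) a (fun i hi => NB_of_neg hi) y, ← sum_sub_distrib]
  apply sum_congr rfl
  intro i _
  ring

/-- Crude `L¹` bound. -/
theorem ker_L1_crude (h0 : 0 < θ) (h1 : θ < 1) (as : List ℕ) (r : ℕ) :
    L1le (ker θ as r) (2 ^ as.length) := by
  induction as with
  | nil =>
    intro S
    simp only [List.length_nil, pow_zero]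
    unfold ker
    calc ∑ z ∈ S, |NB θ r z| = ∑ z ∈ S, NB θ r z :=
          sum_congr rfl (fun z _ => abs_of_nonneg (NB_nonneg h0 h1 _ _))
      _ ≤ 1 := NB_sum_le h0 h1 r S
  | cons a as ih =>
    have := L1le_sub ih (L1le_shift ih a)
    have e : ker θ (a :: as) r = fun z => ker θ as r z - ker θ as r (z - a) := by
      funext z
      rw [ker]
    rw [e]
    have e2 : (2 : ℝ) ^ (a :: as).length = 2 ^ as.length + 2 ^ as.length := by
      simp only [List.length_cons, pow_succ]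
      ring
    rw [e2]
    exact this


variable {θ₀ θ₁ : ℝ}

/-- Arithmetic of halves. -/
theorem half_split {r : ℕ} (hr : 2 ≤ r) :
    ∃ r₁ r₂ : ℕ, r = r₁ + r₂ ∧ 1 ≤ r₁ ∧ 1 ≤ r₂ ∧ (r : ℝ) ≤ 4 * r₁ ∧ (r : ℝ) ≤ 4 * r₂ := by
  refine ⟨r / 2 + r % 2, r / 2, by omega, by omega, by omega, ?_, ?_⟩
  · have : r ≤ 4 * (r / 2 + r % 2) := by omega
    exact_mod_cast this
  · have : r ≤ 4 * (r / 2) := by omega
    exact_mod_cast this

theorem div_sqrt_le_two {C : ℝ} (hC : 0 ≤ C) {r s : ℕ} (hs : 1 ≤ s) (h : (r : ℝ) ≤ 4 * s) :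
    C / √(s : ℝ) ≤ (2 * C) / √(r : ℝ) ∨ r = 0 := by
  rcases Nat.eq_zero_or_pos r with h0 | h0
  · exact Or.inr h0
  left
  have hr0 : (0 : ℝ) < r := by exact_mod_cast h0
  have hs0 : (0 : ℝ) < s := by exact_mod_cast hs
  rw [div_le_div_iff₀ (by positivity) (by positivity)]
  have : √(r : ℝ) ≤ 2 * √(s : ℝ) := by
    have e : (2 : ℝ) * √(s : ℝ) = √(4 * (s : ℝ)) := by
      rw [Real.sqrt_mul (by norm_num)]
      have : √(4 : ℝ) = 2 := by
        rw [show (4 : ℝ) = 2 ^ 2 by norm_num]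
        exact Real.sqrt_sq (by norm_num)
      rw [this]
    rw [e]
    exact Real.sqrt_le_sqrt h
  nlinarith

theorem one_le_list_prod (as : List ℕ) (h : ∀ a ∈ as, 1 ≤ a) : 1 ≤ as.prod := by
  induction as with
  | nil => simp
  | cons b bs ih =>
    have h2 : 1 ≤ b := h b (by simp)
    have h3 := ih (fun c hc => h c (by simp [hc]))
    simp only [List.prod_cons]
    exact Nat.mul_pos h2 h3

/-- `L¹` bound of order `t`. -/
theorem ker_L1 (h0 : 0 < θ₀) (h1 : θ₁ < 1) (t : ℕ) :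
    ∃ C : ℝ, 0 < C ∧ ∀ θ ∈ Set.Icc θ₀ θ₁, ∀ as : List ℕ, as.length = t → (∀ a ∈ as, 1 ≤ a) →
      ∀ r : ℕ, 1 ≤ r → L1le (ker θ as r) ((as.prod : ℝ) * (C / √(r : ℝ)) ^ t) := by
  induction t with
  | zero =>
    refine ⟨1, one_pos, ?_⟩
    intro θ hθ as has _ r _
    have hθ0 : 0 < θ := lt_of_lt_of_le h0 hθ.1
    have hθ1 : θ < 1 := lt_of_le_of_lt hθ.2 h1
    have := ker_L1_crude hθ0 hθ1 as r
    rw [List.length_eq_zero_iff.mp has] at this ⊢
    simpa using this
  | succ t ih =>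
    obtain ⟨C₁, hC₁, hih⟩ := ih
    obtain ⟨C₀, hC₀, hd⟩ := NB_diff_L1 h0 h1
    refine ⟨2 + 2 * C₀ + 2 * C₁, by positivity, ?_⟩
    intro θ hθ as has hpos r hr
    have hθ0 : 0 < θ := lt_of_lt_of_le h0 hθ.1
    have hθ1 : θ < 1 := lt_of_le_of_lt hθ.2 h1
    obtain ⟨a, as', rfl⟩ : ∃ a as', as = a :: as' := by
      cases as with
      | nil => simp at has
      | cons a as' => exact ⟨a, as', rfl⟩
    have ha : 1 ≤ a := hpos a (by simp)
    have hpos' : ∀ b ∈ as', 1 ≤ b := fun b hb => hpos b (by simp [hb])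
    have hlen : as'.length = t := by simpa using has
    have hprod' : 1 ≤ as'.prod := one_le_list_prod as' hpos'
    have hprodR : (as'.prod : ℝ) * 1 ≤ ((a :: as').prod : ℝ) := by
      simp only [List.prod_cons, Nat.cast_mul]
      have h2 : (1 : ℝ) ≤ a := by exact_mod_cast ha
      have h3 : (0 : ℝ) ≤ as'.prod := by positivity
      nlinarith
    set C : ℝ := 2 + 2 * C₀ + 2 * C₁ with hC
    have hr0 : (0 : ℝ) < r := by exact_mod_cast hr
    have hsq : 0 < √(r : ℝ) := by positivity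
    rcases Nat.lt_or_ge r 2 with hr2 | hr2
    · -- r = 1
      have hr1 : r = 1 := by omega
      subst hr1
      intro S
      refine le_trans (ker_L1_crude hθ0 hθ1 (a :: as') 1 S) ?_
      simp only [Nat.cast_one, Real.sqrt_one, div_one]
      rw [has]
      have h5 : (2 : ℝ) ≤ C := by rw [hC]; nlinarith
      have h6 : (2 : ℝ) ^ (t + 1) ≤ C ^ (t + 1) := pow_le_pow_left₀ (by norm_num) h5 _
      have h7 : (1 : ℝ) ≤ ((a :: as').prod : ℝ) := by
        have h8 : (1 : ℝ) ≤ (as'.prod : ℝ) := by exact_mod_cast hprod'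
        linarith
      have h9 : 0 ≤ C ^ (t + 1) := by positivity
      nlinarith
    · obtain ⟨r₁, r₂, rfl, hr₁, hr₂, h41, h42⟩ := half_split hr2
      set r := r₁ + r₂ with hrr
      have e : ker θ (a :: as') r = fun y =>
          ∑ i ∈ Icc 0 y, (NB θ r₁ i - NB θ r₁ (i - a)) * ker θ as' r₂ (y - i) := by
        funext y
        exact ker_cons_conv a as' r₁ r₂ y
      rw [e]
      have hD := L1le_step (hd θ hθ r₁ hr₁) a
      have hK := hih θ hθ as' hlen hpos' r₂ hr₂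
      have hconv := L1le_conv hD hK
      intro S
      refine le_trans (hconv S) ?_
      -- estimates
      have hA : C₀ / √(r₁ : ℝ) ≤ C / √(r : ℝ) := by
        rcases div_sqrt_le_two hC₀.le (r := r) hr₁ h41 with h | h
        · refine le_trans h ?_
          apply div_le_div_of_nonneg_right _ hsq.le
          rw [hC]; nlinarith
        · omega
      have hB : C₁ / √(r₂ : ℝ) ≤ C / √(r : ℝ) := by
        rcases div_sqrt_le_two hC₁.le (r := r) hr₂ h42 with h | h
        · refine le_trans h ?_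
          apply div_le_div_of_nonneg_right _ hsq.le
          rw [hC]; nlinarith
        · omega
      have hBpos : 0 ≤ C₁ / √(r₂ : ℝ) := by positivity
      have hApos : 0 ≤ C₀ / √(r₁ : ℝ) := by positivity
      have hBt : (C₁ / √(r₂ : ℝ)) ^ t ≤ (C / √(r : ℝ)) ^ t := pow_le_pow_left₀ hBpos hB t
      have hprodA : ((a :: as').prod : ℝ) = (a : ℝ) * (as'.prod : ℝ) := by
        simp [List.prod_cons]
      rw [hprodA]
      have ha0 : (0 : ℝ) ≤ a := by positivity
      have hp0 : (0 : ℝ) ≤ as'.prod := by positivity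
      calc (a : ℝ) * (C₀ / √(r₁ : ℝ)) * ((as'.prod : ℝ) * (C₁ / √(r₂ : ℝ)) ^ t)
          ≤ (a : ℝ) * (C / √(r : ℝ)) * ((as'.prod : ℝ) * (C / √(r : ℝ)) ^ t) := by
            apply mul_le_mul
            · exact mul_le_mul_of_nonneg_left hA ha0
            · exact mul_le_mul_of_nonneg_left hBt hp0
            · positivity
            · positivity
        _ = (a : ℝ) * (as'.prod : ℝ) * (C / √(r : ℝ)) ^ (t + 1) := by
            rw [pow_succ]; ring

/-- Sup bound of order `t`. -/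
theorem ker_sup (h0 : 0 < θ₀) (h1 : θ₁ < 1) (t : ℕ) :
    ∃ C : ℝ, 0 < C ∧ ∀ θ ∈ Set.Icc θ₀ θ₁, ∀ as : List ℕ, as.length = t → (∀ a ∈ as, 1 ≤ a) →
      ∀ r : ℕ, 1 ≤ r → ∀ z : ℤ, |ker θ as r z| ≤ (as.prod : ℝ) * (C / √(r : ℝ)) ^ (t + 1) := by
  obtain ⟨C₀, hC₀, hsup⟩ := NB_sup h0 h1
  obtain ⟨C₁, hC₁, hL⟩ := ker_L1 h0 h1 t
  refine ⟨2 + 2 * C₀ + 2 * C₁, by positivity, ?_⟩
  intro θ hθ as has hpos r hr z
  have hθ0 : 0 < θ := lt_of_lt_of_le h0 hθ.1
  have hθ1 : θ < 1 := lt_of_le_of_lt hθ.2 h1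
  set C : ℝ := 2 + 2 * C₀ + 2 * C₁ with hC
  have hprod : 1 ≤ as.prod := one_le_list_prod as hpos
  have hprodR : (1 : ℝ) ≤ (as.prod : ℝ) := by exact_mod_cast hprod
  have hr0 : (0 : ℝ) < r := by exact_mod_cast hr
  have hsq : 0 < √(r : ℝ) := by positivity
  rcases Nat.lt_or_ge r 2 with hr2 | hr2
  · have hr1 : r = 1 := by omega
    subst hr1
    refine le_trans (L1le_abs_le (ker_L1_crude hθ0 hθ1 as 1) z) ?_
    simp only [Nat.cast_one, Real.sqrt_one, div_one]
    rw [has]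
    have h5 : (2 : ℝ) ≤ C := by rw [hC]; nlinarith
    have h6 : (2 : ℝ) ^ t ≤ C ^ t := pow_le_pow_left₀ (by norm_num) h5 _
    have h7 : (1 : ℝ) ≤ C := by linarith
    have h8 : (0 : ℝ) < C ^ t := by positivity
    have h9 : C ^ t ≤ C ^ (t + 1) := by
      rw [pow_succ]; nlinarith
    nlinarith
  · obtain ⟨r₁, r₂, rfl, hr₁, hr₂, h41, h42⟩ := half_split hr2
    set r := r₁ + r₂ with hrr
    have hA : C₀ / √(r₁ : ℝ) ≤ C / √(r : ℝ) := by
      rcases div_sqrt_le_two hC₀.le (r := r) hr₁ h41 with h | h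
      · refine le_trans h ?_
        apply div_le_div_of_nonneg_right _ hsq.le
        rw [hC]; nlinarith
      · omega
    have hB : C₁ / √(r₂ : ℝ) ≤ C / √(r : ℝ) := by
      rcases div_sqrt_le_two hC₁.le (r := r) hr₂ h42 with h | h
      · refine le_trans h ?_
        apply div_le_div_of_nonneg_right _ hsq.le
        rw [hC]; nlinarith
      · omega
    have hBpos : 0 ≤ C₁ / √(r₂ : ℝ) := by positivity
    have hBt : (C₁ / √(r₂ : ℝ)) ^ t ≤ (C / √(r : ℝ)) ^ t := pow_le_pow_left₀ hBpos hB t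
    have hsup' : ∀ i : ℤ, |NB θ r₁ i| ≤ C₀ / √(r₁ : ℝ) := by
      intro i
      rw [abs_of_nonneg (NB_nonneg hθ0 hθ1 _ _)]
      exact hsup θ hθ r₁ hr₁ i
    have hsum : ∑ i ∈ Icc 0 z, |ker θ as r₂ (z - i)| ≤ (as.prod : ℝ) * (C₁ / √(r₂ : ℝ)) ^ t := by
      have hinj : Set.InjOn (fun i : ℤ => z - i) (Icc 0 z : Set ℤ) := by
        intro x _ y _ h
        simp only at h
        omega
      have := hL θ hθ as has hpos r₂ hr₂ ((Icc 0 z).image (fun i : ℤ => z - i))
      rwa [sum_image hinj] at this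
    rw [hrr, ker_conv as r₁ r₂ z]
    calc |∑ i ∈ Icc 0 z, NB θ r₁ i * ker θ as r₂ (z - i)|
        ≤ ∑ i ∈ Icc 0 z, |NB θ r₁ i * ker θ as r₂ (z - i)| := abs_sum_le_sum_abs _ _
      _ ≤ ∑ i ∈ Icc 0 z, (C₀ / √(r₁ : ℝ)) * |ker θ as r₂ (z - i)| := by
          apply sum_le_sum
          intro i _
          rw [abs_mul]
          exact mul_le_mul_of_nonneg_right (hsup' i) (abs_nonneg _)
      _ = (C₀ / √(r₁ : ℝ)) * ∑ i ∈ Icc 0 z, |ker θ as r₂ (z - i)| := by rw [mul_sum]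
      _ ≤ (C / √(r : ℝ)) * ((as.prod : ℝ) * (C / √(r : ℝ)) ^ t) := by
          apply mul_le_mul hA _ _ (by positivity)
          · refine le_trans hsum ?_
            exact mul_le_mul_of_nonneg_left hBt (by positivity)
          · exact sum_nonneg (fun i _ => abs_nonneg _)
      _ = (as.prod : ℝ) * (C / √(r₁ + r₂ : ℕ)) ^ (t + 1) := by
          rw [pow_succ, ← hrr]; ring

/-- Mass of shift differences for spaced points: if the points of `P` have mutual distance at
least `D ≥ 1` then the sum of `|g|` over `P` is controlled by the `L¹` norm over `D` plus the total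
variation. -/
theorem spaced_sum {g : ℤ → ℝ} {b₀ b₁ : ℝ} (hg : L1le g b₀) (hd : L1le (fun z => g z - g (z - 1)) b₁)
    {D : ℕ} (hD : 1 ≤ D) (P : Finset ℤ) (hP : ∀ x ∈ P, ∀ y ∈ P, x ≠ y → (D : ℤ) ≤ |x - y|) :
    ∑ y ∈ P, |g y| ≤ b₀ / D + b₁ := by
  have hD0 : (0 : ℝ) < D := by exact_mod_cast hD
  -- windows
  have hwin : ∀ (h : ℤ → ℝ) (b : ℝ), L1le h b → ∑ y ∈ P, ∑ j ∈ range D, |h (y - (j : ℤ))| ≤ b := by
    intro h b hb
    rw [← sum_product']
    have hinj : Set.InjOn (fun q : ℤ × ℕ => q.1 - (q.2 : ℤ)) (P ×ˢ range D : Finset (ℤ × ℕ)) := by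
      rintro ⟨x, i⟩ hx ⟨y, j⟩ hy hxy
      simp only [coe_product, Set.mem_prod, mem_coe, mem_range] at hx hy
      simp only at hxy
      by_cases hne : x = y
      · subst hne
        have : i = j := by omega
        rw [this]
      · exfalso
        have h2 := hP x hx.1 y hy.1 hne
        have h3 : |x - y| < (D : ℤ) := by
          rw [abs_lt]
          constructor <;> omega
        omega
    have := hb ((P ×ˢ range D).image (fun q : ℤ × ℕ => q.1 - (q.2 : ℤ)))
    rw [sum_image hinj] at this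
    exact this
  -- pointwise
  have hpt : ∀ (y : ℤ) (j : ℕ), j ≤ D →
      |g y| ≤ |g (y - (j : ℤ))| + ∑ i ∈ range D, |g (y - (i : ℤ)) - g (y - (i : ℤ) - 1)| := by
    intro y j hj
    have hstep : ∀ n : ℕ, n ≤ D →
        |g y| ≤ |g (y - (n : ℤ))| + ∑ i ∈ range n, |g (y - (i : ℤ)) - g (y - (i : ℤ) - 1)| := by
      intro n
      induction n with
      | zero => intro _; simp
      | succ n ih =>
        intro hn
        have h2 := ih (by omega)
        rw [sum_range_succ]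
        have e : y - ((n + 1 : ℕ) : ℤ) = y - (n : ℤ) - 1 := by push_cast; ring
        rw [e]
        have h3 : |g (y - (n : ℤ))| ≤ |g (y - (n : ℤ) - 1)| + |g (y - (n : ℤ)) - g (y - (n : ℤ) - 1)| := by
          have := abs_add_le (g (y - (n : ℤ) - 1)) (g (y - (n : ℤ)) - g (y - (n : ℤ) - 1))
          simpa using this
        linarith
    have h2 := hstep j hj
    have h3 : ∑ i ∈ range j, |g (y - (i : ℤ)) - g (y - (i : ℤ) - 1)| ≤
        ∑ i ∈ range D, |g (y - (i : ℤ)) - g (y - (i : ℤ) - 1)| := by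
      apply sum_le_sum_of_subset_of_nonneg
      · intro i hi
        rw [mem_range] at hi ⊢
        omega
      · intro i _ _
        positivity
    linarith
  -- average
  have havg : ∀ y : ℤ, (D : ℝ) * |g y| ≤ ∑ j ∈ range D, |g (y - (j : ℤ))| +
      (D : ℝ) * ∑ i ∈ range D, |g (y - (i : ℤ)) - g (y - (i : ℤ) - 1)| := by
    intro y
    have h2 : ∑ j ∈ range D, |g y| ≤ ∑ j ∈ range D, (|g (y - (j : ℤ))| +
        ∑ i ∈ range D, |g (y - (i : ℤ)) - g (y - (i : ℤ) - 1)|) :=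
      sum_le_sum (fun j hj => hpt y j (by rw [mem_range] at hj; omega))
    rw [sum_const, card_range, nsmul_eq_mul, sum_add_distrib, sum_const, card_range, nsmul_eq_mul] at h2
    exact h2
  have hb₀ := hwin g b₀ hg
  have hb₁ := hwin (fun z => g z - g (z - 1)) b₁ hd
  have htot : (D : ℝ) * ∑ y ∈ P, |g y| ≤ b₀ + (D : ℝ) * b₁ := by
    rw [mul_sum]
    calc ∑ y ∈ P, (D : ℝ) * |g y| ≤ ∑ y ∈ P, (∑ j ∈ range D, |g (y - (j : ℤ))| +
          (D : ℝ) * ∑ i ∈ range D, |g (y - (i : ℤ)) - g (y - (i : ℤ) - 1)|) := sum_le_sum (fun y _ => havg y)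
      _ = ∑ y ∈ P, ∑ j ∈ range D, |g (y - (j : ℤ))| +
          (D : ℝ) * ∑ y ∈ P, ∑ i ∈ range D, |g (y - (i : ℤ)) - g (y - (i : ℤ) - 1)| := by
          rw [sum_add_distrib, mul_sum]
      _ ≤ b₀ + (D : ℝ) * b₁ := add_le_add hb₀ (mul_le_mul_of_nonneg_left hb₁ hD0.le)
  have : ∑ y ∈ P, |g y| ≤ (b₀ + (D : ℝ) * b₁) / D := by
    rw [le_div_iff₀ hD0]
    linarith
  refine le_trans this (le_of_eq ?_)
  field_simp

end kernel

section renewal
variable {θ : ℝ}

/-- Cumulative sums of `NB θ (l + 1)`. -/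
noncomputable def Gsum (θ : ℝ) (l : ℕ) (y : ℤ) : ℝ := ∑ j ∈ Icc 0 y, NB θ (l + 1) j

theorem Gsum_rec (θ : ℝ) (l : ℕ) (y : ℤ) : Gsum θ l y = Gsum θ l (y - 1) + NB θ (l + 1) y := by
  unfold Gsum
  rcases lt_or_ge y 0 with hy | hy
  · rw [NB_of_neg hy, Icc_eq_empty (by omega), Icc_eq_empty (by omega)]
    simp
  · have : Icc 0 y = insert y (Icc 0 (y - 1)) := by
      ext i
      simp only [mem_Icc, mem_insert]
      omega
    rw [this, sum_insert (by simp), add_comm]

theorem Gsum_neg (θ : ℝ) (l : ℕ) {y : ℤ} (hy : y < 0) : Gsum θ l y = 0 := by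
  unfold Gsum
  rw [Icc_eq_empty (by omega)]
  simp

theorem Gsum_pascal (θ : ℝ) (l : ℕ) (y : ℤ) :
    Gsum θ (l + 1) y = θ * Gsum θ (l + 1) (y - 1) + (1 - θ) * Gsum θ l y := by
  rcases lt_or_ge y 0 with hy | hy
  · rw [Gsum_neg θ _ hy, Gsum_neg θ _ (by omega : y - 1 < 0), Gsum_neg θ _ hy]
    ring
  obtain ⟨k, rfl⟩ := Int.eq_ofNat_of_zero_le hy
  induction k with
  | zero =>
    rw [Gsum_rec θ (l + 1) ((0 : ℕ) : ℤ), Gsum_rec θ l ((0 : ℕ) : ℤ),
      Gsum_neg θ _ (by norm_num : ((0 : ℕ) : ℤ) - 1 < 0), Gsum_neg θ _ (by norm_num : ((0 : ℕ) : ℤ) - 1 < 0),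
      NB_pascal θ (l + 1) ((0 : ℕ) : ℤ), NB_of_neg (by norm_num : ((0 : ℕ) : ℤ) - 1 < 0)]
    ring
  | succ k ih =>
    have e : ((k + 1 : ℕ) : ℤ) - 1 = (k : ℤ) := by push_cast; ring
    have hih := ih (by positivity)
    rw [Gsum_rec θ (l + 1) ((k + 1 : ℕ) : ℤ), Gsum_rec θ l ((k + 1 : ℕ) : ℤ),
      NB_pascal θ (l + 1) ((k + 1 : ℕ) : ℤ), e]
    have h2 := Gsum_rec θ (l + 1) (k : ℤ)
    linear_combination hih - θ * h2

/-- Renewal bound: a path of positions visits a fixed level a bounded expected number of times. -/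
theorem renewal_bound (h0 : 0 < θ) (h1 : θ < 1) (h : ℕ → ℤ)
    (hinc : ∀ l, h (l + 1) = h l ∨ h (l + 1) = h l + 1) (z : ℤ) (L : ℕ) :
    ∑ l ∈ range L, NB θ (l + 1) (z - h l) ≤ 2 / θ := by
  have h1θ : 0 < 1 - θ := by linarith
  have hstep : ∀ l : ℕ, Gsum θ (l + 1) (z - h (l + 1)) + θ * NB θ (l + 1) (z - h l) ≤ Gsum θ l (z - h l) := by
    intro l
    set y : ℤ := z - h l with hy
    have h2 : Gsum θ (l + 1) (z - h (l + 1)) ≤ Gsum θ (l + 1) y := by
      rcases hinc l with h3 | h3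
      · rw [h3]
      · have e : z - h (l + 1) = y - 1 := by rw [h3, hy]; ring
        rw [e, Gsum_rec θ (l + 1) y]
        linarith [NB_nonneg h0 h1 (l + 1 + 1) y]
    have h3 := Gsum_pascal θ l y
    have h4 := Gsum_rec θ (l + 1) y
    have h5 := NB_pascal θ (l + 1) y
    have h6 := NB_nonneg h0 h1 (l + 1 + 1) (y - 1)
    -- (1 - θ) (G l y - G (l+1) y) = θ NB (l+2) y
    have h7 : (1 - θ) * (Gsum θ l y - Gsum θ (l + 1) y) = θ * NB θ (l + 1 + 1) y := by
      have h8 : Gsum θ (l + 1) (y - 1) = Gsum θ (l + 1) y - NB θ (l + 1 + 1) y := by linarith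
      rw [h8] at h3
      linarith
    have h9 : (1 - θ) * (θ * NB θ (l + 1) y) ≤ θ * NB θ (l + 1 + 1) y := by
      have : (1 - θ) * NB θ (l + 1) y ≤ NB θ (l + 1 + 1) y := by
        have : 0 ≤ θ * NB θ (l + 1 + 1) (y - 1) := by positivity
        linarith
      nlinarith
    have h10 : θ * NB θ (l + 1) y ≤ Gsum θ l y - Gsum θ (l + 1) y := by
      rw [← h7] at h9
      exact le_of_mul_le_mul_left h9 h1θ
    linarith
  have htel : ∀ n : ℕ, Gsum θ n (z - h n) + θ * ∑ l ∈ range n, NB θ (l + 1) (z - h l) ≤ Gsum θ 0 (z - h 0) := by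
    intro n
    induction n with
    | zero => simp
    | succ n ih =>
      rw [sum_range_succ, mul_add]
      have := hstep n
      linarith
  have h2 := htel L
  have h3 : Gsum θ 0 (z - h 0) ≤ 1 := NB_sum_le h0 h1 _ _
  have h4 : 0 ≤ Gsum θ L (z - h L) := sum_nonneg (fun j _ => NB_nonneg h0 h1 _ _)
  have h5 : θ * ∑ l ∈ range L, NB θ (l + 1) (z - h l) ≤ 1 := by linarith
  rw [le_div_iff₀ h0]
  nlinarith

end renewal

end Vale.Agent.Lib.P321
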