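import Vale.Agent.Lib.P321.Token
import Vale.Agent.Lib.P321.NB

/-!
P321: the chain expansion of the count of a string with flipped periods.
-/

namespace Vale.Agent.Lib.P321

open Finset

/-- A block family: `β r z`. -/
abbrev Blk := ℕ → ℤ → ℝ

/-- The transfer operator attached to a site `d`, block family `β`, end position `X`. -/
noncomputable def Tk (θ : ℝ) (β : Blk) (d X : ℤ) (g : Word → ℝ) (t : Word) : ℝ :=
  ((splits t).map fun s => g s.1 * nu θ s * β (s.2.2.2.length + 1) (X - d - H s.2.2.2)).sum

/-- The chain expansion with start `s`, sites listed in decreasing order. -/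
noncomputable def UU (θ : ℝ) (s : ℤ) : List ℤ → ℤ → Word → ℝ
  | [], X, t => NB θ (t.length + 1) (X - s - H t)
  | d :: ds, X, t => UU θ s ds X t + Tk θ (NB θ) d X (UU θ s ds (d - 1)) t

/-- Signed difference of the counts when one period is flipped. -/
theorem cnt_flip (u v t : Word) :
    (cnt (u ++ true :: false :: v) t : ℝ) - cnt (u ++ false :: true :: v) t =
      ((splits t).map fun s => (cnt u s.1 : ℝ) * sg s.2.1 s.2.2.1 * cnt v s.2.2.2).sum := by
  induction u generalizing t with
  | nil =>
    simp only [List.nil_append]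
    match t with
    | [] => simp
    | [a] =>
      cases a <;> simp [cnt_cons_cons]
    | a :: b :: l =>
      rw [splits_cons_cons]
      simp only [List.map_cons, List.sum_cons, List.map_map]
      have h0 : ∀ x : List Spl, (x.map ((fun s : Spl => (cnt [] s.1 : ℝ) * sg s.2.1 s.2.2.1 * cnt v s.2.2.2) ∘
          fun s => ((a :: s.1, s.2) : Spl))).sum = 0 := by
        intro x
        induction x with
        | nil => simp
        | cons y x ih => simp [ih]
      rw [h0, add_zero]
      cases a <;> cases b <;> simp [cnt_cons_cons, sg] <;> ring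
  | cons c u ih =>
    simp only [List.cons_append]
    match t with
    | [] => simp
    | [a] =>
      simp only [cnt_cons_cons, splits_single, List.map_nil, List.sum_nil]
      have := ih [a]
      simp only [splits_single, List.map_nil, List.sum_nil] at this
      have h2 := ih []
      simp only [splits_nil, List.map_nil, List.sum_nil] at h2
      push_cast
      split_ifs <;> simp_all
    | a :: b :: l =>
      rw [splits_cons_cons]
      simp only [cnt_cons_cons]
      have h1 := ih (a :: b :: l)
      have h2 := ih (b :: l)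
      rw [splits_cons_cons] at h1
      simp only [List.map_cons, List.sum_cons, List.map_map] at h1 ⊢
      simp only [Function.comp_def, cnt_cons_cons, cnt_right_nil, Nat.cast_one] at h1 ⊢
      push_cast
      by_cases h : c = a
      · simp only [if_pos h]
        have h3 : ((splits (b :: l)).map fun x : Spl =>
              (((cnt u (a :: x.1) : ℝ) + (cnt u x.1 : ℝ)) * sg x.2.1 x.2.2.1 * cnt v x.2.2.2)).sum
            = ((splits (b :: l)).map fun x : Spl => (cnt u (a :: x.1) : ℝ) * sg x.2.1 x.2.2.1 * cnt v x.2.2.2).sum +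
              ((splits (b :: l)).map fun x : Spl => (cnt u x.1 : ℝ) * sg x.2.1 x.2.2.1 * cnt v x.2.2.2).sum := by
          rw [← List.sum_map_add]
          apply congrArg List.sum
          apply List.map_congr_left
          intro x _
          ring
        rw [h3, ← h2]
        linarith
      · simp only [if_neg h, add_zero]
        linarith

theorem NB_of_cnt_base (θ : ℝ) (s : ℤ) (Z : ℕ) (t : Word) :
    (cnt (blockStr ∅ s Z) t : ℝ) * (1 - θ) ^ (t.length + 1) * θ ^ ((Z : ℤ) - (H t : ℤ)) =
      NB θ (t.length + 1) ((Z : ℤ) - (H t : ℤ)) := by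
  rw [cnt_base]
  split_ifs with h
  · have e : (Z : ℤ) - (H t : ℤ) = ((Z - H t : ℕ) : ℤ) := by omega
    rw [e, NB_natCast, zpow_natCast]
  · rw [NB_of_neg (by omega)]
    simp

/-- Tk vanishes before the site. -/
theorem Tk_of_lt (θ : ℝ) {β : Blk} (hβ : ∀ r z, z < 0 → β r z = 0) {d X : ℤ} (h : X < d)
    (g : Word → ℝ) (t : Word) : Tk θ β d X g t = 0 := by
  simp only [Tk]
  apply List.sum_eq_zero
  intro x hx
  simp only [List.mem_map] at hx
  obtain ⟨s, _, rfl⟩ := hx
  rw [hβ _ _ (by omega)]
  ring

/-- `UU` only sees the sites up to `X`. -/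
theorem UU_cons_of_lt (θ : ℝ) (s d : ℤ) (ds : List ℤ) {X : ℤ} (h : X < d) (t : Word) :
    UU θ s (d :: ds) X t = UU θ s ds X t := by
  simp only [UU]
  rw [Tk_of_lt θ (fun r z hz => NB_of_neg hz) h]
  ring

/-- Chain expansion of the count. -/
theorem chain_eq (θ : ℝ) (hθ : θ ≠ 0) (s : ℤ) (L : List ℤ) (hL : L.Pairwise (· > ·)) (X : ℤ)
    (hX : ∀ d ∈ L, s < d ∧ d ≤ X) (hsX : s ≤ X) (t : Word) :
    (cnt (blockStr L.toFinset s (X - s).toNat) t : ℝ) * (1 - θ) ^ (t.length + 1) *
        θ ^ (X - s - (H t : ℤ)) = UU θ s L X t := by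
  induction L generalizing X t with
  | nil =>
    simp only [List.toFinset_nil, UU]
    have := NB_of_cnt_base θ s (X - s).toNat t
    have e : (((X - s).toNat : ℕ) : ℤ) = X - s := by omega
    rw [e] at this
    rw [this]
  | cons d ds ih =>
    have hd := hX d (by simp)
    have hP := List.pairwise_cons.mp hL
    have hds : ∀ e ∈ ds, s < e ∧ e ≤ d - 1 := by
      intro e he
      have h1 := hX e (by simp [he])
      have h2 := hP.1 e he
      exact ⟨h1.1, by omega⟩
    have hds' : ∀ e ∈ ds, s < e ∧ e ≤ X := by
      intro e he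
      exact hX e (by simp [he])
    have h1 := ih hP.2 X hds' hsX t
    simp only [UU]
    rw [← h1]
    obtain ⟨Z₁, hZ₁⟩ : ∃ Z₁ : ℕ, (Z₁ : ℤ) = d - 1 - s := ⟨(d - 1 - s).toNat, by omega⟩
    obtain ⟨Z₂, hZ₂⟩ : ∃ Z₂ : ℕ, (Z₂ : ℤ) = X - d := ⟨(X - d).toNat, by omega⟩
    have eT : (X - s).toNat = Z₁ + (1 + Z₂) := by omega
    have hsplit : ∀ D : Finset ℤ, blockStr D s (X - s).toNat =
        blockStr D s Z₁ ++ block (decide (d ∈ D)) ++ blockStr D d Z₂ := by
      intro D
      rw [eT, blockStr_add, blockStr_add]
      have e1 : s + (Z₁ : ℤ) + 1 = d := by omega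
      have e2 : s + (Z₁ : ℤ) = d - 1 := by omega
      simp only [blockStr, e1, e2, List.append_nil, List.append_assoc]
      have e3 : d - 1 + ((1 : ℕ) : ℤ) = d := by push_cast; ring
      have e4 : d - 1 + 1 = d := by ring
      simp only [e3, e4]
    have hnotin : d ∉ ds.toFinset := by
      intro h
      have := hP.1 d (by simpa using h)
      omega
    have hA : blockStr (d :: ds).toFinset s Z₁ = blockStr ds.toFinset s Z₁ := by
      apply blockStr_congr
      intro i hi hi'
      have : i ≠ d := by omega
      simp [this]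
    have hB : blockStr ds.toFinset s Z₁ = blockStr ds.toFinset s Z₁ := rfl
    have hC : blockStr (d :: ds).toFinset d Z₂ = blockStr ∅ d Z₂ := by
      apply blockStr_congr
      intro i hi hi'
      have h3 : i ≠ d := by omega
      simp only [List.toFinset_cons, mem_insert, h3, false_or, List.mem_toFinset,
        notMem_empty, iff_false]
      intro h
      have := hP.1 i h
      omega
    have hC' : blockStr ds.toFinset d Z₂ = blockStr ∅ d Z₂ := by
      apply blockStr_congr
      intro i hi hi'
      simp only [List.mem_toFinset, notMem_empty, iff_false]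
      intro h
      have := hP.1 i h
      omega
    rw [hsplit (d :: ds).toFinset, hsplit ds.toFinset, hA, hC, hC']
    have hbT : block (decide (d ∈ (d :: ds).toFinset)) = [true, false] := by simp [block]
    have hbF : block (decide (d ∈ ds.toFinset)) = [false, true] := by simp [block, hnotin]
    rw [hbT, hbF]
    set u := blockStr ds.toFinset s Z₁ with hu
    set v := blockStr ∅ d Z₂ with hv
    have hflip := cnt_flip u v t
    simp only [List.append_assoc, List.cons_append, List.nil_append]
    have hE : (cnt (u ++ true :: false :: v) t : ℝ) =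
        cnt (u ++ false :: true :: v) t +
          ((splits t).map fun s => (cnt u s.1 : ℝ) * sg s.2.1 s.2.2.1 * cnt v s.2.2.2).sum := by
      linarith
    rw [hE, add_mul, add_mul]
    congr 1
    -- token by token
    simp only [Tk]
    rw [← List.sum_map_mul_right, ← List.sum_map_mul_right]
    apply congrArg List.sum
    apply List.map_congr_left
    rintro ⟨w, a, b, w'⟩ hs
    have hj := mem_splits.mp hs
    subst hj
    have h2 := ih hP.2 (d - 1) hds (by omega) w
    have e5 : (d - 1 - s).toNat = Z₁ := by omega
    rw [e5] at h2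
    simp only []
    rw [← h2]
    have h3 := NB_of_cnt_base θ d Z₂ w'
    rw [hZ₂] at h3
    rw [← h3]
    simp only [joinS, nu, List.length_append, List.length_cons]
    have hexp : (X - s - (H (w ++ a :: b :: w') : ℤ)) =
        (d - 1 - s - (H w : ℤ)) + (X - d - (H w' : ℤ)) +
          ((1 : ℤ) + (H w : ℤ) + (H w' : ℤ) - (H (w ++ a :: b :: w') : ℤ)) := by ring
    rw [hexp, zpow_add₀ hθ, zpow_add₀ hθ]
    ring

end Vale.Agent.Lib.P321
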