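import Vale.Agent.Lib.P321.Levels

/-!
P321: the reversal symmetry of the trace counts.
`rc w` is the reversed complement of `w`: it maps the block `01` to `01` and `10` to `10`, reversing the order of the
blocks. Embeddings of `t` in `x` correspond to embeddings of `rc t` in `rc x`.
-/

namespace Vale.Agent.Lib.P321

open Finset

/-- Reversed complement. -/
def rc (w : Word) : Word := (w.map not).reverse

theorem rc_nil : rc [] = [] := rfl

theorem rc_cons (a : Bool) (w : Word) : rc (a :: w) = rc w ++ [!a] := by
  simp [rc]

theorem rc_append (u v : Word) : rc (u ++ v) = rc v ++ rc u := by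
  simp [rc]

theorem rc_rc (w : Word) : rc (rc w) = w := by
  simp [rc, Function.comp_def]

theorem length_rc (w : Word) : (rc w).length = w.length := by
  simp [rc]

theorem H_append_two (l : Word) (b a : Bool) : H (l ++ [b, a]) = H (l ++ [b]) + pc b a := by
  induction l with
  | nil =>
    simp only [List.nil_append]
    rw [H_cons_cons]
    simp [H]
    omega
  | cons c l ih =>
    cases l with
    | nil =>
      simp only [List.cons_append, List.nil_append] at ih ⊢
      rw [H_cons_cons c b [a], H_cons_cons c b [], ih]
      omega
    | cons d l =>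
      simp only [List.cons_append] at ih ⊢
      rw [H_cons_cons, H_cons_cons, ih]
      omega

theorem pc_not (a b : Bool) : pc (!b) (!a) = pc a b := by
  cases a <;> cases b <;> rfl

theorem H_rc (w : Word) : H (rc w) = H w := by
  induction w with
  | nil => rfl
  | cons a l ih =>
    cases l with
    | nil => rfl
    | cons b l =>
      have e1 : rc (a :: b :: l) = rc l ++ [!b, !a] := by
        simp [rc]
      have e2 : rc (b :: l) = rc l ++ [!b] := rc_cons b l
      rw [e1, H_append_two, ← e2, ih, H_cons_cons, pc_not]
      omega

theorem cnt_append_single (x t : Word) (c a : Bool) :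
    cnt (x ++ [c]) (t ++ [a]) = cnt x (t ++ [a]) + if c = a then cnt x t else 0 := by
  induction x generalizing t with
  | nil =>
    cases t with
    | nil =>
      simp only [List.nil_append, cnt_cons_cons]
    | cons b t =>
      have h0 : cnt [] (t ++ [a]) = 0 := by
        cases t <;> rfl
      simp only [List.nil_append, List.cons_append, cnt_cons_cons, h0]
      simp
  | cons d x ih =>
    cases t with
    | nil =>
      simp only [List.cons_append, List.nil_append, cnt_cons_cons]
      have := ih []
      simp only [List.nil_append] at this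
      rw [this]
      simp only [cnt_right_nil]
      omega
    | cons b t =>
      have h1 := ih (b :: t)
      simp only [List.cons_append] at h1
      simp only [List.cons_append, cnt_cons_cons]
      rw [h1]
      by_cases h : d = b
      · rw [if_pos h, if_pos h, ih t]
        split_ifs <;> omega
      · rw [if_neg h, if_neg h]
        split_ifs <;> omega

theorem cnt_reverse (x t : Word) : cnt x.reverse t.reverse = cnt x t := by
  induction x generalizing t with
  | nil =>
    cases t with
    | nil => rfl
    | cons a t =>
      have : ((a :: t).reverse) ≠ [] := by simp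
      simp only [List.reverse_nil]
      cases h : (a :: t).reverse with
      | nil => exact absurd h this
      | cons b l => rfl
  | cons c x ih =>
    cases t with
    | nil =>
      simp
    | cons a t =>
      have h1 := ih (a :: t)
      simp only [List.reverse_cons] at h1 ⊢
      rw [cnt_append_single, h1, ih t, cnt_cons_cons]

theorem cnt_map_not (x t : Word) : cnt (x.map not) (t.map not) = cnt x t := by
  induction x generalizing t with
  | nil =>
    cases t with
    | nil => rfl
    | cons a t => rfl
  | cons c x ih =>
    cases t with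
    | nil =>
      simp
    | cons a t =>
      have h1 := ih (a :: t)
      simp only [List.map_cons] at h1
      simp only [List.map_cons, cnt_cons_cons]
      rw [h1, ih t]
      cases c <;> cases a <;> simp

theorem cnt_rc (x t : Word) : cnt (rc x) (rc t) = cnt x t := by
  unfold rc
  rw [cnt_reverse, cnt_map_not]

theorem rc_block (b : Bool) : rc (block b) = block b := by
  cases b <;> rfl

theorem blockStr_shift {D D' : Finset ℤ} {s s' : ℤ} {n : ℕ}
    (h : ∀ j : ℕ, j < n → ((s + 1 + j) ∈ D ↔ (s' + 1 + j) ∈ D')) :
    blockStr D s n = blockStr D' s' n := by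
  induction n generalizing s s' with
  | zero => rfl
  | succ n ih =>
    simp only [blockStr]
    have h1 : (s + 1 ∈ D ↔ s' + 1 ∈ D') := by
      simpa using h 0 (by omega)
    have h2 : blockStr D (s + 1) n = blockStr D' (s' + 1) n := by
      apply ih
      intro j hj
      have := h (j + 1) (by omega)
      push_cast at this
      have e1 : s + 1 + (j + 1 : ℤ) = s + 1 + 1 + j := by ring
      have e2 : s' + 1 + (j + 1 : ℤ) = s' + 1 + 1 + j := by ring
      rw [e1, e2] at this
      exact this
    rw [h2]
    simp [h1]

theorem mem_image_reflect (D : Finset ℤ) (c x : ℤ) :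
    x ∈ D.image (fun d => c - d) ↔ c - x ∈ D := by
  simp only [mem_image]
  constructor
  · rintro ⟨d, hd, rfl⟩
    have : c - (c - d) = d := by ring
    rwa [this]
  · intro h
    exact ⟨c - x, h, by ring⟩

theorem rc_blockStr (D : Finset ℤ) (s : ℤ) (n : ℕ) :
    rc (blockStr D s n) = blockStr (D.image fun d => 2 * s + n + 1 - d) s n := by
  induction n generalizing s with
  | zero => rfl
  | succ n ih =>
    have e0 : blockStr D s (n + 1) = blockStr D s n ++ blockStr D (s + n) 1 := blockStr_add D s n 1
    rw [e0, rc_append]
    have e1 : blockStr D (s + n) 1 = block (decide ((s + n + 1) ∈ D)) := by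
      simp [blockStr]
    rw [e1, rc_block, ih s]
    simp only [blockStr]
    have e2 : decide ((s + 1) ∈ D.image fun d => 2 * s + ((n + 1 : ℕ) : ℤ) + 1 - d) = decide ((s + n + 1) ∈ D) := by
      apply decide_eq_decide.mpr
      rw [mem_image_reflect]
      have : 2 * s + ((n + 1 : ℕ) : ℤ) + 1 - (s + 1) = s + n + 1 := by push_cast; ring
      rw [this]
    rw [e2]
    congr 1
    apply blockStr_shift
    intro j _
    rw [mem_image_reflect, mem_image_reflect]
    have e3 : 2 * s + (n : ℤ) + 1 - (s + 1 + j) = 2 * s + ((n + 1 : ℕ) : ℤ) + 1 - (s + 1 + 1 + j) := by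
      push_cast
      ring
    rw [e3]

theorem piT_rc (q : ℝ) (w : Word) : piT q (rc w) = piT q w := by
  unfold piT
  rw [length_rc, H_rc]

theorem nsq_rc (q : ℝ) (B : ℕ) (f : Word → ℝ) : nsq q B (fun t => f (rc t)) = nsq q B f := by
  unfold nsq
  apply sum_nbij' rc rc
  · intro w hw
    rw [mem_W] at hw ⊢
    rwa [length_rc]
  · intro w hw
    rw [mem_W] at hw ⊢
    rwa [length_rc]
  · intro w _
    exact rc_rc w
  · intro w _
    exact rc_rc w
  · intro w _
    rw [piT_rc]

/-- The reflected site list. -/
def reflectL (s e : ℤ) (L : List ℤ) : List ℤ := (L.map fun d => s + e + 1 - d).reverse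

theorem reflectL_pairwise (s e : ℤ) {L : List ℤ} (h : L.Pairwise (· > ·)) :
    (reflectL s e L).Pairwise (· > ·) := by
  unfold reflectL
  rw [List.pairwise_reverse, List.pairwise_map]
  exact h.imp (fun hab => by omega)

theorem reflectL_toFinset (s e : ℤ) (L : List ℤ) :
    (reflectL s e L).toFinset = L.toFinset.image fun d => s + e + 1 - d := by
  ext x
  simp [reflectL]

/-- The reflection of the expansion from the start of the string (uses `UU_eq_VV`, `chain_eq`, `cnt_rc`, `rc_blockStr`, `H_rc`). -/
theorem VV_reflect (θ : ℝ) (hθ : θ ≠ 0) (s e : ℤ) (L : List ℤ) (hL : L.Pairwise (· > ·))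
    (hs : ∀ d ∈ L, s < d ∧ d ≤ e) (hse : s ≤ e) (t : Word) :
    VV θ (F0 θ s) L e (rc t) = VV θ (F0 θ s) (reflectL s e L) e t := by
  rw [← UU_eq_VV, ← UU_eq_VV]
  rw [← chain_eq θ hθ s L hL e hs hse (rc t)]
  have hs' : ∀ d ∈ reflectL s e L, s < d ∧ d ≤ e := by
    intro d hd
    simp only [reflectL, List.mem_reverse, List.mem_map] at hd
    obtain ⟨d', hd', rfl⟩ := hd
    have := hs d' hd'
    omega
  rw [← chain_eq θ hθ s (reflectL s e L) (reflectL_pairwise s e hL) e hs' hse t]
  rw [length_rc, H_rc]
  congr 2
  congr 1
  have key : cnt (blockStr L.toFinset s (e - s).toNat) (rc t) =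
      cnt (rc (blockStr L.toFinset s (e - s).toNat)) t := by
    conv_rhs => rw [← rc_rc t]
    rw [cnt_rc]
  rw [key, rc_blockStr, reflectL_toFinset]
  congr 2
  apply Finset.image_congr
  intro d _
  have : (((e - s).toNat : ℕ) : ℤ) = e - s := by omega
  simp only [this]
  ring

end Vale.Agent.Lib.P321
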