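import Vale.Agent.Lib.P321.Levels

/-!
P321: the telescoping over the slots. `U σ` is a function on words attached to a configuration `σ` of slots
(`σ j ∈ {0,1}` says whether slot `j` is displaced). All second differences are small, hence the difference
of two antipodal configurations is its first order part up to a small error.

Proof of `tele_abstract`: let `σ c` agree with `sx` on slots `< c` and with `sy` on slots `≥ c`. Then
`U sx - U sy = ∑_{c<K} (U (σ (c+1)) - U (σ c)) = ∑_{c<K} sign c * δ_c U (σ c)`, `δ_c U ς = U (ς[c:=1]) - U (ς[c:=0])`.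
Next let `τ c i` agree with `σ c` on slots `< i` and be `0` on slots `≥ i`. Then `δ_c U (σ c) - δ_c U 0 = ∑_{i<K} (δ_c U (τ c (i+1)) - δ_c U (τ c i))`;
the term vanishes if `i = c` or `σ c i = 0`, and otherwise it is a second difference at `(min i c, max i c)` of the configuration `τ c i`.
So the norm of the term is at most `V`, and `nsq (∑_{i<n} f i) ≤ n * ∑ nsq (f i)` gives `K^2 * V` for `E_c`, then `K^4 * V` in total.
-/

namespace Vale.Agent.Lib.P321

open Finset

/-- Updating a configuration. -/
def upS (σ : ℕ → ℤ) (c : ℕ) (τ : ℤ) : ℕ → ℤ := Function.update σ c τ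

theorem nsq_sum_le {q : ℝ} (h0 : 0 < q) (h1 : q < 1) (B : ℕ) {ι : Type*} (I : Finset ι) (f : ι → Word → ℝ) :
    nsq q B (fun t => ∑ i ∈ I, f i t) ≤ I.card * ∑ i ∈ I, nsq q B (f i) := by
  unfold nsq
  have e : (I.card : ℝ) * ∑ i ∈ I, ∑ w ∈ W B, piT q w * f i w ^ 2 =
      ∑ w ∈ W B, piT q w * ((I.card : ℝ) * ∑ i ∈ I, f i w ^ 2) := by
    rw [sum_comm, mul_sum]
    apply sum_congr rfl
    intro w _
    rw [mul_left_comm, ← mul_sum]
  rw [e]
  apply sum_le_sum
  intro w _
  exact mul_le_mul_of_nonneg_left sq_sum_le_card_mul_sum_sq (piT_pos h0 h1 w).le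

theorem nsq_zero' {q : ℝ} {B : ℕ} {f : Word → ℝ} (h : ∀ t, f t = 0) : nsq q B f = 0 := by
  unfold nsq
  apply sum_eq_zero
  intro w _
  rw [h w]
  simp

theorem nsq_sign {q : ℝ} {B : ℕ} {s : ℝ} (hs : s ^ 2 = 1) (f : Word → ℝ) :
    nsq q B (fun t => s * f t) = nsq q B f := by
  unfold nsq
  apply sum_congr rfl
  intro w _
  rw [mul_pow, hs, one_mul]

theorem upS_comm (ς : ℕ → ℤ) {i c : ℕ} (h : i ≠ c) (a b : ℤ) :
    upS (upS ς i a) c b = upS (upS ς c b) i a := by
  unfold upS
  exact Function.update_comm h a b ς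

theorem tele_abstract {q : ℝ} (h0 : 0 < q) (h1 : q < 1) (B K : ℕ) (U : (ℕ → ℤ) → Word → ℝ) (V : ℝ)
    (hV : 0 ≤ V)
    (hcongr : ∀ σ σ' : ℕ → ℤ, (∀ j < K, σ j = σ' j) → U σ = U σ')
    (h2 : ∀ (ς : ℕ → ℤ) (c c' : ℕ), (∀ j, ς j = 0 ∨ ς j = 1) → c < c' → c' < K →
      nsq q B (fun t => (U (upS (upS ς c 1) c' 1) t - U (upS (upS ς c 1) c' 0) t) -
        (U (upS (upS ς c 0) c' 1) t - U (upS (upS ς c 0) c' 0) t)) ≤ V)
    (sx sy : ℕ → ℤ) (sign : ℕ → ℝ) (hx : ∀ j, sx j = 0 ∨ sx j = 1) (hy : ∀ j, sy j = 0 ∨ sy j = 1)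
    (hxy : ∀ c < K, (sx c = 1 ∧ sy c = 0 ∧ sign c = 1) ∨ (sx c = 0 ∧ sy c = 1 ∧ sign c = -1)) :
    nsq q B (fun t => U sx t - U sy t -
      ∑ c ∈ range K, sign c * (U (upS (fun _ => 0) c 1) t - U (upS (fun _ => 0) c 0) t)) ≤ (K : ℝ) ^ 4 * V := by
  classical
  -- interpolating configurations
  set σ : ℕ → ℕ → ℤ := fun c j => if j < c then sx j else sy j with hσ
  set τ : ℕ → ℕ → ℕ → ℤ := fun c i j => if j < i then σ c j else 0 with hτ
  have hσ01 : ∀ c j, σ c j = 0 ∨ σ c j = 1 := by
    intro c j
    simp only [hσ]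
    split_ifs
    · exact hx j
    · exact hy j
  have hτ01 : ∀ c i j, τ c i j = 0 ∨ τ c i j = 1 := by
    intro c i j
    simp only [hτ]
    split_ifs
    · exact hσ01 c j
    · exact Or.inl rfl
  -- the first difference
  set δ : ℕ → (ℕ → ℤ) → Word → ℝ := fun c ς t => U (upS ς c 1) t - U (upS ς c 0) t with hδ
  -- step of `σ`
  have hstep : ∀ c ∈ range K, ∀ t, U (σ (c + 1)) t - U (σ c) t = sign c * δ c (σ c) t := by
    intro c hc t
    have hcK := mem_range.mp hc
    have e1 : ∀ a : ℤ, a = sx c → σ (c + 1) = upS (σ c) c a := by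
      intro a ha
      funext j
      unfold upS
      by_cases hj : j = c
      · subst hj
        simp [hσ, ha]
      · rw [Function.update_of_ne hj]
        simp only [hσ]
        by_cases hjc : j < c
        · rw [if_pos hjc, if_pos (by omega)]
        · rw [if_neg hjc, if_neg (by omega)]
    have e2 : ∀ a : ℤ, a = sy c → σ c = upS (σ c) c a := by
      intro a ha
      funext j
      unfold upS
      by_cases hj : j = c
      · subst hj
        simp [hσ, ha]
      · rw [Function.update_of_ne hj]
    rcases hxy c hcK with ⟨a1, a2, a3⟩ | ⟨a1, a2, a3⟩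
    · rw [e1 1 a1.symm]
      conv_lhs => rw [e2 0 a2.symm]
      simp only [hδ, a3, one_mul]
      rw [← e2 0 a2.symm]
    · rw [e1 0 a1.symm]
      conv_lhs => rw [e2 1 a2.symm]
      simp only [hδ, a3]
      rw [← e2 1 a2.symm]
      ring
  have hσK : U (σ K) = U sx := by
    apply hcongr
    intro j hj
    simp [hσ, hj]
  have hσ0 : U (σ 0) = U sy := by
    apply hcongr
    intro j _
    simp [hσ]
  have htele : ∀ t, U sx t - U sy t = ∑ c ∈ range K, sign c * δ c (σ c) t := by
    intro t
    rw [← sum_congr rfl (fun c hc => hstep c hc t), sum_range_sub (fun c => U (σ c) t)]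
    rw [hσK, hσ0]
  -- the error functions
  set E : ℕ → Word → ℝ := fun c t => δ c (σ c) t - δ c (fun _ => 0) t with hE
  have hmain : ∀ t, U sx t - U sy t -
      ∑ c ∈ range K, sign c * (U (upS (fun _ => 0) c 1) t - U (upS (fun _ => 0) c 0) t) =
      ∑ c ∈ range K, sign c * E c t := by
    intro t
    rw [htele t, ← sum_sub_distrib]
    apply sum_congr rfl
    intro c _
    simp only [hE, hδ]
    ring
  have hτ0 : ∀ c, τ c 0 = fun _ => 0 := by
    intro c
    funext j
    simp [hτ]
  have hτK : ∀ c t, δ c (τ c K) t = δ c (σ c) t := by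
    intro c t
    simp only [hδ]
    have h1' : U (upS (τ c K) c 1) = U (upS (σ c) c 1) := by
      apply hcongr
      intro j hj
      unfold upS
      by_cases hjc : j = c
      · subst hjc; simp
      · rw [Function.update_of_ne hjc, Function.update_of_ne hjc]
        simp [hτ, hj]
    have h2' : U (upS (τ c K) c 0) = U (upS (σ c) c 0) := by
      apply hcongr
      intro j hj
      unfold upS
      by_cases hjc : j = c
      · subst hjc; simp
      · rw [Function.update_of_ne hjc, Function.update_of_ne hjc]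
        simp [hτ, hj]
    rw [h1', h2']
  -- the terms
  set T : ℕ → ℕ → Word → ℝ := fun c i t => δ c (τ c (i + 1)) t - δ c (τ c i) t with hT
  have hEsum : ∀ c t, E c t = ∑ i ∈ range K, T c i t := by
    intro c t
    simp only [hT]
    rw [sum_range_sub (fun i => δ c (τ c i) t)]
    simp only [hE]
    rw [hτK c t, hτ0 c]
  have hτstep : ∀ c i, τ c (i + 1) = upS (τ c i) i (σ c i) := by
    intro c i
    funext j
    unfold upS
    by_cases hj : j = i
    · subst hj
      simp [hτ]
    · rw [Function.update_of_ne hj]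
      simp only [hτ]
      by_cases hji : j < i
      · rw [if_pos hji, if_pos (by omega)]
      · rw [if_neg hji, if_neg (by omega)]
  have hτself : ∀ c i, τ c i = upS (τ c i) i 0 := by
    intro c i
    funext j
    unfold upS
    by_cases hj : j = i
    · subst hj
      simp [hτ]
    · rw [Function.update_of_ne hj]
  have hTbound : ∀ c ∈ range K, ∀ i ∈ range K, nsq q B (T c i) ≤ V := by
    intro c hc i hi
    have hcK := mem_range.mp hc
    have hiK := mem_range.mp hi
    by_cases hic : i = c
    · -- same slot, the update at `c` erases the change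
      subst hic
      have : ∀ t, T i i t = 0 := by
        intro t
        simp only [hT, hδ]
        have e1 : ∀ a : ℤ, upS (τ i (i + 1)) i a = upS (τ i i) i a := by
          intro a
          rw [hτstep]
          unfold upS
          simp
        rw [e1, e1]
        ring
      rw [nsq_zero' this]
      exact hV
    · rcases hσ01 c i with h | h
      · -- no change
        have : ∀ t, T c i t = 0 := by
          intro t
          simp only [hT]
          rw [hτstep, h, ← hτself]
          ring
        rw [nsq_zero' this]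
        exact hV
      · -- a second difference
        have hterm : ∀ t, T c i t =
            (U (upS (upS (τ c i) i 1) c 1) t - U (upS (upS (τ c i) i 1) c 0) t) -
            (U (upS (upS (τ c i) i 0) c 1) t - U (upS (upS (τ c i) i 0) c 0) t) := by
          intro t
          simp only [hT, hδ]
          rw [hτstep, h, ← hτself c i]
        rcases lt_or_gt_of_ne hic with hlt | hlt
        · rw [nsq_congr hterm]
          exact h2 (τ c i) i c (hτ01 c i) hlt hcK
        · have hterm' : ∀ t, T c i t =
              (U (upS (upS (τ c i) c 1) i 1) t - U (upS (upS (τ c i) c 1) i 0) t) -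
              (U (upS (upS (τ c i) c 0) i 1) t - U (upS (upS (τ c i) c 0) i 0) t) := by
            intro t
            rw [hterm t]
            rw [upS_comm (τ c i) hic 1 1, upS_comm (τ c i) hic 1 0, upS_comm (τ c i) hic 0 1,
              upS_comm (τ c i) hic 0 0]
            ring
          rw [nsq_congr hterm']
          exact h2 (τ c i) c i (hτ01 c i) hlt hiK
  have hK0 : (0 : ℝ) ≤ K := Nat.cast_nonneg K
  have hEbound : ∀ c ∈ range K, nsq q B (E c) ≤ (K : ℝ) ^ 2 * V := by
    intro c hc
    have e : E c = fun t => ∑ i ∈ range K, T c i t := funext (hEsum c)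
    rw [e]
    refine (nsq_sum_le h0 h1 B (range K) (T c)).trans ?_
    rw [card_range]
    have : ∑ i ∈ range K, nsq q B (T c i) ≤ K * V := by
      calc ∑ i ∈ range K, nsq q B (T c i) ≤ ∑ _i ∈ range K, V := sum_le_sum (hTbound c hc)
        _ = K * V := by simp
    calc (K : ℝ) * ∑ i ∈ range K, nsq q B (T c i) ≤ (K : ℝ) * (K * V) :=
          mul_le_mul_of_nonneg_left this hK0
      _ = (K : ℝ) ^ 2 * V := by ring
  rw [nsq_congr hmain]
  refine (nsq_sum_le h0 h1 B (range K) (fun c t => sign c * E c t)).trans ?_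
  rw [card_range]
  have hs : ∀ c ∈ range K, nsq q B (fun t => sign c * E c t) ≤ (K : ℝ) ^ 2 * V := by
    intro c hc
    have hcK := mem_range.mp hc
    have hss : sign c ^ 2 = 1 := by
      rcases hxy c hcK with ⟨_, _, a3⟩ | ⟨_, _, a3⟩ <;> rw [a3] <;> norm_num
    rw [nsq_sign hss]
    exact hEbound c hc
  have : ∑ c ∈ range K, nsq q B (fun t => sign c * E c t) ≤ K * ((K : ℝ) ^ 2 * V) := by
    calc ∑ c ∈ range K, nsq q B (fun t => sign c * E c t) ≤ ∑ _c ∈ range K, ((K : ℝ) ^ 2 * V) :=
          sum_le_sum hs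
      _ = K * ((K : ℝ) ^ 2 * V) := by simp
  calc (K : ℝ) * ∑ c ∈ range K, nsq q B (fun t => sign c * E c t) ≤ (K : ℝ) * (K * ((K : ℝ) ^ 2 * V)) :=
        mul_le_mul_of_nonneg_left this hK0
    _ = (K : ℝ) ^ 4 * V := by ring

end Vale.Agent.Lib.P321
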