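import Vale.Agent.Lib.P321.Moment
import Vale.Agent.Lib.P321.Tele
import Vale.Agent.Lib.P321.Reflect

/-!
P321: lists of sites given by position functions.
-/

namespace Vale.Agent.Lib.P321

open Finset

/-- The list `pos j, pos (j-1), ..., pos (j-n+1)`. -/
def apL (pos : ℤ → ℤ) : ℤ → ℕ → List ℤ
  | _, 0 => []
  | j, n + 1 => pos j :: apL pos (j - 1) n

theorem apL_zero (pos : ℤ → ℤ) (j : ℤ) : apL pos j 0 = [] := rfl

theorem apL_succ (pos : ℤ → ℤ) (j : ℤ) (n : ℕ) : apL pos j (n + 1) = pos j :: apL pos (j - 1) n := rfl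

@[simp] theorem length_apL (pos : ℤ → ℤ) (j : ℤ) (n : ℕ) : (apL pos j n).length = n := by
  induction n generalizing j with
  | zero => rfl
  | succ n ih => simp [apL_succ, ih]

theorem mem_apL {pos : ℤ → ℤ} {j : ℤ} {n : ℕ} {r : ℤ} :
    r ∈ apL pos j n ↔ ∃ j', j - n < j' ∧ j' ≤ j ∧ r = pos j' := by
  induction n generalizing j with
  | zero =>
    simp only [apL_zero, List.not_mem_nil, false_iff, not_exists, not_and]
    intro j' h1 h2
    push_cast at h1
    omega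
  | succ n ih =>
    rw [apL_succ, List.mem_cons, ih]
    constructor
    · rintro (rfl | ⟨j', h1, h2, rfl⟩)
      · exact ⟨j, by push_cast; omega, le_refl _, rfl⟩
      · exact ⟨j', by push_cast; omega, by omega, rfl⟩
    · rintro ⟨j', h1, h2, rfl⟩
      by_cases h : j' = j
      · left
        rw [h]
      · right
        exact ⟨j', by push_cast at h1; omega, by omega, rfl⟩

/-- Splitting. -/
theorem apL_split (pos : ℤ → ℤ) (j : ℤ) (a b : ℕ) :
    apL pos j (a + 1 + b) = apL pos j a ++ pos (j - a) :: apL pos (j - a - 1) b := by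
  induction a generalizing j with
  | zero =>
    simp only [zero_add, apL_zero, List.nil_append]
    rw [add_comm 1 b, apL_succ]
    simp
  | succ a ih =>
    have e : a + 1 + 1 + b = (a + 1 + b) + 1 := by ring
    rw [e, apL_succ, apL_succ, ih, List.cons_append]
    have e2 : j - 1 - (a : ℤ) = j - ((a + 1 : ℕ) : ℤ) := by push_cast; ring
    rw [e2]

/-- The last element. -/
theorem apL_snoc (pos : ℤ → ℤ) (j : ℤ) (n : ℕ) :
    apL pos j (n + 1) = apL pos j n ++ [pos (j - n)] := by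
  have := apL_split pos j n 0
  simpa [apL_zero] using this

theorem apL_congr {pos pos' : ℤ → ℤ} {j : ℤ} {n : ℕ} (h : ∀ j', j - n < j' → j' ≤ j → pos j' = pos' j') :
    apL pos j n = apL pos' j n := by
  induction n generalizing j with
  | zero => rfl
  | succ n ih =>
    rw [apL_succ, apL_succ, h j (by push_cast; omega) (le_refl _)]
    congr 1
    apply ih
    intro j' h1 h2
    exact h j' (by push_cast; omega) (by omega)

/-- Reindexing the positions. -/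
theorem apL_reindex (pos : ℤ → ℤ) (j c : ℤ) (n : ℕ) :
    apL (fun i => pos (i + c)) (j - c) n = apL pos j n := by
  induction n generalizing j with
  | zero => rfl
  | succ n ih =>
    rw [apL_succ, apL_succ]
    have e : j - c + c = j := by ring
    have e2 : j - c - 1 = j - 1 - c := by ring
    simp only [e, e2]
    rw [ih]

theorem apL_map (pos : ℤ → ℤ) (f : ℤ → ℤ) (j : ℤ) (n : ℕ) :
    (apL pos j n).map f = apL (fun i => f (pos i)) j n := by
  induction n generalizing j with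
  | zero => rfl
  | succ n ih =>
    rw [apL_succ, apL_succ, List.map_cons, ih]

/-- Positions with gaps at least `δ`. -/
def Gap (pos : ℤ → ℤ) (δ : ℕ) : Prop := ∀ j, pos j + δ ≤ pos (j + 1)

theorem Gap.iter {pos : ℤ → ℤ} {δ : ℕ} (h : Gap pos δ) {j j' : ℤ} (hj : j < j') : pos j + δ ≤ pos j' := by
  obtain ⟨m, rfl⟩ : ∃ m : ℕ, j' = j + 1 + m := ⟨(j' - j - 1).toNat, by omega⟩
  induction m with
  | zero =>
    simpa using h j
  | succ m ih =>
    have h1 := ih (by omega)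
    have h2 := h (j + 1 + m)
    have e : j + 1 + ((m + 1 : ℕ) : ℤ) = j + 1 + m + 1 := by push_cast; ring
    rw [e]
    omega

theorem Gap.mono {pos : ℤ → ℤ} {δ : ℕ} (h : Gap pos δ) {j j' : ℤ} (hj : j ≤ j') : pos j ≤ pos j' := by
  rcases eq_or_lt_of_le hj with rfl | hj
  · exact le_refl _
  · have := h.iter hj
    omega

theorem apL_pairwise {pos : ℤ → ℤ} {δ : ℕ} (h : Gap pos δ) (hδ : 1 ≤ δ) (j : ℤ) (n : ℕ) :
    (apL pos j n).Pairwise (· > ·) := by
  induction n generalizing j with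
  | zero => exact List.Pairwise.nil
  | succ n ih =>
    rw [apL_succ, List.pairwise_cons]
    refine ⟨?_, ih (j - 1)⟩
    intro r hr
    obtain ⟨j', _, h2, rfl⟩ := mem_apL.mp hr
    have := h.iter (by omega : j' < j)
    omega

theorem apL_spaced {pos : ℤ → ℤ} {δ : ℕ} (h : Gap pos δ) (j : ℤ) (n : ℕ) :
    Spaced (apL pos j n).toFinset δ := by
  intro x hx y hy hxy
  obtain ⟨j₁, _, _, rfl⟩ := mem_apL.mp (List.mem_toFinset.mp hx)
  obtain ⟨j₂, _, _, rfl⟩ := mem_apL.mp (List.mem_toFinset.mp hy)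
  have hne : j₁ ≠ j₂ := fun h' => hxy (by rw [h'])
  rcases lt_or_gt_of_ne hne with hl | hl
  · have := h.iter hl
    rw [abs_of_neg (by omega)]
    omega
  · have := h.iter hl
    rw [abs_of_pos (by omega)]
    omega

/-- The reflected list of positions. -/
theorem reflect_apL (s e : ℤ) (pos : ℤ → ℤ) (j : ℤ) (n : ℕ) :
    ((apL pos j n).map fun d => s + e + 1 - d).reverse =
      apL (fun i => s + e + 1 - pos (-i)) ((n : ℤ) - 1 - j) n := by
  induction n generalizing j with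
  | zero => rfl
  | succ n ih =>
    rw [apL_succ, List.map_cons, List.reverse_cons, ih, apL_snoc]
    have e1 : ((n : ℤ) - 1 - (j - 1)) = ((n + 1 : ℕ) : ℤ) - 1 - j := by
      push_cast
      ring
    have e2 : -(((n + 1 : ℕ) : ℤ) - 1 - j - (n : ℤ)) = j := by
      push_cast
      ring
    rw [e1]
    simp only [e2]

theorem Gap_reflect {pos : ℤ → ℤ} {δ : ℕ} (h : Gap pos δ) (s e : ℤ) :
    Gap (fun i => s + e + 1 - pos (-i)) δ := by
  intro j
  have := h (-(j + 1))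
  have e1 : -(j + 1) + 1 = -j := by ring
  rw [e1] at this
  simp only
  omega

/-- Inserting the last site on lists given by positions. -/
theorem ins_ap {q θ₀ θ₁ : ℝ} (h0 : 0 < q) (h1 : q < 1) (hθ₀ : 0 < θ₀) (hθ₁ : θ₁ < 1) :
    ∃ Cs C : ℝ, 1 ≤ Cs ∧ 0 < C ∧ ∀ θ ∈ Set.Icc θ₀ θ₁,
      ∀ (δ k Lmax B₀ n₁ : ℕ) (𝓛 : ℝ) (s e : ℤ) (f f₁ : ℤ → ℤ) (top bot : ℕ), Par q θ δ k Lmax 𝓛 Cs →
        Gap f δ → Gap f₁ δ → f₁ 0 = f 0 + 1 → (∀ j, j ≠ 0 → f₁ j = f j) →
        top + 1 + bot + 1 ≤ k →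
        s + n₁ + 1 ≤ f (-(bot : ℤ)) → f (top + 1) ≤ e → 2 * (e - s) ≤ (B₀ : ℤ) →
        f (top + 1) - 1 - f (-(bot : ℤ)) ≤ Lmax →
        rhoL n₁ ^ 2 ≤ (1 / √(δ : ℝ)) ^ 3 →
        nsq q B₀ (fun t =>
          (VV θ (F0 θ s) (apL f₁ (top + 1) (top + 1 + bot + 1)) e t -
            VV θ (F0 θ s) (apL f₁ top (top + 1 + bot)) e t) -
          (VV θ (F0 θ s) (apL f (top + 1) (top + 1 + bot + 1)) e t -
            VV θ (F0 θ s) (apL f top (top + 1 + bot)) e t)) ≤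
          C * (rhoL (e - f (top + 1)) + |θ - q ^ 2|) * rhoL n₁ *
            ((1 / √(δ : ℝ)) ^ 3 * rhoL (f (top + 1) - 1 - f 0) + rhoL (f (top + 1) - 1 - f 0) ^ 3) := by
  obtain ⟨Cs, C, hCs, hC, hF⟩ := final_ins (θ₀ := θ₀) (θ₁ := θ₁) h0 h1 hθ₀ hθ₁
  refine ⟨Cs, C, hCs, hC, ?_⟩
  intro θ hθ δ k Lmax B₀ n₁ 𝓛 s e f f₁ top bot hP hf hf₁ h₀ hne hk hs he hB hzone hρ
  have hδ2 := hP.hδ
  have hδ1 : 1 ≤ δ := by omega
  set R := apL f (top : ℤ) top with hR
  set M := apL f (-1) bot with hM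
  set d := f 0 with hd
  set b := f (top + 1) with hb
  have hs1 : apL f top (top + 1 + bot) = R ++ d :: M := by
    rw [apL_split]
    simp [hR, hM, hd]
  have hs2 : apL f₁ top (top + 1 + bot) = R ++ (d + 1) :: M := by
    rw [apL_split]
    have e1 : apL f₁ (top : ℤ) top = R := by
      apply apL_congr
      intro j' h2 _
      apply hne
      omega
    have e2 : apL f₁ ((top : ℤ) - top - 1) bot = M := by
      have : (top : ℤ) - top - 1 = -1 := by ring
      rw [this]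
      apply apL_congr
      intro j' _ h3
      apply hne
      omega
    rw [e1, e2]
    simp [h₀, hd]
  have hs3 : apL f (top + 1) (top + 1 + bot + 1) = b :: (R ++ d :: M) := by
    rw [apL_succ, ← hs1]
    simp [hb]
  have hs4 : apL f₁ (top + 1) (top + 1 + bot + 1) = b :: (R ++ (d + 1) :: M) := by
    rw [apL_succ, ← hs2]
    have : f₁ ((top : ℤ) + 1) = b := hne _ (by omega)
    simp [this]
  rw [hs1, hs2, hs3, hs4]
  have hdM : d :: M = apL f 0 (bot + 1) := by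
    rw [apL_succ]
    simp [hM, hd]
  have hbR : b :: R = apL f (top + 1) (top + 1) := by
    rw [apL_succ]
    simp [hR, hb]
  have hmonoL : ∀ j', -(bot : ℤ) ≤ j' → f (-(bot : ℤ)) ≤ f j' := fun j' h => hf.mono h
  have hmonoR : ∀ j', j' ≤ (top : ℤ) + 1 → f j' ≤ f (top + 1) := fun j' h => hf.mono h
  have := hF θ hθ δ k Lmax B₀ n₁ 𝓛 s (f (-(bot : ℤ))) d b e M R hP
    (by rw [hdM]; exact apL_pairwise hf hδ1 _ _)
    (by rw [hdM]; exact apL_spaced hf _ _)
    (by rw [hdM]; simp; omega)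
    (by omega)
    (by
      rw [hdM]
      intro r hr
      obtain ⟨j', h2, h3, rfl⟩ := mem_apL.mp (hr)
      push_cast at h2
      have h4 := hmonoL j' (by omega)
      have h5 := hmonoR j' (by omega)
      refine ⟨h4, by omega, by omega, by omega⟩)
    (by rw [hbR]; exact apL_pairwise hf hδ1 _ _)
    (by rw [hbR]; exact apL_spaced hf _ _)
    (by rw [hbR]; simp; omega)
    (by
      rw [hbR]
      intro r hr
      obtain ⟨j', h2, h3, rfl⟩ := mem_apL.mp (hr)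
      push_cast at h2
      have h4 := hf.iter (by omega : (0 : ℤ) < j')
      have h5 := hmonoR j' (by omega)
      have h6 := hmonoL 0 (by omega)
      refine ⟨by omega, by omega, by omega⟩)
    he hB hρ
  exact this

/-- Displacement in a slot. -/
def sigT (K : ℕ) (ς : ℕ → ℤ) (j : ℤ) : ℤ := if 0 ≤ j ∧ j < K then ς j.toNat else 0

/-- Positions of the sites of a configuration. -/
def posS (P D : ℤ) (K : ℕ) (ς : ℕ → ℤ) (j : ℤ) : ℤ := P + j * D + sigT K ς j

theorem sigT_bounds {K : ℕ} {ς : ℕ → ℤ} (hς : ∀ j, ς j = 0 ∨ ς j = 1) (j : ℤ) :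
    0 ≤ sigT K ς j ∧ sigT K ς j ≤ 1 := by
  unfold sigT
  split_ifs
  · rcases hς j.toNat with h | h <;> simp [h]
  · simp

theorem upS_vals {ς : ℕ → ℤ} (hς : ∀ j, ς j = 0 ∨ ς j = 1) (c : ℕ) {τ : ℤ} (hτ : τ = 0 ∨ τ = 1) :
    ∀ j, upS ς c τ j = 0 ∨ upS ς c τ j = 1 := by
  intro j
  unfold upS
  by_cases h : j = c
  · subst h
    simpa using hτ
  · simpa [Function.update_of_ne h] using hς j

theorem Gap_posS {P D : ℤ} {K δ : ℕ} {ς : ℕ → ℤ} (hς : ∀ j, ς j = 0 ∨ ς j = 1) (hD : (δ : ℤ) + 1 ≤ D) :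
    Gap (posS P D K ς) δ := by
  intro j
  unfold posS
  have h1 := sigT_bounds (K := K) hς j
  have h2 := sigT_bounds (K := K) hς (j + 1)
  have e : (j + 1) * D = j * D + D := by ring
  rw [e]
  omega

theorem posS_ge {P D : ℤ} {K J : ℕ} {ς : ℕ → ℤ} (hς : ∀ j, ς j = 0 ∨ ς j = 1) (hD : 0 ≤ D) {j : ℤ}
    (hj : -(J : ℤ) ≤ j) : P - J * D ≤ posS P D K ς j := by
  unfold posS
  have h1 := sigT_bounds (K := K) hς j
  have h2 : -(J : ℤ) * D ≤ j * D := mul_le_mul_of_nonneg_right hj hD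
  have e : -(J : ℤ) * D = -(J * D) := by ring
  rw [e] at h2
  omega

theorem posS_le {P D : ℤ} {K J : ℕ} {ς : ℕ → ℤ} (hς : ∀ j, ς j = 0 ∨ ς j = 1) (hD : 0 ≤ D) {j : ℤ}
    (hj : j ≤ (J : ℤ) + K) : posS P D K ς j ≤ P + ((J : ℤ) + K) * D + 1 := by
  unfold posS
  have h1 := sigT_bounds (K := K) hς j
  have h2 : j * D ≤ ((J : ℤ) + K) * D := mul_le_mul_of_nonneg_right hj hD
  omega

/-- Two slots updated: positions outside the two slots. -/
theorem posS_upS_off (P D : ℤ) (K : ℕ) (ς : ℕ → ℤ) (c c' : ℕ) (τ τ' ρ ρ' : ℤ) {j : ℤ}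
    (h1 : j ≠ c) (h2 : j ≠ c') :
    posS P D K (upS (upS ς c τ) c' τ') j = posS P D K (upS (upS ς c ρ) c' ρ') j := by
  unfold posS sigT upS
  split_ifs with h
  · have h3 : j.toNat ≠ c := by omega
    have h4 : j.toNat ≠ c' := by omega
    simp [Function.update_of_ne h3, Function.update_of_ne h4]
  · rfl

theorem posS_upS_c (P D : ℤ) (K : ℕ) (ς : ℕ → ℤ) {c c' : ℕ} (τ τ' : ℤ) (h1 : c < c') (h2 : c' < K) :
    posS P D K (upS (upS ς c τ) c' τ') c = P + c * D + τ := by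
  unfold posS sigT upS
  have h3 : (0 : ℤ) ≤ c ∧ (c : ℤ) < K := by omega
  rw [if_pos h3]
  have h4 : ((c : ℤ)).toNat = c := by omega
  rw [h4, Function.update_of_ne (by omega), Function.update_self]

theorem posS_upS_c' (P D : ℤ) (K : ℕ) (ς : ℕ → ℤ) {c c' : ℕ} (τ τ' : ℤ) (h2 : c' < K) :
    posS P D K (upS (upS ς c τ) c' τ') c' = P + c' * D + τ' := by
  unfold posS sigT upS
  have h3 : (0 : ℤ) ≤ c' ∧ (c' : ℤ) < K := by omega
  rw [if_pos h3]
  have h4 : ((c' : ℤ)).toNat = c' := by omega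
  rw [h4, Function.update_self]

/-- The configuration expansion at the end point. -/
noncomputable def UC (θ : ℝ) (P D : ℤ) (J K : ℕ) (A : ℤ) (ς : ℕ → ℤ) : Word → ℝ :=
  VV θ (F0 θ 0) (apL (posS P D K ς) ((J : ℤ) + K) (2 * J + K + 1)) A

/-- Second differences on configurations. -/
theorem disp2_ap {q θ₀ θ₁ : ℝ} (h0 : 0 < q) (h1 : q < 1) (hθ₀ : 0 < θ₀) (hθ₁ : θ₁ < 1) :
    ∃ Cs C : ℝ, 1 ≤ Cs ∧ 0 < C ∧ ∀ θ ∈ Set.Icc θ₀ θ₁,
      ∀ (P D A : ℤ) (J K δ k Lmax B₀ n₁ n₂ : ℕ) (𝓛 : ℝ) (ς : ℕ → ℤ) (c c' : ℕ), Par q θ δ k Lmax 𝓛 Cs →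
        (∀ j, ς j = 0 ∨ ς j = 1) → (δ : ℤ) + 1 ≤ D → c < c' → c' < K → 2 * J + K + 1 ≤ k →
        (n₁ : ℤ) + 1 ≤ P - J * D → P + ((J : ℤ) + K) * D + 2 + n₂ ≤ A →
        P + ((J : ℤ) + K) * D - (P - J * D) ≤ Lmax → 2 * A ≤ (B₀ : ℤ) →
        rhoL n₁ ^ 2 ≤ (1 / √(δ : ℝ)) ^ 3 → δ ≤ n₂ + 1 →
        nsq q B₀ (fun t =>
          (UC θ P D J K A (upS (upS ς c 1) c' 1) t - UC θ P D J K A (upS (upS ς c 1) c' 0) t) -
          (UC θ P D J K A (upS (upS ς c 0) c' 1) t - UC θ P D J K A (upS (upS ς c 0) c' 0) t)) ≤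
          C * rhoL n₁ * ((rhoL n₂ + |θ - q ^ 2|) * (1 / √(δ : ℝ)) ^ 5 + k * (1 / √(δ : ℝ)) ^ 8) := by
  obtain ⟨Cs, C, hCs, hC, hF⟩ := final_disp2 (θ₀ := θ₀) (θ₁ := θ₁) h0 h1 hθ₀ hθ₁
  refine ⟨Cs, C, hCs, hC, ?_⟩
  intro θ hθ P D A J K δ k Lmax B₀ n₁ n₂ 𝓛 ς c c' hP hς hD hcc hc'K hk hn₁ hn₂ hL hB hρ hδn
  have hδ2 := hP.hδ
  have hδ1 : 1 ≤ δ := by omega
  have hD0 : 0 ≤ D := by omega
  -- the base positions
  have hς₀v : ∀ j, upS (upS ς c 0) c' 0 j = 0 ∨ upS (upS ς c 0) c' 0 j = 1 :=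
    upS_vals (upS_vals hς c (Or.inl rfl)) c' (Or.inl rfl)
  obtain ⟨pos, hpos⟩ : ∃ pos, pos = posS P D K (upS (upS ς c 0) c' 0) := ⟨_, rfl⟩
  have hgap : Gap pos δ := by rw [hpos]; exact Gap_posS hς₀v hD
  set d : ℤ := P + c * D with hd
  set d' : ℤ := P + c' * D with hd'
  have hposc : pos c = d := by
    rw [hpos, posS_upS_c P D K ς 0 0 hcc hc'K]
    simp [hd]
  have hposc' : pos c' = d' := by
    rw [hpos, posS_upS_c' P D K _ 0 0 hc'K]
    simp [hd']
  set a₂ : ℕ := J + K - c' with ha₂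
  set a₁ : ℕ := c' - c - 1 with ha₁
  set a₀ : ℕ := c + J with ha₀
  have hN : 2 * J + K + 1 = a₂ + 1 + (a₁ + 1 + a₀) := by omega
  set R₂ := apL pos ((J : ℤ) + K) a₂ with hR₂
  set R₁ := apL pos ((c' : ℤ) - 1) a₁ with hR₁
  set M := apL pos ((c : ℤ) - 1) a₀ with hM
  have hlist : ∀ τ τ' : ℤ, apL (posS P D K (upS (upS ς c τ) c' τ')) ((J : ℤ) + K) (2 * J + K + 1) =
      R₂ ++ (d' + τ') :: (R₁ ++ (d + τ) :: M) := by
    intro τ τ'
    set g := posS P D K (upS (upS ς c τ) c' τ') with hg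
    have hoff : ∀ j : ℤ, j ≠ c → j ≠ c' → g j = pos j := fun j h1' h2' => by
      rw [hpos]; exact posS_upS_off P D K ς c c' τ τ' 0 0 h1' h2'
    have e0 : (J : ℤ) + K - (a₂ : ℤ) = c' := by omega
    have e1 : (c' : ℤ) - 1 - (a₁ : ℤ) = c := by omega
    rw [hN, apL_split, e0, apL_split, e1]
    have e3 : g c' = d' + τ' := by
      rw [hg, posS_upS_c' P D K _ τ τ' hc'K]
    have e4 : g c = d + τ := by
      rw [hg, posS_upS_c P D K ς τ τ' hcc hc'K]
    have e5 : apL g ((J : ℤ) + K) a₂ = R₂ := by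
      apply apL_congr
      intro j' h2' h3'
      apply hoff <;> omega
    have e6 : apL g ((c' : ℤ) - 1) a₁ = R₁ := by
      apply apL_congr
      intro j' h2' h3'
      apply hoff <;> omega
    have e7 : apL g ((c : ℤ) - 1) a₀ = M := by
      apply apL_congr
      intro j' h2' h3'
      apply hoff <;> omega
    rw [e3, e4, e5, e6, e7]
  have e00 : ∀ τ τ' : ℤ, UC θ P D J K A (upS (upS ς c τ) c' τ') =
      VV θ (F0 θ 0) (R₂ ++ (d' + τ') :: (R₁ ++ (d + τ) :: M)) A := by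
    intro τ τ'
    unfold UC
    rw [hlist]
  simp only [e00, add_zero]
  have hdM : d :: M = apL pos c (a₀ + 1) := by
    rw [apL_succ, hposc]
  have hdR : d' :: R₁ = apL pos c' (a₁ + 1) := by
    rw [apL_succ, hposc']
  -- location of the sites
  have hge : ∀ j' : ℤ, -(J : ℤ) ≤ j' → P - J * D ≤ pos j' := fun j' h => by
    rw [hpos]; exact posS_ge hς₀v hD0 h
  have hle : ∀ j' : ℤ, j' ≤ (J : ℤ) + K → pos j' ≤ P + ((J : ℤ) + K) * D + 1 := fun j' h => by
    rw [hpos]; exact posS_le hς₀v hD0 h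
  have hA : P + ((J : ℤ) + K) * D + 2 ≤ A := by omega
  have := hF θ hθ δ k Lmax B₀ n₁ n₂ 𝓛 0 (P - J * D) d d' A M R₁ R₂ hP
    (by rw [hdM]; exact apL_pairwise hgap hδ1 _ _)
    (by rw [hdM]; exact apL_spaced hgap _ _)
    (by rw [hdM]; simp; omega)
    (by omega)
    (by
      rw [hdM]
      intro r hr
      obtain ⟨j', h2, h3, rfl⟩ := mem_apL.mp hr
      push_cast at h2
      have h4 := hge j' (by omega)
      have h5 := hle j' (by omega)
      refine ⟨h4, by omega, by omega, by omega⟩)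
    (by rw [hdR]; exact apL_pairwise hgap hδ1 _ _)
    (by rw [hdR]; exact apL_spaced hgap _ _)
    (by rw [hdR]; simp; omega)
    (by
      rw [hdR]
      intro r hr
      obtain ⟨j', h2, h3, rfl⟩ := mem_apL.mp hr
      push_cast at h2
      have h4 := hgap.iter (by omega : (c : ℤ) < j')
      have h5 := hle j' (by omega)
      have h6 := hge c (by omega)
      rw [hposc] at h4 h6
      refine ⟨by omega, by omega, by omega⟩)
    (apL_pairwise hgap hδ1 _ _)
    (apL_spaced hgap _ _)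
    (by rw [hR₂]; simp; omega)
    (by
      intro r hr
      obtain ⟨j', h2, h3, rfl⟩ := mem_apL.mp hr
      push_cast at h2
      have h4 := hgap.iter (by omega : (c' : ℤ) < j')
      have h5 := hle j' (by omega)
      have h6 := hge c' (by omega)
      rw [hposc'] at h4 h6
      refine ⟨by omega, by omega, by omega, by omega⟩)
    (by
      have h5 := hle c' (by omega)
      rw [hposc'] at h5
      omega)
    (by omega) hρ hδn
  simpa using this

end Vale.Agent.Lib.P321
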