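import Vale.Agent.Lib.P321.Reduce

/-!
P321: the statement of the analytic core, in the form needed by the final assembly.
The exponents are parameters: `A` has size `lam ^ a`, the sites lie in `[lam ^ dlt, 2 lam ^ pP]`, with spacing at least
`lam ^ dlt`, their number is at most `lam ^ (crd - 3)`, where `dlt = 2 crd`, and the norm is at most `lam ^ (-V)`.
-/

namespace Vale.Agent.Lib.P321

open Finset

/-- The analytic core: for all large `lam` and `A ∈ [lam^a, 2 lam^a]` there are two distinct well spaced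
site sets whose count differences, multiplied by the weights of any grid point `th q A g`, have reference norm
at most `lam^(-V)`. -/
def CoreStatement (q : ℝ) (a pP dlt crd V : ℕ) : Prop :=
  ∀ Cg : ℕ, ∃ lam₀ : ℕ, ∀ lam A : ℕ, lam₀ ≤ lam → lam ^ a ≤ A → A ≤ 2 * lam ^ a →
    ∃ Dx Dy : Finset ℤ, Dx ≠ Dy ∧
      (∀ d ∈ Dx, ((lam : ℤ) ^ dlt ≤ d ∧ d ≤ 2 * (lam : ℤ) ^ pP)) ∧
      (∀ d ∈ Dy, ((lam : ℤ) ^ dlt ≤ d ∧ d ≤ 2 * (lam : ℤ) ^ pP)) ∧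
      (∀ d ∈ Dx, ∀ d' ∈ Dx, d ≠ d' → (lam : ℤ) ^ dlt ≤ |d - d'|) ∧
      (∀ d ∈ Dy, ∀ d' ∈ Dy, d ≠ d' → (lam : ℤ) ^ dlt ≤ |d - d'|) ∧
      Dx.card * lam ^ 3 ≤ lam ^ crd ∧ Dy.card * lam ^ 3 ≤ lam ^ crd ∧
      ∀ g : ℤ, |g| ≤ Cg * lam →
        nsq q (2 * A) (fun t => ((cnt (blockStr Dx 0 A) t : ℝ) - cnt (blockStr Dy 0 A) t) *
          (1 - th q A g) ^ (t.length + 1) * th q A g ^ ((A : ℤ) - (H t : ℤ))) ≤ 1 / (lam : ℝ) ^ V

end Vale.Agent.Lib.P321
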