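import Vale.Agent.Lib.P321.Basic

/-!
P321: embedding counts.
-/

namespace Vale.Agent.Lib.P321

open Finset

@[simp] theorem cnt_nil_nil : cnt [] [] = 1 := rfl
@[simp] theorem cnt_nil_cons (a : Bool) (t : Word) : cnt [] (a :: t) = 0 := rfl
@[simp] theorem cnt_cons_nil (c : Bool) (x : Word) : cnt (c :: x) [] = cnt x [] := rfl
theorem cnt_cons_cons (c a : Bool) (x t : Word) :
    cnt (c :: x) (a :: t) = cnt x (a :: t) + if c = a then cnt x t else 0 := rfl

@[simp] theorem cnt_right_nil (x : Word) : cnt x [] = 1 := by
  induction x with
  | nil => rfl
  | cons c x ih => simpa using ih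

theorem cnt_eq_count (x t : Word) : cnt x t = x.sublists.count t := by
  induction x generalizing t with
  | nil =>
    cases t with
    | nil => simp
    | cons a t => simp
  | cons c x ih =>
    rw [List.sublists_cons, List.bind_eq_flatMap, List.count_flatMap]
    have key : ∀ (L : List Word) (t : Word),
        (L.map (fun s => List.count t [s, c :: s])).sum =
          L.count t + (match t with
            | [] => 0
            | a :: t' => if c = a then L.count t' else 0) := by
      intro L t
      induction L with
      | nil =>
        cases t with
        | nil => simp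
        | cons a t' => simp
      | cons s L ihL =>
        simp only [List.map_cons, List.sum_cons, ihL]
        cases t with
        | nil =>
          simp only [List.count_cons, List.count_nil]
          simp
          omega
        | cons a t' =>
          simp only [List.count_cons, List.count_nil, beq_iff_eq, List.cons.injEq]
          by_cases h1 : s = a :: t' <;> by_cases h2 : c = a <;> by_cases h3 : s = t' <;>
            simp [h1, h2, h3] <;> omega
    have := key x.sublists t
    simp only [Function.comp_def]
    rw [this]
    cases t with
    | nil =>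
      have h2 := ih []
      simp only [cnt_right_nil] at h2 ⊢
      omega
    | cons a t =>
      simp only [cnt_cons_cons, ih]

@[simp] theorem H_nil : H [] = 0 := rfl
@[simp] theorem H_single (a : Bool) : H [a] = 1 := rfl
theorem H_cons_cons (a b : Bool) (l : Word) : H (a :: b :: l) = pc a b + H (b :: l) := rfl

@[simp] theorem pc_true (b : Bool) : pc true b = 1 := by cases b <;> rfl
@[simp] theorem pc_false_true : pc false true = 0 := rfl
@[simp] theorem pc_false_false : pc false false = 1 := rfl

theorem H_true_cons (t : Word) : H (true :: t) = H t + 1 := by
  cases t with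
  | nil => simp [H]
  | cons b l => rw [H_cons_cons, pc_true]; omega

theorem H_ff (l : Word) : H (false :: false :: l) = H (false :: l) + 1 := by
  rw [H_cons_cons, pc_false_false]; omega

theorem H_ft (l : Word) : H (false :: true :: l) = H l + 1 := by
  rw [H_cons_cons, pc_false_true, H_true_cons]; omega

theorem pc_le_one (a b : Bool) : pc a b ≤ 1 := by cases a <;> cases b <;> decide

theorem H_le_length (w : Word) : H w ≤ w.length := by
  induction w with
  | nil => simp [H]
  | cons a l ih =>
    cases l with
    | nil => simp [H]
    | cons b l =>
      rw [H_cons_cons]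
      have := pc_le_one a b
      simp only [List.length_cons] at ih ⊢
      omega

/-- `H (a :: w)` in terms of `H w`. -/
theorem H_cons_ge (a : Bool) (w : Word) : H w ≤ H (a :: w) := by
  cases w with
  | nil => simp [H]
  | cons b l => rw [H_cons_cons]; omega

theorem H_pos_of_cons (a : Bool) (w : Word) : 1 ≤ H (a :: w) := by
  induction w generalizing a with
  | nil => simp [H]
  | cons b l ih =>
    rw [H_cons_cons]
    have := ih b
    omega

theorem H_cons_le (a : Bool) (w : Word) : H (a :: w) ≤ H w + 1 := by
  cases w with
  | nil => simp [H]
  | cons b l =>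
    rw [H_cons_cons]
    have := pc_le_one a b
    omega

theorem length_le_two_H (w : Word) : w.length ≤ 2 * H w := by
  induction hn : w.length using Nat.strong_induction_on generalizing w with
  | _ n ih =>
    match w, hn with
    | [], hn => simp at hn; omega
    | [a], hn =>
      simp at hn
      simp [H]
      omega
    | [a, b], hn =>
      simp at hn
      have := H_pos_of_cons a [b]
      omega
    | a :: b :: c :: l, hn =>
      have h := ih (l.length + 1) (by simp at hn; omega) (c :: l) (by simp)
      simp at hn
      rw [H_cons_cons, H_cons_cons]
      have h2 : 1 ≤ pc a b + pc b c := by cases a <;> cases b <;> cases c <;> decide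
      omega

/-- `blockStr` splits at a period. -/
theorem blockStr_add (D : Finset ℤ) (s : ℤ) (n₁ n₂ : ℕ) :
    blockStr D s (n₁ + n₂) = blockStr D s n₁ ++ blockStr D (s + n₁) n₂ := by
  induction n₁ generalizing s with
  | zero => simp [blockStr]
  | succ n ih =>
    have : n + 1 + n₂ = (n + n₂) + 1 := by ring
    rw [this]
    simp only [blockStr]
    rw [ih (s + 1)]
    simp only [List.append_assoc]
    congr 3
    push_cast
    ring

/-- `blockStr` only depends on the sites inside its range. -/
theorem blockStr_congr {D D' : Finset ℤ} {s : ℤ} {n : ℕ}
    (h : ∀ i : ℤ, s < i → i ≤ s + n → (i ∈ D ↔ i ∈ D')) : blockStr D s n = blockStr D' s n := by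
  induction n generalizing s with
  | zero => rfl
  | succ n ih =>
    simp only [blockStr]
    have h1 : (s + 1 ∈ D ↔ s + 1 ∈ D') := h (s + 1) (by omega) (by push_cast; omega)
    have h2 : blockStr D (s + 1) n = blockStr D' (s + 1) n :=
      ih (fun i hi hi' => h i (by omega) (by push_cast; omega))
    rw [h2]
    simp [h1]

@[simp] theorem length_block (b : Bool) : (block b).length = 2 := by cases b <;> rfl

theorem length_blockStr (D : Finset ℤ) (s : ℤ) (n : ℕ) : (blockStr D s n).length = 2 * n := by
  induction n generalizing s with
  | zero => rfl
  | succ n ih =>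
    simp [blockStr, ih]
    ring

/-- Closed form recursion for the base count. -/
private def NZ (Z : ℕ) (t : Word) : ℕ :=
  if H t ≤ Z then Nat.multichoose (t.length + 1) (Z - H t) else 0

private theorem NZ_nil (Z : ℕ) : NZ Z [] = 1 := by simp [NZ, H]

private theorem NZ_step_true (Z : ℕ) (t : Word) :
    NZ (Z + 1) (true :: t) = NZ Z (true :: t) + NZ Z t := by
  have hH : H (true :: t) = H t + 1 := H_true_cons t
  unfold NZ
  rw [hH]
  simp only [List.length_cons]
  by_cases h : H t + 1 ≤ Z
  · rw [if_pos (by omega), if_pos h, if_pos (by omega)]
    obtain ⟨k, hk⟩ : ∃ k, Z = H t + 1 + k := ⟨Z - (H t + 1), by omega⟩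
    subst hk
    have e1 : H t + 1 + k + 1 - (H t + 1) = k + 1 := by omega
    have e2 : H t + 1 + k - (H t + 1) = k := by omega
    have e3 : H t + 1 + k - H t = k + 1 := by omega
    rw [e1, e2, e3, Nat.multichoose_succ_succ]
    ring
  · by_cases h2 : H t ≤ Z
    · have hZ : Z = H t := by omega
      subst hZ
      simp
    · rw [if_neg (by omega), if_neg h, if_neg h2]

private theorem NZ_step_false_nil (Z : ℕ) : NZ (Z + 1) [false] = NZ Z [false] + 1 := by
  simp [NZ, H]
  cases Z with
  | zero => simp
  | succ Z => simp

private theorem NZ_step_ff (Z : ℕ) (l : Word) :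
    NZ (Z + 1) (false :: false :: l) = NZ Z (false :: false :: l) + NZ Z (false :: l) := by
  have hH := H_ff l
  unfold NZ
  rw [hH]
  simp only [List.length_cons]
  generalize H (false :: l) = h
  by_cases h1 : h + 1 ≤ Z
  · rw [if_pos (by omega), if_pos h1, if_pos (by omega)]
    obtain ⟨k, hk⟩ : ∃ k, Z = h + 1 + k := ⟨Z - (h + 1), by omega⟩
    subst hk
    have e1 : h + 1 + k + 1 - (h + 1) = k + 1 := by omega
    have e2 : h + 1 + k - (h + 1) = k := by omega
    have e3 : h + 1 + k - h = k + 1 := by omega
    rw [e1, e2, e3, Nat.multichoose_succ_succ]
    ring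
  · by_cases h2 : h ≤ Z
    · have hZ : Z = h := by omega
      subst hZ
      simp
    · rw [if_neg (by omega), if_neg h1, if_neg h2]

private theorem NZ_step_ft (Z : ℕ) (l : Word) :
    NZ (Z + 1) (false :: true :: l) = NZ Z (false :: true :: l) + NZ Z (true :: l) + NZ Z l := by
  have hH0 := H_true_cons l
  have hH := H_ft l
  unfold NZ
  rw [hH, hH0]
  simp only [List.length_cons]
  generalize H l = h
  by_cases h1 : h + 1 ≤ Z
  · rw [if_pos (by omega), if_pos h1, if_pos h1, if_pos (by omega)]
    obtain ⟨k, hk⟩ : ∃ k, Z = h + 1 + k := ⟨Z - (h + 1), by omega⟩
    subst hk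
    have e1 : h + 1 + k + 1 - (h + 1) = k + 1 := by omega
    have e2 : h + 1 + k - (h + 1) = k := by omega
    have e3 : h + 1 + k - h = k + 1 := by omega
    rw [e1, e2, e3, Nat.multichoose_succ_succ (l.length + 1 + 1), Nat.multichoose_succ_succ (l.length + 1)]
    ring
  · by_cases h2 : h ≤ Z
    · have hZ : Z = h := by omega
      subst hZ
      simp
    · rw [if_neg (by omega), if_neg h1, if_neg h1, if_neg h2]

/-- Closed form for the base string. -/
theorem cnt_base (s : ℤ) (Z : ℕ) (t : Word) :
    cnt (blockStr ∅ s Z) t = if H t ≤ Z then Nat.multichoose (t.length + 1) (Z - H t) else 0 := by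
  change _ = NZ Z t
  induction Z generalizing s t with
  | zero =>
    cases t with
    | nil => simp [blockStr, NZ, H]
    | cons a l =>
      have := H_pos_of_cons a l
      simp only [blockStr, cnt_nil_cons, NZ]
      rw [if_neg (by omega)]
  | succ Z ih =>
    simp only [blockStr]
    have hb : block (decide ((s + 1) ∈ (∅ : Finset ℤ))) = [false, true] := by simp [block]
    rw [hb]
    simp only [List.cons_append, List.nil_append]
    cases t with
    | nil => simp [NZ_nil]
    | cons a t =>
      cases a with
      | true =>
        rw [cnt_cons_cons, cnt_cons_cons]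
        simp only [reduceCtorEq, if_false, if_true, add_zero]
        rw [NZ_step_true, ih, ih]
      | false =>
        cases t with
        | nil =>
          rw [cnt_cons_cons, cnt_cons_cons]
          simp only [if_true, reduceCtorEq, if_false, add_zero, cnt_right_nil]
          rw [NZ_step_false_nil, ih]
        | cons b l =>
          cases b with
          | false =>
            rw [cnt_cons_cons, cnt_cons_cons]
            simp only [if_true, reduceCtorEq, if_false, add_zero]
            rw [cnt_cons_cons]
            simp only [reduceCtorEq, if_false, add_zero]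
            rw [NZ_step_ff, ih, ih]
          | true =>
            rw [cnt_cons_cons, cnt_cons_cons]
            simp only [if_true, reduceCtorEq, if_false, add_zero]
            rw [cnt_cons_cons]
            simp only [if_true]
            rw [NZ_step_ft, ih, ih, ih]
            ring

/-- Splitting a string: Vandermonde for embeddings. `cnt (u ++ v) t` is the sum over all ways
`t = t₁ ++ t₂`. -/
theorem cnt_append (u v t : Word) :
    cnt (u ++ v) t = ∑ i ∈ range (t.length + 1), cnt u (t.take i) * cnt v (t.drop i) := by
  induction u generalizing t with
  | nil =>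
    rw [Finset.sum_range_succ']
    simp only [List.take_zero, cnt_nil_nil, one_mul, List.drop_zero, List.nil_append]
    rw [Finset.sum_eq_zero, zero_add]
    intro i hi
    cases t with
    | nil => simp at hi
    | cons a t => simp
  | cons c u ih =>
    cases t with
    | nil => simp
    | cons a t =>
      simp only [List.cons_append, cnt_cons_cons, List.length_cons]
      rw [ih (a :: t)]
      simp only [List.length_cons]
      rw [Finset.sum_range_succ' _ (t.length + 1), Finset.sum_range_succ' _ (t.length + 1)]
      simp only [List.take_succ_cons, List.drop_succ_cons, List.take_zero, List.drop_zero,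
        cnt_cons_cons, cnt_right_nil]
      split_ifs with h
      · rw [ih t]
        simp only [add_mul, Finset.sum_add_distrib]
        ring
      · simp

end Vale.Agent.Lib.P321
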