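import Vale.Agent.Lib.P321.Boundary

/-!
P321: the expansion of the difference of the two configurations.

With `U ς = UC θ P D J K A ς`, `K = 2^t`, `sign c = tmS t c`:
`U sx - U sy = [U sx - U sy - Σ_c sign c δ_c] + Σ_c sign c (δ_c - W_c) + Σ_c sign c W_c`, where
`δ_c = U (upS 0 c 1) - U (upS 0 c 0)` and
`W_c = VV (F0 (-cD)) L₁ (A-cD) - VV (F0 (-cD)) L₀ (A-cD)`, `L_τ = apL (posC P D τ) J (2J+1)`.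
The first bracket is bounded by `tele_abstract` and `disp2_ap`, the second by `boundary_bound` and `nsq_sum_le`,
the third is `TMsum t (fun c => W_c)`, which is bounded by `TMsum_VV` and `moment_bound` (with `s=0`, `e=A`,
`I₀=P-JD`) for `L₁` and `L₀`.
-/

namespace Vale.Agent.Lib.P321

open Finset

/-- The first configuration: the slots of positive sign are displaced. -/
def sxT (t c : ℕ) : ℤ := if tmS t c = 1 then 1 else 0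

/-- The second configuration: the slots of negative sign are displaced. -/
def syT (t c : ℕ) : ℤ := if tmS t c = 1 then 0 else 1

theorem Gap_posC' (P : ℤ) {D τ : ℤ} {δ : ℕ} (hD : (δ : ℤ) + 1 ≤ D) (hτ : τ = 0 ∨ τ = 1) :
    Gap (posC P D τ) δ := by
  intro j
  unfold posC
  have e : (j + 1) * D = j * D + D := by ring
  rw [e]
  rcases hτ with rfl | rfl
  · simp only [ite_self]
    omega
  · split_ifs <;> omega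

theorem UC_congr (θ : ℝ) (P D : ℤ) (J K : ℕ) (A : ℤ) {σ σ' : ℕ → ℤ} (h : ∀ j < K, σ j = σ' j) :
    UC θ P D J K A σ = UC θ P D J K A σ' := by
  unfold UC
  have : posS P D K σ = posS P D K σ' := by
    funext j
    unfold posS sigT
    by_cases hj : 0 ≤ j ∧ j < K
    · rw [if_pos hj, if_pos hj, h j.toNat (by omega)]
    · rw [if_neg hj, if_neg hj]
  rw [this]

/-- The slot difference. -/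
noncomputable def DeltaC (θ : ℝ) (P D : ℤ) (J K : ℕ) (A : ℤ) (c : ℕ) (w : Word) : ℝ :=
  UC θ P D J K A (upS (fun _ => 0) c 1) w - UC θ P D J K A (upS (fun _ => 0) c 0) w

/-- The first order term of a slot. -/
noncomputable def WC (θ : ℝ) (P D : ℤ) (J : ℕ) (A : ℤ) (c : ℕ) (w : Word) : ℝ :=
  VV θ (F0 θ (0 - ((c : ℤ) * D))) (apL (posC P D 1) J (2 * J + 1)) (A - c * D) w -
    VV θ (F0 θ (0 - ((c : ℤ) * D))) (apL (posC P D 0) J (2 * J + 1)) (A - c * D) w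

/-- The first bracket. -/
theorem decomp_T1 {q θ₀ θ₁ : ℝ} (h0 : 0 < q) (h1 : q < 1) (hθ₀ : 0 < θ₀) (hθ₁ : θ₁ < 1) (t : ℕ) :
    ∃ Cs C : ℝ, 1 ≤ Cs ∧ 0 < C ∧ ∀ θ ∈ Set.Icc θ₀ θ₁,
      ∀ (P A : ℤ) (Dn J δ k Lmax B₀ n₁ n₂ : ℕ) (𝓛 : ℝ), Par q θ δ k Lmax 𝓛 Cs →
        δ + 1 ≤ Dn → 2 * J + 2 ^ t + 1 ≤ k →
        (n₁ : ℤ) + 1 ≤ P - J * Dn → P + ((J : ℤ) + ((2 ^ t : ℕ) : ℤ)) * Dn + 2 + n₂ ≤ A →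
        ((J : ℤ) + ((2 ^ t : ℕ) : ℤ) + J) * Dn ≤ Lmax → 2 * A ≤ (B₀ : ℤ) →
        rhoL n₁ ^ 2 ≤ (1 / √(δ : ℝ)) ^ 3 → δ ≤ n₂ + 1 →
        nsq q B₀ (fun w => UC θ P Dn J (2 ^ t) A (sxT t) w - UC θ P Dn J (2 ^ t) A (syT t) w -
            ∑ c ∈ range (2 ^ t), (tmS t c : ℝ) * DeltaC θ P Dn J (2 ^ t) A c w) ≤
          (((2 ^ t : ℕ) : ℝ)) ^ 4 * (C * (rhoL n₁ * ((rhoL n₂ + |θ - q ^ 2|) * (1 / √(δ : ℝ)) ^ 5 + k * (1 / √(δ : ℝ)) ^ 8))) := by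
  obtain ⟨Cs1, C1, hCs1, hC1, hD2⟩ := disp2_ap (θ₀ := θ₀) (θ₁ := θ₁) h0 h1 hθ₀ hθ₁
  refine ⟨Cs1, C1, hCs1, hC1, ?_⟩
  intro θ hθ P A Dn J δ k Lmax B₀ n₁ n₂ 𝓛 hP hDn hk hn₁ hn₂ hLmax hA0 hρ₁ hδn
  have hDZ : (δ : ℤ) + 1 ≤ (Dn : ℤ) := by exact_mod_cast hDn
  have hnn : 0 ≤ rhoL n₁ * ((rhoL n₂ + |θ - q ^ 2|) * (1 / √(δ : ℝ)) ^ 5 + k * (1 / √(δ : ℝ)) ^ 8) := by
    have := rhoL_nonneg (n₁ : ℤ)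
    have := rhoL_nonneg (n₂ : ℤ)
    positivity
  apply tele_abstract h0 h1 B₀ (2 ^ t) (fun ς => UC θ P Dn J (2 ^ t) A ς) (C1 * _) (by positivity)
  · intro σ σ' h
    exact UC_congr θ P Dn J (2 ^ t) A h
  · intro ς c c' hς hcc hc'
    have := hD2 θ hθ P Dn A J (2 ^ t) δ k Lmax B₀ n₁ n₂ 𝓛 ς c c' hP hς hDZ hcc hc' hk hn₁ hn₂
      (by
        have e : P + ((J : ℤ) + ((2 ^ t : ℕ) : ℤ)) * Dn - (P - J * Dn) = ((J : ℤ) + ((2 ^ t : ℕ) : ℤ) + J) * Dn := by ring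
        rw [e]
        exact hLmax) hA0 hρ₁ hδn
    refine this.trans (le_of_eq ?_)
    ring
  · intro j
    unfold sxT
    split_ifs <;> simp
  · intro j
    unfold syT
    split_ifs <;> simp
  · intro c _
    rcases tmS_sq t c with h | h
    · left
      simp [sxT, syT, h]
    · right
      simp [sxT, syT, h]

/-- The second piece. -/
theorem decomp_T2 {q θ₀ θ₁ : ℝ} (h0 : 0 < q) (h1 : q < 1) (hθ₀ : 0 < θ₀) (hθ₁ : θ₁ < 1) (t : ℕ) :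
    ∃ Cs C : ℝ, 1 ≤ Cs ∧ 0 < C ∧ ∀ θ ∈ Set.Icc θ₀ θ₁,
      ∀ (P A : ℤ) (Dn J δ k Lmax B₀ n₁ n₂ L₀ : ℕ) (𝓛 : ℝ), Par q θ δ k Lmax 𝓛 Cs →
        δ + 1 ≤ Dn → 1 ≤ J → 2 * J + 2 ^ t + 1 ≤ k →
        (n₁ : ℤ) + 1 ≤ P - J * Dn → P + ((J : ℤ) + ((2 ^ t : ℕ) : ℤ)) * Dn + 2 + n₂ ≤ A →
        ((J : ℤ) + ((2 ^ t : ℕ) : ℤ) + J) * Dn ≤ Lmax → 2 * A ≤ (B₀ : ℤ) →
        rhoL n₁ ^ 2 ≤ (1 / √(δ : ℝ)) ^ 3 → rhoL n₂ ^ 2 ≤ (1 / √(δ : ℝ)) ^ 3 →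
        (L₀ : ℤ) ≤ J * Dn →
        nsq q B₀ (fun w => ∑ c ∈ range (2 ^ t), (tmS t c : ℝ) * (DeltaC θ P Dn J (2 ^ t) A c w - WC θ P Dn J A c w)) ≤
          (((2 ^ t : ℕ) : ℝ)) ^ 4 * (C * ((rhoL n₁ * rhoL n₂ + |θ - q ^ 2| * rhoL n₁ + |θ - q ^ 2| * rhoL n₂) *
              ((1 / √(δ : ℝ)) ^ 3 * rhoL L₀ + rhoL L₀ ^ 3))) := by
  obtain ⟨Cs2, C2, hCs2, hC2, hBd⟩ := boundary_bound (θ₀ := θ₀) (θ₁ := θ₁) h0 h1 hθ₀ hθ₁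
  refine ⟨Cs2, C2, hCs2, hC2, ?_⟩
  intro θ hθ P A Dn J δ k Lmax B₀ n₁ n₂ L₀ 𝓛 hP hDn hJ hk hn₁ hn₂ hLmax hA0 hρ₁ hρ₂ hL₀
  have hDZ : (δ : ℤ) + 1 ≤ (Dn : ℤ) := by exact_mod_cast hDn
  set E1 : ℝ := (rhoL n₁ * rhoL n₂ + |θ - q ^ 2| * rhoL n₁ + |θ - q ^ 2| * rhoL n₂) *
      ((1 / √(δ : ℝ)) ^ 3 * rhoL L₀ + rhoL L₀ ^ 3) with hE1
  refine (nsq_sum_le h0 h1 B₀ (range (2 ^ t)) (fun c w => (tmS t c : ℝ) * (DeltaC θ P Dn J (2 ^ t) A c w - WC θ P Dn J A c w))).trans ?_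
  rw [card_range]
  have hone : ∀ c ∈ range (2 ^ t), nsq q B₀ (fun w => (tmS t c : ℝ) * (DeltaC θ P Dn J (2 ^ t) A c w - WC θ P Dn J A c w)) ≤
      C2 * (((2 ^ t : ℕ) : ℝ)) ^ 2 * E1 := by
    intro c hc
    have hcK := mem_range.mp hc
    have hs : (tmS t c : ℝ) ^ 2 = 1 := by
      rcases tmS_sq t c with h | h <;> simp [h]
    rw [nsq_sign hs]
    have hb := hBd θ hθ P Dn A J (2 ^ t) δ k Lmax B₀ n₁ n₂ L₀ c 𝓛 hP hDZ hJ hcK hk hn₁ hn₂ hLmax hA0 hρ₁ hρ₂ hL₀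
    have e : (fun w => DeltaC θ P Dn J (2 ^ t) A c w - WC θ P Dn J A c w) = fun w =>
        (UC θ P Dn J (2 ^ t) A (upS (fun _ => 0) c 1) w - UC θ P Dn J (2 ^ t) A (upS (fun _ => 0) c 0) w) -
        (VV θ (F0 θ (-((c : ℤ) * Dn))) (apL (posC P Dn 1) J (2 * J + 1)) (A - c * Dn) w -
         VV θ (F0 θ (-((c : ℤ) * Dn))) (apL (posC P Dn 0) J (2 * J + 1)) (A - c * Dn) w) := by
      funext w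
      simp only [DeltaC, WC, zero_sub]
    rw [e]
    refine hb.trans (le_of_eq ?_)
    rw [hE1]
    ring
  have hKR : (0 : ℝ) ≤ ((2 ^ t : ℕ) : ℝ) := by positivity
  have hsum : ∑ c ∈ range (2 ^ t), nsq q B₀ (fun w => (tmS t c : ℝ) * (DeltaC θ P Dn J (2 ^ t) A c w - WC θ P Dn J A c w)) ≤
      ((2 ^ t : ℕ) : ℝ) * (C2 * (((2 ^ t : ℕ) : ℝ)) ^ 2 * E1) := by
    calc ∑ c ∈ range (2 ^ t), nsq q B₀ (fun w => (tmS t c : ℝ) * (DeltaC θ P Dn J (2 ^ t) A c w - WC θ P Dn J A c w))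
        ≤ ∑ _c ∈ range (2 ^ t), (C2 * (((2 ^ t : ℕ) : ℝ)) ^ 2 * E1) := sum_le_sum hone
      _ = ((2 ^ t : ℕ) : ℝ) * (C2 * (((2 ^ t : ℕ) : ℝ)) ^ 2 * E1) := by simp
  refine (mul_le_mul_of_nonneg_left hsum hKR).trans (le_of_eq ?_)
  ring

/-- The position bounds needed for the moment bound. -/
theorem decomp_pos_arith (P A : ℤ) (Dn J K n₁ n₂ Lmax B₀ : ℕ) (T j τ : ℤ)
    (hj1 : -(J : ℤ) ≤ j) (hj2 : j ≤ J) (hτ0 : 0 ≤ τ) (hτ1 : τ ≤ 1)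
    (hn₁ : (n₁ : ℤ) + 1 ≤ P - J * Dn) (hn₂ : P + ((J : ℤ) + K) * Dn + 2 + n₂ ≤ A)
    (hL : ((J : ℤ) + K + J) * Dn ≤ Lmax) (hB : 2 * A + 2 * T ≤ B₀) :
    P - J * Dn ≤ P + j * Dn + τ ∧ (P + j * Dn + τ) - 1 - (P - J * Dn) ≤ Lmax ∧
      0 + n₁ + 1 ≤ P + j * Dn + τ ∧ 2 * ((P + j * Dn + τ) - 1 - 0 + T) ≤ B₀ ∧ (P + j * Dn + τ) + n₂ ≤ A := by
  have hDn0 : (0 : ℤ) ≤ (Dn : ℤ) := by positivity
  have hlo : -(J : ℤ) * Dn ≤ j * Dn := mul_le_mul_of_nonneg_right hj1 hDn0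
  have hhi : j * Dn ≤ (J : ℤ) * Dn := mul_le_mul_of_nonneg_right hj2 hDn0
  have hKD0 : (0 : ℤ) ≤ (K : ℤ) * Dn := by positivity
  have hKK : ((J : ℤ) + K) * Dn = (J : ℤ) * Dn + (K : ℤ) * Dn := by ring
  have hLL : ((J : ℤ) + K + J) * Dn = (J : ℤ) * Dn + (K : ℤ) * Dn + (J : ℤ) * Dn := by ring
  have hneg : -(J : ℤ) * Dn = -((J : ℤ) * Dn) := by ring
  rw [hKK] at hn₂
  rw [hLL] at hL
  rw [hneg] at hlo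
  have hn20 : (0 : ℤ) ≤ (n₂ : ℤ) := by positivity
  generalize (J : ℤ) * Dn = a at *
  generalize (K : ℤ) * Dn = b at *
  generalize j * Dn = c at *
  refine ⟨by omega, by omega, by omega, by omega, by omega⟩

/-- The third piece: the moment bound. -/
theorem decomp_T3 {q θ₀ θ₁ : ℝ} (h0 : 0 < q) (h1 : q < 1) (hθ₀ : 0 < θ₀) (hθ₁ : θ₁ < 1) (t : ℕ) :
    ∃ Cs C : ℝ, 1 ≤ Cs ∧ 0 < C ∧ ∀ θ ∈ Set.Icc θ₀ θ₁,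
      ∀ (P A : ℤ) (Dn J δ k Lmax B₀ n₁ n₂ : ℕ) (𝓛 : ℝ), Par q θ δ k Lmax 𝓛 Cs →
        δ + 1 ≤ Dn → 2 * J + 2 ^ t + 1 ≤ k →
        (n₁ : ℤ) + 1 ≤ P - J * Dn → P + ((J : ℤ) + ((2 ^ t : ℕ) : ℤ)) * Dn + 2 + n₂ ≤ A →
        ((J : ℤ) + ((2 ^ t : ℕ) : ℤ) + J) * Dn ≤ Lmax → 2 * A + 2 * ((t * (2 ^ t * Dn) : ℕ) : ℤ) ≤ (B₀ : ℤ) →
        ((t * (2 ^ t * Dn) : ℕ) : ℤ) * 4 ≤ n₁ + 1 → ((t * (2 ^ t * Dn) : ℕ) : ℤ) * 4 ≤ n₂ + 1 → n₁ ≤ n₂ →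
        nsq q B₀ (fun w => ∑ c ∈ range (2 ^ t), (tmS t c : ℝ) * WC θ P Dn J A c w) ≤
          C * (((Dn : ℝ) ^ t) ^ 2 * (rhoL n₁ ^ (2 * t + 1) * k *
              ((1 / √(δ : ℝ)) ^ 2 + rhoL n₂ + |θ - q ^ 2|))) := by
  obtain ⟨Cs3, C3, hCs3, hC3, hMo⟩ := moment_bound (θ₀ := θ₀) (θ₁ := θ₁) h0 h1 hθ₀ hθ₁ t
  refine ⟨Cs3, 4 * (4 ^ t * (C3 * (((2 ^ t : ℕ) : ℝ) ^ t) ^ 2)), hCs3, by positivity, ?_⟩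
  intro θ hθ P A Dn J δ k Lmax B₀ n₁ n₂ 𝓛 hP hDn hk hn₁ hn₂ hLmax hB₀ hm₁ hm₂ hn₁₂
  have hδ2 := hP.hδ
  have hδ1 : 1 ≤ δ := by omega
  have hDZ : (δ : ℤ) + 1 ≤ (Dn : ℤ) := by exact_mod_cast hDn
  have hDn1 : 1 ≤ Dn := by omega
  have hT0 : (0 : ℤ) ≤ ((t * (2 ^ t * Dn) : ℕ) : ℤ) := by positivity
  have hA0 : 2 * A ≤ (B₀ : ℤ) := by linarith
  have hJD0 : (0 : ℤ) ≤ (J : ℤ) * Dn := by positivity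
  have hKD0 : (0 : ℤ) ≤ ((2 ^ t : ℕ) : ℤ) * Dn := by positivity
  have hmom : ∀ τ : ℤ, (τ = 0 ∨ τ = 1) →
      nsq q B₀ (TMsum t (phiB θ (apL (posC P Dn τ) J (2 * J + 1)) Dn [] [] 0 A)) ≤
        4 ^ t * (C3 * (((2 ^ t * Dn : ℕ) : ℝ) ^ t) ^ 2 * rhoL n₁ ^ (2 * t + 1) * k * ((1 / √(δ : ℝ)) ^ 2 + rhoL n₂ + |θ - q ^ 2|)) := by
    intro τ hτ
    have hgap : Gap (posC P Dn τ) δ := Gap_posC' P hDZ hτ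
    have hlen : (apL (posC P Dn τ) J (2 * J + 1)).length ≤ k := by
      rw [length_apL]
      have hKp : 0 < 2 ^ t := by positivity
      omega
    have hBe : 2 * (A - (P - J * Dn)) ≤ (B₀ : ℤ) := by
      have hKK : ((J : ℤ) + ((2 ^ t : ℕ) : ℤ)) * Dn = (J : ℤ) * Dn + ((2 ^ t : ℕ) : ℤ) * Dn := by ring
      rw [hKK] at hn₂
      have hn20 : (0 : ℤ) ≤ (n₂ : ℤ) := by positivity
      have hn10 : (0 : ℤ) ≤ (n₁ : ℤ) := by positivity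
      generalize (J : ℤ) * Dn = a at *
      generalize ((2 ^ t : ℕ) : ℤ) * Dn = b at *
      omega
    refine hMo θ hθ Dn δ k Lmax B₀ n₁ n₂ 𝓛 0 (P - J * Dn) A _ hP hDn1 (apL_pairwise hgap hδ1 _ _)
      (apL_spaced hgap _ _) hlen (by
        have hn10 : (0 : ℤ) ≤ (n₁ : ℤ) := by positivity
        omega) ?_ hm₁ hm₂ hn₁₂ hBe
    intro r hr
    obtain ⟨j', hj1, hj2, rfl⟩ := mem_apL.mp hr
    have hj1' : -(J : ℤ) ≤ j' := by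
      push_cast at hj1
      omega
    have hite0 : (0 : ℤ) ≤ if j' = 0 then τ else 0 := by
      rcases hτ with rfl | rfl <;> split_ifs <;> omega
    have hite1 : (if j' = 0 then τ else 0) ≤ (1 : ℤ) := by
      rcases hτ with rfl | rfl <;> split_ifs <;> omega
    have hT : ((t : ℤ) * ((2 ^ t * Dn : ℕ) : ℤ)) = ((t * (2 ^ t * Dn) : ℕ) : ℤ) := by push_cast; ring
    rw [← hT] at hB₀
    unfold posC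
    exact decomp_pos_arith P A Dn J (2 ^ t) n₁ n₂ Lmax B₀ _ j' _ hj1' hj2 hite0 hite1 hn₁ hn₂ hLmax hB₀
  have hT3eq : ∀ w, ∑ c ∈ range (2 ^ t), (tmS t c : ℝ) * WC θ P Dn J A c w =
      TMsum t (phiB θ (apL (posC P Dn 1) J (2 * J + 1)) Dn [] [] 0 A) w -
        TMsum t (phiB θ (apL (posC P Dn 0) J (2 * J + 1)) Dn [] [] 0 A) w := by
    intro w
    have hg1 : Gap (posC P Dn 1) δ := Gap_posC' P hDZ (Or.inr rfl)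
    have hg0 : Gap (posC P Dn 0) δ := Gap_posC' P hDZ (Or.inl rfl)
    have := TMsum_VV θ _ _ (apL_pairwise hg1 hδ1 (J : ℤ) (2 * J + 1)) (apL_pairwise hg0 hδ1 (J : ℤ) (2 * J + 1)) Dn t 0 A w
    rw [← this]
    rfl
  have hprod : (((2 ^ t * Dn : ℕ) : ℝ) ^ t) ^ 2 = (((2 ^ t : ℕ) : ℝ) ^ t) ^ 2 * ((Dn : ℝ) ^ t) ^ 2 := by
    push_cast
    rw [mul_pow, mul_pow]
  rw [nsq_congr hT3eq]
  have h11 := hmom 1 (Or.inr rfl)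
  have h10 := hmom 0 (Or.inl rfl)
  have h3 := nsq_sub_le h0 h1 B₀ (TMsum t (phiB θ (apL (posC P Dn 1) J (2 * J + 1)) Dn [] [] 0 A))
    (TMsum t (phiB θ (apL (posC P Dn 0) J (2 * J + 1)) Dn [] [] 0 A))
  rw [hprod] at h11 h10
  refine h3.trans ?_
  have e : 4 * (4 ^ t * (C3 * (((2 ^ t : ℕ) : ℝ) ^ t) ^ 2)) * (((Dn : ℝ) ^ t) ^ 2 * (rhoL n₁ ^ (2 * t + 1) * k *
      ((1 / √(δ : ℝ)) ^ 2 + rhoL n₂ + |θ - q ^ 2|))) =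
      2 * (4 ^ t * (C3 * ((((2 ^ t : ℕ) : ℝ) ^ t) ^ 2 * ((Dn : ℝ) ^ t) ^ 2) * rhoL n₁ ^ (2 * t + 1) * k *
        ((1 / √(δ : ℝ)) ^ 2 + rhoL n₂ + |θ - q ^ 2|))) +
      2 * (4 ^ t * (C3 * ((((2 ^ t : ℕ) : ℝ) ^ t) ^ 2 * ((Dn : ℝ) ^ t) ^ 2) * rhoL n₁ ^ (2 * t + 1) * k *
        ((1 / √(δ : ℝ)) ^ 2 + rhoL n₂ + |θ - q ^ 2|))) := by ring
  rw [e]
  linarith

/-- The main bound on the difference of the two configurations. -/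
theorem decomp_bound {q θ₀ θ₁ : ℝ} (h0 : 0 < q) (h1 : q < 1) (hθ₀ : 0 < θ₀) (hθ₁ : θ₁ < 1) (t : ℕ) :
    ∃ Cs C : ℝ, 1 ≤ Cs ∧ 0 < C ∧ ∀ θ ∈ Set.Icc θ₀ θ₁,
      ∀ (P A : ℤ) (Dn J δ k Lmax B₀ n₁ n₂ L₀ : ℕ) (𝓛 : ℝ), Par q θ δ k Lmax 𝓛 Cs →
        δ + 1 ≤ Dn → 1 ≤ J → 2 * J + 2 ^ t + 1 ≤ k →
        (n₁ : ℤ) + 1 ≤ P - J * Dn → P + ((J : ℤ) + 2 ^ t) * Dn + 2 + n₂ ≤ A →
        ((J : ℤ) + 2 ^ t + J) * Dn ≤ Lmax → 2 * A + 2 * ((t * (2 ^ t * Dn) : ℕ) : ℤ) ≤ (B₀ : ℤ) →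
        rhoL n₁ ^ 2 ≤ (1 / √(δ : ℝ)) ^ 3 → rhoL n₂ ^ 2 ≤ (1 / √(δ : ℝ)) ^ 3 → δ ≤ n₂ + 1 →
        (L₀ : ℤ) ≤ J * Dn →
        ((t * (2 ^ t * Dn) : ℕ) : ℤ) * 4 ≤ n₁ + 1 → ((t * (2 ^ t * Dn) : ℕ) : ℤ) * 4 ≤ n₂ + 1 → n₁ ≤ n₂ →
        nsq q B₀ (fun w => UC θ P Dn J (2 ^ t) A (sxT t) w - UC θ P Dn J (2 ^ t) A (syT t) w) ≤
          C * (rhoL n₁ * ((rhoL n₂ + |θ - q ^ 2|) * (1 / √(δ : ℝ)) ^ 5 + k * (1 / √(δ : ℝ)) ^ 8) +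
            (rhoL n₁ * rhoL n₂ + |θ - q ^ 2| * rhoL n₁ + |θ - q ^ 2| * rhoL n₂) *
              ((1 / √(δ : ℝ)) ^ 3 * rhoL L₀ + rhoL L₀ ^ 3) +
            ((Dn : ℝ) ^ t) ^ 2 * rhoL n₁ ^ (2 * t + 1) * k *
              ((1 / √(δ : ℝ)) ^ 2 + rhoL n₂ + |θ - q ^ 2|)) := by
  obtain ⟨Cs1, C1, hCs1, hC1, hT1⟩ := decomp_T1 (θ₀ := θ₀) (θ₁ := θ₁) h0 h1 hθ₀ hθ₁ t
  obtain ⟨Cs2, C2, hCs2, hC2, hT2⟩ := decomp_T2 (θ₀ := θ₀) (θ₁ := θ₁) h0 h1 hθ₀ hθ₁ t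
  obtain ⟨Cs3, C3, hCs3, hC3, hT3⟩ := decomp_T3 (θ₀ := θ₀) (θ₁ := θ₁) h0 h1 hθ₀ hθ₁ t
  refine ⟨max Cs1 (max Cs2 Cs3),
    4 * ((2 ^ t : ℕ) : ℝ) ^ 4 * C1 + 4 * ((2 ^ t : ℕ) : ℝ) ^ 4 * C2 + 2 * C3 + 1,
    le_max_of_le_left hCs1, by positivity, ?_⟩
  intro θ hθ P A Dn J δ k Lmax B₀ n₁ n₂ L₀ 𝓛 hP hDn hJ hk hn₁ hn₂ hLmax hB₀ hρ₁ hρ₂ hδn hL₀ hm₁ hm₂ hn₁₂
  have hP1 : Par q θ δ k Lmax 𝓛 Cs1 := hP.mono (le_max_left _ _)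
  have hP2 : Par q θ δ k Lmax 𝓛 Cs2 := hP.mono ((le_max_left _ _).trans (le_max_right _ _))
  have hP3 : Par q θ δ k Lmax 𝓛 Cs3 := hP.mono ((le_max_right _ _).trans (le_max_right _ _))
  have hKZ : (((2 ^ t : ℕ) : ℤ)) = 2 ^ t := by push_cast; rfl
  have hn₂' : P + ((J : ℤ) + ((2 ^ t : ℕ) : ℤ)) * Dn + 2 + n₂ ≤ A := by rw [hKZ]; exact hn₂
  have hLmax' : ((J : ℤ) + ((2 ^ t : ℕ) : ℤ) + J) * Dn ≤ Lmax := by rw [hKZ]; exact hLmax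
  have hT0 : (0 : ℤ) ≤ ((t * (2 ^ t * Dn) : ℕ) : ℤ) := by positivity
  have hA0 : 2 * A ≤ (B₀ : ℤ) := by linarith
  have h1' := hT1 θ hθ P A Dn J δ k Lmax B₀ n₁ n₂ 𝓛 hP1 hDn hk hn₁ hn₂' hLmax' hA0 hρ₁ hδn
  have h2' := hT2 θ hθ P A Dn J δ k Lmax B₀ n₁ n₂ L₀ 𝓛 hP2 hDn hJ hk hn₁ hn₂' hLmax' hA0 hρ₁ hρ₂ hL₀
  have h3' := hT3 θ hθ P A Dn J δ k Lmax B₀ n₁ n₂ 𝓛 hP3 hDn hk hn₁ hn₂' hLmax' hB₀ hm₁ hm₂ hn₁₂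
  have hdec : ∀ w, UC θ P Dn J (2 ^ t) A (sxT t) w - UC θ P Dn J (2 ^ t) A (syT t) w =
      ((UC θ P Dn J (2 ^ t) A (sxT t) w - UC θ P Dn J (2 ^ t) A (syT t) w -
          ∑ c ∈ range (2 ^ t), (tmS t c : ℝ) * DeltaC θ P Dn J (2 ^ t) A c w) +
        ∑ c ∈ range (2 ^ t), (tmS t c : ℝ) * (DeltaC θ P Dn J (2 ^ t) A c w - WC θ P Dn J A c w)) +
        ∑ c ∈ range (2 ^ t), (tmS t c : ℝ) * WC θ P Dn J A c w := by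
    intro w
    have e : ∑ c ∈ range (2 ^ t), (tmS t c : ℝ) * (DeltaC θ P Dn J (2 ^ t) A c w - WC θ P Dn J A c w) =
        ∑ c ∈ range (2 ^ t), (tmS t c : ℝ) * DeltaC θ P Dn J (2 ^ t) A c w -
          ∑ c ∈ range (2 ^ t), (tmS t c : ℝ) * WC θ P Dn J A c w := by
      rw [← sum_sub_distrib]
      apply sum_congr rfl
      intro c _
      ring
    rw [e]
    ring
  rw [nsq_congr hdec]
  refine (nsq_add_le h0 h1 B₀ _ _).trans ?_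
  have hstep := nsq_add_le h0 h1 B₀ (fun w => UC θ P Dn J (2 ^ t) A (sxT t) w - UC θ P Dn J (2 ^ t) A (syT t) w -
          ∑ c ∈ range (2 ^ t), (tmS t c : ℝ) * DeltaC θ P Dn J (2 ^ t) A c w)
    (fun w => ∑ c ∈ range (2 ^ t), (tmS t c : ℝ) * (DeltaC θ P Dn J (2 ^ t) A c w - WC θ P Dn J A c w))
  have hr₁0 : 0 ≤ rhoL n₁ := rhoL_nonneg _
  have hr₂0 : 0 ≤ rhoL n₂ := rhoL_nonneg _
  have hrL0 : 0 ≤ rhoL L₀ := rhoL_nonneg _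
  generalize rhoL n₁ = r₁ at *
  generalize rhoL n₂ = r₂ at *
  generalize rhoL L₀ = r₀ at *
  have hε0 : 0 ≤ |θ - q ^ 2| := abs_nonneg _
  have hs0 : 0 ≤ 1 / √(δ : ℝ) := by positivity
  have hk0 : (0 : ℝ) ≤ (k : ℝ) := by positivity
  have hD0 : 0 ≤ ((Dn : ℝ) ^ t) ^ 2 := by positivity
  generalize |θ - q ^ 2| = ε at *
  generalize 1 / √(δ : ℝ) = s3 at *
  generalize ((Dn : ℝ) ^ t) ^ 2 = D2 at *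
  have hK4 : 0 ≤ ((2 ^ t : ℕ) : ℝ) ^ 4 := by positivity
  generalize ((2 ^ t : ℕ) : ℝ) ^ 4 = K4 at *
  set A1 : ℝ := r₁ * ((r₂ + ε) * s3 ^ 5 + k * s3 ^ 8) with hA1
  set E1 : ℝ := (r₁ * r₂ + ε * r₁ + ε * r₂) * (s3 ^ 3 * r₀ + r₀ ^ 3) with hE1
  set M3 : ℝ := D2 * (r₁ ^ (2 * t + 1) * k * (s3 ^ 2 + r₂ + ε)) with hM3
  have hA10 : 0 ≤ A1 := by positivity
  have hE10 : 0 ≤ E1 := by positivity
  have hM30 : 0 ≤ M3 := by positivity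
  have hrew : D2 * r₁ ^ (2 * t + 1) * k * (s3 ^ 2 + r₂ + ε) = M3 := by
    rw [hM3]
    ring
  rw [hrew]
  have hC : (4 * K4 * C1 + 4 * K4 * C2 + 2 * C3 + 1) * (A1 + E1 + M3) =
      4 * K4 * C1 * A1 + 4 * K4 * C2 * E1 + 2 * C3 * M3 +
      (4 * K4 * C1 * (E1 + M3) + 4 * K4 * C2 * (A1 + M3) + 2 * C3 * (A1 + E1) + (A1 + E1 + M3)) := by ring
  rw [hC]
  have hrem : 0 ≤ 4 * K4 * C1 * (E1 + M3) + 4 * K4 * C2 * (A1 + M3) + 2 * C3 * (A1 + E1) + (A1 + E1 + M3) := by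
    positivity
  have h1e : K4 * (C1 * A1) = K4 * C1 * A1 := by ring
  have h2e : K4 * (C2 * E1) = K4 * C2 * E1 := by ring
  rw [h1e] at h1'
  rw [h2e] at h2'
  linarith

end Vale.Agent.Lib.P321
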