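import Mathlib

/-!
P321: definitions used by the statement: the trace law of the deletion channel and estimators.
-/

namespace Vale.Agent.Lib.P321

open Finset

/-- Probability that the trace of `x` under deletion probability `q` is `t`. The list
`x.sublists` has one entry for each set of surviving positions, so its number of entries equal to
`t` is the number of position sets spelling `t`; each such set has probability
`(1-q)^|t| q^(|x|-|t|)`. -/
noncomputable def traceProb (q : ℝ) (x t : List Bool) : ℝ :=
  (x.sublists.count t : ℝ) * (1 - q) ^ t.length * q ^ (x.length - t.length)

/-- A randomized estimator from `m` traces to strings of length `n`: for each `m`-tuple of traces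
a probability distribution on `{0,1}^n`. -/
structure Estimator (n m : ℕ) where
  /-- probability of answering `z` on the tuple `ts` -/
  prob : (Fin m → List Bool) → (Fin n → Bool) → ℝ
  nonneg : ∀ ts z, 0 ≤ prob ts z
  sum_one : ∀ ts, ∑ z, prob ts z = 1

/-- Probability that the estimator outputs `x` when fed `m` independent traces of `x`. -/
noncomputable def successProb (q : ℝ) {n m : ℕ} (E : Estimator n m) (x : Fin n → Bool) : ℝ :=
  ∑' ts : Fin m → List Bool, (∏ i, traceProb q (List.ofFn x) (ts i)) * E.prob ts x

/-- `m` traces suffice for worst-case reconstruction of strings of length `n`, that is `T_q(n) ≤ m`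
is witnessed at `m`. -/
def CanReconstruct (q : ℝ) (n m : ℕ) : Prop :=
  ∃ E : Estimator n m, ∀ x : Fin n → Bool, 2 / 3 ≤ successProb q E x

end Vale.Agent.Lib.P321
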