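import Vale.Agent.Lib.P321.Kernels

/-!
P321: the three forms of the main overlap estimate.

Proof notes (all constants depend on `q, θ₀, θ₁, t` only, `0 < θ₀ ≤ θ ≤ θ₁ < 1`).

`Yk_sub_Yb`: `Yk θ (NB θ) S f X t - Yb θ S f X t` is the term of the token with empty right part (at most one token,
the last one); by two-step induction on `t`, for every `A : Spl → ℝ`,
`(((splits t).map A).sum - ((splitsNE t).map A).sum)^2 ≤ ((splits t).map fun s => A s ^ 2).sum`.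
Hence, with `sum_W_splits`, both norms differ by at most the diagonal sum, which `diag_bound` handles.

`OL_far`: apply `OL_core` with `B₁ = B₂ = B₀`, `B = 2 B₀ + 2`; truncation: `nsq q B₀ g ≤ nsq q B g`, and
`nsq q B (f d) = nsq q B₀ (f d)` by the support hypothesis. Use `ker_hbb` (giving `bb = bbK Cb P t δ`), `ker_DG`, `ker_OF`;
sites `d > X` contribute zero (`DGv` and `Qv` vanish since `ker` vanishes at negative arguments and `H ≥ 0`).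
`kapT ≤ 1`.

`OL_sup`: let `i*` maximize `y i = √(nsq q B₀ (Yb θ S f i))` on `Icc I₀ Xm`, `ȳ = y i*`. `OL_far` at `X = i*` with `as = []`
plus `Yb_le` gives `ȳ² ≤ C' ψ̄² E + C' ȳ ψ̄ E`, hence `ȳ ≤ (C'+1) ψ̄ E` because `E ≥ 1`.

`OL_weighted`: strong induction on `X` starting below `I₀` (where `Yb = 0`). For `X ≥ I₀`, in the zone we have
`1/δ + ε ≤ ρ(l)` for all `l ≤ Lmax`. `OL_core` with `AM-GM`: `ψ y ≤ (g/2) ψ² + (1/(2g)) y²`, with `ker_OF` (sum over `i` of `Qv ≤ 2C ρ(X-d')`) and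
`NB_Qbar` (sum over `d'` of `Qv ≤ 4C ρ(X-i)²`), `ker_DG`: (sum of diagonal ≤ C ψ_d² ρ(X-d))
`y_X² ≤ C₆ (1+g) Σ_{d≤X} ψ_d² ρ(X-d) + (C₅/g) Σ_{i ∈ Icc I₀ X} y_i² ρ(X-i)²`.
Term `i = X` is absorbed for `g ≥ 4 C₅`. By induction `y_i² ≤ G Σ_{d≤i} ψ_d² ρ(i-d)` and `harm_rho` below:
`y_X² ≤ [2 C₆ (1+g) + (2 C₅/g) * 2 * G * 6 𝓛] Σ ψ_d² ρ(X-d)`. Take `g = 48 C₅ 𝓛` and `G = C 𝓛`, `C` large.

`OL_single`: `S = {d}`, `Yk_eq_sum_Tk`, `δ = (X-d+1).toNat` in `OL_far` so that `1/δ ≤ ρ`, and `OL_sup` with `E = 3` for `ȳ`.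
-/

namespace Vale.Agent.Lib.P321

open Finset

theorem sum_inv_sqrt_le (L : ℕ) : ∑ u ∈ range L, 1 / √((u : ℝ) + 1) ≤ 2 * √(L : ℝ) := by
  induction L with
  | zero => simp
  | succ n ih =>
    rw [sum_range_succ]
    have hn : (0 : ℝ) ≤ n := by positivity
    set a := √((n : ℝ) + 1) with ha
    set b := √(n : ℝ) with hb
    have ha0 : 0 < a := Real.sqrt_pos.mpr (by linarith)
    have hb0 : 0 ≤ b := Real.sqrt_nonneg _
    have ha2 : a * a = (n : ℝ) + 1 := Real.mul_self_sqrt (by linarith)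
    have hb2 : b * b = (n : ℝ) := Real.mul_self_sqrt hn
    have hba : b ≤ a := Real.sqrt_le_sqrt (by linarith)
    have e : √(((n + 1 : ℕ) : ℝ)) = a := by
      rw [ha]; push_cast; rfl
    rw [e]
    have key : 1 / a ≤ 2 * a - 2 * b := by
      rw [div_le_iff₀ ha0]
      nlinarith
    linarith

/-- The convolution of `ρ` and `ρ²` on an interval: `u = i-d`, `L = X-d`. Pointwise
`1/(√(u+1) (L-u+1)) ≤ (2/(L+2))/√(u+1) + (√2/√(L+2))/(L-u+1)`. -/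
theorem harm_rho {d X : ℤ} (hdX : d ≤ X) {𝓛 : ℝ} (h𝓛 : 1 ≤ 𝓛)
    (hh : ∑ j ∈ range ((X - d).toNat + 3), 1 / ((j : ℝ) + 1) ≤ 𝓛) :
    ∑ i ∈ Ico d X, rhoL (i - d) * rhoL (X - i) ^ 2 ≤ 6 * 𝓛 * rhoL (X - d) := by
  obtain ⟨L, hL⟩ : ∃ L : ℕ, (L : ℤ) = X - d := ⟨(X - d).toNat, by omega⟩
  have hLt : (X - d).toNat = L := by omega
  rw [hLt] at hh
  rw [← hL]
  -- reindex
  have hre : ∑ i ∈ Ico d X, rhoL (i - d) * rhoL (X - i) ^ 2 =
      ∑ u ∈ range L, rhoL (u : ℤ) * rhoL ((L : ℤ) - u) ^ 2 := by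
    apply sum_nbij' (fun i => (i - d).toNat) (fun u => d + (u : ℤ))
    · intro i hi
      simp only [mem_Ico, mem_range] at hi ⊢
      omega
    · intro u hu
      simp only [mem_Ico, mem_range] at hu ⊢
      omega
    · intro i hi
      simp only [mem_Ico] at hi
      have : ((i - d).toNat : ℤ) = i - d := by omega
      rw [this]
      ring
    · intro u _
      simp
    · intro i hi
      simp only [mem_Ico] at hi
      have e1 : ((i - d).toNat : ℤ) = i - d := by omega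
      rw [e1]
      congr 3
      omega
  rw [hre]
  have hLr : (0 : ℝ) ≤ L := by positivity
  -- pointwise
  set s := √((L : ℝ) + 2) with hs
  have hs0 : 0 < s := Real.sqrt_pos.mpr (by linarith)
  have hs2 : s * s = (L : ℝ) + 2 := Real.mul_self_sqrt (by linarith)
  have hpt : ∀ u ∈ range L, rhoL (u : ℤ) * rhoL ((L : ℤ) - u) ^ 2 ≤
      (2 / ((L : ℝ) + 2)) * (1 / √((u : ℝ) + 1)) +
        (√2 / s) * (1 / (((L - 1 - u : ℕ) : ℝ) + 1 + 1)) := by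
    intro u hu
    have hu' : u < L := mem_range.mp hu
    have e1 : rhoL (u : ℤ) = 1 / √((u : ℝ) + 1) := by
      simp [rhoL]
    have e2 : rhoL ((L : ℤ) - u) ^ 2 = 1 / (((L - 1 - u : ℕ) : ℝ) + 1 + 1) := by
      simp only [rhoL]
      rw [div_pow, one_pow, Real.sq_sqrt]
      · congr 1
        have : ((L : ℤ) - (u : ℤ) : ℤ) = ((L - 1 - u : ℕ) : ℤ) + 1 := by omega
        rw [this]
        push_cast
        ring
      · have : ((((L : ℤ) - (u : ℤ) : ℤ)) : ℝ) = (L : ℝ) - u := by push_cast; ring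
        rw [this]
        have : (u : ℝ) < L := by exact_mod_cast hu'
        linarith
    rw [e1, e2]
    set a := √((u : ℝ) + 1) with ha
    have ha0 : 0 < a := Real.sqrt_pos.mpr (by positivity)
    have ha2 : a * a = (u : ℝ) + 1 := Real.mul_self_sqrt (by positivity)
    set b : ℝ := ((L - 1 - u : ℕ) : ℝ) + 1 + 1 with hb
    have hbval : b = (L : ℝ) - u + 1 := by
      have : ((L - 1 - u : ℕ) : ℝ) = (L : ℝ) - 1 - u := by
        have h1 : L - 1 - u + (1 + u) = L := by omega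
        have h2 : ((L - 1 - u + (1 + u) : ℕ) : ℝ) = (L : ℝ) := by rw [h1]
        push_cast at h2
        linarith
      rw [hb, this]
      ring
    have hu0 : (0 : ℝ) ≤ u := by positivity
    have huL : (u : ℝ) + 1 ≤ L := by exact_mod_cast hu'
    have hb0 : 0 < b := by rw [hbval]; linarith
    have hab : (u : ℝ) + 1 + b = (L : ℝ) + 2 := by rw [hbval]; ring
    have h2pos : (0 : ℝ) < (L : ℝ) + 2 := by linarith
    by_cases hcase : (L : ℝ) + 2 ≤ 2 * b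
    · -- first term
      have h1 : 1 / b ≤ 2 / ((L : ℝ) + 2) := by
        rw [div_le_div_iff₀ hb0 h2pos]
        linarith
      have h3 : 0 ≤ (√2 / s) * (1 / b) := by positivity
      have h4 : 1 / a * (1 / b) ≤ 2 / ((L : ℝ) + 2) * (1 / a) := by
        rw [mul_comm]
        exact mul_le_mul_of_nonneg_right h1 (by positivity)
      linarith
    · have hcase' : (L : ℝ) + 2 ≤ 2 * ((u : ℝ) + 1) := by
        have := not_le.mp hcase
        linarith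
      have h1 : 1 / a ≤ √2 / s := by
        rw [div_le_div_iff₀ ha0 hs0]
        have h5 : s ≤ √2 * a := by
          have e5 : √2 * a = √(2 * (a * a)) := by
            rw [Real.sqrt_mul (by norm_num), Real.sqrt_mul_self ha0.le]
          rw [e5, hs]
          apply Real.sqrt_le_sqrt
          rw [ha2]
          linarith
        linarith
      have h3 : 0 ≤ (2 / ((L : ℝ) + 2)) * (1 / a) := by positivity
      have h4 : 1 / a * (1 / b) ≤ √2 / s * (1 / b) :=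
        mul_le_mul_of_nonneg_right h1 (by positivity)
      linarith
  refine (sum_le_sum hpt).trans ?_
  rw [sum_add_distrib, ← mul_sum, ← mul_sum]
  have h1 := sum_inv_sqrt_le L
  -- harmonic part
  have h2 : ∑ u ∈ range L, 1 / (((L - 1 - u : ℕ) : ℝ) + 1 + 1) ≤ 𝓛 := by
    have h3 : ∑ u ∈ range L, 1 / (((L - 1 - u : ℕ) : ℝ) + 1 + 1) =
        ∑ u ∈ range L, 1 / ((u : ℝ) + 1 + 1) := by
      apply sum_nbij' (fun u => L - 1 - u) (fun u => L - 1 - u)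
      · intro u hu
        simp only [mem_range] at hu ⊢
        omega
      · intro u hu
        simp only [mem_range] at hu ⊢
        omega
      · intro u hu
        simp only [mem_range] at hu
        omega
      · intro u hu
        simp only [mem_range] at hu
        omega
      · intros; rfl
    rw [h3]
    refine le_trans ?_ hh
    have h4 : ∑ u ∈ range L, 1 / ((u : ℝ) + 1 + 1) =
        ∑ j ∈ (range L).image (fun n : ℕ => n + 1), 1 / ((j : ℝ) + 1) := by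
      rw [sum_image (fun a _ b _ h => by simpa using h)]
      apply sum_congr rfl
      intro u _
      push_cast
      rfl
    rw [h4]
    apply sum_le_sum_of_subset_of_nonneg
    · intro j hj
      obtain ⟨u, hu, rfl⟩ := mem_image.mp hj
      simp only [mem_range] at hu ⊢
      omega
    · intros
      positivity
  set r := rhoL (L : ℤ) with hr
  have hr' : r = 1 / √((L : ℝ) + 1) := by simp [hr, rhoL]
  have hr0 : 0 < r := by
    rw [hr']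
    have : 0 < √((L : ℝ) + 1) := Real.sqrt_pos.mpr (by linarith)
    positivity
  set t := √((L : ℝ) + 1) with ht
  have ht0 : 0 < t := Real.sqrt_pos.mpr (by linarith)
  have ht2 : t * t = (L : ℝ) + 1 := Real.mul_self_sqrt (by linarith)
  have hts : t ≤ s := Real.sqrt_le_sqrt (by linarith)
  set v := √(L : ℝ) with hv
  have hv0 : 0 ≤ v := Real.sqrt_nonneg _
  have hv2 : v * v = (L : ℝ) := Real.mul_self_sqrt hLr
  have hvt : v ≤ t := Real.sqrt_le_sqrt (by linarith)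
  have b1 : (2 / ((L : ℝ) + 2)) * ∑ u ∈ range L, 1 / √((u : ℝ) + 1) ≤ 4 * r := by
    have h5 : (2 / ((L : ℝ) + 2)) * ∑ u ∈ range L, 1 / √((u : ℝ) + 1) ≤
        (2 / ((L : ℝ) + 2)) * (2 * v) := mul_le_mul_of_nonneg_left h1 (by positivity)
    refine h5.trans ?_
    rw [hr']
    have : 2 / ((L : ℝ) + 2) * (2 * v) = 4 * (v / ((L : ℝ) + 2)) := by ring
    rw [this]
    have h6 : v / ((L : ℝ) + 2) ≤ 1 / t := by
      rw [div_le_div_iff₀ (by linarith) ht0]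
      nlinarith
    linarith
  have b2 : (√2 / s) * ∑ u ∈ range L, 1 / (((L - 1 - u : ℕ) : ℝ) + 1 + 1) ≤ 2 * 𝓛 * r := by
    have h7 : (√2 / s) * ∑ u ∈ range L, 1 / (((L - 1 - u : ℕ) : ℝ) + 1 + 1) ≤ (√2 / s) * 𝓛 :=
      mul_le_mul_of_nonneg_left h2 (by positivity)
    refine h7.trans ?_
    rw [hr']
    have h8 : √2 / s ≤ 2 * (1 / t) := by
      rw [div_le_iff₀ hs0]
      have h9 : √2 ≤ 2 := by
        rw [Real.sqrt_le_left (by norm_num)]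
        norm_num
      have h10 : 2 * (1 / t) * s = 2 * (s / t) := by ring
      rw [h10]
      have h11 : 1 ≤ s / t := by
        rw [le_div_iff₀ ht0]
        linarith
      linarith
    have h12 : 0 ≤ 𝓛 := by linarith
    calc √2 / s * 𝓛 ≤ 2 * (1 / t) * 𝓛 := mul_le_mul_of_nonneg_right h8 h12
      _ = 2 * 𝓛 * (1 / t) := by ring
  have h13 : 4 * r ≤ 4 * 𝓛 * r := by nlinarith
  linarith

theorem nsq_eq_of_supp {q : ℝ} {B B' : ℕ} (hB : B ≤ B') {f : Word → ℝ}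
    (hf : ∀ w, f w ≠ 0 → w.length ≤ B) : nsq q B' f = nsq q B f := by
  unfold nsq
  symm
  apply sum_subset_zero_on_sdiff (W_mono hB)
  · intro w hw
    simp only [mem_sdiff, mem_W, not_le] at hw
    have : f w = 0 := by
      by_contra hne
      have := hf w hne
      omega
    rw [this]
    ring
  · intros; rfl

theorem DGv_of_neg {q : ℝ} {θ : ℝ} (as : List ℕ) (bb : ℕ → ℝ) (B : ℕ) {L : ℤ} (hL : L < 0) :
    DGv q (ker θ as) bb B L = 0 := by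
  unfold DGv
  apply sum_eq_zero
  intro w _
  have h0 : (0 : ℤ) ≤ H w := by positivity
  rw [ker_of_neg as _ (by omega)]
  simp

theorem Qv_of_neg {q θ : ℝ} (as : List ℕ) (B₂ : ℕ) {X d' : ℤ} (i : ℤ) (h : X - d' < 0) :
    Qv q θ (ker θ as) B₂ X d' i = 0 := by
  unfold Qv
  apply sum_eq_zero
  intro w _
  have h0 : (0 : ℤ) ≤ H w := by positivity
  rw [ker_of_neg as _ (by omega)]
  simp

/-- Square of the difference of the sums over all tokens and over tokens with nonempty right part. -/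
theorem token_last_sq (A : Spl → ℝ) (t : Word) :
    (((splits t).map A).sum - ((splitsNE t).map A).sum) ^ 2 ≤ ((splits t).map fun s => A s ^ 2).sum := by
  induction t using List.twoStepInduction generalizing A with
  | nil => simp [splitsNE]
  | singleton a => simp [splitsNE]
  | cons_cons a b l _ ih =>
    cases l with
    | nil =>
      simp [splitsNE, splits_cons_cons]
    | cons e l =>
      rw [splitsNE_cons_cons_cons, splits_cons_cons]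
      simp only [List.map_cons, List.sum_cons, List.map_map]
      have h := ih b (fun s => A (a :: s.1, s.2))
      have e1 : ((splits (b :: e :: l)).map (A ∘ fun s => ((a :: s.1, s.2) : Spl))).sum =
          ((splits (b :: e :: l)).map fun s => A (a :: s.1, s.2)).sum := rfl
      have e2 : ((splitsNE (b :: e :: l)).map (A ∘ fun s => ((a :: s.1, s.2) : Spl))).sum =
          ((splitsNE (b :: e :: l)).map fun s => A (a :: s.1, s.2)).sum := rfl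
      have e3 : ((splits (b :: e :: l)).map ((fun s => A s ^ 2) ∘ fun s => ((a :: s.1, s.2) : Spl))).sum =
          ((splits (b :: e :: l)).map fun s => A (a :: s.1, s.2) ^ 2).sum := rfl
      rw [e1, e2, e3]
      have h3 : 0 ≤ A ([], a, b, e :: l) ^ 2 := sq_nonneg _
      have e4 : A ([], a, b, e :: l) + ((splits (b :: e :: l)).map fun s => A (a :: s.1, s.2)).sum -
          (A ([], a, b, e :: l) + ((splitsNE (b :: e :: l)).map fun s => A (a :: s.1, s.2)).sum) =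
          ((splits (b :: e :: l)).map fun s => A (a :: s.1, s.2)).sum -
            ((splitsNE (b :: e :: l)).map fun s => A (a :: s.1, s.2)).sum := by ring
      rw [e4]
      linarith

theorem Yk_sub_Yb_sq (θ : ℝ) (S : Finset ℤ) (f : ℤ → Word → ℝ) (X : ℤ) (t : Word) :
    (Yk θ (NB θ) S f X t - Yb θ S f X t) ^ 2 ≤
      ((splits t).map fun s => Atok θ (NB θ) S f X s ^ 2).sum := by
  have := token_last_sq (Atok θ (NB θ) S f X) t
  exact this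

/-- Summed form of the last token. -/
theorem sum_piT_splits (q : ℝ) (B : ℕ) (A : Spl → ℝ) :
    ∑ t ∈ W B, piT q t * ((splits t).map fun s => A s ^ 2).sum =
      ∑ s ∈ Quad B, piT q (joinS s) * A s ^ 2 := by
  rw [← sum_W_splits]
  apply sum_congr rfl
  intro t _
  rw [← List.sum_map_mul_left]
  apply congrArg List.sum
  apply List.map_congr_left
  intro s hs
  rw [mem_splits.mp hs]

/-- `Yb` from `Yk`. -/
theorem Yb_le {q : ℝ} (h0 : 0 < q) (h1 : q < 1) (θ : ℝ) (S : Finset ℤ) (f : ℤ → Word → ℝ) (X : ℤ) (B : ℕ) :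
    nsq q B (Yb θ S f X) ≤ 2 * nsq q B (Yk θ (NB θ) S f X) +
      2 * ∑ s ∈ Quad B, piT q (joinS s) * Atok θ (NB θ) S f X s ^ 2 := by
  rw [← sum_piT_splits]
  unfold nsq
  rw [mul_sum, mul_sum, ← sum_add_distrib]
  apply sum_le_sum
  intro t _
  have hp := piT_pos h0 h1 t
  have h := Yk_sub_Yb_sq θ S f X t
  have h2 : Yb θ S f X t ^ 2 ≤ 2 * Yk θ (NB θ) S f X t ^ 2 +
      2 * (Yk θ (NB θ) S f X t - Yb θ S f X t) ^ 2 := by
    nlinarith [sq_nonneg (2 * Yk θ (NB θ) S f X t - Yb θ S f X t)]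
  have h3 : Yb θ S f X t ^ 2 ≤ 2 * Yk θ (NB θ) S f X t ^ 2 +
      2 * ((splits t).map fun s => Atok θ (NB θ) S f X s ^ 2).sum := by linarith
  calc piT q t * Yb θ S f X t ^ 2
      ≤ piT q t * (2 * Yk θ (NB θ) S f X t ^ 2 +
      2 * ((splits t).map fun s => Atok θ (NB θ) S f X s ^ 2).sum) :=
        mul_le_mul_of_nonneg_left h3 hp.le
    _ = _ := by ring

/-- `Yk` from `Yb`. -/
theorem Yk_le {q : ℝ} (h0 : 0 < q) (h1 : q < 1) (θ : ℝ) (S : Finset ℤ) (f : ℤ → Word → ℝ) (X : ℤ) (B : ℕ) :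
    nsq q B (Yk θ (NB θ) S f X) ≤ 2 * nsq q B (Yb θ S f X) +
      2 * ∑ s ∈ Quad B, piT q (joinS s) * Atok θ (NB θ) S f X s ^ 2 := by
  rw [← sum_piT_splits]
  unfold nsq
  rw [mul_sum, mul_sum, ← sum_add_distrib]
  apply sum_le_sum
  intro t _
  have hp := piT_pos h0 h1 t
  have h := Yk_sub_Yb_sq θ S f X t
  have h2 : Yk θ (NB θ) S f X t ^ 2 ≤ 2 * Yb θ S f X t ^ 2 +
      2 * (Yk θ (NB θ) S f X t - Yb θ S f X t) ^ 2 := by
    nlinarith [sq_nonneg (Yk θ (NB θ) S f X t - 2 * Yb θ S f X t)]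
  have h3 : Yk θ (NB θ) S f X t ^ 2 ≤ 2 * Yb θ S f X t ^ 2 +
      2 * ((splits t).map fun s => Atok θ (NB θ) S f X s ^ 2).sum := by linarith
  calc piT q t * Yk θ (NB θ) S f X t ^ 2
      ≤ piT q t * (2 * Yb θ S f X t ^ 2 +
      2 * ((splits t).map fun s => Atok θ (NB θ) S f X s ^ 2).sum) :=
        mul_le_mul_of_nonneg_left h3 hp.le
    _ = _ := by ring

theorem Qv_nonneg {q θ : ℝ} (h0 : 0 < q) (h1 : q < 1) (β : Blk) (B₂ : ℕ) (X d' i : ℤ) :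
    0 ≤ Qv q θ β B₂ X d' i := by
  unfold Qv Dm
  exact sum_nonneg fun w2 _ => mul_nonneg (mul_nonneg (piT_pos h0 h1 w2).le (abs_nonneg _))
    (sum_nonneg fun _ _ => abs_nonneg _)

theorem kapT_nonneg {q θ : ℝ} (h1 : q < 1) (h0 : 0 < q) (hθ : θ < 1) : 0 ≤ kapT q θ := by
  unfold kapT
  have : 0 < 1 - q := by linarith
  have : 0 < 1 - θ := by linarith
  positivity

theorem kapT_le_one {q θ : ℝ} (h1 : q < 1) (h0 : 0 < q) (hθ0 : 0 < θ) (hθ : θ < 1) : kapT q θ ≤ 1 := by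
  unfold kapT
  rw [div_le_one (by linarith)]
  nlinarith

/-- The overlap estimate with a uniform bound for the intermediate sums. -/
theorem OL_far {q θ₀ θ₁ : ℝ} (h0 : 0 < q) (h1 : q < 1) (hθ₀ : 0 < θ₀) (hθ₁ : θ₁ < 1) (t : ℕ) :
    ∃ C : ℝ, 0 < C ∧ ∀ θ ∈ Set.Icc θ₀ θ₁, ∀ as : List ℕ, as.length = t → (∀ a ∈ as, 1 ≤ a) →
      ∀ (δ : ℕ) (S : Finset ℤ) (f : ℤ → Word → ℝ) (B₀ : ℕ) (X I₀ : ℤ) (ybar : ℝ),
        1 ≤ δ → Spaced S δ → (∀ d ∈ S, I₀ ≤ d) → (∀ d ∈ S, ∀ w, f d w ≠ 0 → w.length ≤ B₀) →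
        (∀ d ∈ S, 2 * (X - d) ≤ (B₀ : ℤ)) →
        (∀ d ∈ S, d ≤ X → ((as.sum : ℤ) * 4 ≤ X - d + 1 ∨ X - d + 1 ≤ 8)) →
        0 ≤ ybar → (∀ i ∈ Icc I₀ X, √(nsq q B₀ (Yb θ S f i)) ≤ ybar) →
        nsq q B₀ (Yk θ (ker θ as) S f X) ≤ C * (as.prod : ℝ) ^ 2 *
          (∑ d ∈ S.filter (· ≤ X), nsq q B₀ (f d) *
              (rhoL (X - d) ^ (2 * t) / δ + rhoL (X - d) ^ (2 * t + 1)) +
            ybar * ∑ d ∈ S.filter (· ≤ X), √(nsq q B₀ (f d)) *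
              (rhoL (X - d) ^ (2 * t + 1) + |θ - q ^ 2| * rhoL (X - d) ^ (2 * t))) := by
  obtain ⟨Cb, hCb, hbb⟩ := ker_hbb hθ₀ hθ₁ t
  obtain ⟨CD, hCD, hDG⟩ := ker_DG h0 h1 hθ₀ hθ₁ t Cb hCb
  obtain ⟨CO, hCO, hOF⟩ := ker_OF h0 h1 hθ₀ hθ₁ t
  have hCnu := Cnu_pos (q := q) h0 hθ₀
  refine ⟨5 * Cnu q θ₀ * CD + 2 * CO, by positivity, ?_⟩
  intro θ hθ as has hpos δ S f B₀ X I₀ ybar hδ hS hI hf hXd hcond hy0 hy
  have hθ1 : θ < 1 := lt_of_le_of_lt hθ.2 hθ₁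
  have hθ0 : 0 < θ := lt_of_lt_of_le hθ₀ hθ.1
  have hθ₀1 : θ₀ ≤ 1 := by linarith [hθ.1]
  set P : ℝ := (as.prod : ℝ) with hP
  have hP2 : 0 ≤ P ^ 2 := sq_nonneg _
  have hcore := OL_core (q := q) (θ := θ) (θ₀ := θ₀) h0 h1 hθ₀ hθ.1 hθ1 hθ₀1 (isBlk_ker θ as) S f X hI
    (B := 2 * B₀ + 2) (B₁ := B₀) (B₂ := B₀) (by omega) hf hXd (bbK Cb P t δ)
    (fun r c hr => hbb θ hθ as has hpos δ hδ S hS r c hr)
  have hmono := nsq_mono (q := q) h0 h1 (by omega : B₀ ≤ 2 * B₀ + 2) (Yk θ (ker θ as) S f X)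
  refine hmono.trans (hcore.trans ?_)
  set D := ∑ d ∈ S.filter (· ≤ X), nsq q B₀ (f d) *
              (rhoL (X - d) ^ (2 * t) / δ + rhoL (X - d) ^ (2 * t + 1)) with hD
  set O := ∑ d ∈ S.filter (· ≤ X), √(nsq q B₀ (f d)) *
              (rhoL (X - d) ^ (2 * t + 1) + |θ - q ^ 2| * rhoL (X - d) ^ (2 * t)) with hO
  have hδ0 : (0 : ℝ) < δ := by exact_mod_cast hδ
  have hD0 : 0 ≤ D := by
    apply sum_nonneg
    intro d _
    have := rhoL_nonneg (X - d)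
    exact mul_nonneg (nsq_nonneg h0 h1 _ _) (by positivity)
  have hO0 : 0 ≤ O := by
    apply sum_nonneg
    intro d _
    have := rhoL_nonneg (X - d)
    positivity
  -- the diagonal part
  have hdiag : ∑ d ∈ S, nsq q (2 * B₀ + 2) (f d) * DGv q (ker θ as) (bbK Cb P t δ) (2 * B₀ + 2) (X - d) ≤
      CD * P ^ 2 * D := by
    have e1 : ∑ d ∈ S, nsq q (2 * B₀ + 2) (f d) * DGv q (ker θ as) (bbK Cb P t δ) (2 * B₀ + 2) (X - d) =
        ∑ d ∈ S.filter (· ≤ X), nsq q (2 * B₀ + 2) (f d) *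
          DGv q (ker θ as) (bbK Cb P t δ) (2 * B₀ + 2) (X - d) := by
      symm
      apply sum_subset (filter_subset _ _)
      intro d hd hnd
      have : X - d < 0 := by
        simp only [mem_filter, not_and, not_le] at hnd
        have := hnd hd
        omega
      rw [DGv_of_neg as _ _ this]
      ring
    rw [e1, hD, mul_sum]
    apply sum_le_sum
    intro d hd
    obtain ⟨hdS, hdX⟩ := mem_filter.mp hd
    rw [nsq_eq_of_supp (by omega : B₀ ≤ 2 * B₀ + 2) (hf d hdS)]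
    have h := hDG θ hθ as has hpos δ (2 * B₀ + 2) (X - d) hδ (by omega) (hcond d hdS hdX)
    have hn := nsq_nonneg (q := q) h0 h1 B₀ (f d)
    calc nsq q B₀ (f d) * DGv q (ker θ as) (bbK Cb P t δ) (2 * B₀ + 2) (X - d)
        ≤ nsq q B₀ (f d) * (CD * P ^ 2 * (rhoL (X - d) ^ (2 * t) / δ + rhoL (X - d) ^ (2 * t + 1))) :=
          mul_le_mul_of_nonneg_left h hn
      _ = _ := by ring
  -- the off-diagonal part
  have hoff : ∑ i ∈ Icc I₀ X, ∑ d' ∈ S, Qv q θ (ker θ as) B₀ X d' i *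
        (√(nsq q B₀ (f d')) * √(nsq q B₀ (Yb θ S f i))) ≤ CO * P ^ 2 * (ybar * O) := by
    have e1 : ∑ i ∈ Icc I₀ X, ∑ d' ∈ S, Qv q θ (ker θ as) B₀ X d' i *
        (√(nsq q B₀ (f d')) * √(nsq q B₀ (Yb θ S f i))) ≤
        ∑ i ∈ Icc I₀ X, ∑ d' ∈ S, Qv q θ (ker θ as) B₀ X d' i * (√(nsq q B₀ (f d')) * ybar) := by
      apply sum_le_sum
      intro i hi
      apply sum_le_sum
      intro d' _
      apply mul_le_mul_of_nonneg_left _ (Qv_nonneg h0 h1 _ _ _ _ _)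
      exact mul_le_mul_of_nonneg_left (hy i hi) (Real.sqrt_nonneg _)
    refine e1.trans ?_
    rw [sum_comm]
    have e2 : ∑ d' ∈ S, ∑ i ∈ Icc I₀ X, Qv q θ (ker θ as) B₀ X d' i * (√(nsq q B₀ (f d')) * ybar) =
        ∑ d' ∈ S.filter (· ≤ X), ∑ i ∈ Icc I₀ X, Qv q θ (ker θ as) B₀ X d' i * (√(nsq q B₀ (f d')) * ybar) := by
      symm
      apply sum_subset (filter_subset _ _)
      intro d hd hnd
      have : X - d < 0 := by
        simp only [mem_filter, not_and, not_le] at hnd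
        have := hnd hd
        omega
      apply sum_eq_zero
      intro i _
      rw [Qv_of_neg as _ i this]
      ring
    rw [e2, hO, mul_sum, mul_sum]
    apply sum_le_sum
    intro d hd
    obtain ⟨hdS, hdX⟩ := mem_filter.mp hd
    have h := hOF θ hθ as has hpos B₀ X d I₀ (by omega) (hcond d hdS hdX)
    rw [← sum_mul]
    have hn : 0 ≤ √(nsq q B₀ (f d)) * ybar := mul_nonneg (Real.sqrt_nonneg _) hy0
    calc (∑ i ∈ Icc I₀ X, Qv q θ (ker θ as) B₀ X d i) * (√(nsq q B₀ (f d)) * ybar)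
        ≤ (CO * P ^ 2 * (rhoL (X - d) ^ (2 * t + 1) + |θ - q ^ 2| * rhoL (X - d) ^ (2 * t))) *
          (√(nsq q B₀ (f d)) * ybar) := mul_le_mul_of_nonneg_right h hn
      _ = _ := by ring
  have hkap0 := kapT_nonneg (q := q) h1 h0 hθ1
  have hkap1 := kapT_le_one (q := q) h1 h0 hθ0 hθ1
  have hoff0 : 0 ≤ ∑ i ∈ Icc I₀ X, ∑ d' ∈ S, Qv q θ (ker θ as) B₀ X d' i *
        (√(nsq q B₀ (f d')) * √(nsq q B₀ (Yb θ S f i))) := by
    apply sum_nonneg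
    intro i _
    apply sum_nonneg
    intro d _
    exact mul_nonneg (Qv_nonneg h0 h1 _ _ _ _ _) (by positivity)
  have hk : kapT q θ * ∑ i ∈ Icc I₀ X, ∑ d' ∈ S, Qv q θ (ker θ as) B₀ X d' i *
        (√(nsq q B₀ (f d')) * √(nsq q B₀ (Yb θ S f i))) ≤ CO * P ^ 2 * (ybar * O) := by
    have := mul_le_mul_of_nonneg_right hkap1 hoff0
    linarith
  have hmul := mul_le_mul_of_nonneg_left hdiag hCnu.le
  have hy1 : 0 ≤ ybar * O := mul_nonneg hy0 hO0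
  have t1 : 0 ≤ 5 * Cnu q θ₀ * CD * P ^ 2 * (ybar * O) := by positivity
  have t2 : 0 ≤ 2 * CO * P ^ 2 * D := by positivity
  nlinarith

/-- Block bound for `NB`. -/
theorem NB_hbb {θ₀ θ₁ : ℝ} (hθ₀ : 0 < θ₀) (hθ₁ : θ₁ < 1) :
    ∃ Cb : ℝ, 0 < Cb ∧ ∀ θ ∈ Set.Icc θ₀ θ₁, ∀ δ : ℕ, 1 ≤ δ → ∀ S : Finset ℤ, Spaced S δ →
      ∀ (r : ℕ) (c : ℤ), 1 ≤ r → ∑ d ∈ S, |NB θ r (c - d)| ≤ bbK Cb 1 0 δ r := by
  obtain ⟨Cb, hCb, h⟩ := ker_hbb hθ₀ hθ₁ 0
  refine ⟨Cb, hCb, ?_⟩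
  intro θ hθ δ hδ S hS r c hr
  have := h θ hθ [] rfl (by simp) δ hδ S hS r c hr
  simpa [ker_nil] using this

/-- Diagonal weight of `NB`. -/
theorem NB_DG {q θ₀ θ₁ : ℝ} (h0 : 0 < q) (h1 : q < 1) (hθ₀ : 0 < θ₀) (hθ₁ : θ₁ < 1) (Cb : ℝ) (hCb : 0 < Cb) :
    ∃ C : ℝ, 0 < C ∧ ∀ θ ∈ Set.Icc θ₀ θ₁, ∀ (δ B : ℕ) (L : ℤ), 1 ≤ δ → 0 ≤ L →
      DGv q (NB θ) (bbK Cb 1 0 δ) B L ≤ C * (1 / δ + rhoL L) := by
  obtain ⟨C, hC, h⟩ := ker_DG h0 h1 hθ₀ hθ₁ 0 Cb hCb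
  refine ⟨C, hC, ?_⟩
  intro θ hθ δ B L hδ hL
  have := h θ hθ [] rfl (by simp) δ B L hδ hL (Or.inl (by simp; omega))
  simpa [ker_nil_fun] using this

/-- Off-diagonal site weight of `NB`. -/
theorem NB_OF {q θ₀ θ₁ : ℝ} (h0 : 0 < q) (h1 : q < 1) (hθ₀ : 0 < θ₀) (hθ₁ : θ₁ < 1) :
    ∃ C : ℝ, 0 < C ∧ ∀ θ ∈ Set.Icc θ₀ θ₁, ∀ (B₂ : ℕ) (X d' I₀ : ℤ), 0 ≤ X - d' →
      ∑ i ∈ Icc I₀ X, Qv q θ (NB θ) B₂ X d' i ≤ C * (rhoL (X - d') + |θ - q ^ 2|) := by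
  obtain ⟨C, hC, h⟩ := ker_OF h0 h1 hθ₀ hθ₁ 0
  refine ⟨C, hC, ?_⟩
  intro θ hθ B₂ X d' I₀ hL
  have := h θ hθ [] rfl (by simp) B₂ X d' I₀ hL (Or.inl (by simp; omega))
  simpa [ker_nil_fun] using this

/-- The diagonal sum for `NB`. -/
theorem NB_diag {q θ₀ θ₁ : ℝ} (h0 : 0 < q) (h1 : q < 1) (hθ₀ : 0 < θ₀) (hθ₁ : θ₁ < 1) :
    ∃ C : ℝ, 0 < C ∧ ∀ θ ∈ Set.Icc θ₀ θ₁, ∀ (δ : ℕ) (S : Finset ℤ) (f : ℤ → Word → ℝ) (B : ℕ) (X : ℤ),
      1 ≤ δ → Spaced S δ →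
      ∑ s ∈ Quad B, piT q (joinS s) * Atok θ (NB θ) S f X s ^ 2 ≤
        C * ∑ d ∈ S.filter (· ≤ X), nsq q B (f d) * (1 / δ + rhoL (X - d)) := by
  obtain ⟨Cb, hCb, hbb⟩ := NB_hbb hθ₀ hθ₁
  obtain ⟨CD, hCD, hDG⟩ := NB_DG h0 h1 hθ₀ hθ₁ Cb hCb
  have hCnu := Cnu_pos (q := q) h0 hθ₀
  refine ⟨Cnu q θ₀ * CD, by positivity, ?_⟩
  intro θ hθ δ S f B X hδ hS
  have hθ1 : θ < 1 := lt_of_le_of_lt hθ.2 hθ₁
  have hθ₀1 : θ₀ ≤ 1 := by linarith [hθ.1]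
  have hd := diag_bound (q := q) (θ := θ) (θ₀ := θ₀) h0 h1 hθ₀ hθ.1 hθ1 hθ₀1 (NB θ) S f X B
    (bbK Cb 1 0 δ) (fun r c hr => hbb θ hθ δ hδ S hS r c hr)
  refine hd.trans ?_
  rw [mul_assoc]
  apply mul_le_mul_of_nonneg_left _ hCnu.le
  have e1 : ∑ d ∈ S, nsq q B (f d) * DGv q (NB θ) (bbK Cb 1 0 δ) B (X - d) =
      ∑ d ∈ S.filter (· ≤ X), nsq q B (f d) * DGv q (NB θ) (bbK Cb 1 0 δ) B (X - d) := by
    symm
    apply sum_subset (filter_subset _ _)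
    intro d hd hnd
    have : X - d < 0 := by
      simp only [mem_filter, not_and, not_le] at hnd
      have := hnd hd
      omega
    have h2 := DGv_of_neg (q := q) (θ := θ) [] (bbK Cb 1 0 δ) B this
    rw [ker_nil_fun] at h2
    rw [h2]
    ring
  rw [e1, mul_sum]
  apply sum_le_sum
  intro d hd
  obtain ⟨_, hdX⟩ := mem_filter.mp hd
  have h := hDG θ hθ δ B (X - d) hδ (by omega)
  calc nsq q B (f d) * DGv q (NB θ) (bbK Cb 1 0 δ) B (X - d)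
      ≤ nsq q B (f d) * (CD * (1 / δ + rhoL (X - d))) :=
        mul_le_mul_of_nonneg_left h (nsq_nonneg h0 h1 _ _)
    _ = _ := by ring

/-- A self-improving quadratic inequality. -/
theorem quad_self_bound {C' yb ψ E : ℝ} (hC' : 0 ≤ C') (hyb : 0 ≤ yb) (hψ : 0 ≤ ψ) (hE : 1 ≤ E)
    (hmain : yb ^ 2 ≤ C' * (ψ ^ 2 * E) + C' * (yb * (ψ * E))) : yb ≤ (C' + 1) * (ψ * E) := by
  by_contra hcon
  have hcon' := not_le.mp hcon
  set a := ψ * E with ha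
  have ha0 : 0 ≤ a := by positivity
  have h1 : ψ ^ 2 * E ≤ a * a := by
    rw [ha]
    have : ψ ^ 2 * E ≤ ψ ^ 2 * (E * E) := by
      apply mul_le_mul_of_nonneg_left _ (sq_nonneg _)
      nlinarith
    linarith [this, (by ring : ψ * E * (ψ * E) = ψ ^ 2 * (E * E))]
  have h2 : C' * a ≤ yb := by nlinarith
  have h3 : C' * (a * a) ≤ a * yb := by nlinarith [mul_le_mul_of_nonneg_left h2 ha0]
  have h4 : C' * (ψ ^ 2 * E) ≤ C' * (a * a) := mul_le_mul_of_nonneg_left h1 hC'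
  have h5 : 0 < yb := lt_of_le_of_lt (by positivity) hcon'
  have h6 : (C' + 1) * a * yb < yb * yb := mul_lt_mul_of_pos_right hcon' h5
  nlinarith

theorem sup_sums {q θ : ℝ} (h0 : 0 < q) (h1 : q < 1) {δ : ℕ} (S : Finset ℤ) (f : ℤ → Word → ℝ) (B₀ : ℕ)
    (j : ℤ) {ψ E : ℝ} (hψ : 0 ≤ ψ) (hψS : ∀ d ∈ S, nsq q B₀ (f d) ≤ ψ ^ 2)
    (hE0 : ∑ d ∈ S.filter (· ≤ j), (rhoL (j - d) + 1 / δ + |θ - q ^ 2|) ≤ E) :
    (∑ d ∈ S.filter (· ≤ j), nsq q B₀ (f d) * (1 / δ + rhoL (j - d)) ≤ ψ ^ 2 * E) ∧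
    (∑ d ∈ S.filter (· ≤ j), √(nsq q B₀ (f d)) * (rhoL (j - d) + |θ - q ^ 2|) ≤ ψ * E) := by
  have hsq : ∀ d ∈ S, √(nsq q B₀ (f d)) ≤ ψ := by
    intro d hd
    exact Real.sqrt_le_iff.mpr ⟨hψ, hψS d hd⟩
  have hε : 0 ≤ |θ - q ^ 2| := abs_nonneg _
  have hinv : (0 : ℝ) ≤ 1 / δ := by positivity
  constructor
  · calc ∑ d ∈ S.filter (· ≤ j), nsq q B₀ (f d) * (1 / δ + rhoL (j - d))
        ≤ ∑ d ∈ S.filter (· ≤ j), ψ ^ 2 * (rhoL (j - d) + 1 / δ + |θ - q ^ 2|) := by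
          apply sum_le_sum
          intro d hd
          have h2 := rhoL_nonneg (j - d)
          have h3 := hψS d (mem_filter.mp hd).1
          calc nsq q B₀ (f d) * (1 / δ + rhoL (j - d))
              ≤ ψ ^ 2 * (1 / δ + rhoL (j - d)) := mul_le_mul_of_nonneg_right h3 (by positivity)
            _ ≤ _ := by
              apply mul_le_mul_of_nonneg_left _ (sq_nonneg _)
              linarith
      _ = ψ ^ 2 * ∑ d ∈ S.filter (· ≤ j), (rhoL (j - d) + 1 / δ + |θ - q ^ 2|) := by rw [mul_sum]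
      _ ≤ ψ ^ 2 * E := mul_le_mul_of_nonneg_left hE0 (sq_nonneg _)
  · calc ∑ d ∈ S.filter (· ≤ j), √(nsq q B₀ (f d)) * (rhoL (j - d) + |θ - q ^ 2|)
        ≤ ∑ d ∈ S.filter (· ≤ j), ψ * (rhoL (j - d) + 1 / δ + |θ - q ^ 2|) := by
          apply sum_le_sum
          intro d hd
          have h2 := rhoL_nonneg (j - d)
          have h3 := hsq d (mem_filter.mp hd).1
          calc √(nsq q B₀ (f d)) * (rhoL (j - d) + |θ - q ^ 2|)
              ≤ ψ * (rhoL (j - d) + |θ - q ^ 2|) := mul_le_mul_of_nonneg_right h3 (by positivity)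
            _ ≤ _ := by
              apply mul_le_mul_of_nonneg_left _ hψ
              linarith
      _ = ψ * ∑ d ∈ S.filter (· ≤ j), (rhoL (j - d) + 1 / δ + |θ - q ^ 2|) := by rw [mul_sum]
      _ ≤ ψ * E := mul_le_mul_of_nonneg_left hE0 hψ

/-- The uniform bound for the intermediate sums. -/
theorem OL_sup {q θ₀ θ₁ : ℝ} (h0 : 0 < q) (h1 : q < 1) (hθ₀ : 0 < θ₀) (hθ₁ : θ₁ < 1) :
    ∃ C : ℝ, 0 < C ∧ ∀ θ ∈ Set.Icc θ₀ θ₁,
      ∀ (δ : ℕ) (S : Finset ℤ) (f : ℤ → Word → ℝ) (B₀ : ℕ) (Xm I₀ : ℤ) (ψ E : ℝ),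
        1 ≤ δ → Spaced S δ → (∀ d ∈ S, I₀ ≤ d) → (∀ d ∈ S, ∀ w, f d w ≠ 0 → w.length ≤ B₀) →
        (∀ d ∈ S, 2 * (Xm - d) ≤ (B₀ : ℤ)) → 0 ≤ ψ → (∀ d ∈ S, nsq q B₀ (f d) ≤ ψ ^ 2) → 1 ≤ E →
        (∀ i ∈ Icc I₀ Xm, ∑ d ∈ S.filter (· ≤ i), (rhoL (i - d) + 1 / δ + |θ - q ^ 2|) ≤ E) →
        ∀ i ∈ Icc I₀ Xm, nsq q B₀ (Yb θ S f i) ≤ C * ψ ^ 2 * E ^ 2 := by
  obtain ⟨C1, hC1, hfar⟩ := OL_far h0 h1 hθ₀ hθ₁ 0
  obtain ⟨C2, hC2, hdg⟩ := NB_diag h0 h1 hθ₀ hθ₁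
  set C' : ℝ := 2 * C1 + 2 * C2 with hC'
  have hC'0 : 0 < C' := by positivity
  refine ⟨(C' + 1) ^ 2, by positivity, ?_⟩
  intro θ hθ δ S f B₀ Xm I₀ ψ E hδ hS hI hf hXm hψ hψS hE hEs i hi
  obtain ⟨j, hj, hmax⟩ := exists_max_image (Icc I₀ Xm) (fun i => √(nsq q B₀ (Yb θ S f i))) ⟨i, hi⟩
  set yb : ℝ := √(nsq q B₀ (Yb θ S f j)) with hyb
  have hyb0 : 0 ≤ yb := Real.sqrt_nonneg _
  have hjm := mem_Icc.mp hj
  have hfj := hfar θ hθ [] rfl (by simp) δ S f B₀ j I₀ yb hδ hS hI hf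
    (fun d hd => by have := hXm d hd; omega)
    (fun d _ hdj => Or.inl (by simp; omega)) hyb0
    (fun i' hi' => hmax i' (by
      have := mem_Icc.mp hi'
      exact mem_Icc.mpr ⟨this.1, by omega⟩))
  rw [ker_nil_fun] at hfj
  simp only [List.prod_nil, Nat.cast_one, one_pow, mul_one, mul_zero, pow_zero, zero_add, pow_one] at hfj
  have hdj := hdg θ hθ δ S f B₀ j hδ hS
  have hYb := Yb_le (q := q) h0 h1 θ S f j B₀
  obtain ⟨hs1, hs2⟩ := sup_sums (q := q) (θ := θ) h0 h1 (δ := δ) S f B₀ j hψ hψS (hEs j hj)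
  have hfj' : nsq q B₀ (Yk θ (NB θ) S f j) ≤ C1 * (ψ ^ 2 * E + yb * (ψ * E)) := by
    refine hfj.trans ?_
    apply mul_le_mul_of_nonneg_left _ hC1.le
    apply add_le_add hs1
    exact mul_le_mul_of_nonneg_left hs2 hyb0
  have hdj' := hdj.trans (mul_le_mul_of_nonneg_left hs1 hC2.le)
  have hyb2 : yb ^ 2 = nsq q B₀ (Yb θ S f j) := Real.sq_sqrt (nsq_nonneg h0 h1 _ _)
  have hE0 : 0 ≤ E := by linarith
  have hmain : yb ^ 2 ≤ C' * (ψ ^ 2 * E) + C' * (yb * (ψ * E)) := by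
    rw [hyb2, hC']
    have t2 : 0 ≤ yb * (ψ * E) := by positivity
    have t3 := mul_nonneg hC2.le t2
    linarith
  have hbound := quad_self_bound hC'0.le hyb0 hψ hE hmain
  have hfin : √(nsq q B₀ (Yb θ S f i)) ≤ (C' + 1) * (ψ * E) := (hmax i hi).trans hbound
  have hn := nsq_nonneg (q := q) h0 h1 B₀ (Yb θ S f i)
  have := (Real.sqrt_le_left (by positivity)).mp hfin
  calc nsq q B₀ (Yb θ S f i) ≤ ((C' + 1) * (ψ * E)) ^ 2 := this
    _ = _ := by ring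

theorem zone_le {δ : ℕ} {ε : ℝ} {Lmax : ℕ} (hz : (1 / (δ : ℝ) + ε) * √((Lmax : ℝ) + 1) ≤ 1) {L : ℤ}
    (h0 : 0 ≤ L) (hL : L ≤ Lmax) : 1 / (δ : ℝ) + ε ≤ rhoL L := by
  have h1 : rhoL (Lmax : ℤ) ≤ rhoL L := rhoL_anti h0 hL
  refine le_trans ?_ h1
  have e : rhoL (Lmax : ℤ) = 1 / √((Lmax : ℝ) + 1) := by simp [rhoL]
  rw [e, le_div_iff₀ (Real.sqrt_pos.mpr (by positivity))]
  exact hz

theorem isBlk_NB (θ : ℝ) : IsBlk θ (NB θ) := by
  have := isBlk_ker θ []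
  rwa [ker_nil_fun] at this

/-- The off-diagonal sum with arithmetic-geometric splitting. -/
theorem off_split {q : ℝ} (h0 : 0 < q) (h1 : q < 1) (S : Finset ℤ) (f : ℤ → Word → ℝ) (B₀ : ℕ) (X I₀ : ℤ)
    (Q : ℤ → ℤ → ℝ) (hQ : ∀ d i, 0 ≤ Q d i) {g : ℝ} (hg : 0 < g) (Y : ℤ → Word → ℝ) :
    ∑ i ∈ Icc I₀ X, ∑ d' ∈ S, Q d' i * (√(nsq q B₀ (f d')) * √(nsq q B₀ (Y i))) ≤
      (g / 2) * ∑ d' ∈ S, nsq q B₀ (f d') * ∑ i ∈ Icc I₀ X, Q d' i +
      (1 / (2 * g)) * ∑ i ∈ Icc I₀ X, nsq q B₀ (Y i) * ∑ d' ∈ S, Q d' i := by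
  have hpt : ∀ i ∈ Icc I₀ X, ∀ d' ∈ S, Q d' i * (√(nsq q B₀ (f d')) * √(nsq q B₀ (Y i))) ≤
      (g / 2) * (nsq q B₀ (f d') * Q d' i) + (1 / (2 * g)) * (nsq q B₀ (Y i) * Q d' i) := by
    intro i _ d' _
    have h2 := Real.sq_sqrt (nsq_nonneg (q := q) h0 h1 B₀ (f d'))
    have h3 := Real.sq_sqrt (nsq_nonneg (q := q) h0 h1 B₀ (Y i))
    set a := √(nsq q B₀ (f d')) with ha
    set b := √(nsq q B₀ (Y i)) with hb
    rw [← h2, ← h3]
    have h4 : a * b ≤ (g / 2) * a ^ 2 + (1 / (2 * g)) * b ^ 2 := by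
      have h5 : (g / 2) * a ^ 2 + (1 / (2 * g)) * b ^ 2 - a * b = (g * a - b) ^ 2 / (2 * g) := by
        field_simp
        ring
      have h6 : 0 ≤ (g * a - b) ^ 2 / (2 * g) := by positivity
      linarith
    have := mul_le_mul_of_nonneg_left h4 (hQ d' i)
    calc Q d' i * (a * b) ≤ Q d' i * ((g / 2) * a ^ 2 + (1 / (2 * g)) * b ^ 2) := this
      _ = _ := by ring
  refine (sum_le_sum fun i hi => sum_le_sum fun d' hd' => hpt i hi d' hd').trans (le_of_eq ?_)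
  simp only [sum_add_distrib, mul_sum]
  congr 1
  rw [sum_comm]

/-- One step of the weighted bound. -/
theorem weighted_step {q θ₀ θ₁ : ℝ} (h0 : 0 < q) (h1 : q < 1) (hθ₀ : 0 < θ₀) (hθ₁ : θ₁ < 1) :
    ∃ C₅ C₆ : ℝ, 0 < C₅ ∧ 0 < C₆ ∧ ∀ θ ∈ Set.Icc θ₀ θ₁,
      ∀ (δ : ℕ) (S : Finset ℤ) (f : ℤ → Word → ℝ) (B₀ : ℕ) (I₀ : ℤ) (Lmax : ℕ),
        1 ≤ δ → Spaced S δ → (∀ d ∈ S, I₀ ≤ d) → (∀ d ∈ S, ∀ w, f d w ≠ 0 → w.length ≤ B₀) →
        (1 / (δ : ℝ) + |θ - q ^ 2|) * √((Lmax : ℝ) + 1) ≤ 1 →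
        ∀ X : ℤ, X - I₀ ≤ Lmax → (∀ d ∈ S, 2 * (X - d) ≤ (B₀ : ℤ)) → ∀ g : ℝ, 0 < g →
          nsq q B₀ (Yk θ (NB θ) S f X) ≤
            C₆ * (1 + g) * ∑ d ∈ S.filter (· ≤ X), nsq q B₀ (f d) * rhoL (X - d) +
            (C₅ / g) * ∑ i ∈ Icc I₀ X, nsq q B₀ (Yb θ S f i) * rhoL (X - i) ^ 2 := by
  obtain ⟨Cb, hCb, hbb⟩ := NB_hbb hθ₀ hθ₁
  obtain ⟨CD, hCD, hDG⟩ := NB_DG h0 h1 hθ₀ hθ₁ Cb hCb
  obtain ⟨CO, hCO, hOF⟩ := NB_OF h0 h1 hθ₀ hθ₁
  obtain ⟨CQ, hCQ, hQb⟩ := NB_Qbar h0 h1 hθ₀ hθ₁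
  have hCnu := Cnu_pos (q := q) h0 hθ₀
  refine ⟨4 * CQ, 10 * Cnu q θ₀ * CD + 2 * CO, by positivity, by positivity, ?_⟩
  intro θ hθ δ S f B₀ I₀ Lmax hδ hS hI hf hz X hXL hXd g hg
  have hθ1 : θ < 1 := lt_of_le_of_lt hθ.2 hθ₁
  have hθ0 : 0 < θ := lt_of_lt_of_le hθ₀ hθ.1
  have hθ₀1 : θ₀ ≤ 1 := by linarith [hθ.1]
  have hδ0 : (0 : ℝ) < δ := by exact_mod_cast hδ
  have hinv : (0 : ℝ) ≤ 1 / δ := by positivity
  have hε : 0 ≤ |θ - q ^ 2| := abs_nonneg _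
  have hcore := OL_core (q := q) (θ := θ) (θ₀ := θ₀) h0 h1 hθ₀ hθ.1 hθ1 hθ₀1 (isBlk_NB θ) S f X hI
    (B := 2 * B₀ + 2) (B₁ := B₀) (B₂ := B₀) (by omega) hf hXd (bbK Cb 1 0 δ)
    (fun r c hr => hbb θ hθ δ hδ S hS r c hr)
  have hmono := nsq_mono (q := q) h0 h1 (by omega : B₀ ≤ 2 * B₀ + 2) (Yk θ (NB θ) S f X)
  refine hmono.trans (hcore.trans ?_)
  set Sg := ∑ d ∈ S.filter (· ≤ X), nsq q B₀ (f d) * rhoL (X - d) with hSg
  have hSg0 : 0 ≤ Sg := sum_nonneg fun d _ => mul_nonneg (nsq_nonneg h0 h1 _ _) (rhoL_nonneg _)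
  have hzone : ∀ d ∈ S, d ≤ X → 1 / (δ : ℝ) + |θ - q ^ 2| ≤ rhoL (X - d) := by
    intro d hd hdX
    have := hI d hd
    exact zone_le hz (by omega) (by omega)
  -- diagonal
  have hdiag : ∑ d ∈ S, nsq q (2 * B₀ + 2) (f d) * DGv q (NB θ) (bbK Cb 1 0 δ) (2 * B₀ + 2) (X - d) ≤
      2 * CD * Sg := by
    have e1 : ∑ d ∈ S, nsq q (2 * B₀ + 2) (f d) * DGv q (NB θ) (bbK Cb 1 0 δ) (2 * B₀ + 2) (X - d) =
        ∑ d ∈ S.filter (· ≤ X), nsq q (2 * B₀ + 2) (f d) *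
          DGv q (NB θ) (bbK Cb 1 0 δ) (2 * B₀ + 2) (X - d) := by
      symm
      apply sum_subset (filter_subset _ _)
      intro d hd hnd
      have : X - d < 0 := by
        simp only [mem_filter, not_and, not_le] at hnd
        have := hnd hd
        omega
      have h2 := DGv_of_neg (q := q) (θ := θ) [] (bbK Cb 1 0 δ) (2 * B₀ + 2) this
      rw [ker_nil_fun] at h2
      rw [h2]
      ring
    rw [e1, hSg, mul_sum]
    apply sum_le_sum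
    intro d hd
    obtain ⟨hdS, hdX⟩ := mem_filter.mp hd
    rw [nsq_eq_of_supp (by omega : B₀ ≤ 2 * B₀ + 2) (hf d hdS)]
    have h := hDG θ hθ δ (2 * B₀ + 2) (X - d) hδ (by omega)
    have hzd := hzone d hdS hdX
    have hn := nsq_nonneg (q := q) h0 h1 B₀ (f d)
    calc nsq q B₀ (f d) * DGv q (NB θ) (bbK Cb 1 0 δ) (2 * B₀ + 2) (X - d)
        ≤ nsq q B₀ (f d) * (CD * (1 / δ + rhoL (X - d))) := mul_le_mul_of_nonneg_left h hn
      _ ≤ nsq q B₀ (f d) * (CD * (2 * rhoL (X - d))) := by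
          apply mul_le_mul_of_nonneg_left _ hn
          apply mul_le_mul_of_nonneg_left _ hCD.le
          linarith
      _ = _ := by ring
  -- off-diagonal
  have hsplit := off_split (q := q) h0 h1 S f B₀ X I₀ (fun d i => Qv q θ (NB θ) B₀ X d i)
    (fun d i => Qv_nonneg h0 h1 _ _ _ _ _) hg (Yb θ S f)
  have hA : ∑ d' ∈ S, nsq q B₀ (f d') * ∑ i ∈ Icc I₀ X, Qv q θ (NB θ) B₀ X d' i ≤ 2 * CO * Sg := by
    have e1 : ∑ d' ∈ S, nsq q B₀ (f d') * ∑ i ∈ Icc I₀ X, Qv q θ (NB θ) B₀ X d' i =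
        ∑ d' ∈ S.filter (· ≤ X), nsq q B₀ (f d') * ∑ i ∈ Icc I₀ X, Qv q θ (NB θ) B₀ X d' i := by
      symm
      apply sum_subset (filter_subset _ _)
      intro d hd hnd
      have : X - d < 0 := by
        simp only [mem_filter, not_and, not_le] at hnd
        have := hnd hd
        omega
      have h3 : ∑ i ∈ Icc I₀ X, Qv q θ (NB θ) B₀ X d i = 0 := by
        apply sum_eq_zero
        intro i _
        have h2 := Qv_of_neg (q := q) (θ := θ) [] B₀ i this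
        rwa [ker_nil_fun] at h2
      rw [h3]
      ring
    rw [e1, hSg, mul_sum]
    apply sum_le_sum
    intro d hd
    obtain ⟨hdS, hdX⟩ := mem_filter.mp hd
    have h := hOF θ hθ B₀ X d I₀ (by omega)
    have hzd := hzone d hdS hdX
    have hn := nsq_nonneg (q := q) h0 h1 B₀ (f d)
    calc nsq q B₀ (f d) * ∑ i ∈ Icc I₀ X, Qv q θ (NB θ) B₀ X d i
        ≤ nsq q B₀ (f d) * (CO * (rhoL (X - d) + |θ - q ^ 2|)) := mul_le_mul_of_nonneg_left h hn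
      _ ≤ nsq q B₀ (f d) * (CO * (2 * rhoL (X - d))) := by
          apply mul_le_mul_of_nonneg_left _ hn
          apply mul_le_mul_of_nonneg_left _ hCO.le
          linarith
      _ = _ := by ring
  have hB : ∑ i ∈ Icc I₀ X, nsq q B₀ (Yb θ S f i) * ∑ d' ∈ S, Qv q θ (NB θ) B₀ X d' i ≤
      4 * CQ * ∑ i ∈ Icc I₀ X, nsq q B₀ (Yb θ S f i) * rhoL (X - i) ^ 2 := by
    rw [mul_sum]
    apply sum_le_sum
    intro i hi
    have hi' := mem_Icc.mp hi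
    have h := hQb θ hθ δ S hδ hS B₀ X i (by omega)
    have hz2 : 1 / (δ : ℝ) + |θ - q ^ 2| ≤ rhoL (X - i) := zone_le hz (by omega) (by omega)
    have hr := rhoL_nonneg (X - i)
    have hn := nsq_nonneg (q := q) h0 h1 B₀ (Yb θ S f i)
    calc nsq q B₀ (Yb θ S f i) * ∑ d' ∈ S, Qv q θ (NB θ) B₀ X d' i
        ≤ nsq q B₀ (Yb θ S f i) * (CQ * ((rhoL (X - i) + 1 / δ) * (rhoL (X - i) + |θ - q ^ 2|))) :=
          mul_le_mul_of_nonneg_left h hn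
      _ ≤ nsq q B₀ (Yb θ S f i) * (CQ * ((2 * rhoL (X - i)) * (2 * rhoL (X - i)))) := by
          apply mul_le_mul_of_nonneg_left _ hn
          apply mul_le_mul_of_nonneg_left _ hCQ.le
          apply mul_le_mul <;> first | linarith | positivity
      _ = _ := by ring
  set Off := ∑ i ∈ Icc I₀ X, ∑ d' ∈ S, Qv q θ (NB θ) B₀ X d' i *
        (√(nsq q B₀ (f d')) * √(nsq q B₀ (Yb θ S f i))) with hOff
  have hOff0 : 0 ≤ Off := by
    apply sum_nonneg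
    intro i _
    apply sum_nonneg
    intro d _
    exact mul_nonneg (Qv_nonneg h0 h1 _ _ _ _ _) (by positivity)
  set Mm := ∑ i ∈ Icc I₀ X, nsq q B₀ (Yb θ S f i) * rhoL (X - i) ^ 2 with hMm
  have hOffle : Off ≤ (g / 2) * (2 * CO * Sg) + (1 / (2 * g)) * (4 * CQ * Mm) := by
    refine hsplit.trans ?_
    apply add_le_add
    · exact mul_le_mul_of_nonneg_left hA (by positivity)
    · exact mul_le_mul_of_nonneg_left hB (by positivity)
  have hkap0 := kapT_nonneg (q := q) (θ := θ) h1 h0 hθ1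
  have hkap1 := kapT_le_one (q := q) h1 h0 hθ0 hθ1
  have hk : kapT q θ * Off ≤ Off := by
    have := mul_le_mul_of_nonneg_right hkap1 hOff0
    linarith
  have hmul := mul_le_mul_of_nonneg_left hdiag hCnu.le
  have e5 : (g / 2) * (2 * CO * Sg) = g * (CO * Sg) := by ring
  have e6 : (1 / (2 * g)) * (4 * CQ * Mm) = (2 * CQ / g) * Mm := by
    field_simp
    ring
  have e7 : (4 * CQ / g) * Mm = 2 * ((2 * CQ / g) * Mm) := by
    field_simp
    ring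
  rw [e7]
  rw [e5, e6] at hOffle
  have t1 : 0 ≤ Cnu q θ₀ * CD * Sg := by positivity
  have t2 : 0 ≤ g * (Cnu q θ₀ * CD * Sg) := by positivity
  have t3 : 0 ≤ CO * Sg := by positivity
  have e8 : (10 * Cnu q θ₀ * CD + 2 * CO) * (1 + g) * Sg =
      10 * (Cnu q θ₀ * CD * Sg) + 2 * (CO * Sg) + 10 * (g * (Cnu q θ₀ * CD * Sg)) + 2 * (g * (CO * Sg)) := by
    ring
  rw [e8]
  have e9 : Cnu q θ₀ * (2 * CD * Sg) = 2 * (Cnu q θ₀ * CD * Sg) := by ring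
  rw [e9] at hmul
  linarith

/-- Summing the induction hypothesis against `ρ²`. -/
theorem weighted_sum_bound {q : ℝ} (h0 : 0 < q) (h1 : q < 1) (S : Finset ℤ) (f : ℤ → Word → ℝ) (B₀ : ℕ)
    {I₀ X : ℤ} (hI : ∀ d ∈ S, I₀ ≤ d) {𝓛 : ℝ} (h𝓛 : 1 ≤ 𝓛)
    (hh : ∀ d ∈ S, d ≤ X → ∑ j ∈ range ((X - d).toNat + 3), 1 / ((j : ℝ) + 1) ≤ 𝓛)
    (Y : ℤ → ℝ) {G : ℝ} (hG : 0 ≤ G)
    (hY : ∀ i ∈ Ico I₀ X, Y i ≤ G * ∑ d ∈ S.filter (· ≤ i), nsq q B₀ (f d) * rhoL (i - d)) :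
    ∑ i ∈ Ico I₀ X, Y i * rhoL (X - i) ^ 2 ≤
      G * (6 * 𝓛) * ∑ d ∈ S.filter (· ≤ X), nsq q B₀ (f d) * rhoL (X - d) := by
  calc ∑ i ∈ Ico I₀ X, Y i * rhoL (X - i) ^ 2
      ≤ ∑ i ∈ Ico I₀ X, (G * ∑ d ∈ S.filter (· ≤ i), nsq q B₀ (f d) * rhoL (i - d)) * rhoL (X - i) ^ 2 :=
        sum_le_sum fun i hi => mul_le_mul_of_nonneg_right (hY i hi) (sq_nonneg _)
    _ = G * ∑ i ∈ Ico I₀ X, ∑ d ∈ S.filter (· ≤ i),
          nsq q B₀ (f d) * (rhoL (i - d) * rhoL (X - i) ^ 2) := by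
        rw [mul_sum]
        apply sum_congr rfl
        intro i _
        rw [mul_assoc, sum_mul]
        congr 1
        apply sum_congr rfl
        intro d _
        ring
    _ = G * ∑ d ∈ S.filter (· ≤ X), nsq q B₀ (f d) * ∑ i ∈ Ico d X, rhoL (i - d) * rhoL (X - i) ^ 2 := by
        congr 1
        simp only [mul_sum]
        apply sum_comm'
        intro i d
        simp only [mem_Ico, mem_filter]
        constructor
        · rintro ⟨⟨h2, h3⟩, h4, h5⟩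
          exact ⟨⟨h5, h3⟩, h4, by omega⟩
        · rintro ⟨⟨h2, h3⟩, h4, h5⟩
          exact ⟨⟨by have := hI d h4; omega, h3⟩, h4, h2⟩
    _ ≤ G * ∑ d ∈ S.filter (· ≤ X), nsq q B₀ (f d) * (6 * 𝓛 * rhoL (X - d)) := by
        apply mul_le_mul_of_nonneg_left _ hG
        apply sum_le_sum
        intro d hd
        obtain ⟨hdS, hdX⟩ := mem_filter.mp hd
        exact mul_le_mul_of_nonneg_left (harm_rho hdX h𝓛 (hh d hdS hdX)) (nsq_nonneg h0 h1 _ _)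
    _ = _ := by
        rw [mul_assoc G, mul_sum (S.filter (· ≤ X)) _ (6 * 𝓛)]
        congr 1
        apply sum_congr rfl
        intro d _
        ring

/-- Harmonic sums restrict. -/
theorem harm_restrict {Lmax n : ℕ} {𝓛 : ℝ} (hn : n ≤ Lmax)
    (hh : ∑ j ∈ range (Lmax + 3), 1 / ((j : ℝ) + 1) ≤ 𝓛) :
    ∑ j ∈ range (n + 3), 1 / ((j : ℝ) + 1) ≤ 𝓛 := by
  refine le_trans ?_ hh
  apply sum_le_sum_of_subset_of_nonneg
  · intro j hj
    simp only [mem_range] at hj ⊢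
    omega
  · intros
    positivity

theorem rhoL_zero : rhoL 0 = 1 := by simp [rhoL]

/-- The weighted bound in the zone. -/
theorem OL_weighted {q θ₀ θ₁ : ℝ} (h0 : 0 < q) (h1 : q < 1) (hθ₀ : 0 < θ₀) (hθ₁ : θ₁ < 1) :
    ∃ C : ℝ, 0 < C ∧ ∀ θ ∈ Set.Icc θ₀ θ₁,
      ∀ (δ : ℕ) (S : Finset ℤ) (f : ℤ → Word → ℝ) (B₀ : ℕ) (I₀ : ℤ) (Lmax : ℕ) (𝓛 : ℝ),
        1 ≤ δ → Spaced S δ → (∀ d ∈ S, I₀ ≤ d) → (∀ d ∈ S, ∀ w, f d w ≠ 0 → w.length ≤ B₀) →
        1 ≤ 𝓛 → (∑ j ∈ range (Lmax + 3), 1 / ((j : ℝ) + 1) ≤ 𝓛) →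
        (1 / (δ : ℝ) + |θ - q ^ 2|) * √((Lmax : ℝ) + 1) ≤ 1 →
        ∀ X : ℤ, X - I₀ ≤ Lmax → (∀ d ∈ S, 2 * (X - d) ≤ (B₀ : ℤ)) →
          nsq q B₀ (Yk θ (NB θ) S f X) ≤
            C * 𝓛 * ∑ d ∈ S.filter (· ≤ X), nsq q B₀ (f d) * rhoL (X - d) := by
  obtain ⟨C₅, C₆, hC₅, hC₆, hstep⟩ := weighted_step h0 h1 hθ₀ hθ₁
  obtain ⟨Cd, hCd, hdg⟩ := NB_diag h0 h1 hθ₀ hθ₁
  set C₇ : ℝ := 2 * C₆ + 4 * Cd with hC₇
  have hC₇0 : 0 < C₇ := by positivity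
  refine ⟨5 * C₇ * (1 + 48 * C₅), by positivity, ?_⟩
  intro θ hθ δ S f B₀ I₀ Lmax 𝓛 hδ hS hI hf h𝓛 hh hz X hXL hXd
  have h𝓛0 : 0 < 𝓛 := by linarith
  set g : ℝ := 48 * C₅ * 𝓛 with hgdef
  have hg : 0 < g := by positivity
  set G : ℝ := 4 * C₇ * (1 + g) with hGdef
  have hG0 : 0 < G := by positivity
  have hδ0 : (0 : ℝ) < δ := by exact_mod_cast hδ
  let Sg : ℤ → ℝ := fun X' => ∑ d ∈ S.filter (· ≤ X'), nsq q B₀ (f d) * rhoL (X' - d)
  have hSg0 : ∀ X', 0 ≤ Sg X' := fun X' =>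
    sum_nonneg fun d _ => mul_nonneg (nsq_nonneg h0 h1 _ _) (rhoL_nonneg _)
  let Y : ℤ → ℝ := fun i => nsq q B₀ (Yb θ S f i)
  have hY0 : ∀ i, 0 ≤ Y i := fun i => nsq_nonneg h0 h1 _ _
  -- the basic inequality
  have hbase : ∀ X', X' ≤ X → nsq q B₀ (Yk θ (NB θ) S f X') ≤
      C₆ * (1 + g) * Sg X' + (C₅ / g) * ∑ i ∈ Icc I₀ X', Y i * rhoL (X' - i) ^ 2 := by
    intro X' hX'
    exact hstep θ hθ δ S f B₀ I₀ Lmax hδ hS hI hf hz X' (by omega)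
      (fun d hd => by have := hXd d hd; omega) g hg
  have hquad : ∀ X', X' ≤ X → ∑ s ∈ Quad B₀, piT q (joinS s) * Atok θ (NB θ) S f X' s ^ 2 ≤ 2 * Cd * Sg X' := by
    intro X' hX'
    refine (hdg θ hθ δ S f B₀ X' hδ hS).trans ?_
    rw [mul_comm 2 Cd, mul_assoc]
    apply mul_le_mul_of_nonneg_left _ hCd.le
    change _ ≤ 2 * ∑ d ∈ S.filter (· ≤ X'), nsq q B₀ (f d) * rhoL (X' - d)
    rw [mul_sum]
    apply sum_le_sum
    intro d hd
    obtain ⟨hdS, hdX⟩ := mem_filter.mp hd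
    have hId := hI d hdS
    have hzd : 1 / (δ : ℝ) + |θ - q ^ 2| ≤ rhoL (X' - d) := zone_le hz (by omega) (by omega)
    have hn := nsq_nonneg (q := q) h0 h1 B₀ (f d)
    have hε : 0 ≤ |θ - q ^ 2| := abs_nonneg _
    calc nsq q B₀ (f d) * (1 / δ + rhoL (X' - d))
        ≤ nsq q B₀ (f d) * (2 * rhoL (X' - d)) := by
          apply mul_le_mul_of_nonneg_left _ hn
          linarith
      _ = _ := by ring
  have hhh : ∀ X', X' ≤ X → ∀ d ∈ S, d ≤ X' → ∑ j ∈ range ((X' - d).toNat + 3), 1 / ((j : ℝ) + 1) ≤ 𝓛 := by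
    intro X' hX' d hd _
    have := hI d hd
    exact harm_restrict (by omega) hh
  have hgg : 2 * C₅ / g = 1 / (24 * 𝓛) := by
    rw [hgdef]
    field_simp
    ring
  have hgg2 : C₅ / g = 1 / (48 * 𝓛) := by
    rw [hgdef]
    field_simp
  -- the induction
  have hind : ∀ n : ℕ, I₀ + n ≤ X → Y (I₀ + n) ≤ G * Sg (I₀ + n) := by
    intro n
    induction n using Nat.strong_induction_on with
    | _ n ih =>
      intro hn
      set X' : ℤ := I₀ + n with hX'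
      have hle : X' ≤ X := hn
      have hI' : I₀ ≤ X' := by omega
      have hIco : ∀ i ∈ Ico I₀ X', Y i ≤ G * Sg i := by
        intro i hi
        have hi' := mem_Ico.mp hi
        have := ih (i - I₀).toNat (by omega) (by omega)
        have e : I₀ + ((i - I₀).toNat : ℤ) = i := by omega
        rwa [e] at this
      have hsum := weighted_sum_bound h0 h1 S f B₀ (X := X') hI h𝓛 (hhh X' hle) Y hG0.le hIco
      have hyb := Yb_le (q := q) h0 h1 θ S f X' B₀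
      have hb1 := hbase X' hle
      have hq1 := hquad X' hle
      have hIcc : ∑ i ∈ Icc I₀ X', Y i * rhoL (X' - i) ^ 2 =
          Y X' + ∑ i ∈ Ico I₀ X', Y i * rhoL (X' - i) ^ 2 := by
        rw [← Ico_insert_right hI', sum_insert (by simp)]
        simp [rhoL_zero]
      rw [hIcc] at hb1
      set A := ∑ i ∈ Ico I₀ X', Y i * rhoL (X' - i) ^ 2 with hA
      set s := Sg X' with hs
      have hs0 : 0 ≤ s := hSg0 X'
      have hYX := hY0 X'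
      -- combine
      have e1 : Y X' ≤ 2 * (C₆ * (1 + g) * s + (C₅ / g) * (Y X' + A)) + 2 * (2 * Cd * s) := by
        have : Y X' = nsq q B₀ (Yb θ S f X') := rfl
        linarith
      have e2 : 2 * (C₆ * (1 + g) * s + (C₅ / g) * (Y X' + A)) + 2 * (2 * Cd * s) ≤
          C₇ * (1 + g) * s + (2 * C₅ / g) * (Y X' + A) := by
        have h5 : 2 * (C₅ / g) = 2 * C₅ / g := by ring
        have h6 : 0 ≤ Cd * (g * s) := by positivity
        rw [hC₇, ← h5]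
        nlinarith
      have e3 := e1.trans e2
      rw [hgg] at e3
      have h𝓛inv : 1 / (24 * 𝓛) ≤ 1 / 2 := by
        apply one_div_le_one_div_of_le (by norm_num)
        linarith
      have h𝓛pos : 0 < 1 / (24 * 𝓛) := by positivity
      have e4 : 1 / (24 * 𝓛) * Y X' ≤ 1 / 2 * Y X' := mul_le_mul_of_nonneg_right h𝓛inv hYX
      have e5 : 1 / (24 * 𝓛) * A ≤ 1 / (24 * 𝓛) * (G * (6 * 𝓛) * s) :=
        mul_le_mul_of_nonneg_left hsum h𝓛pos.le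
      have e6 : 1 / (24 * 𝓛) * (G * (6 * 𝓛) * s) = G * s / 4 := by
        field_simp
        ring
      have e7 : C₇ * (1 + g) * s = G * s / 4 := by
        rw [hGdef]
        ring
      have e8 : 1 / (24 * 𝓛) * (Y X' + A) = 1 / (24 * 𝓛) * Y X' + 1 / (24 * 𝓛) * A := by ring
      rw [e8, e7] at e3
      linarith
  have hYall : ∀ i ∈ Icc I₀ X, Y i ≤ G * Sg i := by
    intro i hi
    have hi' := mem_Icc.mp hi
    have := hind (i - I₀).toNat (by omega)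
    have e : I₀ + ((i - I₀).toNat : ℤ) = i := by omega
    rwa [e] at this
  have hfinal := hbase X le_rfl
  have hs0 := hSg0 X
  have hgI : (1 + g) ≤ (1 + 48 * C₅) * 𝓛 := by
    rw [hgdef]
    nlinarith
  have hIccB : ∑ i ∈ Icc I₀ X, Y i * rhoL (X - i) ^ 2 ≤ G * (7 * 𝓛) * Sg X := by
    by_cases hX : I₀ ≤ X
    · have hIcc : ∑ i ∈ Icc I₀ X, Y i * rhoL (X - i) ^ 2 =
          Y X + ∑ i ∈ Ico I₀ X, Y i * rhoL (X - i) ^ 2 := by
        rw [← Ico_insert_right hX, sum_insert (by simp)]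
        simp [rhoL_zero]
      rw [hIcc]
      have hsum := weighted_sum_bound h0 h1 S f B₀ (X := X) hI h𝓛 (hhh X le_rfl) Y hG0.le
        (fun i hi => hYall i (by
          have := mem_Ico.mp hi
          exact mem_Icc.mpr ⟨this.1, by omega⟩))
      have hyx := hYall X (mem_Icc.mpr ⟨hX, le_rfl⟩)
      have h5 : G * Sg X ≤ G * 𝓛 * Sg X := by
        have : 0 ≤ G * Sg X := by positivity
        nlinarith
      have e : G * (7 * 𝓛) * Sg X = G * 𝓛 * Sg X + G * (6 * 𝓛) * Sg X := by ring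
      linarith
    · rw [Icc_eq_empty hX]
      simp only [sum_empty]
      positivity
  have h7 : (C₅ / g) * ∑ i ∈ Icc I₀ X, Y i * rhoL (X - i) ^ 2 ≤ G * Sg X := by
    rw [hgg2]
    have h8 : 1 / (48 * 𝓛) * ∑ i ∈ Icc I₀ X, Y i * rhoL (X - i) ^ 2 ≤ 1 / (48 * 𝓛) * (G * (7 * 𝓛) * Sg X) :=
      mul_le_mul_of_nonneg_left hIccB (by positivity)
    have h9 : 1 / (48 * 𝓛) * (G * (7 * 𝓛) * Sg X) = (7 / 48) * (G * Sg X) := by
      field_simp
    have h10 : 0 ≤ G * Sg X := by positivity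
    linarith
  have h11 : C₆ * (1 + g) * Sg X ≤ C₇ * (1 + g) * Sg X := by
    apply mul_le_mul_of_nonneg_right _ hs0
    apply mul_le_mul_of_nonneg_right _ (by positivity)
    rw [hC₇]
    linarith
  have h12 : C₇ * (1 + g) * Sg X + G * Sg X = 5 * C₇ * (1 + g) * Sg X := by
    rw [hGdef]
    ring
  have h13 : 5 * C₇ * (1 + g) * Sg X ≤ 5 * C₇ * (1 + 48 * C₅) * 𝓛 * Sg X := by
    have : 0 ≤ 5 * C₇ * Sg X := by positivity
    calc 5 * C₇ * (1 + g) * Sg X = 5 * C₇ * Sg X * (1 + g) := by ring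
      _ ≤ 5 * C₇ * Sg X * ((1 + 48 * C₅) * 𝓛) := mul_le_mul_of_nonneg_left hgI this
      _ = _ := by ring
  linarith

/-- One site only. -/
theorem OL_single {q θ₀ θ₁ : ℝ} (h0 : 0 < q) (h1 : q < 1) (hθ₀ : 0 < θ₀) (hθ₁ : θ₁ < 1) (t : ℕ) :
    ∃ C : ℝ, 0 < C ∧ ∀ θ ∈ Set.Icc θ₀ θ₁, ∀ as : List ℕ, as.length = t → (∀ a ∈ as, 1 ≤ a) →
      ∀ (d X : ℤ) (g : Word → ℝ) (B₀ : ℕ), d ≤ X → (∀ w, g w ≠ 0 → w.length ≤ B₀) →
        2 * (X - d) ≤ (B₀ : ℤ) → ((as.sum : ℤ) * 4 ≤ X - d + 1 ∨ X - d + 1 ≤ 8) →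
        nsq q B₀ (Tk θ (ker θ as) d X g) ≤ C * (as.prod : ℝ) ^ 2 *
          (rhoL (X - d) ^ (2 * t + 1) + |θ - q ^ 2| * rhoL (X - d) ^ (2 * t)) * nsq q B₀ g := by
  obtain ⟨C1, hC1, hfar⟩ := OL_far h0 h1 hθ₀ hθ₁ t
  obtain ⟨C2, hC2, hsup⟩ := OL_sup h0 h1 hθ₀ hθ₁
  refine ⟨C1 * (2 + 3 * √C2), by positivity, ?_⟩
  intro θ hθ as has hpos d X g B₀ hdX hg hB hcond
  have hθ1 : θ < 1 := lt_of_le_of_lt hθ.2 hθ₁
  have hθ0 : 0 < θ := lt_of_lt_of_le hθ₀ hθ.1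
  set δ : ℕ := (X - d + 1).toNat with hδdef
  have hδ : 1 ≤ δ := by omega
  have hδ0 : (0 : ℝ) < δ := by exact_mod_cast hδ
  have hδval : ((δ : ℤ) : ℤ) = X - d + 1 := by omega
  have hδr : (δ : ℝ) = ((X - d : ℤ) : ℝ) + 1 := by
    have : ((δ : ℤ) : ℝ) = ((X - d + 1 : ℤ) : ℝ) := by rw [hδval]
    push_cast at this ⊢
    linarith
  have hsp : Spaced {d} δ := by
    intro x hx y hy hxy
    simp only [mem_singleton] at hx hy
    exact absurd (hx.trans hy.symm) hxy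
  set ψ : ℝ := √(nsq q B₀ g) with hψ
  have hψ0 : 0 ≤ ψ := Real.sqrt_nonneg _
  have hψ2 : ψ ^ 2 = nsq q B₀ g := Real.sq_sqrt (nsq_nonneg h0 h1 _ _)
  have hEsum : ∀ i ∈ Icc d X, ∑ d' ∈ ({d} : Finset ℤ).filter (· ≤ i), (rhoL (i - d') + 1 / δ + |θ - q ^ 2|) ≤ 3 := by
    intro i hi
    have hi' := mem_Icc.mp hi
    have e : ({d} : Finset ℤ).filter (· ≤ i) = {d} := by
      ext x
      simp only [mem_filter, mem_singleton]
      constructor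
      · exact fun h => h.1
      · rintro rfl
        exact ⟨rfl, hi'.1⟩
    rw [e, sum_singleton]
    have h2 : rhoL (i - d) ≤ 1 := rhoL_le_one (by omega)
    have h3 : 1 / (δ : ℝ) ≤ 1 := by
      rw [div_le_one hδ0]
      exact_mod_cast hδ
    have h4 : |θ - q ^ 2| ≤ 1 := by
      rw [abs_le]
      have : q ^ 2 < 1 := by nlinarith
      have : 0 < q ^ 2 := by positivity
      constructor <;> linarith
    linarith
  have hs := hsup θ hθ δ {d} (fun _ => g) B₀ X d ψ 3 hδ hsp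
    (fun d' hd' => by rw [mem_singleton.mp hd'])
    (fun _ _ w hw => hg w hw)
    (fun d' hd' => by rw [mem_singleton.mp hd']; exact hB)
    hψ0 (fun _ _ => by rw [hψ2]) (by norm_num) hEsum
  set ybar : ℝ := 3 * √C2 * ψ with hybar
  have hybar0 : 0 ≤ ybar := by positivity
  have hy : ∀ i ∈ Icc d X, √(nsq q B₀ (Yb θ {d} (fun _ => g) i)) ≤ ybar := by
    intro i hi
    apply Real.sqrt_le_iff.mpr
    refine ⟨hybar0, (hs i hi).trans (le_of_eq ?_)⟩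
    rw [hybar, mul_pow, mul_pow, Real.sq_sqrt hC2.le]
    ring
  have hf := hfar θ hθ as has hpos δ {d} (fun _ => g) B₀ X d ybar hδ hsp
    (fun d' hd' => by rw [mem_singleton.mp hd'])
    (fun _ _ w hw => hg w hw)
    (fun d' hd' => by rw [mem_singleton.mp hd']; exact hB)
    (fun d' hd' _ => by rw [mem_singleton.mp hd']; exact hcond) hybar0 hy
  have eY : Yk θ (ker θ as) {d} (fun _ => g) X = Tk θ (ker θ as) d X g := by
    funext t'
    rw [Yk_eq_sum_Tk, sum_singleton]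
  rw [eY] at hf
  have e : ({d} : Finset ℤ).filter (· ≤ X) = {d} := by
    ext x
    simp only [mem_filter, mem_singleton]
    constructor
    · exact fun h => h.1
    · rintro rfl
      exact ⟨rfl, hdX⟩
  rw [e, sum_singleton, sum_singleton] at hf
  refine hf.trans ?_
  set r := rhoL (X - d) with hr
  have hr0 : 0 ≤ r := rhoL_nonneg _
  have hr1 : r ≤ 1 := rhoL_le_one (by omega)
  set ε := |θ - q ^ 2| with hε
  have hε0 : 0 ≤ ε := abs_nonneg _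
  have hdr : r ^ (2 * t) / δ ≤ r ^ (2 * t + 1) := by
    have h3 : 1 / (δ : ℝ) ≤ r := by
      have := (by
        have h5 : (0 : ℝ) < ((X - d : ℤ) : ℝ) + 1 := by rw [← hδr]; exact hδ0
        have h6 : √(((X - d : ℤ) : ℝ) + 1) ≤ ((X - d : ℤ) : ℝ) + 1 := by
          apply Real.sqrt_le_iff.mpr
          constructor
          · exact h5.le
          · nlinarith [(by exact_mod_cast (by omega : (0 : ℤ) ≤ X - d) : (0 : ℝ) ≤ ((X - d : ℤ) : ℝ))]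
        exact h6 : √(((X - d : ℤ) : ℝ) + 1) ≤ ((X - d : ℤ) : ℝ) + 1)
      rw [hr, rhoL, hδr]
      apply one_div_le_one_div_of_le _ this
      apply Real.sqrt_pos.mpr
      rw [← hδr]
      exact hδ0
    calc r ^ (2 * t) / δ = r ^ (2 * t) * (1 / δ) := by ring
      _ ≤ r ^ (2 * t) * r := mul_le_mul_of_nonneg_left h3 (by positivity)
      _ = _ := by ring
  have hn := nsq_nonneg (q := q) h0 h1 B₀ g
  set R := r ^ (2 * t + 1) + ε * r ^ (2 * t) with hR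
  have hR0 : 0 ≤ R := by positivity
  have hrR : r ^ (2 * t + 1) ≤ R := by
    have : 0 ≤ ε * r ^ (2 * t) := by positivity
    linarith
  have hA : nsq q B₀ g * (r ^ (2 * t) / δ + r ^ (2 * t + 1)) ≤ 2 * (R * nsq q B₀ g) := by
    have : r ^ (2 * t) / δ + r ^ (2 * t + 1) ≤ 2 * R := by linarith
    calc nsq q B₀ g * (r ^ (2 * t) / δ + r ^ (2 * t + 1)) ≤ nsq q B₀ g * (2 * R) :=
          mul_le_mul_of_nonneg_left this hn
      _ = _ := by ring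
  have hBB : ybar * (√(nsq q B₀ g) * R) = 3 * √C2 * (R * nsq q B₀ g) := by
    rw [hybar, ← hψ, ← hψ2]
    ring
  rw [hBB]
  have hP : (0 : ℝ) ≤ (as.prod : ℝ) ^ 2 := by positivity
  have h9 : C1 * (as.prod : ℝ) ^ 2 * (nsq q B₀ g * (r ^ (2 * t) / δ + r ^ (2 * t + 1)) + 3 * √C2 * (R * nsq q B₀ g)) ≤
      C1 * (as.prod : ℝ) ^ 2 * (2 * (R * nsq q B₀ g) + 3 * √C2 * (R * nsq q B₀ g)) := by
    apply mul_le_mul_of_nonneg_left _ (by positivity)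
    linarith
  refine h9.trans (le_of_eq ?_)
  ring

end Vale.Agent.Lib.P321
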