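import Vale.Agent.Lib.P321.Visit

/-!
P321: estimates for the block kernels: diagonal weight and off-diagonal weight.
-/

namespace Vale.Agent.Lib.P321

open Finset

/-- Deviation of `rh` from one. -/
theorem rh_sub_one_le {q θ θ₀ : ℝ} (h0 : 0 < q) (hθ₀ : 0 < θ₀) (hθ : θ₀ ≤ θ) {c : ℕ} (hc : c ≤ 2) :
    |rh q θ c - 1| ≤ (1 / q ^ 2 + 1 / θ₀) * |θ - q ^ 2| := by
  have hθ0 : 0 < θ := by linarith
  have hq : 0 < q ^ 2 := by positivity
  have ha : 0 ≤ |θ - q ^ 2| := abs_nonneg _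
  have hb1 : 0 < 1 / q ^ 2 := by positivity
  have hb2 : 0 < 1 / θ₀ := by positivity
  interval_cases c
  · have e : rh q θ 0 - 1 = (θ - q ^ 2) * (1 / q ^ 2) := by
      simp only [rh]
      norm_num
      field_simp
    rw [e, abs_mul, abs_of_pos hb1]
    nlinarith
  · simp only [rh]
    norm_num
    positivity
  · have e : rh q θ 2 - 1 = -(θ - q ^ 2) * (1 / θ) := by
      simp only [rh]
      norm_num
      field_simp
    rw [e, abs_mul, abs_neg, abs_of_pos (by positivity : 0 < 1 / θ)]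
    have : 1 / θ ≤ 1 / θ₀ := one_div_le_one_div_of_le hθ₀ hθ
    nlinarith

/-- Pointwise bound of `Dm` for kernels. -/
theorem Dm_ker_le {q θ θ₀ : ℝ} (h0 : 0 < q) (hθ₀ : 0 < θ₀) (hθ : θ₀ ≤ θ) (as : List ℕ) (r : ℕ) (y : ℤ) :
    Dm q θ (ker θ as) r y ≤
      |ker θ (1 :: as) (r + 2) y| + |ker θ (1 :: as) (r + 2) (y - 1)| +
      (1 / q ^ 2 + 1 / θ₀) * |θ - q ^ 2| * (|ker θ as (r + 2) y| + |ker θ as (r + 2) (y - 2)|) := by
  unfold Dm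
  rw [sum_range_succ, sum_range_succ, sum_range_one]
  simp only [Dt]
  have h1 := rh_sub_one_le h0 hθ₀ hθ (c := 0) (by norm_num)
  have h2 := rh_sub_one_le h0 hθ₀ hθ (c := 2) (by norm_num)
  have hr1 : rh q θ 1 = 1 := by simp [rh]
  set E := (1 / q ^ 2 + 1 / θ₀) * |θ - q ^ 2| with hE
  simp only [Nat.cast_zero, sub_zero, Nat.cast_one, hr1, one_mul, sub_self, abs_zero, add_zero, Nat.cast_ofNat]
  have e1 : rh q θ 0 * ker θ as (r + 2) y - ker θ as (r + 2) (y - 1) =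
      ker θ (1 :: as) (r + 2) y + (rh q θ 0 - 1) * ker θ as (r + 2) y := by
    simp only [ker_cons, Nat.cast_one]
    ring
  have e2 : rh q θ 2 * ker θ as (r + 2) (y - 2) - ker θ as (r + 2) (y - 1) =
      -ker θ (1 :: as) (r + 2) (y - 1) + (rh q θ 2 - 1) * ker θ as (r + 2) (y - 2) := by
    simp only [ker_cons, Nat.cast_one]
    have : y - 1 - 1 = y - 2 := by ring
    rw [this]
    ring
  rw [e1, e2]
  have h3 := abs_add_le (ker θ (1 :: as) (r + 2) y) ((rh q θ 0 - 1) * ker θ as (r + 2) y)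
  have h4 := abs_add_le (-ker θ (1 :: as) (r + 2) (y - 1)) ((rh q θ 2 - 1) * ker θ as (r + 2) (y - 2))
  rw [abs_neg] at h4
  rw [abs_mul] at h3 h4
  have h5 := mul_le_mul_of_nonneg_right h1 (abs_nonneg (ker θ as (r + 2) y))
  have h6 := mul_le_mul_of_nonneg_right h2 (abs_nonneg (ker θ as (r + 2) (y - 2)))
  linarith

/-- Spaced points: sum of a kernel over a spaced site set. -/
theorem ker_spaced {θ : ℝ} (as : List ℕ) {r : ℕ} {b₀ b₁ : ℝ} (h0' : L1le (ker θ as r) b₀)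
    (h1' : L1le (ker θ (1 :: as) r) b₁) {δ : ℕ} (hδ : 1 ≤ δ) (S : Finset ℤ)
    (hS : ∀ x ∈ S, ∀ y ∈ S, x ≠ y → (δ : ℤ) ≤ |x - y|) (c : ℤ) :
    ∑ d ∈ S, |ker θ as r (c - d)| ≤ b₀ / δ + b₁ := by
  have hd : L1le (fun z => ker θ as r z - ker θ as r (z - 1)) b₁ := by
    intro T
    have := h1' T
    simpa [ker_cons] using this
  have h := spaced_sum h0' hd hδ (S.image fun d => c - d) (by
    intro x hx y hy hxy
    obtain ⟨d, hd, rfl⟩ := mem_image.mp hx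
    obtain ⟨d', hd', rfl⟩ := mem_image.mp hy
    have hne : d ≠ d' := fun h => hxy (by rw [h])
    have := hS d hd d' hd' hne
    have e : c - d - (c - d') = -(d - d') := by ring
    rw [e, abs_neg]
    exact this)
  rwa [sum_image] at h
  intro a _ b _ hab
  simpa using hab

/-- The decay scale at distance `L`. -/
noncomputable def rhoL (L : ℤ) : ℝ := 1 / √((L : ℝ) + 1)

theorem rhoL_nonneg (L : ℤ) : 0 ≤ rhoL L := by
  unfold rhoL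
  positivity

theorem rhoL_pos {L : ℤ} (h : 0 ≤ L) : 0 < rhoL L := by
  unfold rhoL
  have : (0 : ℝ) ≤ L := by exact_mod_cast h
  positivity

theorem rhoL_le_one {L : ℤ} (h : 0 ≤ L) : rhoL L ≤ 1 := by
  unfold rhoL
  have : (0 : ℝ) ≤ L := by exact_mod_cast h
  rw [div_le_one (by positivity)]
  rw [Real.one_le_sqrt]
  linarith

theorem rhoL_anti {L L' : ℤ} (h0 : 0 ≤ L) (h : L ≤ L') : rhoL L' ≤ rhoL L := by
  unfold rhoL
  have h0' : (0 : ℝ) ≤ L := by exact_mod_cast h0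
  have h' : (L : ℝ) ≤ L' := by exact_mod_cast h
  apply one_div_le_one_div_of_le (by positivity)
  exact Real.sqrt_le_sqrt (by linarith)

/-- Bound for the sum of a kernel over spaced sites. -/
noncomputable def bbK (C P : ℝ) (t δ r : ℕ) : ℝ :=
  P * (C / √(r : ℝ)) ^ t / δ + P * (C / √(r : ℝ)) ^ (t + 1)

/-- Spaced sets. -/
def Spaced (S : Finset ℤ) (δ : ℕ) : Prop := ∀ x ∈ S, ∀ y ∈ S, x ≠ y → (δ : ℤ) ≤ |x - y|

theorem ker_hbb {θ₀ θ₁ : ℝ} (hθ₀ : 0 < θ₀) (hθ₁ : θ₁ < 1) (t : ℕ) :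
    ∃ Cb : ℝ, 0 < Cb ∧ ∀ θ ∈ Set.Icc θ₀ θ₁, ∀ as : List ℕ, as.length = t → (∀ a ∈ as, 1 ≤ a) →
      ∀ δ : ℕ, 1 ≤ δ → ∀ S : Finset ℤ, Spaced S δ → ∀ (r : ℕ) (c : ℤ), 1 ≤ r →
        ∑ d ∈ S, |ker θ as r (c - d)| ≤ bbK Cb (as.prod : ℝ) t δ r := by
  obtain ⟨C0, hC0, h0⟩ := ker_L1 hθ₀ hθ₁ t
  obtain ⟨C1, hC1, h1⟩ := ker_L1 hθ₀ hθ₁ (t + 1)
  refine ⟨max C0 C1, lt_max_of_lt_left hC0, ?_⟩
  intro θ hθ as has hpos δ hδ S hS r c hr
  have hL0 := h0 θ hθ as has hpos r hr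
  have hL1 := h1 θ hθ (1 :: as) (by simp [has]) (by
    intro a ha
    rcases List.mem_cons.mp ha with rfl | ha
    · exact le_refl _
    · exact hpos a ha) r hr
  have hsp := ker_spaced as hL0 hL1 hδ S hS c
  refine hsp.trans ?_
  unfold bbK
  have hr0 : (0 : ℝ) < √(r : ℝ) := by
    apply Real.sqrt_pos.mpr
    exact_mod_cast hr
  have hP : (0 : ℝ) ≤ (as.prod : ℝ) := by positivity
  have hδ0 : (0 : ℝ) < δ := by exact_mod_cast hδ
  have e1 : C0 / √(r : ℝ) ≤ max C0 C1 / √(r : ℝ) :=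
    div_le_div_of_nonneg_right (le_max_left _ _) hr0.le
  have e2 : C1 / √(r : ℝ) ≤ max C0 C1 / √(r : ℝ) :=
    div_le_div_of_nonneg_right (le_max_right _ _) hr0.le
  have e3 : (0 : ℝ) ≤ C0 / √(r : ℝ) := by positivity
  have e4 : (0 : ℝ) ≤ C1 / √(r : ℝ) := by positivity
  apply add_le_add
  · apply div_le_div_of_nonneg_right _ hδ0.le
    apply mul_le_mul_of_nonneg_left _ hP
    exact pow_le_pow_left₀ e3 e1 _
  · simp only [List.prod_cons, one_mul]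
    apply mul_le_mul_of_nonneg_left _ hP
    exact pow_le_pow_left₀ e4 e2 _

/-- The diagonal weight of a kernel. -/
theorem ker_DG {q θ₀ θ₁ : ℝ} (h0 : 0 < q) (h1 : q < 1) (hθ₀ : 0 < θ₀) (hθ₁ : θ₁ < 1) (t : ℕ)
    (Cb : ℝ) (hCb : 0 < Cb) :
    ∃ C : ℝ, 0 < C ∧ ∀ θ ∈ Set.Icc θ₀ θ₁, ∀ as : List ℕ, as.length = t → (∀ a ∈ as, 1 ≤ a) →
      ∀ (δ B : ℕ) (L : ℤ), 1 ≤ δ → 0 ≤ L → ((as.sum : ℤ) * 4 ≤ L + 1 ∨ L + 1 ≤ 8) →
        DGv q (ker θ as) (bbK Cb (as.prod : ℝ) t δ) B L ≤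
          C * (as.prod : ℝ) ^ 2 * (rhoL L ^ (2 * t) / δ + rhoL L ^ (2 * t + 1)) := by
  obtain ⟨C1, hC1, hM1⟩ := MVL (θ₀ := θ₀) (θ₁ := θ₁) h0 h1 hθ₀ hθ₁ t t
  obtain ⟨C2, hC2, hM2⟩ := MVL (θ₀ := θ₀) (θ₁ := θ₁) h0 h1 hθ₀ hθ₁ t (t + 1)
  refine ⟨Cb ^ t * C1 + Cb ^ (t + 1) * C2, by positivity, ?_⟩
  intro θ hθ as has hpos δ B L hδ hL hcond
  have m1 := hM1 θ hθ as has hpos B 1 0 L (le_refl _) (by norm_num) (le_refl _) (by norm_num) hL hcond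
  have m2 := hM2 θ hθ as has hpos B 1 0 L (le_refl _) (by norm_num) (le_refl _) (by norm_num) hL hcond
  simp only [Nat.cast_one, Int.cast_zero, sub_zero] at m1 m2
  have hδ0 : (0 : ℝ) < δ := by exact_mod_cast hδ
  have hP : (0 : ℝ) ≤ (as.prod : ℝ) := by positivity
  unfold DGv bbK
  have hterm : ∀ w' ∈ W B, piT q w' * (↑as.prod * (Cb / √((w'.length + 1 : ℕ) : ℝ)) ^ t / ↑δ +
      ↑as.prod * (Cb / √((w'.length + 1 : ℕ) : ℝ)) ^ (t + 1)) * |ker θ as (w'.length + 1) (L - H w')| =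
      (↑as.prod * Cb ^ t / δ) * (piT q w' * (1 / √((w'.length : ℝ) + 1)) ^ t *
        |ker θ as (w'.length + 1) (L - (H w' : ℤ) - (0 : ℤ))|) +
      (↑as.prod * Cb ^ (t + 1)) * (piT q w' * (1 / √((w'.length : ℝ) + 1)) ^ (t + 1) *
        |ker θ as (w'.length + 1) (L - (H w' : ℤ) - (0 : ℤ))|) := by
    intro w' _
    have e : ((w'.length + 1 : ℕ) : ℝ) = (w'.length : ℝ) + 1 := by push_cast; ring
    rw [e, sub_zero]
    have e2 : ∀ n : ℕ, (Cb / √((w'.length : ℝ) + 1)) ^ n = Cb ^ n * (1 / √((w'.length : ℝ) + 1)) ^ n := by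
      intro n
      rw [← mul_pow]
      congr 1
      ring
    rw [e2, e2]
    ring
  rw [sum_congr rfl hterm, sum_add_distrib, ← mul_sum, ← mul_sum]
  simp only [sub_zero] at *
  have hr : rhoL L = 1 / √((L : ℝ) + 1) := rfl
  have hrn : 0 ≤ rhoL L := rhoL_nonneg L
  have b1 : (↑as.prod * Cb ^ t / δ) * ∑ w ∈ W B, piT q w * (1 / √((w.length : ℝ) + 1)) ^ t *
        |ker θ as (w.length + 1) (L - H w)| ≤
      (↑as.prod * Cb ^ t / δ) * (C1 * ↑as.prod * rhoL L ^ (t + t)) :=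
    mul_le_mul_of_nonneg_left m1 (by positivity)
  have b2 : (↑as.prod * Cb ^ (t + 1)) * ∑ w ∈ W B, piT q w * (1 / √((w.length : ℝ) + 1)) ^ (t + 1) *
        |ker θ as (w.length + 1) (L - H w)| ≤
      (↑as.prod * Cb ^ (t + 1)) * (C2 * ↑as.prod * rhoL L ^ (t + (t + 1))) :=
    mul_le_mul_of_nonneg_left m2 (by positivity)
  have e3 : t + t = 2 * t := by ring
  have e4 : t + (t + 1) = 2 * t + 1 := by ring
  rw [e3] at b1
  rw [e4] at b2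
  refine (add_le_add b1 b2).trans ?_
  have h5 : 0 ≤ rhoL L ^ (2 * t) / δ := by positivity
  have h6 : 0 ≤ rhoL L ^ (2 * t + 1) := by positivity
  have h7 : (0 : ℝ) ≤ (as.prod : ℝ) ^ 2 := by positivity
  have h8 : 0 ≤ Cb ^ t * C1 := by positivity
  have h9 : 0 ≤ Cb ^ (t + 1) * C2 := by positivity
  have e5 : (↑as.prod * Cb ^ t / δ) * (C1 * ↑as.prod * rhoL L ^ (2 * t)) =
      (Cb ^ t * C1) * (as.prod : ℝ) ^ 2 * (rhoL L ^ (2 * t) / δ) := by ring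
  have e6 : (↑as.prod * Cb ^ (t + 1)) * (C2 * ↑as.prod * rhoL L ^ (2 * t + 1)) =
      (Cb ^ (t + 1) * C2) * (as.prod : ℝ) ^ 2 * rhoL L ^ (2 * t + 1) := by ring
  rw [e5, e6]
  have h10 : 0 ≤ (as.prod : ℝ) ^ 2 * (rhoL L ^ (2 * t) / δ) := by positivity
  have h11 : 0 ≤ (as.prod : ℝ) ^ 2 * rhoL L ^ (2 * t + 1) := by positivity
  nlinarith [mul_nonneg h8 h11, mul_nonneg h9 h10]

theorem L1le_sum_sub {g : ℤ → ℝ} {b : ℝ} (h : L1le g b) (I : Finset ℤ) (a : ℤ) :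
    ∑ i ∈ I, |g (a - i)| ≤ b := by
  have := h (I.image fun i => a - i)
  rwa [sum_image] at this
  intro x _ y _ hxy
  simpa using hxy

/-- Summing `Dm` over the positions `i`. -/
theorem sum_Dm_le {q θ θ₀ : ℝ} (h0 : 0 < q) (hθ₀ : 0 < θ₀) (hθ : θ₀ ≤ θ) (as : List ℕ) (r : ℕ)
    (a : ℤ) (I : Finset ℤ) {b₀ b₁ : ℝ} (hb₀ : L1le (ker θ as (r + 2)) b₀)
    (hb₁ : L1le (ker θ (1 :: as) (r + 2)) b₁) :
    ∑ i ∈ I, Dm q θ (ker θ as) r (a - i) ≤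
      2 * b₁ + 2 * ((1 / q ^ 2 + 1 / θ₀) * |θ - q ^ 2|) * b₀ := by
  have hE : 0 ≤ (1 / q ^ 2 + 1 / θ₀) * |θ - q ^ 2| := by positivity
  have h1 := L1le_sum_sub hb₁ I a
  have h2 := L1le_sum_sub hb₁ I (a - 1)
  have h3 := L1le_sum_sub hb₀ I a
  have h4 := L1le_sum_sub hb₀ I (a - 2)
  have e2 : ∀ i, a - 1 - i = a - i - 1 := by intro i; ring
  have e3 : ∀ i, a - 2 - i = a - i - 2 := by intro i; ring
  simp only [e2] at h2
  simp only [e3] at h4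
  calc ∑ i ∈ I, Dm q θ (ker θ as) r (a - i)
      ≤ ∑ i ∈ I, (|ker θ (1 :: as) (r + 2) (a - i)| + |ker θ (1 :: as) (r + 2) (a - i - 1)| +
          (1 / q ^ 2 + 1 / θ₀) * |θ - q ^ 2| *
            (|ker θ as (r + 2) (a - i)| + |ker θ as (r + 2) (a - i - 2)|)) :=
        sum_le_sum fun i _ => Dm_ker_le h0 hθ₀ hθ as r (a - i)
    _ = ∑ i ∈ I, |ker θ (1 :: as) (r + 2) (a - i)| + ∑ i ∈ I, |ker θ (1 :: as) (r + 2) (a - i - 1)| +
        (1 / q ^ 2 + 1 / θ₀) * |θ - q ^ 2| *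
          (∑ i ∈ I, |ker θ as (r + 2) (a - i)| + ∑ i ∈ I, |ker θ as (r + 2) (a - i - 2)|) := by
        rw [sum_add_distrib, sum_add_distrib, ← mul_sum, sum_add_distrib]
    _ ≤ b₁ + b₁ + (1 / q ^ 2 + 1 / θ₀) * |θ - q ^ 2| * (b₀ + b₀) := by
        have := mul_le_mul_of_nonneg_left (add_le_add h3 h4) hE
        linarith
    _ = _ := by ring

/-- The total off-diagonal weight of a site for a kernel. -/
theorem ker_OF {q θ₀ θ₁ : ℝ} (h0 : 0 < q) (h1 : q < 1) (hθ₀ : 0 < θ₀) (hθ₁ : θ₁ < 1) (t : ℕ) :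
    ∃ C : ℝ, 0 < C ∧ ∀ θ ∈ Set.Icc θ₀ θ₁, ∀ as : List ℕ, as.length = t → (∀ a ∈ as, 1 ≤ a) →
      ∀ (B₂ : ℕ) (X d' I₀ : ℤ), 0 ≤ X - d' → (((as.sum : ℤ) * 4 ≤ X - d' + 1) ∨ X - d' + 1 ≤ 8) →
        ∑ i ∈ Icc I₀ X, Qv q θ (ker θ as) B₂ X d' i ≤
          C * (as.prod : ℝ) ^ 2 * (rhoL (X - d') ^ (2 * t + 1) + |θ - q ^ 2| * rhoL (X - d') ^ (2 * t)) := by
  obtain ⟨C0, hC0, hL0⟩ := ker_L1 hθ₀ hθ₁ t
  obtain ⟨C1, hC1, hL1⟩ := ker_L1 hθ₀ hθ₁ (t + 1)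
  obtain ⟨C2, hC2, hM1⟩ := MVL (θ₀ := θ₀) (θ₁ := θ₁) h0 h1 hθ₀ hθ₁ t (t + 1)
  obtain ⟨C3, hC3, hM2⟩ := MVL (θ₀ := θ₀) (θ₁ := θ₁) h0 h1 hθ₀ hθ₁ t t
  set E₀ : ℝ := 1 / q ^ 2 + 1 / θ₀ with hE₀
  have hE₀pos : 0 < E₀ := by positivity
  refine ⟨2 * C1 ^ (t + 1) * C2 + 2 * E₀ * C0 ^ t * C3, by positivity, ?_⟩
  intro θ hθ as has hpos B₂ X d' I₀ hL hcond
  have hP : (0 : ℝ) ≤ (as.prod : ℝ) := by positivity
  set L : ℤ := X - d' with hLdef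
  have m1 := hM1 θ hθ as has hpos B₂ 1 0 L (le_refl _) (by norm_num) (le_refl _) (by norm_num) hL hcond
  have m2 := hM2 θ hθ as has hpos B₂ 1 0 L (le_refl _) (by norm_num) (le_refl _) (by norm_num) hL hcond
  simp only [Nat.cast_one, sub_zero] at m1 m2
  have hpos1 : ∀ a ∈ (1 :: as), 1 ≤ a := by
    intro a ha
    rcases List.mem_cons.mp ha with rfl | ha
    · exact le_refl _
    · exact hpos a ha
  have hsum : ∀ w2 ∈ W B₂, ∑ i ∈ Icc I₀ X, Dm q θ (ker θ as) w2.length (X - i - H w2) ≤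
      2 * (as.prod : ℝ) * C1 ^ (t + 1) * (1 / √((w2.length : ℝ) + 1)) ^ (t + 1) +
      2 * E₀ * |θ - q ^ 2| * (as.prod : ℝ) * C0 ^ t * (1 / √((w2.length : ℝ) + 1)) ^ t := by
    intro w2 _
    have hr2 : 1 ≤ w2.length + 2 := by omega
    have b0 := hL0 θ hθ as has hpos (w2.length + 2) hr2
    have b1 := hL1 θ hθ (1 :: as) (by simp [has]) hpos1 (w2.length + 2) hr2
    have e : ∀ i, X - i - (H w2 : ℤ) = (X - H w2) - i := by intro i; ring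
    simp only [e]
    refine (sum_Dm_le h0 hθ₀ hθ.1 as w2.length (X - H w2) _ b0 b1).trans ?_
    simp only [List.prod_cons, one_mul]
    rw [← hE₀]
    have hs : 1 / √(((w2.length + 2 : ℕ) : ℝ)) ≤ 1 / √((w2.length : ℝ) + 1) := by
      apply one_div_le_one_div_of_le (by positivity)
      apply Real.sqrt_le_sqrt
      push_cast
      linarith
    have hs0 : 0 ≤ 1 / √(((w2.length + 2 : ℕ) : ℝ)) := by positivity
    have e2 : ∀ (C : ℝ) (n : ℕ), (C / √(((w2.length + 2 : ℕ) : ℝ))) ^ n =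
        C ^ n * (1 / √(((w2.length + 2 : ℕ) : ℝ))) ^ n := by
      intro C n
      rw [← mul_pow]
      congr 1
      ring
    rw [e2 C1, e2 C0]
    have p1 := pow_le_pow_left₀ hs0 hs (t + 1)
    have p2 := pow_le_pow_left₀ hs0 hs t
    have hE : 0 ≤ E₀ * |θ - q ^ 2| := by positivity
    have t1 : 2 * (↑as.prod * (C1 ^ (t + 1) * (1 / √(((w2.length + 2 : ℕ) : ℝ))) ^ (t + 1))) ≤
        2 * (↑as.prod * (C1 ^ (t + 1) * (1 / √((w2.length : ℝ) + 1)) ^ (t + 1))) := by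
      have : 0 ≤ (as.prod : ℝ) * C1 ^ (t + 1) := by positivity
      nlinarith [mul_le_mul_of_nonneg_left p1 this]
    have t2 : 2 * (E₀ * |θ - q ^ 2|) * (↑as.prod * (C0 ^ t * (1 / √(((w2.length + 2 : ℕ) : ℝ))) ^ t)) ≤
        2 * (E₀ * |θ - q ^ 2|) * (↑as.prod * (C0 ^ t * (1 / √((w2.length : ℝ) + 1)) ^ t)) := by
      have : 0 ≤ 2 * (E₀ * |θ - q ^ 2|) * ((as.prod : ℝ) * C0 ^ t) := by positivity
      nlinarith [mul_le_mul_of_nonneg_left p2 this]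
    linarith
  unfold Qv
  rw [sum_comm]
  have hstep : ∀ w2 ∈ W B₂, ∑ i ∈ Icc I₀ X, piT q w2 * |ker θ as (w2.length + 1) (X - d' - H w2)| *
        Dm q θ (ker θ as) w2.length (X - i - H w2) ≤
      (2 * (as.prod : ℝ) * C1 ^ (t + 1)) * (piT q w2 * (1 / √((w2.length : ℝ) + 1)) ^ (t + 1) *
          |ker θ as (w2.length + 1) (L - H w2)|) +
      (2 * E₀ * |θ - q ^ 2| * (as.prod : ℝ) * C0 ^ t) * (piT q w2 * (1 / √((w2.length : ℝ) + 1)) ^ t *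
          |ker θ as (w2.length + 1) (L - H w2)|) := by
    intro w2 hw2
    rw [← mul_sum]
    have hp : 0 ≤ piT q w2 * |ker θ as (w2.length + 1) (X - d' - H w2)| :=
      mul_nonneg (piT_pos h0 h1 w2).le (abs_nonneg _)
    refine (mul_le_mul_of_nonneg_left (hsum w2 hw2) hp).trans (le_of_eq ?_)
    ring
  refine (sum_le_sum hstep).trans ?_
  rw [sum_add_distrib, ← mul_sum, ← mul_sum]
  have hA1 : 0 ≤ 2 * (as.prod : ℝ) * C1 ^ (t + 1) := by positivity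
  have hA2 : 0 ≤ 2 * E₀ * |θ - q ^ 2| * (as.prod : ℝ) * C0 ^ t := by positivity
  have b1 := mul_le_mul_of_nonneg_left m1 hA1
  have b2 := mul_le_mul_of_nonneg_left m2 hA2
  have e3 : t + t = 2 * t := by ring
  have e4 : t + (t + 1) = 2 * t + 1 := by ring
  rw [e4] at b1
  rw [e3] at b2
  refine (add_le_add b1 b2).trans ?_
  have hr : (1 / √((L : ℝ) + 1)) = rhoL L := rfl
  rw [hr]
  have hrn := rhoL_nonneg L
  have e5 : 2 * (as.prod : ℝ) * C1 ^ (t + 1) * (C2 * ↑as.prod * rhoL L ^ (2 * t + 1)) =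
      (2 * C1 ^ (t + 1) * C2) * (as.prod : ℝ) ^ 2 * rhoL L ^ (2 * t + 1) := by ring
  have e6 : 2 * E₀ * |θ - q ^ 2| * (as.prod : ℝ) * C0 ^ t * (C3 * ↑as.prod * rhoL L ^ (2 * t)) =
      (2 * E₀ * C0 ^ t * C3) * (as.prod : ℝ) ^ 2 * (|θ - q ^ 2| * rhoL L ^ (2 * t)) := by ring
  rw [e5, e6]
  have h10 : 0 ≤ (as.prod : ℝ) ^ 2 * (|θ - q ^ 2| * rhoL L ^ (2 * t)) := by positivity
  have h11 : 0 ≤ (as.prod : ℝ) ^ 2 * rhoL L ^ (2 * t + 1) := by positivity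
  have h8 : 0 ≤ 2 * C1 ^ (t + 1) * C2 := by positivity
  have h9 : 0 ≤ 2 * E₀ * C0 ^ t * C3 := by positivity
  nlinarith [mul_nonneg h8 h10, mul_nonneg h9 h11]

theorem ker_nil_fun (θ : ℝ) : ker θ [] = NB θ := by
  funext r z
  rfl

/-- The total off-diagonal weight of a position `i`, over spaced sites. -/
theorem NB_Qbar {q θ₀ θ₁ : ℝ} (h0 : 0 < q) (h1 : q < 1) (hθ₀ : 0 < θ₀) (hθ₁ : θ₁ < 1) :
    ∃ C : ℝ, 0 < C ∧ ∀ θ ∈ Set.Icc θ₀ θ₁, ∀ (δ : ℕ) (S : Finset ℤ), 1 ≤ δ → Spaced S δ →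
      ∀ (B₂ : ℕ) (X i : ℤ), 0 ≤ X - i →
        ∑ d' ∈ S, Qv q θ (NB θ) B₂ X d' i ≤
          C * ((rhoL (X - i) + 1 / δ) * (rhoL (X - i) + |θ - q ^ 2|)) := by
  obtain ⟨Cb, hCb, hhbb⟩ := ker_hbb hθ₀ hθ₁ 0
  -- the four sums
  obtain ⟨C1, hC1, hM1⟩ := MVL (θ₀ := θ₀) (θ₁ := θ₁) h0 h1 hθ₀ hθ₁ 1 0
  obtain ⟨C2, hC2, hM2⟩ := MVL (θ₀ := θ₀) (θ₁ := θ₁) h0 h1 hθ₀ hθ₁ 1 1
  obtain ⟨C3, hC3, hM3⟩ := MVL (θ₀ := θ₀) (θ₁ := θ₁) h0 h1 hθ₀ hθ₁ 0 0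
  obtain ⟨C4, hC4, hM4⟩ := MVL (θ₀ := θ₀) (θ₁ := θ₁) h0 h1 hθ₀ hθ₁ 0 1
  set E₀ : ℝ := 1 / q ^ 2 + 1 / θ₀ with hE₀
  have hE₀pos : 0 < E₀ := by positivity
  set Cb' : ℝ := Cb * 2 with hCb'
  refine ⟨2 * (C1 + Cb' * C2) + 2 * E₀ * (C3 + Cb' * C4), by positivity, ?_⟩
  intro θ hθ δ S hδ hS B₂ X i hl
  set l : ℤ := X - i with hldef
  have hδ0 : (0 : ℝ) < δ := by exact_mod_cast hδ
  have hE : 0 ≤ E₀ * |θ - q ^ 2| := by positivity
  have hpos1 : ∀ a ∈ ([1] : List ℕ), 1 ≤ a := by simp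
  have hcond : (((([1] : List ℕ).sum : ℕ) : ℤ) * 4 ≤ l + 1) ∨ l + 1 ≤ 8 := by
    simp only [List.sum_cons, List.sum_nil]
    push_cast
    omega
  have hcond0 : ((([] : List ℕ).sum : ℕ) : ℤ) * 4 ≤ l + 1 := by
    simp only [List.sum_nil]
    push_cast
    omega
  -- kernel bounds
  have hk1 : ∀ c₂ : ℤ, 0 ≤ c₂ → c₂ ≤ 2 →
      ∑ w ∈ W B₂, piT q w * (1 / √((w.length : ℝ) + (2 : ℕ))) ^ 0 *
        |ker θ [1] (w.length + 2) (l - H w - c₂)| ≤ C1 * rhoL l := by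
    intro c₂ h1 h2
    have := hM1 θ hθ [1] rfl hpos1 B₂ 2 c₂ l (by norm_num) (by norm_num) h1 h2 hl hcond
    simpa [rhoL] using this
  have hk2 : ∀ c₂ : ℤ, 0 ≤ c₂ → c₂ ≤ 2 →
      ∑ w ∈ W B₂, piT q w * (1 / √((w.length : ℝ) + (2 : ℕ))) ^ 1 *
        |ker θ [1] (w.length + 2) (l - H w - c₂)| ≤ C2 * rhoL l ^ 2 := by
    intro c₂ h1 h2
    have := hM2 θ hθ [1] rfl hpos1 B₂ 2 c₂ l (by norm_num) (by norm_num) h1 h2 hl hcond
    simpa [rhoL] using this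
  have hk3 : ∀ c₂ : ℤ, 0 ≤ c₂ → c₂ ≤ 2 →
      ∑ w ∈ W B₂, piT q w * (1 / √((w.length : ℝ) + (2 : ℕ))) ^ 0 *
        |ker θ [] (w.length + 2) (l - H w - c₂)| ≤ C3 := by
    intro c₂ h1 h2
    have := hM3 θ hθ [] rfl (by simp) B₂ 2 c₂ l (by norm_num) (by norm_num) h1 h2 hl (Or.inl hcond0)
    simpa using this
  have hk4 : ∀ c₂ : ℤ, 0 ≤ c₂ → c₂ ≤ 2 →
      ∑ w ∈ W B₂, piT q w * (1 / √((w.length : ℝ) + (2 : ℕ))) ^ 1 *
        |ker θ [] (w.length + 2) (l - H w - c₂)| ≤ C4 * rhoL l := by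
    intro c₂ h1 h2
    have := hM4 θ hθ [] rfl (by simp) B₂ 2 c₂ l (by norm_num) (by norm_num) h1 h2 hl (Or.inl hcond0)
    simpa [rhoL] using this
  -- pointwise weight
  have hw : ∀ w : Word, ∑ d' ∈ S, |NB θ (w.length + 1) (X - d' - H w)| ≤
      1 / δ + Cb' * (1 / √((w.length : ℝ) + (2 : ℕ))) := by
    intro w
    have := hhbb θ hθ [] rfl (by simp) δ hδ S hS (w.length + 1) (X - H w) (by omega)
    have e : ∀ d', X - (H w : ℤ) - d' = X - d' - H w := by intro d'; ring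
    simp only [e, ker_nil_fun] at this
    refine this.trans ?_
    unfold bbK
    simp only [List.prod_nil, Nat.cast_one, pow_zero, one_mul, zero_add, pow_one]
    apply add_le_add le_rfl
    have hs : Cb / √(((w.length + 1 : ℕ) : ℝ)) ≤ Cb' * (1 / √((w.length : ℝ) + (2 : ℕ))) := by
      rw [mul_one_div, hCb']
      have h1 : √((w.length : ℝ) + ((2 : ℕ) : ℝ)) ≤ 2 * √(((w.length + 1 : ℕ) : ℝ)) := by
        have h2 : (0 : ℝ) ≤ (w.length : ℝ) := by positivity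
        apply Real.sqrt_le_iff.mpr
        constructor
        · positivity
        · rw [mul_pow, Real.sq_sqrt (by positivity)]
          push_cast
          nlinarith
      have h3 : 0 < √(((w.length + 1 : ℕ) : ℝ)) := by
        apply Real.sqrt_pos.mpr
        positivity
      have h4 : 0 < √((w.length : ℝ) + ((2 : ℕ) : ℝ)) := by
        apply Real.sqrt_pos.mpr
        positivity
      rw [div_le_div_iff₀ h3 h4]
      nlinarith
    exact hs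
  unfold Qv
  rw [sum_comm]
  have hstep : ∀ w2 ∈ W B₂, ∑ d' ∈ S, piT q w2 * |NB θ (w2.length + 1) (X - d' - H w2)| *
        Dm q θ (NB θ) w2.length (X - i - H w2) ≤
      piT q w2 * (1 / δ + Cb' * (1 / √((w2.length : ℝ) + (2 : ℕ)))) *
        (|ker θ [1] (w2.length + 2) (l - H w2 - (0 : ℤ))| + |ker θ [1] (w2.length + 2) (l - H w2 - (1 : ℤ))| +
          E₀ * |θ - q ^ 2| * (|ker θ [] (w2.length + 2) (l - H w2 - (0 : ℤ))| +
            |ker θ [] (w2.length + 2) (l - H w2 - (2 : ℤ))|)) := by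
    intro w2 _
    rw [← sum_mul, ← mul_sum]
    have hD := Dm_ker_le h0 hθ₀ hθ.1 [] w2.length (l - H w2)
    rw [ker_nil_fun] at hD
    have hD0 : 0 ≤ Dm q θ (NB θ) w2.length (l - H w2) := by
      unfold Dm
      exact sum_nonneg fun _ _ => abs_nonneg _
    have hp := piT_pos h0 h1 w2
    have hw2 := hw w2
    have hy : X - i - (H w2 : ℤ) = l - H w2 := rfl
    rw [hy]
    simp only [sub_zero]
    apply mul_le_mul (mul_le_mul_of_nonneg_left hw2 hp.le) _ hD0 (by positivity)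
    rw [ker_nil_fun]
    exact hD
  refine (sum_le_sum hstep).trans ?_
  -- expand
  have hexp : ∀ w2 ∈ W B₂, piT q w2 * (1 / δ + Cb' * (1 / √((w2.length : ℝ) + (2 : ℕ)))) *
        (|ker θ [1] (w2.length + 2) (l - H w2 - (0 : ℤ))| + |ker θ [1] (w2.length + 2) (l - H w2 - (1 : ℤ))| +
          E₀ * |θ - q ^ 2| * (|ker θ [] (w2.length + 2) (l - H w2 - (0 : ℤ))| +
            |ker θ [] (w2.length + 2) (l - H w2 - (2 : ℤ))|)) =
      (1 / δ) * (piT q w2 * (1 / √((w2.length : ℝ) + (2 : ℕ))) ^ 0 * |ker θ [1] (w2.length + 2) (l - H w2 - (0 : ℤ))|) +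
      (1 / δ) * (piT q w2 * (1 / √((w2.length : ℝ) + (2 : ℕ))) ^ 0 * |ker θ [1] (w2.length + 2) (l - H w2 - (1 : ℤ))|) +
      Cb' * (piT q w2 * (1 / √((w2.length : ℝ) + (2 : ℕ))) ^ 1 * |ker θ [1] (w2.length + 2) (l - H w2 - (0 : ℤ))|) +
      Cb' * (piT q w2 * (1 / √((w2.length : ℝ) + (2 : ℕ))) ^ 1 * |ker θ [1] (w2.length + 2) (l - H w2 - (1 : ℤ))|) +
      (E₀ * |θ - q ^ 2| * (1 / δ)) * (piT q w2 * (1 / √((w2.length : ℝ) + (2 : ℕ))) ^ 0 * |ker θ [] (w2.length + 2) (l - H w2 - (0 : ℤ))|) +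
      (E₀ * |θ - q ^ 2| * (1 / δ)) * (piT q w2 * (1 / √((w2.length : ℝ) + (2 : ℕ))) ^ 0 * |ker θ [] (w2.length + 2) (l - H w2 - (2 : ℤ))|) +
      (E₀ * |θ - q ^ 2| * Cb') * (piT q w2 * (1 / √((w2.length : ℝ) + (2 : ℕ))) ^ 1 * |ker θ [] (w2.length + 2) (l - H w2 - (0 : ℤ))|) +
      (E₀ * |θ - q ^ 2| * Cb') * (piT q w2 * (1 / √((w2.length : ℝ) + (2 : ℕ))) ^ 1 * |ker θ [] (w2.length + 2) (l - H w2 - (2 : ℤ))|) := by
    intro w2 _
    ring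
  rw [sum_congr rfl hexp]
  simp only [sum_add_distrib, ← mul_sum]
  have a1 := mul_le_mul_of_nonneg_left (hk1 0 (by norm_num) (by norm_num)) (by positivity : 0 ≤ 1 / (δ : ℝ))
  have a2 := mul_le_mul_of_nonneg_left (hk1 1 (by norm_num) (by norm_num)) (by positivity : 0 ≤ 1 / (δ : ℝ))
  have a3 := mul_le_mul_of_nonneg_left (hk2 0 (by norm_num) (by norm_num)) (by positivity : 0 ≤ Cb')
  have a4 := mul_le_mul_of_nonneg_left (hk2 1 (by norm_num) (by norm_num)) (by positivity : 0 ≤ Cb')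
  have a5 := mul_le_mul_of_nonneg_left (hk3 0 (by norm_num) (by norm_num)) (by positivity : 0 ≤ E₀ * |θ - q ^ 2| * (1 / (δ : ℝ)))
  have a6 := mul_le_mul_of_nonneg_left (hk3 2 (by norm_num) (by norm_num)) (by positivity : 0 ≤ E₀ * |θ - q ^ 2| * (1 / (δ : ℝ)))
  have a7 := mul_le_mul_of_nonneg_left (hk4 0 (by norm_num) (by norm_num)) (by positivity : 0 ≤ E₀ * |θ - q ^ 2| * Cb')
  have a8 := mul_le_mul_of_nonneg_left (hk4 2 (by norm_num) (by norm_num)) (by positivity : 0 ≤ E₀ * |θ - q ^ 2| * Cb')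
  have hr := rhoL_nonneg l
  set r := rhoL l with hrdef
  set e := |θ - q ^ 2| with hedef
  have he : 0 ≤ e := abs_nonneg _
  have hd : 0 < 1 / (δ : ℝ) := by positivity
  set d := 1 / (δ : ℝ) with hddef
  have hfinal : d * (C1 * r) + d * (C1 * r) + Cb' * (C2 * r ^ 2) + Cb' * (C2 * r ^ 2) +
      E₀ * e * d * C3 + E₀ * e * d * C3 + E₀ * e * Cb' * (C4 * r) + E₀ * e * Cb' * (C4 * r) ≤
      (2 * (C1 + Cb' * C2) + 2 * E₀ * (C3 + Cb' * C4)) * ((r + d) * (r + e)) := by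
    have hCb'0 : 0 < Cb' := by positivity
    have t1 : 0 ≤ C1 * (r * r + r * e + d * e) := by positivity
    have t2 : 0 ≤ Cb' * C2 * (r * d + r * e + d * e) := by positivity
    have t3 : 0 ≤ E₀ * C3 * (r * r + r * d + r * e) := by positivity
    have t4 : 0 ≤ E₀ * Cb' * C4 * (r * r + r * d + d * e) := by positivity
    have key : (2 * (C1 + Cb' * C2) + 2 * E₀ * (C3 + Cb' * C4)) * ((r + d) * (r + e)) -
        (d * (C1 * r) + d * (C1 * r) + Cb' * (C2 * r ^ 2) + Cb' * (C2 * r ^ 2) +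
      E₀ * e * d * C3 + E₀ * e * d * C3 + E₀ * e * Cb' * (C4 * r) + E₀ * e * Cb' * (C4 * r)) =
        2 * (C1 * (r * r + r * e + d * e)) + 2 * (Cb' * C2 * (r * d + r * e + d * e)) +
        2 * (E₀ * C3 * (r * r + r * d + r * e)) + 2 * (E₀ * Cb' * C4 * (r * r + r * d + d * e)) := by ring
    linarith
  simp only [Nat.cast_ofNat] at *
  have hsum8 := add_le_add (add_le_add (add_le_add (add_le_add (add_le_add (add_le_add (add_le_add a1 a2) a3) a4) a5) a6) a7) a8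
  refine le_trans ?_ (hsum8.trans ?_)
  · exact le_of_eq (by ring)
  · refine le_trans (le_of_eq ?_) hfinal
    ring

end Vale.Agent.Lib.P321
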