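import Vale.Agent.Lib.P321.LTFB

/-!
P321, lower tail module: closed forms for the base string.
-/

namespace Vale.Agent.Lib.P321

open Finset

theorem H_glue (u : Word) (c : Bool) (g : Word) : H (u ++ c :: g) + 1 = H (u ++ [c]) + H (c :: g) := by
  induction u with
  | nil => simp [H]; ring
  | cons a u ih =>
    cases u with
    | nil =>
      simp only [List.nil_append, List.cons_append, H_cons_cons]
      simp [H]
      ring
    | cons e u' =>
      simp only [List.cons_append] at ih ⊢
      rw [H_cons_cons, H_cons_cons]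
      omega

theorem HR_glue (r₁ : Word) (c : Bool) (g : Word) :
    H ((c :: r₁).reverse ++ g) + 1 = HR (c :: r₁) + H (c :: g) := by
  rw [HR_eq, List.reverse_cons, List.append_assoc, List.singleton_append, H_glue]

theorem trace_mul_q (q : ℝ) (y t : Word) :
    traceProb q y t * q ^ t.length = (cnt y t : ℝ) * (1 - q) ^ t.length * q ^ y.length := by
  rw [traceProb_eq_cnt]
  rcases Nat.lt_or_ge y.length t.length with hc | hc
  · have : cnt y t = 0 := by
      rw [cnt_eq_count]
      exact count_sublists_of_long hc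
    rw [this]
    simp
  · have e : q ^ y.length = q ^ (y.length - t.length) * q ^ t.length := by
      rw [← pow_add]
      congr 1
      omega
    rw [e]
    ring

theorem cnt_true_base (s : ℤ) (Z : ℕ) (g : Word) :
    cnt (true :: blockStr ∅ s Z) g =
      if H (false :: g) ≤ Z + 1 then Nat.multichoose (g.length + 1) (Z + 1 - H (false :: g)) else 0 := by
  cases g with
  | nil => simp [H]
  | cons a g =>
    cases a with
    | false =>
      rw [cnt_cons_cons, cnt_base, H_ff]
      simp only [Bool.true_eq_false, if_false, add_zero, List.length_cons]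
      have e : (g.length + 1 + 1) = g.length + 1 + 1 := rfl
      by_cases h : H (false :: g) ≤ Z
      · rw [if_pos h, if_pos (by omega)]
        congr 1
        omega
      · rw [if_neg h, if_neg (by omega)]
    | true =>
      rw [cnt_cons_cons, if_pos rfl, cnt_base, cnt_base, H_ft, H_true_cons]
      simp only [List.length_cons]
      by_cases h : H g ≤ Z
      · have h3 : H g + 1 ≤ Z + 1 := by omega
        rw [if_pos h, if_pos h3]
        rcases Nat.lt_or_ge (H g) Z with h2 | h2
        · obtain ⟨k, hk⟩ : ∃ k, Z = H g + (k + 1) := ⟨Z - H g - 1, by omega⟩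
          have h4 : H g + 1 ≤ Z := by omega
          rw [if_pos h4]
          have e1 : Z - (H g + 1) = k := by omega
          have e2 : Z - H g = k + 1 := by omega
          have e3 : Z + 1 - (H g + 1) = k + 1 := by omega
          rw [e1, e2, e3, Nat.multichoose_succ_succ (g.length + 1) k]
          ring
        · have e2 : Z = H g := by omega
          have h4 : ¬ H g + 1 ≤ Z := by omega
          rw [if_neg h4]
          have e3 : Z - H g = 0 := by omega
          have e4 : Z + 1 - (H g + 1) = 0 := by omega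
          rw [e3, e4]
          simp
      · have h3 : ¬ H g + 1 ≤ Z + 1 := by omega
        have h4 : ¬ H g + 1 ≤ Z := by omega
        rw [if_neg h, if_neg h3, if_neg h4]

theorem cnt_true_NB {q : ℝ} (h0 : 0 < q) (h1 : q < 1) (s : ℤ) (Z : ℕ) (g : Word) :
    (cnt (true :: blockStr ∅ s Z) g : ℝ) * q ^ (2 * Z + 1) * q =
      q ^ (2 * H (false :: g)) / (1 - q ^ 2) ^ (g.length + 1) *
        NB (q ^ 2) (g.length + 1) ((Z : ℤ) + 1 - H (false :: g)) := by
  have h2 : 0 < 1 - q ^ 2 := by nlinarith
  rw [cnt_true_base]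
  split_ifs with hZ
  · obtain ⟨k, hk⟩ := Nat.exists_eq_add_of_le hZ
    have e : (Z : ℤ) + 1 - (H (false :: g) : ℤ) = (k : ℤ) := by
      have : ((Z + 1 : ℕ) : ℤ) = ((H (false :: g) + k : ℕ) : ℤ) := by rw [hk]
      push_cast at this
      omega
    rw [e, NB_natCast]
    have e2 : Z + 1 - H (false :: g) = k := by omega
    rw [e2]
    have e3 : q ^ (2 * Z + 1) * q = q ^ (2 * H (false :: g)) * (q ^ 2) ^ k := by
      rw [← pow_succ, ← pow_mul, ← pow_add]
      congr 1
      omega
    rw [mul_assoc, e3]
    field_simp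
  · rw [NB_of_neg]
    · simp
    · have : (Z : ℤ) + 1 < H (false :: g) := by
        have : Z + 1 < H (false :: g) := by omega
        exact_mod_cast this
      omega

section base
variable {q : ℝ}

/-- Period of a position. -/
def per (b : ℕ) : ℕ := (b + 1) / 2

theorem xD_empty_odd (T : ℕ) : xD ∅ (2 * T + 1) = false := by
  rw [xD_odd]; simp

theorem xD_empty_even (T : ℕ) : xD ∅ (2 * T + 2) = true := by
  rw [xD_even]; simp

theorem per_odd (T : ℕ) : per (2 * T + 1) = T + 1 := by
  unfold per; omega

theorem per_even (T : ℕ) : per (2 * T + 2) = T + 1 := by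
  unfold per; omega

theorem blockStr_succ_empty (T : ℕ) : blockStr ∅ 0 (T + 1) = blockStr ∅ 0 T ++ [false, true] := by
  have h := blockStr_add ∅ 0 T 1
  rw [h]
  simp [blockStr, block]

theorem drop_base_odd {T A : ℕ} (h : T < A) :
    (blockStr ∅ 0 A).drop (2 * T + 1) = true :: blockStr ∅ 0 (A - T - 1) := by
  have e : A = (T + 1) + (A - T - 1) := by omega
  conv_lhs => rw [e]
  rw [blockStr_add, blockStr_succ_empty, blockStr_empty_shift (0 + ((T + 1 : ℕ) : ℤ)) 0]
  have e2 : blockStr ∅ 0 T ++ [false, true] ++ blockStr ∅ 0 (T + 1 + (A - T - 1) - T - 1) =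
      (blockStr ∅ 0 T ++ [false]) ++ (true :: blockStr ∅ 0 (T + 1 + (A - T - 1) - T - 1)) := by simp
  have e3 : T + 1 + (A - T - 1) - T - 1 = A - T - 1 := by omega
  rw [e3] at e2
  rw [e2]
  apply List.drop_left'
  simp [length_blockStr]

theorem drop_base_even {T A : ℕ} (h : T < A) :
    (blockStr ∅ 0 A).drop (2 * T + 2) = blockStr ∅ 0 (A - T - 1) := by
  have e : A = (T + 1) + (A - T - 1) := by omega
  conv_lhs => rw [e]
  rw [blockStr_add, blockStr_empty_shift (0 + ((T + 1 : ℕ) : ℤ)) 0]
  apply List.drop_left'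
  simp [length_blockStr]
  ring

theorem lastOf_lf_false (r₁ : Word) : lf q (false :: r₁) = q := by
  simp [lf]

theorem lastOf_lf_true (r₁ : Word) : lf q (true :: r₁) = 1 := by
  simp [lf]

/-- The comparison of the law of the whole string and of the law of the string after a letter. -/
theorem base_ratio (h0 : 0 < q) (h1 : q < 1) {A b : ℕ} (hb : b < 2 * A) (c : Bool) (r₁ g : Word)
    (hc : xD ∅ (b + 1) = c) :
    ∃ F : ℝ, 0 < F ∧
      traceProb q (blockStr ∅ 0 A) ((c :: r₁).reverse ++ g) * q ^ ((c :: r₁).reverse ++ g).length =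
        F * NB (q ^ 2) ((c :: r₁).length + (g.length + 1)) ((A : ℤ) - H ((c :: r₁).reverse ++ g)) ∧
      traceProb q ((blockStr ∅ 0 A).drop (b + 1)) g * MkR q (c :: r₁) * q ^ ((c :: r₁).reverse ++ g).length =
        F * NB (q ^ 2) (g.length + 1)
          ((A : ℤ) - H ((c :: r₁).reverse ++ g) - ((per (b + 1) : ℤ) - HR (c :: r₁))) := by
  have hp : 0 < 1 - q := by linarith
  have hp2 : 0 < 1 - q ^ 2 := by nlinarith
  have hq1 : 0 < 1 + q := by linarith
  have hfac : 1 - q ^ 2 = (1 - q) * (1 + q) := by ring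
  set r : Word := c :: r₁ with hr
  set t : Word := r.reverse ++ g with ht
  have hlen : t.length = r.length + g.length := by simp [ht]
  set E : ℝ := ((1 - q ^ 2) ^ (g.length + 1))⁻¹ with hE
  have hE0 : 0 < E := by positivity
  refine ⟨(1 - q) ^ g.length * ((1 + q) ^ r.length)⁻¹ * q ^ (2 * H t) * E, by positivity, ?_, ?_⟩
  · rw [trace_mul_q, length_blockStr]
    have := cnt_base_NB h0 h1 0 A t
    rw [hlen] at this ⊢
    have e2 : r.length + g.length + 1 = r.length + (g.length + 1) := by ring
    rw [e2] at this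
    rw [mul_right_comm, this, hE, pow_add (1 - q ^ 2), hfac, mul_pow (1 - q) (1 + q) r.length, pow_add (1 - q) r.length]
    field_simp
  · have hg := HR_glue r₁ c g
    rw [← hr, ← ht] at hg
    have hcl := MkR_closed h0 r
    rw [hlen, pow_add]
    rcases Nat.even_or_odd' b with ⟨T, rfl | rfl⟩
    · -- the letter is false
      have hcf : c = false := by rw [← hc, xD_empty_odd]
      have hT : T < A := by omega
      rw [drop_base_odd hT, per_odd]
      set Z := A - T - 1 with hZ
      have hlfr : lf q r = q := by rw [hr, hcf]; exact lastOf_lf_false r₁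
      rw [hlfr] at hcl
      have hm := trace_mul_q q (true :: blockStr ∅ 0 Z) g
      have hn := cnt_true_NB h0 h1 0 Z g
      have hlen2 : (true :: blockStr ∅ 0 Z).length = 2 * Z + 1 := by simp [length_blockStr]
      rw [hlen2] at hm
      subst hcf
      have hexp : (A : ℤ) - H t - (((T + 1 : ℕ) : ℤ) - HR r) = (Z : ℤ) + 1 - H (false :: g) := by
        have h2 : ((H t + 1 : ℕ) : ℤ) = ((HR r + H (false :: g) : ℕ) : ℤ) := by rw [hg]
        have h3 : ((A : ℕ) : ℤ) = ((Z + T + 1 : ℕ) : ℤ) := by
          congr 1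
          omega
        push_cast at h2 h3 ⊢
        omega
      rw [hexp]
      have hH : q ^ (2 * H t) * q ^ 2 = q ^ (2 * HR r) * q ^ (2 * H (false :: g)) := by
        rw [← pow_add, ← pow_add]
        congr 1
        omega
      have hq2 : q ^ 2 ≠ 0 := by positivity
      have hq' : q ≠ 0 := h0.ne'
      apply mul_right_cancel₀ hq2
      have hL : traceProb q (true :: blockStr ∅ 0 Z) g * MkR q r * (q ^ r.length * q ^ g.length) * q ^ 2 *
          (1 + q) ^ r.length =
          (traceProb q (true :: blockStr ∅ 0 Z) g * q ^ g.length) * q *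
          (MkR q r * ((1 + q) ^ r.length * q ^ r.length) * q) := by ring
      have hR : (1 - q) ^ g.length * ((1 + q) ^ r.length)⁻¹ * q ^ (2 * H t) * E *
          NB (q ^ 2) (g.length + 1) ((Z : ℤ) + 1 - H (false :: g)) * q ^ 2 * (1 + q) ^ r.length =
          (1 - q) ^ g.length * (q ^ (2 * H t) * q ^ 2) * E *
          NB (q ^ 2) (g.length + 1) ((Z : ℤ) + 1 - H (false :: g)) := by
        field_simp
      have hne : (1 + q) ^ r.length ≠ 0 := by positivity
      apply mul_right_cancel₀ hne
      rw [hL, hR, hm, hcl, hH]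
      have hn2 : (cnt (true :: blockStr ∅ 0 Z) g : ℝ) * (1 - q) ^ g.length * q ^ (2 * Z + 1) * q =
          (1 - q) ^ g.length * ((cnt (true :: blockStr ∅ 0 Z) g : ℝ) * q ^ (2 * Z + 1) * q) := by ring
      rw [hn2, hn, hE]
      ring
    · -- the letter is true
      have hct : c = true := by
        rw [← hc]
        have : 2 * T + 1 + 1 = 2 * T + 2 := by ring
        rw [this, xD_empty_even]
      have hT : T < A := by omega
      have e4 : 2 * T + 1 + 1 = 2 * T + 2 := by ring
      rw [e4, drop_base_even hT, per_even]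
      set Z := A - T - 1 with hZ
      have hlfr : lf q r = 1 := by rw [hr, hct]; exact lastOf_lf_true r₁
      rw [hlfr, mul_one] at hcl
      have hm := trace_mul_q q (blockStr ∅ 0 Z) g
      have hn := cnt_base_NB h0 h1 0 Z g
      rw [length_blockStr] at hm
      subst hct
      rw [H_true_cons] at hg
      have hexp : (A : ℤ) - H t - (((T + 1 : ℕ) : ℤ) - HR r) = (Z : ℤ) - H g := by
        have h2 : ((H t + 1 : ℕ) : ℤ) = ((HR r + (H g + 1) : ℕ) : ℤ) := by rw [hg]
        have h3 : ((A : ℕ) : ℤ) = ((Z + T + 1 : ℕ) : ℤ) := by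
          congr 1
          omega
        push_cast at h2 h3 ⊢
        omega
      rw [hexp]
      have hH : q ^ (2 * H t) = q ^ (2 * HR r) * q ^ (2 * H g) := by
        rw [← pow_add]
        congr 1
        omega
      have hne : (1 + q) ^ r.length ≠ 0 := by positivity
      apply mul_right_cancel₀ hne
      have hL : traceProb q (blockStr ∅ 0 Z) g * MkR q r * (q ^ r.length * q ^ g.length) *
          (1 + q) ^ r.length =
          (traceProb q (blockStr ∅ 0 Z) g * q ^ g.length) *
          (MkR q r * ((1 + q) ^ r.length * q ^ r.length)) := by ring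
      have hR : (1 - q) ^ g.length * ((1 + q) ^ r.length)⁻¹ * q ^ (2 * H t) * E *
          NB (q ^ 2) (g.length + 1) ((Z : ℤ) - H g) * (1 + q) ^ r.length =
          (1 - q) ^ g.length * q ^ (2 * H t) * E *
          NB (q ^ 2) (g.length + 1) ((Z : ℤ) - H g) := by
        field_simp
      rw [hL, hR, hm, hcl, hH]
      have hn2 : (cnt (blockStr ∅ 0 Z) g : ℝ) * (1 - q) ^ g.length * q ^ (2 * Z) =
          (1 - q) ^ g.length * ((cnt (blockStr ∅ 0 Z) g : ℝ) * q ^ (2 * Z)) := by ring
      rw [hn2, hn, hE]
      ring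

/-- The chain of the base string. -/
noncomputable abbrev Ch0 (h0 : 0 < q) (h1 : q < 1) (A : ℕ) : HMM q ℕ :=
  chainS (xD ∅) (2 * A) h0 h1 (xD_zero ∅)

theorem flipW_false (c : Bool) (r : Word) (hc : lastOf r = c) : flipW q c false = lf q r / (1 + q) := by
  subst hc
  unfold lf
  cases lastOf r <;> simp [flipW]

theorem Xb_base_odd (T : ℕ) : Xb (xD ∅) (2 * T + 1) = blockStr ∅ 0 T ++ [false] := by
  rw [Xb_succ, Xb_even, xD_empty_odd]

/-- Closed form of the forward weights of the base string. -/
theorem Wt0_closed (h0 : 0 < q) (h1 : q < 1) {A b : ℕ} (hb : b < 2 * A) (c : Bool) (r₁ : Word) :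
    (Ch0 h0 h1 A).Wt (c :: r₁) (b + 1) =
      if xD ∅ (b + 1) = c then
        MkR q (c :: r₁) * NB (q ^ 2) (c :: r₁).length ((per (b + 1) : ℤ) - HR (c :: r₁)) else 0 := by
  have hp : 0 < 1 - q := by linarith
  have hp2 : 0 < 1 - q ^ 2 := by nlinarith
  have hq1 : 0 < 1 + q := by linarith
  have hfac : 1 - q ^ 2 = (1 - q) * (1 + q) := by ring
  have hW := chainS_Wt_succ (xD ∅) (2 * A) h0 h1 (xD_zero ∅) r₁ c (c := b) (by omega)
  rw [hW]
  by_cases hc : xD ∅ (b + 1) = c
  · rw [if_pos hc, if_pos hc]
    rcases Nat.even_or_odd' b with ⟨T, rfl | rfl⟩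
    · have hcf : c = false := by rw [← hc, xD_empty_odd]
      subst hcf
      rw [Xb_even, trace_base h0 h1, per_odd, MkR_cons, flipW_false (lastOf r₁) r₁ rfl]
      have e : ((T + 1 : ℕ) : ℤ) - (HR (false :: r₁) : ℤ) = (T : ℤ) - (HR r₁ : ℤ) := by
        have : HR (false :: r₁) = HR r₁ + 1 := by
          change HR r₁ + pc (lastOf r₁) false = _
          cases lastOf r₁ <;> rfl
        rw [this]
        push_cast
        ring
      rw [e, List.length_cons, hfac]
      field_simp
    · have hct : c = true := by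
        rw [← hc]
        have : 2 * T + 1 + 1 = 2 * T + 2 := by ring
        rw [this, xD_empty_even]
      subst hct
      have e4 : 2 * T + 1 + 1 = 2 * T + 2 := by ring
      rw [e4, per_even, Xb_base_odd]
      set Y := blockStr ∅ 0 T with hY
      set s := r₁.reverse with hs
      have hrev : (true :: r₁).reverse = s ++ [true] := by simp [hs]
      have hb1 := trace_base h0 h1 0 (T + 1) (true :: r₁)
      have hb2 := trace_base h0 h1 0 T (true :: r₁)
      rw [hrev, blockStr_succ_empty, ← hY] at hb1
      rw [hrev, ← hY] at hb2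
      have e5 : Y ++ [false, true] = (Y ++ [false]) ++ [true] := by simp
      rw [e5, traceProb_concat, lastPart_append, traceProb_concat, lastPart_append'] at hb1
      simp only [Bool.true_eq_false, if_false, mul_zero, add_zero, lastOf_lf_true, mul_one] at hb1
      rw [lastOf_lf_true, mul_one] at hb2
      have hpas := NB_pascal (q ^ 2) (true :: r₁).length (((T + 1 : ℕ) : ℤ) - HR (true :: r₁))
      have e6 : ((T + 1 : ℕ) : ℤ) - (HR (true :: r₁) : ℤ) - 1 = (T : ℤ) - (HR (true :: r₁) : ℤ) := by
        push_cast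
        ring
      rw [e6] at hpas
      rw [List.length_cons] at hb1 hb2 hpas ⊢
      rw [hb2, hpas] at hb1
      have hne : (1 - q ^ 2) ≠ 0 := hp2.ne'
      have h5 : (1 - q) * traceProb q (Y ++ [false]) s = (1 - q ^ 2)⁻¹ * MkR q (true :: r₁) *
          ((1 - q ^ 2) * NB (q ^ 2) (r₁.length + 1) (((T + 1 : ℕ) : ℤ) - HR (true :: r₁))) := by
        have h6 : q * (q * ((1 - q ^ 2)⁻¹ * MkR q (true :: r₁) * NB (q ^ 2) (r₁.length + 1 + 1) ((T : ℤ) - HR (true :: r₁)))) =
            (1 - q ^ 2)⁻¹ * MkR q (true :: r₁) * (q ^ 2 * NB (q ^ 2) (r₁.length + 1 + 1) ((T : ℤ) - HR (true :: r₁))) := by ring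
        rw [h6] at hb1
        rw [mul_add] at hb1
        linarith
      rw [h5]
      field_simp
  · rw [if_neg hc, if_neg hc]

end base

end Vale.Agent.Lib.P321
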