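import Vale.Agent.Lib.P321.Basic

/-!
P321, lower tail module, abstract part: a hidden Markov chain whose letter process stays close to
the Markov law `MkR`. Words are read backwards here: the head of a list is the most recent letter.
-/

namespace Vale.Agent.Lib.P321

open Finset

/-- Most recent letter, the virtual letter before the start being `true`. -/
def lastOf : Word → Bool
  | [] => true
  | c :: _ => c

@[simp] theorem lastOf_nil : lastOf [] = true := rfl
@[simp] theorem lastOf_cons (c : Bool) (r : Word) : lastOf (c :: r) = c := rfl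

/-- The Markov weight on backwards words. -/
noncomputable def MkR (q : ℝ) : Word → ℝ
  | [] => 1
  | a :: r => flipW q (lastOf r) a * MkR q r

@[simp] theorem MkR_nil (q : ℝ) : MkR q [] = 1 := rfl
theorem MkR_cons (q : ℝ) (a : Bool) (r : Word) : MkR q (a :: r) = flipW q (lastOf r) a * MkR q r := rfl

section flip
variable {q : ℝ}

theorem flipW_eq (c a : Bool) : flipW q c a = if c = a then q / (1 + q) else 1 / (1 + q) := by
  cases c <;> cases a <;> simp [flipW]

theorem flipW_pos (h0 : 0 < q) (c a : Bool) : 0 < flipW q c a := by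
  rw [flipW_eq]
  split_ifs <;> positivity

theorem flipW_ge (h0 : 0 < q) (h1 : q < 1) (c a : Bool) : q / (1 + q) ≤ flipW q c a := by
  rw [flipW_eq]
  split_ifs
  · exact le_rfl
  · exact div_le_div_of_nonneg_right h1.le (by positivity)

theorem flipW_sum (h0 : 0 < q) (c : Bool) : flipW q c false + flipW q c true = 1 := by
  have : 1 + q ≠ 0 := by positivity
  cases c <;> simp [flipW] <;> field_simp <;> ring

theorem flipW_le_one (h0 : 0 < q) (h1 : q < 1) (c a : Bool) : flipW q c a ≤ 1 := by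
  have h2 := flipW_sum h0 c
  have h3 := flipW_pos h0 c false
  have h4 := flipW_pos h0 c true
  cases a <;> linarith

theorem MkR_pos (h0 : 0 < q) (r : Word) : 0 < MkR q r := by
  induction r with
  | nil => simp
  | cons a r ih =>
    rw [MkR_cons]
    exact mul_pos (flipW_pos h0 _ _) ih

end flip

theorem sum_Weq_step {E : Type*} [AddCommMonoid E] (F : Word → E) (i : ℕ) :
    ∑ w ∈ Weq (i + 1), F w = ∑ l ∈ Weq i, (F (false :: l) + F (true :: l)) := by
  rw [Weq, sum_biUnion]
  · apply sum_congr rfl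
    intro l _
    rw [sum_pair]
    simp
  · intro x _ y _ hxy
    simp only [Function.onFun]
    rw [disjoint_left]
    intro w hw hw'
    simp only [mem_insert, mem_singleton] at hw hw'
    apply hxy
    rcases hw with rfl | rfl <;> rcases hw' with h | h <;> simpa using h

theorem MkR_sum_Weq {q : ℝ} (h0 : 0 < q) (i : ℕ) : ∑ r ∈ Weq i, MkR q r = 1 := by
  induction i with
  | zero => simp [Weq]
  | succ i ih =>
    rw [sum_Weq_step, ← ih]
    apply sum_congr rfl
    intro l _
    rw [MkR_cons, MkR_cons, ← add_mul, flipW_sum h0, one_mul]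

/-- Data of the chain. States are in `S`. -/
structure HMM (q : ℝ) (ι : Type*) where
  /-- states -/
  S : Finset ι
  /-- initial law -/
  init : ι → ℝ
  /-- kernel: from state, emit letter, go to state -/
  K : ι → Bool → ι → ℝ
  /-- letter carried by a state -/
  lt : ι → Bool
  /-- error of the one step law -/
  g : ι → ℝ
  /-- potential -/
  B : ι → ℝ
  /-- bound for the potential -/
  Bb : ℝ
  init_nonneg : ∀ b, 0 ≤ init b
  init_sum : ∑ b ∈ S, init b = 1
  init_letter : ∀ b, init b ≠ 0 → lt b = true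
  K_nonneg : ∀ b a b', 0 ≤ K b a b'
  K_mass : ∀ b ∈ S, ∑ b' ∈ S, K b false b' + ∑ b' ∈ S, K b true b' = 1
  K_letter : ∀ b a b', K b a b' ≠ 0 → lt b' = a
  g_nonneg : ∀ b, 0 ≤ g b
  g_bound : ∀ b ∈ S, ∀ a, |∑ b' ∈ S, K b a b' - flipW q (lt b) a| ≤ g b
  B_nonneg : ∀ b ∈ S, 0 ≤ B b
  B_le : ∀ b ∈ S, B b ≤ Bb
  B_step : ∀ b ∈ S, ∀ a, ∀ b' ∈ S, K b a b' ≠ 0 → B b + g b ≤ B b'

namespace HMM

variable {q : ℝ} {ι : Type*} (C : HMM q ι)

/-- Forward weights. -/
noncomputable def Wt : Word → ι → ℝ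
  | [], b => C.init b
  | a :: r, b' => ∑ b ∈ C.S, Wt r b * C.K b a b'

/-- Total mass. -/
noncomputable def Pre (r : Word) : ℝ := ∑ b ∈ C.S, C.Wt r b

/-- Total error. -/
noncomputable def Gs (r : Word) : ℝ := ∑ b ∈ C.S, C.Wt r b * C.g b

theorem Wt_nil (b : ι) : C.Wt [] b = C.init b := rfl
theorem Wt_cons (a : Bool) (r : Word) (b' : ι) :
    C.Wt (a :: r) b' = ∑ b ∈ C.S, C.Wt r b * C.K b a b' := rfl

theorem Wt_nonneg (r : Word) (b : ι) : 0 ≤ C.Wt r b := by
  induction r generalizing b with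
  | nil => exact C.init_nonneg b
  | cons a r ih =>
    rw [Wt_cons]
    exact sum_nonneg (fun x _ => mul_nonneg (ih x) (C.K_nonneg _ _ _))

theorem Wt_letter (r : Word) (b : ι) (h : C.Wt r b ≠ 0) : C.lt b = lastOf r := by
  cases r with
  | nil => exact C.init_letter b h
  | cons a r =>
    rw [Wt_cons] at h
    obtain ⟨x, _, hx⟩ := exists_ne_zero_of_sum_ne_zero h
    exact C.K_letter x a b (right_ne_zero_of_mul hx)

theorem Pre_nonneg (r : Word) : 0 ≤ C.Pre r := sum_nonneg (fun b _ => C.Wt_nonneg r b)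

theorem Gs_nonneg (r : Word) : 0 ≤ C.Gs r :=
  sum_nonneg (fun b _ => mul_nonneg (C.Wt_nonneg r b) (C.g_nonneg b))

theorem Pre_nil : C.Pre [] = 1 := C.init_sum

theorem Pre_cons (a : Bool) (r : Word) :
    C.Pre (a :: r) = ∑ b ∈ C.S, C.Wt r b * ∑ b' ∈ C.S, C.K b a b' := by
  unfold Pre
  simp only [Wt_cons]
  rw [sum_comm]
  simp only [mul_sum]

theorem Pre_split (r : Word) : C.Pre (false :: r) + C.Pre (true :: r) = C.Pre r := by
  rw [Pre_cons, Pre_cons, ← sum_add_distrib]
  unfold Pre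
  apply sum_congr rfl
  intro b hb
  rw [← mul_add, C.K_mass b hb, mul_one]

theorem Pre_dev (h0 : 0 < q) (a : Bool) (r : Word) :
    |C.Pre (a :: r) - flipW q (lastOf r) a * C.Pre r| ≤ C.Gs r := by
  have e : C.Pre (a :: r) - flipW q (lastOf r) a * C.Pre r =
      ∑ b ∈ C.S, C.Wt r b * (∑ b' ∈ C.S, C.K b a b' - flipW q (lastOf r) a) := by
    rw [Pre_cons]
    unfold Pre
    rw [mul_sum, ← sum_sub_distrib]
    apply sum_congr rfl
    intro b _
    ring
  rw [e]
  refine le_trans (abs_sum_le_sum_abs _ _) ?_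
  unfold Gs
  apply sum_le_sum
  intro b hb
  rw [abs_mul, abs_of_nonneg (C.Wt_nonneg r b)]
  by_cases hW : C.Wt r b = 0
  · simp [hW]
  · rw [← C.Wt_letter r b hW]
    exact mul_le_mul_of_nonneg_left (C.g_bound b hb a) (C.Wt_nonneg r b)

/-- If the error vanishes the letter process is exactly the Markov law. -/
theorem Pre_eq_MkR (h0 : 0 < q) (hg : ∀ r, C.Gs r = 0) (r : Word) : C.Pre r = MkR q r := by
  induction r with
  | nil => exact C.Pre_nil
  | cons a r ih =>
    have := C.Pre_dev h0 a r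
    rw [hg r, ih] at this
    have h2 : C.Pre (a :: r) - flipW q (lastOf r) a * MkR q r = 0 := by
      exact abs_eq_zero.mp (le_antisymm this (abs_nonneg _))
    rw [MkR_cons]
    linarith

/-- Mean error per unit mass. -/
noncomputable def mm (r : Word) : ℝ := C.Gs r / C.Pre r

/-- Accumulated mean error along the beginnings. -/
noncomputable def Aa : Word → ℝ
  | [] => 0
  | a :: r => Aa r + C.mm r

theorem Aa_cons (a : Bool) (r : Word) : C.Aa (a :: r) = C.Aa r + C.mm r := rfl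

theorem mm_nonneg (r : Word) : 0 ≤ C.mm r := div_nonneg (C.Gs_nonneg r) (C.Pre_nonneg r)

theorem Aa_nonneg (r : Word) : 0 ≤ C.Aa r := by
  induction r with
  | nil => exact le_rfl
  | cons a r ih =>
    rw [Aa_cons]
    exact add_nonneg ih (C.mm_nonneg r)

/-- Positivity from the spread bound. -/
theorem Pre_pos (h0 : 0 < q) (h1 : q < 1) {mb : ℝ} (hmb : (1 + q) / q * mb ≤ 1 / 2)
    (hs : ∀ r, C.Gs r ≤ mb * C.Pre r) (r : Word) : 0 < C.Pre r := by
  have hmbq : mb ≤ (1 / 2) * (q / (1 + q)) := by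
    have e : (q / (1 + q)) * ((1 + q) / q) = 1 := by field_simp
    calc mb = (q / (1 + q)) * ((1 + q) / q * mb) := by rw [← mul_assoc, e, one_mul]
      _ ≤ (q / (1 + q)) * (1 / 2) := mul_le_mul_of_nonneg_left hmb (by positivity)
      _ = _ := by ring
  induction r with
  | nil => rw [C.Pre_nil]; exact one_pos
  | cons a r ih =>
    have h2 := C.Pre_dev h0 a r
    have h3 := hs r
    have h4 := (abs_le.mp h2).1
    have h5 := flipW_ge h0 h1 (lastOf r) a
    have h6 : 0 < q / (1 + q) := by positivity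
    have h7 : mb * C.Pre r ≤ (1 / 2) * (q / (1 + q)) * C.Pre r :=
      mul_le_mul_of_nonneg_right hmbq ih.le
    have h8 : q / (1 + q) * C.Pre r ≤ flipW q (lastOf r) a * C.Pre r :=
      mul_le_mul_of_nonneg_right h5 ih.le
    have h9 : 0 < (1 / 2) * (q / (1 + q)) * C.Pre r := by positivity
    linarith

section potential

variable {s : ℝ}

/-- Potential weighted mass. -/
noncomputable def Th (s : ℝ) (r : Word) : ℝ := ∑ b ∈ C.S, C.Wt r b * (1 - s * C.B b)

theorem Th_le (hs0 : 0 ≤ s) (r : Word) : C.Th s r ≤ C.Pre r := by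
  unfold Th Pre
  apply sum_le_sum
  intro b hb
  have h1 := C.B_nonneg b hb
  have h2 : 0 ≤ s * C.B b := mul_nonneg hs0 h1
  nlinarith [C.Wt_nonneg r b]

theorem half_le_Th (hs0 : 0 ≤ s) (hsB : s * C.Bb ≤ 1 / 2) (r : Word) : (1 / 2) * C.Pre r ≤ C.Th s r := by
  unfold Th Pre
  rw [mul_sum]
  apply sum_le_sum
  intro b hb
  have h1 := C.B_le b hb
  have h2 : s * C.B b ≤ s * C.Bb := mul_le_mul_of_nonneg_left h1 hs0
  nlinarith [C.Wt_nonneg r b]

theorem Th_step (hs0 : 0 ≤ s) (r : Word) :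
    C.Th s (false :: r) + C.Th s (true :: r) ≤ C.Th s r - s * C.Gs r := by
  have hcons : ∀ a, C.Th s (a :: r) = ∑ b ∈ C.S, C.Wt r b * ∑ b' ∈ C.S, C.K b a b' * (1 - s * C.B b') := by
    intro a
    unfold Th
    simp only [Wt_cons, sum_mul]
    rw [sum_comm]
    apply sum_congr rfl
    intro b _
    rw [mul_sum]
    apply sum_congr rfl
    intro b' _
    ring
  have hbound : ∀ b ∈ C.S, ∀ a, ∑ b' ∈ C.S, C.K b a b' * (1 - s * C.B b') ≤
      (∑ b' ∈ C.S, C.K b a b') * (1 - s * C.B b - s * C.g b) := by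
    intro b hb a
    rw [sum_mul]
    apply sum_le_sum
    intro b' hb'
    by_cases hK : C.K b a b' = 0
    · simp [hK]
    · have := C.B_step b hb a b' hb' hK
      apply mul_le_mul_of_nonneg_left _ (C.K_nonneg _ _ _)
      have h2 : s * (C.B b + C.g b) ≤ s * C.B b' := mul_le_mul_of_nonneg_left this hs0
      nlinarith
  rw [hcons, hcons, ← sum_add_distrib]
  have e : C.Th s r - s * C.Gs r = ∑ b ∈ C.S, C.Wt r b * (1 - s * C.B b - s * C.g b) := by
    unfold Th Gs
    rw [mul_sum, ← sum_sub_distrib]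
    apply sum_congr rfl
    intro b _
    ring
  rw [e]
  apply sum_le_sum
  intro b hb
  rw [← mul_add]
  apply mul_le_mul_of_nonneg_left _ (C.Wt_nonneg r b)
  have h1 := hbound b hb false
  have h2 := hbound b hb true
  have h3 := C.K_mass b hb
  calc _ ≤ (∑ b' ∈ C.S, C.K b false b') * (1 - s * C.B b - s * C.g b) +
        (∑ b' ∈ C.S, C.K b true b') * (1 - s * C.B b - s * C.g b) := add_le_add h1 h2
    _ = (∑ b' ∈ C.S, C.K b false b' + ∑ b' ∈ C.S, C.K b true b') * (1 - s * C.B b - s * C.g b) := by ring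
    _ = _ := by rw [h3, one_mul]

/-- The exponential moment of the accumulated error under the chain itself. -/
theorem exp_moment (hs0 : 0 ≤ s) (hsB : s * C.Bb ≤ 1 / 2) (hpos : ∀ r, 0 < C.Pre r) (i : ℕ) :
    ∑ r ∈ Weq i, Real.exp (s * C.Aa r) * C.Pre r ≤ 2 := by
  have hY : ∑ r ∈ Weq i, Real.exp (s * C.Aa r) * C.Th s r ≤ 1 := by
    induction i with
    | zero =>
      simp only [Weq, sum_singleton]
      simp only [Aa, mul_zero, Real.exp_zero, one_mul]
      refine le_trans (C.Th_le hs0 []) ?_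
      rw [C.Pre_nil]
    | succ i ih =>
      refine le_trans ?_ ih
      rw [sum_Weq_step]
      apply sum_le_sum
      intro r _
      rw [Aa_cons, Aa_cons, ← mul_add]
      have hP := hpos r
      set y : ℝ := s * C.mm r with hy
      have hy0 : 0 ≤ y := mul_nonneg hs0 (C.mm_nonneg r)
      have hG : s * C.Gs r = y * C.Pre r := by
        rw [hy]
        unfold mm
        field_simp
      have h1 := C.Th_step hs0 r
      rw [hG] at h1
      have h2 := C.Th_le hs0 r
      have h3 : 0 ≤ C.Th s r := le_trans (by positivity) (C.half_le_Th hs0 hsB r)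
      rw [mul_add s, Real.exp_add, mul_assoc]
      apply mul_le_mul_of_nonneg_left _ (Real.exp_pos _).le
      have h4 : Real.exp y * (1 - y) ≤ 1 := by
        have := Real.add_one_le_exp (-y)
        have h5 : Real.exp y * Real.exp (-y) = 1 := by rw [← Real.exp_add]; simp
        have h6 := Real.exp_pos y
        nlinarith
      have h5 := Real.exp_pos y
      calc Real.exp y * (C.Th s (false :: r) + C.Th s (true :: r))
          ≤ Real.exp y * (C.Th s r - y * C.Pre r) := mul_le_mul_of_nonneg_left h1 h5.le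
        _ ≤ Real.exp y * (C.Th s r * (1 - y)) := by
            apply mul_le_mul_of_nonneg_left _ h5.le
            nlinarith
        _ = (Real.exp y * (1 - y)) * C.Th s r := by ring
        _ ≤ 1 * C.Th s r := mul_le_mul_of_nonneg_right h4 h3
        _ = _ := one_mul _
  have h2 : ∑ r ∈ Weq i, Real.exp (s * C.Aa r) * C.Pre r ≤
      ∑ r ∈ Weq i, 2 * (Real.exp (s * C.Aa r) * C.Th s r) := by
    apply sum_le_sum
    intro r _
    have := C.half_le_Th hs0 hsB r
    have h3 := Real.exp_pos (s * C.Aa r)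
    nlinarith
  rw [← mul_sum] at h2
  linarith

end potential

/-- Power bound for the reciprocal. -/
theorem inv_pow_bound {x : ℝ} {l : ℕ} (hl : 1 ≤ l) (hx : |x| * l ≤ 1 / 4) :
    ((1 + x)⁻¹) ^ l ≤ 1 - l * x + 5 * l ^ 2 * x ^ 2 := by
  have hl0 : (1 : ℝ) ≤ l := by exact_mod_cast hl
  have hxa : |x| ≤ 1 / 4 := by
    have : |x| * 1 ≤ |x| * l := mul_le_mul_of_nonneg_left hl0 (abs_nonneg _)
    linarith
  obtain ⟨hx1, hx2⟩ := abs_le.mp hxa
  have hpos : 0 < 1 + x := by linarith
  have h1 : (1 + x)⁻¹ ≤ Real.exp (-x + 2 * x ^ 2) := by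
    have h2 : (1 + x)⁻¹ ≤ 1 + (-x + 2 * x ^ 2) := by
      rw [inv_le_iff_one_le_mul₀ hpos]
      nlinarith [sq_nonneg x]
    have h3 := Real.add_one_le_exp (-x + 2 * x ^ 2)
    linarith
  have h2 : ((1 + x)⁻¹) ^ l ≤ Real.exp (l * (-x + 2 * x ^ 2)) := by
    rw [mul_comm, Real.exp_mul]
    rw [Real.rpow_natCast]
    exact pow_le_pow_left₀ (by positivity) h1 l
  set y : ℝ := (l : ℝ) * x with hy
  have hyabs : |y| ≤ 1 / 4 := by
    rw [hy, abs_mul, Nat.abs_cast, mul_comm]
    exact hx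
  set z : ℝ := l * (-x + 2 * x ^ 2) with hz
  have hzy : z = -y + 2 * y * x := by rw [hz, hy]; ring
  obtain ⟨hy1, hy2⟩ := abs_le.mp hyabs
  have hzabs : |z| ≤ 1 := by
    rw [hzy, abs_le]
    constructor <;> nlinarith
  have h3 := Real.abs_exp_sub_one_sub_id_le hzabs
  have h4 : Real.exp z ≤ 1 + z + z ^ 2 := by
    have := (abs_le.mp h3).2
    linarith
  have hzsq : z ^ 2 ≤ (9 / 4) * y ^ 2 := by
    rw [hzy]
    have e : (-y + 2 * y * x) ^ 2 = y ^ 2 * (1 - 2 * x) ^ 2 := by ring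
    rw [e]
    have h5 : (1 - 2 * x) ^ 2 ≤ 9 / 4 := by nlinarith
    nlinarith [sq_nonneg y]
  have hlin : (l : ℝ) * x ^ 2 ≤ y ^ 2 := by
    rw [hy]
    have : (l : ℝ) ≤ l ^ 2 := by nlinarith
    have e : ((l : ℝ) * x) ^ 2 = (l : ℝ) ^ 2 * x ^ 2 := by ring
    rw [e]
    exact mul_le_mul_of_nonneg_right this (sq_nonneg x)
  have e2 : (5 : ℝ) * l ^ 2 * x ^ 2 = 5 * y ^ 2 := by rw [hy]; ring
  rw [e2]
  have e3 : z = -((l : ℝ) * x) + 2 * ((l : ℝ) * x ^ 2) := by rw [hz]; ring
  calc ((1 + x)⁻¹) ^ l ≤ Real.exp z := h2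
    _ ≤ 1 + z + z ^ 2 := h4
    _ ≤ 1 - l * x + 5 * y ^ 2 := by
        rw [e3] at hzsq ⊢
        nlinarith

section super

variable {l : ℕ} {ε mb : ℝ}

/-- The supermartingale. -/
noncomputable def QQ (l : ℕ) (ε : ℝ) (r : Word) : ℝ :=
  MkR q r * (MkR q r / C.Pre r) ^ l * Real.exp (-(ε * C.Aa r))

theorem QQ_nonneg (h0 : 0 < q) (hpos : ∀ r, 0 < C.Pre r) (r : Word) : 0 ≤ C.QQ l ε r := by
  unfold QQ
  have := MkR_pos h0 r
  have := hpos r
  positivity

theorem QQ_step (h0 : 0 < q) (h1 : q < 1) (hl : 1 ≤ l) (hpos : ∀ r, 0 < C.Pre r)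
    (hs : ∀ r, C.Gs r ≤ mb * C.Pre r) (hmb : (1 + q) / q * mb * l ≤ 1 / 4)
    (hε : 5 * (l : ℝ) ^ 2 * ((1 + q) / q) ^ 2 * mb ≤ ε) (r : Word) :
    C.QQ l ε (false :: r) + C.QQ l ε (true :: r) ≤ C.QQ l ε r := by
  set P := C.Pre r with hP
  have hP0 : 0 < P := hpos r
  set K₁ : ℝ := (1 + q) / q with hK₁
  have hK₁0 : 0 < K₁ := by rw [hK₁]; positivity
  have hl0 : (0 : ℝ) < l := by exact_mod_cast hl
  set m := C.mm r with hm
  have hm0 : 0 ≤ m := C.mm_nonneg r
  have hmle : m ≤ mb := by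
    rw [hm]
    unfold mm
    rw [div_le_iff₀ hP0]
    exact hs r
  have hGm : C.Gs r = m * P := by
    rw [hm]
    change C.Gs r = C.Gs r / P * P
    field_simp
  set Mk := MkR q r with hMk
  have hMk0 : 0 < Mk := MkR_pos h0 r
  -- the deviations
  have hu : ∀ a, 0 < flipW q (lastOf r) a := flipW_pos h0 _
  set ξ : Bool → ℝ := fun a => C.Pre (a :: r) / (flipW q (lastOf r) a * P) - 1 with hξ
  have hξabs : ∀ a, |ξ a| ≤ K₁ * m := by
    intro a
    have h2 := C.Pre_dev h0 a r
    have hua := hu a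
    have e : ξ a = (C.Pre (a :: r) - flipW q (lastOf r) a * P) / (flipW q (lastOf r) a * P) := by
      rw [hξ]
      simp only
      field_simp
    rw [e, abs_div, abs_of_pos (by positivity : 0 < flipW q (lastOf r) a * P), div_le_iff₀ (by positivity)]
    have h3 := flipW_ge h0 h1 (lastOf r) a
    have h4 : 1 ≤ K₁ * flipW q (lastOf r) a := by
      have e2 : K₁ * (q / (1 + q)) = 1 := by rw [hK₁]; field_simp
      calc 1 = K₁ * (q / (1 + q)) := e2.symm
        _ ≤ _ := mul_le_mul_of_nonneg_left h3 hK₁0.le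
    calc |C.Pre (a :: r) - flipW q (lastOf r) a * P| ≤ C.Gs r := h2
      _ = 1 * (m * P) := by rw [hGm, one_mul]
      _ ≤ (K₁ * flipW q (lastOf r) a) * (m * P) := mul_le_mul_of_nonneg_right h4 (by positivity)
      _ = _ := by ring
  have hξl : ∀ a, |ξ a| * l ≤ 1 / 4 := by
    intro a
    have h2 : |ξ a| * l ≤ K₁ * mb * l := by
      apply mul_le_mul_of_nonneg_right _ hl0.le
      exact le_trans (hξabs a) (mul_le_mul_of_nonneg_left hmle hK₁0.le)
    linarith
  have hmean : flipW q (lastOf r) false * ξ false + flipW q (lastOf r) true * ξ true = 0 := by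
    have h2 := C.Pre_split r
    have h3 := flipW_sum h0 (lastOf r)
    have hua := hu false
    have hub := hu true
    simp only [hξ]
    have e1 : flipW q (lastOf r) false * (C.Pre (false :: r) / (flipW q (lastOf r) false * P) - 1) =
        C.Pre (false :: r) / P - flipW q (lastOf r) false := by
      field_simp
    have e2 : flipW q (lastOf r) true * (C.Pre (true :: r) / (flipW q (lastOf r) true * P) - 1) =
        C.Pre (true :: r) / P - flipW q (lastOf r) true := by
      field_simp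
    rw [e1, e2]
    have h4 : C.Pre (false :: r) / P + C.Pre (true :: r) / P = 1 := by
      rw [← add_div, h2]
      exact div_self hP0.ne'
    linarith
  -- one step formula
  have hformula : ∀ a, C.QQ l ε (a :: r) = C.QQ l ε r *
      (flipW q (lastOf r) a * ((1 + ξ a)⁻¹) ^ l * Real.exp (-(ε * m))) := by
    intro a
    unfold QQ
    rw [MkR_cons, Aa_cons, ← hMk]
    have hua := hu a
    have h2 : 1 + ξ a = C.Pre (a :: r) / (flipW q (lastOf r) a * P) := by
      rw [hξ]
      simp only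
      ring
    have hPa : 0 < C.Pre (a :: r) := hpos _
    have h3 : flipW q (lastOf r) a * Mk / C.Pre (a :: r) = (Mk / P) * (1 + ξ a)⁻¹ := by
      rw [h2]
      field_simp
    rw [h3, mul_pow]
    have h4 : -(ε * (C.Aa r + m)) = -(ε * C.Aa r) + -(ε * m) := by ring
    rw [h4, Real.exp_add, ← hP]
    ring
  rw [hformula, hformula, ← mul_add]
  have hQ := C.QQ_nonneg (l := l) (ε := ε) h0 hpos r
  have hfinal : flipW q (lastOf r) false * ((1 + ξ false)⁻¹) ^ l * Real.exp (-(ε * m)) +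
      flipW q (lastOf r) true * ((1 + ξ true)⁻¹) ^ l * Real.exp (-(ε * m)) ≤ 1 := by
    have hb : ∀ a, flipW q (lastOf r) a * ((1 + ξ a)⁻¹) ^ l ≤
        flipW q (lastOf r) a * (1 - l * ξ a + 5 * l ^ 2 * (K₁ * m) ^ 2) := by
      intro a
      apply mul_le_mul_of_nonneg_left _ (hu a).le
      refine le_trans (inv_pow_bound hl (hξl a)) ?_
      have h2 : ξ a ^ 2 ≤ (K₁ * m) ^ 2 := by
        rw [← sq_abs (ξ a)]
        exact pow_le_pow_left₀ (abs_nonneg _) (hξabs a) 2
      have h3 : (5 : ℝ) * l ^ 2 * ξ a ^ 2 ≤ 5 * l ^ 2 * (K₁ * m) ^ 2 :=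
        mul_le_mul_of_nonneg_left h2 (by positivity)
      linarith
    have h2 := hb false
    have h3 := hb true
    have hsum := flipW_sum h0 (lastOf r)
    have h4 : flipW q (lastOf r) false * ((1 + ξ false)⁻¹) ^ l +
        flipW q (lastOf r) true * ((1 + ξ true)⁻¹) ^ l ≤ 1 + 5 * l ^ 2 * (K₁ * m) ^ 2 := by
      have e : flipW q (lastOf r) false * (1 - l * ξ false + 5 * l ^ 2 * (K₁ * m) ^ 2) +
          flipW q (lastOf r) true * (1 - l * ξ true + 5 * l ^ 2 * (K₁ * m) ^ 2) =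
          (flipW q (lastOf r) false + flipW q (lastOf r) true) * (1 + 5 * l ^ 2 * (K₁ * m) ^ 2)
            - l * (flipW q (lastOf r) false * ξ false + flipW q (lastOf r) true * ξ true) := by ring
      rw [hmean, hsum] at e
      linarith
    have h5 : 1 + 5 * (l : ℝ) ^ 2 * (K₁ * m) ^ 2 ≤ Real.exp (ε * m) := by
      have h6 : 5 * (l : ℝ) ^ 2 * (K₁ * m) ^ 2 ≤ ε * m := by
        have e : 5 * (l : ℝ) ^ 2 * (K₁ * m) ^ 2 = (5 * (l : ℝ) ^ 2 * K₁ ^ 2 * m) * m := by ring
        rw [e]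
        apply mul_le_mul_of_nonneg_right _ hm0
        refine le_trans ?_ hε
        apply mul_le_mul_of_nonneg_left hmle (by positivity)
      have h7 := Real.add_one_le_exp (ε * m)
      linarith
    have h6 : Real.exp (-(ε * m)) * Real.exp (ε * m) = 1 := by
      rw [← Real.exp_add]; simp
    have h7 := Real.exp_pos (-(ε * m))
    calc flipW q (lastOf r) false * ((1 + ξ false)⁻¹) ^ l * Real.exp (-(ε * m)) +
        flipW q (lastOf r) true * ((1 + ξ true)⁻¹) ^ l * Real.exp (-(ε * m))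
        = (flipW q (lastOf r) false * ((1 + ξ false)⁻¹) ^ l +
          flipW q (lastOf r) true * ((1 + ξ true)⁻¹) ^ l) * Real.exp (-(ε * m)) := by ring
      _ ≤ Real.exp (ε * m) * Real.exp (-(ε * m)) :=
          mul_le_mul_of_nonneg_right (le_trans h4 h5) h7.le
      _ = 1 := by rw [mul_comm]; exact h6
  calc _ ≤ C.QQ l ε r * 1 := mul_le_mul_of_nonneg_left hfinal hQ
    _ = _ := mul_one _

theorem QQ_sum (h0 : 0 < q) (h1 : q < 1) (hl : 1 ≤ l) (hpos : ∀ r, 0 < C.Pre r)
    (hs : ∀ r, C.Gs r ≤ mb * C.Pre r) (hmb : (1 + q) / q * mb * l ≤ 1 / 4)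
    (hε : 5 * (l : ℝ) ^ 2 * ((1 + q) / q) ^ 2 * mb ≤ ε) (i : ℕ) :
    ∑ r ∈ Weq i, C.QQ l ε r ≤ 1 := by
  induction i with
  | zero =>
    simp only [Weq, sum_singleton]
    unfold QQ
    simp [Aa, C.Pre_nil]
  | succ i ih =>
    refine le_trans ?_ ih
    rw [sum_Weq_step]
    exact sum_le_sum (fun r _ => C.QQ_step h0 h1 hl hpos hs hmb hε r)

/-- Main estimate of the abstract part. -/
theorem main_tail (h0 : 0 < q) (h1 : q < 1) (hl : 1 ≤ l)
    (hs : ∀ r, C.Gs r ≤ mb * C.Pre r) (hmb : (1 + q) / q * mb * l ≤ 1 / 4)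
    (hε : 5 * (l : ℝ) ^ 2 * ((1 + q) / q) ^ 2 * mb ≤ ε) {s t Λ : ℝ} (hs0 : 0 ≤ s)
    (hsB : s * C.Bb ≤ 1 / 2) (ht0 : 0 ≤ t) (ht : t * (l + 1) ≤ s * l - ε) (i : ℕ) :
    ∑ r ∈ (Weq i).filter (fun r => C.Pre r < MkR q r / 2), MkR q r ≤
      3 * Real.exp (-(t * Λ)) + (1 / 2) ^ l * Real.exp (ε * Λ) := by
  have hl0 : (1 : ℝ) ≤ l := by exact_mod_cast hl
  have hmb2 : (1 + q) / q * mb ≤ 1 / 2 := by
    have hmb3 : 0 ≤ mb := by
      have h2 := C.Pre_nil
      have h3 := hs []
      have h4 := C.Gs_nonneg []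
      rw [h2] at h3
      linarith
    have : (1 + q) / q * mb * 1 ≤ (1 + q) / q * mb * l :=
      mul_le_mul_of_nonneg_left hl0 (by positivity)
    linarith
  have hpos := C.Pre_pos h0 h1 hmb2 hs
  -- pointwise inequality
  have hpt : ∀ r, MkR q r * Real.exp (t * C.Aa r) ≤
      Real.exp (s * C.Aa r) * C.Pre r + C.QQ l ε r := by
    intro r
    have hMk := MkR_pos h0 r
    have hP := hpos r
    have hA := C.Aa_nonneg r
    set M := C.Pre r / MkR q r with hM
    have hM0 : 0 < M := by positivity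
    have e1 : Real.exp (s * C.Aa r) * C.Pre r = MkR q r * (M * Real.exp (s * C.Aa r)) := by
      rw [hM]; field_simp
    have e2 : C.QQ l ε r = MkR q r * (M⁻¹ ^ l * Real.exp (-(ε * C.Aa r))) := by
      unfold QQ
      rw [hM, inv_div]
      ring
    rw [e1, e2, ← mul_add]
    apply mul_le_mul_of_nonneg_left _ hMk.le
    have hexp : Real.exp (s * C.Aa r) = Real.exp (t * C.Aa r) * Real.exp ((s - t) * C.Aa r) := by
      rw [← Real.exp_add]; congr 1; ring
    rcases le_or_gt (Real.exp (-((s - t) * C.Aa r))) M with hc | hc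
    · have h2 : 1 ≤ M * Real.exp ((s - t) * C.Aa r) := by
        have h3 : Real.exp (-((s - t) * C.Aa r)) * Real.exp ((s - t) * C.Aa r) = 1 := by
          rw [← Real.exp_add]; simp
        rw [← h3]
        exact mul_le_mul_of_nonneg_right hc (Real.exp_pos _).le
      have h3 : Real.exp (t * C.Aa r) ≤ M * Real.exp (s * C.Aa r) := by
        rw [hexp]
        have h4 := Real.exp_pos (t * C.Aa r)
        nlinarith
      have h5 : 0 ≤ M⁻¹ ^ l * Real.exp (-(ε * C.Aa r)) := by positivity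
      linarith
    · have h2 : Real.exp ((s - t) * C.Aa r) ≤ M⁻¹ := by
        rw [le_inv_comm₀ (Real.exp_pos _) hM0, ← Real.exp_neg]
        exact hc.le
      have h3 : Real.exp ((s - t) * C.Aa r * l) ≤ M⁻¹ ^ l := by
        rw [Real.exp_mul, Real.rpow_natCast]
        exact pow_le_pow_left₀ (Real.exp_pos _).le h2 l
      have h4 : Real.exp (t * C.Aa r) ≤ M⁻¹ ^ l * Real.exp (-(ε * C.Aa r)) := by
        have h5 : Real.exp (t * C.Aa r) ≤ Real.exp ((s - t) * C.Aa r * l) * Real.exp (-(ε * C.Aa r)) := by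
          rw [← Real.exp_add]
          apply Real.exp_le_exp.mpr
          have h6 : t * C.Aa r ≤ (s - t) * l * C.Aa r - ε * C.Aa r := by
            have : (t + ε - (s - t) * l) * C.Aa r ≤ 0 :=
              mul_nonpos_of_nonpos_of_nonneg (by nlinarith) hA
            nlinarith
          linarith
        exact le_trans h5 (mul_le_mul_of_nonneg_right h3 (Real.exp_pos _).le)
      have h5 : 0 ≤ M * Real.exp (s * C.Aa r) := by positivity
      linarith
  have hE := C.exp_moment hs0 hsB hpos i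
  have hQ := C.QQ_sum h0 h1 hl hpos hs hmb hε i
  -- pointwise for the set
  have hset : ∀ r ∈ (Weq i).filter (fun r => C.Pre r < MkR q r / 2), MkR q r ≤
      Real.exp (-(t * Λ)) * (MkR q r * Real.exp (t * C.Aa r)) +
      ((1 / 2) ^ l * Real.exp (ε * Λ)) * C.QQ l ε r := by
    intro r hr
    have hr2 := (mem_filter.mp hr).2
    have hMk := MkR_pos h0 r
    have hP := hpos r
    have hQ0 := C.QQ_nonneg (l := l) (ε := ε) h0 hpos r
    rcases lt_or_ge Λ (C.Aa r) with hc | hc
    · have h2 : 1 ≤ Real.exp (-(t * Λ)) * Real.exp (t * C.Aa r) := by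
        rw [← Real.exp_add]
        apply Real.one_le_exp
        nlinarith
      have h3 : MkR q r ≤ Real.exp (-(t * Λ)) * (MkR q r * Real.exp (t * C.Aa r)) := by
        nlinarith
      have h4 : 0 ≤ ((1 / 2 : ℝ) ^ l * Real.exp (ε * Λ)) * C.QQ l ε r := by positivity
      linarith
    · have h2 : (2 : ℝ) ^ l ≤ (MkR q r / C.Pre r) ^ l := by
        apply pow_le_pow_left₀ (by norm_num)
        rw [le_div_iff₀ hP]
        linarith
      have hε0 : 0 ≤ ε := by
        refine le_trans ?_ hε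
        have hmb3 : 0 ≤ mb := by
          have h5 := C.Pre_nil
          have h6 := hs []
          have h7 := C.Gs_nonneg []
          rw [h5] at h6
          linarith
        positivity
      have h3 : Real.exp (-(ε * Λ)) ≤ Real.exp (-(ε * C.Aa r)) := by
        apply Real.exp_le_exp.mpr
        nlinarith
      have h4 : MkR q r * (2 ^ l * Real.exp (-(ε * Λ))) ≤ C.QQ l ε r := by
        unfold QQ
        rw [mul_assoc]
        apply mul_le_mul_of_nonneg_left _ hMk.le
        exact mul_le_mul h2 h3 (Real.exp_pos _).le (by positivity)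
      have h5 : MkR q r ≤ ((1 / 2) ^ l * Real.exp (ε * Λ)) * C.QQ l ε r := by
        have h6 : ((1 / 2 : ℝ) ^ l * Real.exp (ε * Λ)) * (MkR q r * (2 ^ l * Real.exp (-(ε * Λ)))) = MkR q r := by
          have h7 : (1 / 2 : ℝ) ^ l * 2 ^ l = 1 := by
            rw [← mul_pow]; norm_num
          have h8 : Real.exp (ε * Λ) * Real.exp (-(ε * Λ)) = 1 := by
            rw [← Real.exp_add]; simp
          calc _ = ((1 / 2 : ℝ) ^ l * 2 ^ l) * (Real.exp (ε * Λ) * Real.exp (-(ε * Λ))) * MkR q r := by ring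
            _ = _ := by rw [h7, h8]; ring
        calc MkR q r = ((1 / 2 : ℝ) ^ l * Real.exp (ε * Λ)) * (MkR q r * (2 ^ l * Real.exp (-(ε * Λ)))) := h6.symm
          _ ≤ _ := mul_le_mul_of_nonneg_left h4 (by positivity)
      have h6 : 0 ≤ Real.exp (-(t * Λ)) * (MkR q r * Real.exp (t * C.Aa r)) := by positivity
      linarith
  have hD : 0 ≤ (1 / 2 : ℝ) ^ l * Real.exp (ε * Λ) := by positivity
  calc ∑ r ∈ (Weq i).filter (fun r => C.Pre r < MkR q r / 2), MkR q r
      ≤ ∑ r ∈ (Weq i).filter (fun r => C.Pre r < MkR q r / 2),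
        (Real.exp (-(t * Λ)) * (MkR q r * Real.exp (t * C.Aa r)) +
          ((1 / 2) ^ l * Real.exp (ε * Λ)) * C.QQ l ε r) := sum_le_sum hset
    _ ≤ ∑ r ∈ Weq i, (Real.exp (-(t * Λ)) * (MkR q r * Real.exp (t * C.Aa r)) +
          ((1 / 2) ^ l * Real.exp (ε * Λ)) * C.QQ l ε r) := by
        apply sum_le_sum_of_subset_of_nonneg (filter_subset _ _)
        intro r _ _
        have hMk := MkR_pos h0 r
        have hQ0 := C.QQ_nonneg (l := l) (ε := ε) h0 hpos r
        positivity
    _ = Real.exp (-(t * Λ)) * ∑ r ∈ Weq i, (MkR q r * Real.exp (t * C.Aa r)) +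
          ((1 / 2) ^ l * Real.exp (ε * Λ)) * ∑ r ∈ Weq i, C.QQ l ε r := by
        rw [sum_add_distrib, mul_sum, mul_sum]
    _ ≤ Real.exp (-(t * Λ)) * 3 + ((1 / 2) ^ l * Real.exp (ε * Λ)) * 1 := by
        apply add_le_add _ (mul_le_mul_of_nonneg_left hQ hD)
        apply mul_le_mul_of_nonneg_left _ (Real.exp_pos _).le
        calc ∑ r ∈ Weq i, (MkR q r * Real.exp (t * C.Aa r))
            ≤ ∑ r ∈ Weq i, (Real.exp (s * C.Aa r) * C.Pre r + C.QQ l ε r) := sum_le_sum (fun r _ => hpt r)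
          _ = ∑ r ∈ Weq i, Real.exp (s * C.Aa r) * C.Pre r + ∑ r ∈ Weq i, C.QQ l ε r := sum_add_distrib
          _ ≤ 3 := by linarith
    _ = _ := by ring

end super

end HMM

end Vale.Agent.Lib.P321
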