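import Vale.Agent.Lib.P321.LTBase

/-!
P321, lower tail module: moments, tails and comparison of negative binomial weights.
-/

namespace Vale.Agent.Lib.P321

open Finset

section
variable {θ : ℝ}

/-- Exponential moment around the mean. -/
theorem NB_centered_moment (hθ0 : 0 < θ) (hθ1 : θ < 1) :
    ∃ C s₀ : ℝ, 0 < C ∧ 0 < s₀ ∧ 1 ≤ 4 * C * s₀ ∧ ∀ s : ℝ, |s| ≤ s₀ → ∀ (m : ℕ) (K : Finset ℕ),
      ∑ k ∈ K, NB θ m (k : ℤ) * Real.exp (s * ((k : ℝ) - θ / (1 - θ) * m)) ≤ Real.exp (C * s ^ 2 * m) := by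
  obtain ⟨C, s₀, hC, hs₀, _, hCs, hb⟩ := tilt_bound hθ0 hθ1
  refine ⟨C, s₀, hC, hs₀, hCs, ?_⟩
  intro s hs m K
  obtain ⟨h1, h2, h3⟩ := hb s hs
  have hm := NB_exp_moment (t := Real.exp s) hθ0 hθ1 (Real.exp_pos s) (by linarith) m K
  have e : ∀ k ∈ K, NB θ m (k : ℤ) * Real.exp (s * ((k : ℝ) - θ / (1 - θ) * m)) =
      Real.exp (-(s * (θ / (1 - θ)))) ^ m * (NB θ m (k : ℤ) * Real.exp s ^ k) := by
    intro k _
    rw [← Real.exp_nat_mul, ← Real.exp_nat_mul]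
    have : Real.exp (s * ((k : ℝ) - θ / (1 - θ) * m)) =
        Real.exp ((m : ℝ) * -(s * (θ / (1 - θ)))) * Real.exp ((k : ℝ) * s) := by
      rw [← Real.exp_add]
      congr 1
      ring
    rw [this]
    ring
  rw [sum_congr rfl e, ← mul_sum]
  have h4 : 0 < (1 - θ) / (1 - θ * Real.exp s) := by
    have : 0 < 1 - θ := by linarith
    positivity
  calc Real.exp (-(s * (θ / (1 - θ)))) ^ m * ∑ k ∈ K, NB θ m (k : ℤ) * Real.exp s ^ k
      ≤ Real.exp (-(s * (θ / (1 - θ)))) ^ m * ((1 - θ) / (1 - θ * Real.exp s)) ^ m :=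
        mul_le_mul_of_nonneg_left hm (by positivity)
    _ = ((1 - θ) / (1 - θ * Real.exp s) * Real.exp (-(s * (θ / (1 - θ))))) ^ m := by
        rw [mul_pow]; ring
    _ ≤ Real.exp (C * s ^ 2) ^ m := pow_le_pow_left₀ (by positivity) h3 m
    _ = Real.exp (C * s ^ 2 * m) := by
        rw [← Real.exp_nat_mul]
        congr 1
        ring

/-- Moment with the absolute value. -/
theorem NB_abs_moment (hθ0 : 0 < θ) (hθ1 : θ < 1) {C s₀ : ℝ}
    (hmom : ∀ s : ℝ, |s| ≤ s₀ → ∀ (m : ℕ) (K : Finset ℕ),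
      ∑ k ∈ K, NB θ m (k : ℤ) * Real.exp (s * ((k : ℝ) - θ / (1 - θ) * m)) ≤ Real.exp (C * s ^ 2 * m))
    {a : ℝ} (ha0 : 0 ≤ a) (has : a ≤ s₀) (m : ℕ) (K : Finset ℕ) :
    ∑ k ∈ K, NB θ m (k : ℤ) * Real.exp (a * |(k : ℝ) - θ / (1 - θ) * m|) ≤ 2 * Real.exp (C * a ^ 2 * m) := by
  have h1 := hmom a (by rwa [abs_of_nonneg ha0]) m K
  have h2 := hmom (-a) (by rwa [abs_neg, abs_of_nonneg ha0]) m K
  have e : (-a) ^ 2 = a ^ 2 := by ring
  rw [e] at h2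
  have hpt : ∀ k ∈ K, NB θ m (k : ℤ) * Real.exp (a * |(k : ℝ) - θ / (1 - θ) * m|) ≤
      NB θ m (k : ℤ) * Real.exp (a * ((k : ℝ) - θ / (1 - θ) * m)) +
      NB θ m (k : ℤ) * Real.exp (-a * ((k : ℝ) - θ / (1 - θ) * m)) := by
    intro k _
    have hNB := NB_nonneg hθ0 hθ1 m (k : ℤ)
    rw [← mul_add]
    apply mul_le_mul_of_nonneg_left _ hNB
    rcases abs_cases ((k : ℝ) - θ / (1 - θ) * m) with ⟨h3, _⟩ | ⟨h3, _⟩
    · rw [h3]
      have := Real.exp_pos (-a * ((k : ℝ) - θ / (1 - θ) * m))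
      linarith
    · rw [h3]
      have := Real.exp_pos (a * ((k : ℝ) - θ / (1 - θ) * m))
      have e2 : a * -((k : ℝ) - θ / (1 - θ) * m) = -a * ((k : ℝ) - θ / (1 - θ) * m) := by ring
      rw [e2]
      linarith
  refine le_trans (sum_le_sum hpt) ?_
  rw [sum_add_distrib]
  linarith

/-- Tail of the negative binomial weights. -/
theorem NB_tail (hθ0 : 0 < θ) (hθ1 : θ < 1) :
    ∃ C : ℝ, 0 < C ∧ ∀ (m : ℕ) (u : ℝ) (K : Finset ℕ), 1 ≤ m → 0 ≤ u → u ≤ (m : ℝ) / 2 →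
      ∑ k ∈ K.filter (fun k : ℕ => u ≤ |(k : ℝ) - θ / (1 - θ) * m|), NB θ m (k : ℤ) ≤
        2 * Real.exp (-(u ^ 2) / (C * m)) := by
  obtain ⟨C₀, s₀, hC, hs₀, hCs, hmom⟩ := NB_centered_moment hθ0 hθ1
  refine ⟨4 * C₀, by positivity, ?_⟩
  intro m u K hm hu hum
  have hm0 : (0 : ℝ) < m := by exact_mod_cast hm
  set s : ℝ := u / (2 * C₀ * m) with hs
  have hs0 : 0 ≤ s := by positivity
  have hs1 : s ≤ s₀ := by
    rw [hs, div_le_iff₀ (by positivity)]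
    have : (m : ℝ) / 2 * 1 ≤ (m : ℝ) / 2 * (4 * C₀ * s₀) :=
      mul_le_mul_of_nonneg_left hCs (by positivity)
    nlinarith
  have h := NB_abs_moment hθ0 hθ1 hmom hs0 hs1 m K
  have hpt : ∀ k ∈ K.filter (fun k : ℕ => u ≤ |(k : ℝ) - θ / (1 - θ) * m|), NB θ m (k : ℤ) ≤
      Real.exp (-(s * u)) * (NB θ m (k : ℤ) * Real.exp (s * |(k : ℝ) - θ / (1 - θ) * m|)) := by
    intro k hk
    have h2 := (mem_filter.mp hk).2
    have hNB := NB_nonneg hθ0 hθ1 m (k : ℤ)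
    have h3 : 1 ≤ Real.exp (-(s * u)) * Real.exp (s * |(k : ℝ) - θ / (1 - θ) * m|) := by
      rw [← Real.exp_add]
      apply Real.one_le_exp
      have := mul_le_mul_of_nonneg_left h2 hs0
      linarith
    calc NB θ m (k : ℤ) = NB θ m (k : ℤ) * 1 := (mul_one _).symm
      _ ≤ NB θ m (k : ℤ) * (Real.exp (-(s * u)) * Real.exp (s * |(k : ℝ) - θ / (1 - θ) * m|)) :=
          mul_le_mul_of_nonneg_left h3 hNB
      _ = _ := by ring
  refine le_trans (sum_le_sum hpt) ?_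
  rw [← mul_sum]
  have h4 : ∑ k ∈ K.filter (fun k : ℕ => u ≤ |(k : ℝ) - θ / (1 - θ) * m|),
      NB θ m (k : ℤ) * Real.exp (s * |(k : ℝ) - θ / (1 - θ) * m|) ≤
      ∑ k ∈ K, NB θ m (k : ℤ) * Real.exp (s * |(k : ℝ) - θ / (1 - θ) * m|) := by
    apply sum_le_sum_of_subset_of_nonneg (filter_subset _ _)
    intro k _ _
    have hNB := NB_nonneg hθ0 hθ1 m (k : ℤ)
    positivity
  have h5 : Real.exp (-(s * u)) * ∑ k ∈ K.filter (fun k : ℕ => u ≤ |(k : ℝ) - θ / (1 - θ) * m|),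
      NB θ m (k : ℤ) * Real.exp (s * |(k : ℝ) - θ / (1 - θ) * m|) ≤
      Real.exp (-(s * u)) * (2 * Real.exp (C₀ * s ^ 2 * m)) :=
    mul_le_mul_of_nonneg_left (le_trans h4 h) (Real.exp_pos _).le
  refine le_trans h5 (le_of_eq ?_)
  have e : Real.exp (-(s * u)) * (2 * Real.exp (C₀ * s ^ 2 * m)) =
      2 * Real.exp (-(s * u) + C₀ * s ^ 2 * m) := by
    rw [Real.exp_add]; ring
  rw [e]
  congr 2
  rw [hs]
  field_simp
  ring

/-- One sided control of the ratio implies control at all distances, upwards. -/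
theorem NB_up_all (hθ0 : 0 < θ) (hθ1 : θ < 1) (p y : ℕ) {ρ : ℝ} (hρ : 1 ≤ ρ)
    (hup : NB θ (p + 1) ((y : ℤ) + 1) ≤ ρ * NB θ (p + 1) (y : ℤ)) (j : ℕ) :
    NB θ (p + 1) ((y + j : ℕ) : ℤ) ≤ ρ ^ j * NB θ (p + 1) (y : ℤ) := by
  have hpos := NB_pos hθ0 hθ1 p y
  have hr0 := NB_ratio θ p y
  have hy0 : (0 : ℝ) < (y : ℝ) + 1 := by positivity
  have key : θ * ((y : ℝ) + p + 1) ≤ ((y : ℝ) + 1) * ρ := by
    have h2 : ((y : ℝ) + 1) * NB θ (p + 1) ((y : ℤ) + 1) ≤ ((y : ℝ) + 1) * (ρ * NB θ (p + 1) (y : ℤ)) :=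
      mul_le_mul_of_nonneg_left hup hy0.le
    rw [hr0] at h2
    have h3 : θ * ((y : ℝ) + p + 1) * NB θ (p + 1) (y : ℤ) ≤ (((y : ℝ) + 1) * ρ) * NB θ (p + 1) (y : ℤ) := by
      linarith
    exact le_of_mul_le_mul_right h3 hpos
  induction j with
  | zero => simp
  | succ j ih =>
    have hr := NB_ratio θ p (y + j)
    have e : (((y + j : ℕ) : ℤ) + 1) = ((y + (j + 1) : ℕ) : ℤ) := by push_cast; ring
    rw [e] at hr
    have hk0 : (0 : ℝ) < ((y + j : ℕ) : ℝ) + 1 := by positivity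
    have hkey2 : θ * (((y + j : ℕ) : ℝ) + p + 1) ≤ (((y + j : ℕ) : ℝ) + 1) * ρ := by
      push_cast
      have hj : (0 : ℝ) ≤ j := by positivity
      have hp : (0 : ℝ) ≤ p := by positivity
      have h3 : θ * ((y : ℝ) + j + p + 1) * ((y : ℝ) + 1) ≤ θ * ((y : ℝ) + p + 1) * ((y : ℝ) + j + 1) := by
        have : 0 ≤ θ * (j * p) := by positivity
        nlinarith
      have h4 : θ * ((y : ℝ) + p + 1) * ((y : ℝ) + j + 1) ≤ ((y : ℝ) + 1) * ρ * ((y : ℝ) + j + 1) :=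
        mul_le_mul_of_nonneg_right key (by positivity)
      have h5 : θ * ((y : ℝ) + j + p + 1) * ((y : ℝ) + 1) ≤ (((y : ℝ) + j + 1) * ρ) * ((y : ℝ) + 1) := by
        nlinarith
      exact le_of_mul_le_mul_right h5 hy0
    have hN := NB_nonneg hθ0 hθ1 (p + 1) ((y + j : ℕ) : ℤ)
    have h6 : (((y + j : ℕ) : ℝ) + 1) * NB θ (p + 1) ((y + (j + 1) : ℕ) : ℤ) ≤
        (((y + j : ℕ) : ℝ) + 1) * (ρ * NB θ (p + 1) ((y + j : ℕ) : ℤ)) := by
      rw [hr]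
      have := mul_le_mul_of_nonneg_right hkey2 hN
      linarith
    have h7 := le_of_mul_le_mul_left h6 hk0
    calc NB θ (p + 1) ((y + (j + 1) : ℕ) : ℤ) ≤ ρ * NB θ (p + 1) ((y + j : ℕ) : ℤ) := h7
      _ ≤ ρ * (ρ ^ j * NB θ (p + 1) (y : ℤ)) := mul_le_mul_of_nonneg_left ih (by linarith)
      _ = ρ ^ (j + 1) * NB θ (p + 1) (y : ℤ) := by rw [pow_succ]; ring

/-- Control at all distances, downwards. -/
theorem NB_down_all (hθ0 : 0 < θ) (hθ1 : θ < 1) (p y : ℕ) {ρ : ℝ} (hρ : 1 ≤ ρ)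
    (hdn : 1 ≤ y → NB θ (p + 1) ((y - 1 : ℕ) : ℤ) ≤ ρ * NB θ (p + 1) (y : ℤ)) (j : ℕ) (hj : j ≤ y) :
    NB θ (p + 1) ((y - j : ℕ) : ℤ) ≤ ρ ^ j * NB θ (p + 1) (y : ℤ) := by
  induction j with
  | zero => simp
  | succ j ih =>
    have hy1 : 1 ≤ y := by omega
    have hpos := NB_pos hθ0 hθ1 p y
    have hyy : y - 1 + 1 = y := by omega
    have hr0 := NB_ratio θ p (y - 1)
    have e0 : (((y - 1 : ℕ) : ℤ) + 1) = (y : ℤ) := by omega
    rw [e0] at hr0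
    have e1 : ((y - 1 : ℕ) : ℝ) + 1 = y := by
      have : ((y - 1 + 1 : ℕ) : ℝ) = y := by rw [hyy]
      push_cast at this
      exact this
    rw [e1] at hr0
    have hkey : (y : ℝ) ≤ θ * ((y : ℝ) + p) * ρ := by
      have h2 := hdn hy1
      have h3 : θ * ((y : ℝ) + p) * NB θ (p + 1) ((y - 1 : ℕ) : ℤ) ≤
          θ * ((y : ℝ) + p) * (ρ * NB θ (p + 1) (y : ℤ)) :=
        mul_le_mul_of_nonneg_left h2 (by positivity)
      have e3 : ((y - 1 : ℕ) : ℝ) + p + 1 = (y : ℝ) + p := by rw [add_right_comm, e1]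
      rw [e3] at hr0
      have h4 : (y : ℝ) * NB θ (p + 1) (y : ℤ) ≤ (θ * ((y : ℝ) + p) * ρ) * NB θ (p + 1) (y : ℤ) := by
        rw [hr0]
        linarith
      exact le_of_mul_le_mul_right h4 hpos
    -- the step at `y - j - 1`
    set k : ℕ := y - (j + 1) with hk
    have hkj : k + 1 = y - j := by omega
    have hr := NB_ratio θ p k
    have e4 : ((k : ℤ) + 1) = ((y - j : ℕ) : ℤ) := by rw [← hkj]; push_cast; ring
    rw [e4] at hr
    have hkR : (k : ℝ) + 1 ≤ y := by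
      have : k + 1 ≤ y := by omega
      exact_mod_cast this
    have hy0 : (0 : ℝ) < y := by exact_mod_cast hy1
    have hstep : (k : ℝ) + 1 ≤ θ * ((k : ℝ) + p + 1) * ρ := by
      have hp : (0 : ℝ) ≤ p := by positivity
      have hk0 : (0 : ℝ) ≤ (k : ℝ) + 1 := by positivity
      have h3 : ((k : ℝ) + 1) * ((y : ℝ) + p) ≤ (y : ℝ) * ((k : ℝ) + p + 1) := by nlinarith
      have h4 : (y : ℝ) * ((k : ℝ) + p + 1) ≤ (θ * ((y : ℝ) + p) * ρ) * ((k : ℝ) + p + 1) :=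
        mul_le_mul_of_nonneg_right hkey (by positivity)
      have h5 : ((k : ℝ) + 1) * ((y : ℝ) + p) ≤ (θ * ((k : ℝ) + p + 1) * ρ) * ((y : ℝ) + p) := by
        nlinarith
      exact le_of_mul_le_mul_right h5 (by positivity)
    have hNk := NB_nonneg hθ0 hθ1 (p + 1) (k : ℤ)
    have hNk1 := NB_nonneg hθ0 hθ1 (p + 1) ((y - j : ℕ) : ℤ)
    have hden : 0 < θ * ((k : ℝ) + p + 1) := by positivity
    have h6 : NB θ (p + 1) (k : ℤ) ≤ ρ * NB θ (p + 1) ((y - j : ℕ) : ℤ) := by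
      have h7 : θ * ((k : ℝ) + p + 1) * NB θ (p + 1) (k : ℤ) ≤
          θ * ((k : ℝ) + p + 1) * (ρ * NB θ (p + 1) ((y - j : ℕ) : ℤ)) := by
        rw [← hr]
        have := mul_le_mul_of_nonneg_right hstep hNk1
        linarith
      exact le_of_mul_le_mul_left h7 hden
    calc NB θ (p + 1) (k : ℤ) ≤ ρ * NB θ (p + 1) ((y - j : ℕ) : ℤ) := h6
      _ ≤ ρ * (ρ ^ j * NB θ (p + 1) (y : ℤ)) := mul_le_mul_of_nonneg_left (ih (by omega)) (by linarith)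
      _ = ρ ^ (j + 1) * NB θ (p + 1) (y : ℤ) := by rw [pow_succ]; ring

/-- Global control from the two ratios next to a point. -/
theorem NB_flat_all (hθ0 : 0 < θ) (hθ1 : θ < 1) (p y : ℕ) {a : ℝ} (ha : 0 ≤ a)
    (hup : NB θ (p + 1) ((y : ℤ) + 1) ≤ Real.exp a * NB θ (p + 1) (y : ℤ))
    (hdn : 1 ≤ y → NB θ (p + 1) ((y - 1 : ℕ) : ℤ) ≤ Real.exp a * NB θ (p + 1) (y : ℤ)) (z : ℤ) :
    NB θ (p + 1) z ≤ Real.exp (a * |((z : ℝ) - y)|) * NB θ (p + 1) (y : ℤ) := by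
  have hρ : 1 ≤ Real.exp a := Real.one_le_exp ha
  rcases lt_or_ge z 0 with hz | hz
  · rw [NB_of_neg hz]
    have := NB_nonneg hθ0 hθ1 (p + 1) (y : ℤ)
    positivity
  · obtain ⟨k, rfl⟩ := Int.eq_ofNat_of_zero_le hz
    rcases Nat.le_total y k with h | h
    · obtain ⟨j, rfl⟩ := Nat.exists_eq_add_of_le h
      have := NB_up_all hθ0 hθ1 p y hρ hup j
      rw [← Real.exp_nat_mul] at this
      have e : |(((y + j : ℕ) : ℤ) : ℝ) - y| = j := by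
        push_cast
        rw [add_sub_cancel_left, abs_of_nonneg (by positivity)]
      rw [e]
      calc NB θ (p + 1) ((y + j : ℕ) : ℤ) ≤ Real.exp ((j : ℝ) * a) * NB θ (p + 1) (y : ℤ) := this
        _ = _ := by rw [mul_comm (j : ℝ) a]
    · obtain ⟨j, rfl⟩ := Nat.exists_eq_add_of_le h
      have := NB_down_all hθ0 hθ1 p (k + j) hρ hdn j (by omega)
      have e2 : k + j - j = k := by omega
      rw [e2, ← Real.exp_nat_mul] at this
      have e : |(((k : ℕ) : ℤ) : ℝ) - ((k + j : ℕ) : ℝ)| = j := by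
        push_cast
        rw [show (k : ℝ) - ((k : ℝ) + j) = -(j : ℝ) by ring, abs_neg, abs_of_nonneg (by positivity)]
      rw [e]
      calc NB θ (p + 1) (k : ℤ) ≤ Real.exp ((j : ℝ) * a) * NB θ (p + 1) ((k + j : ℕ) : ℤ) := this
        _ = _ := by rw [mul_comm (j : ℝ) a]

/-- Comparison of negative binomial weights with different lengths. -/
theorem NB_compare (hθ0 : 0 < θ) (hθ1 : θ < 1) :
    ∃ C₀ s₀ : ℝ, 0 < C₀ ∧ 0 < s₀ ∧ ∀ (l m y : ℕ) (w : ℤ) (X : ℝ), 1 ≤ l →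
      |(y : ℝ) - θ / (1 - θ) * l| ≤ X → X + 2 ≤ θ / 4 * l → 4 / θ * (X + 2) / l ≤ s₀ →
      NB θ (m + l) ((y : ℤ) + w) ≤
        2 * Real.exp (4 / θ * (X + 2) / l * |(w : ℝ) - θ / (1 - θ) * m| +
          C₀ * (4 / θ * (X + 2) / l) ^ 2 * m) * NB θ l (y : ℤ) := by
  obtain ⟨C₀, s₀, hC, hs₀, _, hmom⟩ := NB_centered_moment hθ0 hθ1
  refine ⟨C₀, s₀, hC, hs₀, ?_⟩
  intro l m y w X hl hyX hXl has
  obtain ⟨p, rfl⟩ : ∃ p, l = p + 1 := ⟨l - 1, by omega⟩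
  have hX0 : 0 ≤ X := le_trans (abs_nonneg _) hyX
  have hlR : (0 : ℝ) < ((p + 1 : ℕ) : ℝ) := by positivity
  set a : ℝ := 4 / θ * (X + 2) / ((p + 1 : ℕ) : ℝ) with ha
  have ha0 : 0 ≤ a := by positivity
  have hθmem : θ ∈ Set.Icc θ θ := ⟨le_rfl, le_rfl⟩
  have eκ : θ * ((p + 1 : ℕ) : ℝ) / (1 - θ) = θ / (1 - θ) * ((p + 1 : ℕ) : ℝ) := by ring
  -- upper ratio
  have hup : NB θ (p + 1) ((y : ℤ) + 1) ≤ Real.exp a * NB θ (p + 1) (y : ℤ) := by
    have h := (NB_one_step hθ0 hθ1 hθmem p y (X := X) (by rw [eκ]; exact hyX) (by linarith)).2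
    have hν : 4 / θ * (X + 1) / ((p + 1 : ℕ) : ℝ) ≤ a := by
      rw [ha]
      apply div_le_div_of_nonneg_right _ hlR.le
      apply mul_le_mul_of_nonneg_left (by linarith) (by positivity)
    have h2 : Real.exp (-a) ≤ Real.exp (-(4 / θ * (X + 1) / ((p + 1 : ℕ) : ℝ))) :=
      Real.exp_le_exp.mpr (by linarith)
    have hN := NB_nonneg hθ0 hθ1 (p + 1) ((y : ℤ) + 1)
    have h3 : Real.exp (-a) * NB θ (p + 1) ((y : ℤ) + 1) ≤ NB θ (p + 1) (y : ℤ) :=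
      le_trans (mul_le_mul_of_nonneg_right h2 hN) h
    rw [Real.exp_neg] at h3
    rwa [inv_mul_le_iff₀ (Real.exp_pos a)] at h3
  have hdn : 1 ≤ y → NB θ (p + 1) ((y - 1 : ℕ) : ℤ) ≤ Real.exp a * NB θ (p + 1) (y : ℤ) := by
    intro hy
    have hj : |((y - 1 : ℕ) : ℝ) - θ * ((p + 1 : ℕ) : ℝ) / (1 - θ)| ≤ X + 1 := by
      rw [eκ]
      have e1 : ((y - 1 : ℕ) : ℝ) = (y : ℝ) - 1 := by
        rw [Nat.cast_sub hy]
        simp
      rw [e1]
      have h3 := abs_sub_le ((y : ℝ) - 1) (y : ℝ) (θ / (1 - θ) * ((p + 1 : ℕ) : ℝ))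
      have h4 : |((y : ℝ) - 1) - y| = 1 := by
        rw [show ((y : ℝ) - 1) - y = -1 by ring]
        simp
      linarith
    have h := (NB_one_step hθ0 hθ1 hθmem p (y - 1) (X := X + 1) hj (by linarith)).1
    have e2 : X + 1 + 1 = X + 2 := by ring
    rw [e2] at h
    have e3 : (((y - 1 : ℕ) : ℤ) + 1) = (y : ℤ) := by omega
    rw [e3, ← ha, Real.exp_neg, inv_mul_le_iff₀ (Real.exp_pos a)] at h
    exact h
  have hflat := NB_flat_all hθ0 hθ1 p y ha0 hup hdn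
  have hNy := NB_nonneg hθ0 hθ1 (p + 1) (y : ℤ)
  rcases lt_or_ge ((y : ℤ) + w) 0 with hS | hS
  · rw [NB_of_neg hS]
    positivity
  rw [NB_conv]
  -- reduce to a sum over natural numbers
  obtain ⟨n, hn⟩ := Int.eq_ofNat_of_zero_le hS
  have hIcc : Icc (0 : ℤ) ((y : ℤ) + w) = (range (n + 1)).map ⟨fun k : ℕ => (k : ℤ), Nat.cast_injective⟩ := by
    rw [hn]
    ext x
    simp only [mem_Icc, mem_map, mem_range, Function.Embedding.coeFn_mk]
    constructor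
    · rintro ⟨h1, h2⟩
      refine ⟨x.toNat, by omega, by omega⟩
    · rintro ⟨k, hk, rfl⟩
      omega
  rw [hIcc, sum_map]
  simp only [Function.Embedding.coeFn_mk]
  set κ : ℝ := θ / (1 - θ) with hκ
  have hpt : ∀ k ∈ range (n + 1), NB θ m (k : ℤ) * NB θ (p + 1) ((y : ℤ) + w - k) ≤
      (Real.exp (a * |(w : ℝ) - κ * m|) * NB θ (p + 1) (y : ℤ)) *
        (NB θ m (k : ℤ) * Real.exp (a * |(k : ℝ) - κ * m|)) := by
    intro k _
    have h2 := hflat ((y : ℤ) + w - k)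
    have e : (((y : ℤ) + w - k : ℤ) : ℝ) - (y : ℝ) = (w : ℝ) - k := by
      push_cast
      ring
    rw [e] at h2
    have h3 : |(w : ℝ) - k| ≤ |(w : ℝ) - κ * m| + |(k : ℝ) - κ * m| := by
      have := abs_sub_le (w : ℝ) (κ * m) (k : ℝ)
      rwa [abs_sub_comm (κ * m) (k : ℝ)] at this
    have h4 : Real.exp (a * |(w : ℝ) - k|) ≤ Real.exp (a * |(w : ℝ) - κ * m|) * Real.exp (a * |(k : ℝ) - κ * m|) := by
      rw [← Real.exp_add, ← mul_add]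
      exact Real.exp_le_exp.mpr (mul_le_mul_of_nonneg_left h3 ha0)
    have hNk := NB_nonneg hθ0 hθ1 m (k : ℤ)
    calc NB θ m (k : ℤ) * NB θ (p + 1) ((y : ℤ) + w - k)
        ≤ NB θ m (k : ℤ) * (Real.exp (a * |(w : ℝ) - k|) * NB θ (p + 1) (y : ℤ)) :=
          mul_le_mul_of_nonneg_left h2 hNk
      _ ≤ NB θ m (k : ℤ) * ((Real.exp (a * |(w : ℝ) - κ * m|) * Real.exp (a * |(k : ℝ) - κ * m|)) * NB θ (p + 1) (y : ℤ)) := by
          apply mul_le_mul_of_nonneg_left _ hNk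
          exact mul_le_mul_of_nonneg_right h4 hNy
      _ = _ := by ring
  refine le_trans (sum_le_sum hpt) ?_
  rw [← mul_sum]
  have hab := NB_abs_moment hθ0 hθ1 hmom ha0 has m (range (n + 1))
  calc Real.exp (a * |(w : ℝ) - κ * m|) * NB θ (p + 1) (y : ℤ) *
        ∑ k ∈ range (n + 1), NB θ m (k : ℤ) * Real.exp (a * |(k : ℝ) - κ * m|)
      ≤ Real.exp (a * |(w : ℝ) - κ * m|) * NB θ (p + 1) (y : ℤ) * (2 * Real.exp (C₀ * a ^ 2 * m)) :=
        mul_le_mul_of_nonneg_left hab (by positivity)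
    _ = _ := by
        rw [Real.exp_add]
        ring

end

end Vale.Agent.Lib.P321
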