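import Vale.Agent.Lib.P321.LTTail

/-!
P321, lower tail module: the forward and backward decomposition of the trace law at a letter.
-/

namespace Vale.Agent.Lib.P321

open Finset

theorem drop_Xb_succ (x : ℕ → Bool) {b n : ℕ} (h : b ≤ n) :
    (Xb x (n + 1)).drop b = (Xb x n).drop b ++ [x (n + 1)] := by
  rw [Xb_succ, List.drop_append_of_le_length (by simpa using h)]

theorem drop_Xb_self (x : ℕ → Bool) (n : ℕ) : (Xb x n).drop n = [] := by
  apply List.drop_eq_nil_of_le
  simp

theorem traceProb_nil_word (q : ℝ) : traceProb q [] [] = 1 := by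
  simp [traceProb]

theorem traceProb_fb (q : ℝ) (x : ℕ → Bool) (n : ℕ) (f : Word) (c : Bool) (g : Word) :
    traceProb q (Xb x n) (f ++ c :: g) =
      ∑ b ∈ range n, if x (b + 1) = c then
        (1 - q) * traceProb q (Xb x b) f * traceProb q ((Xb x n).drop (b + 1)) g else 0 := by
  induction n generalizing g with
  | zero =>
    simp only [range_zero, sum_empty]
    apply traceProb_of_long
    simp [Xb]
  | succ n ih =>
    rw [sum_range_succ]
    have hdrop : (Xb x (n + 1)).drop (n + 1) = [] := drop_Xb_self x (n + 1)
    rw [hdrop]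
    have hsum : ∀ b ∈ range n, (Xb x (n + 1)).drop (b + 1) = (Xb x n).drop (b + 1) ++ [x (n + 1)] := by
      intro b hb
      rw [mem_range] at hb
      exact drop_Xb_succ x (by omega)
    rcases List.eq_nil_or_concat g with rfl | ⟨g', d, rfl⟩
    · have e : f ++ [c] = f ++ c :: [] := rfl
      rw [Xb_succ, traceProb_concat, lastPart_append', ih]
      rw [traceProb_nil_word]
      have h2 : ∀ b ∈ range n, (if x (b + 1) = c then
          (1 - q) * traceProb q (Xb x b) f * traceProb q ((Xb x n ++ [x (n + 1)]).drop (b + 1)) [] else 0) =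
          q * (if x (b + 1) = c then
          (1 - q) * traceProb q (Xb x b) f * traceProb q ((Xb x n).drop (b + 1)) [] else 0) := by
        intro b hb
        rw [← Xb_succ, hsum b hb, traceProb_concat, lastPart_nil]
        split_ifs
        · ring
        · ring
      rw [sum_congr rfl h2, mul_sum]
      congr 1
      by_cases hc : x (n + 1) = c
      · rw [if_pos hc, if_pos hc.symm]
        ring
      · rw [if_neg hc, if_neg (fun h => hc h.symm)]
        ring
    · simp only [List.concat_eq_append]
      have e : f ++ c :: (g' ++ [d]) = (f ++ c :: g') ++ [d] := by simp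
      rw [e, Xb_succ, traceProb_concat, lastPart_append', ih g', ← e, ih (g' ++ [d])]
      have h3 : traceProb q [] (g' ++ [d]) = 0 := by
        apply traceProb_of_long
        simp
      rw [h3, mul_zero, ite_self, add_zero]
      have h2 : ∀ b ∈ range n, (if x (b + 1) = c then
          (1 - q) * traceProb q (Xb x b) f * traceProb q ((Xb x n ++ [x (n + 1)]).drop (b + 1)) (g' ++ [d]) else 0) =
          q * (if x (b + 1) = c then
            (1 - q) * traceProb q (Xb x b) f * traceProb q ((Xb x n).drop (b + 1)) (g' ++ [d]) else 0) +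
          (1 - q) * (if d = x (n + 1) then (if x (b + 1) = c then
            (1 - q) * traceProb q (Xb x b) f * traceProb q ((Xb x n).drop (b + 1)) g' else 0) else 0) := by
        intro b hb
        rw [← Xb_succ, hsum b hb, traceProb_concat, lastPart_append']
        by_cases h5 : x (b + 1) = c
        · by_cases h6 : d = x (n + 1)
          · simp only [if_pos h5, if_pos h6]
            ring
          · simp only [if_pos h5, if_neg h6]
            ring
        · simp only [if_neg h5]
          simp
      rw [sum_congr rfl h2, sum_add_distrib, ← mul_sum, ← mul_sum]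
      congr 2
      by_cases h6 : d = x (n + 1)
      · simp only [if_pos h6]
      · simp only [if_neg h6]
        simp

section chain

variable {q : ℝ} (x : ℕ → Bool) (n : ℕ) (h0 : 0 < q) (h1 : q < 1) (hx : x 0 = true)

/-- The decomposition in terms of the forward weights of the chain. -/
theorem trace_fb_Wt (r : Word) (a : Bool) (g : Word) :
    traceProb q (Xb x n) ((a :: r).reverse ++ g) =
      ∑ b ∈ range n, (chainS x n h0 h1 hx).Wt (a :: r) (b + 1) * traceProb q ((Xb x n).drop (b + 1)) g := by
  have e : (a :: r).reverse ++ g = r.reverse ++ a :: g := by simp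
  rw [e, traceProb_fb]
  apply sum_congr rfl
  intro b hb
  rw [mem_range] at hb
  rw [chainS_Wt_succ x n h0 h1 hx r a (by omega)]
  split_ifs
  · ring
  · ring

/-- Mass of the traces with a given beginning. -/
theorem begin_mass (r : Word) (a : Bool) {B : ℕ} (hB : n ≤ B) :
    ∑ g ∈ W B, traceProb q (Xb x n) ((a :: r).reverse ++ g) =
      ∑ b ∈ range n, (chainS x n h0 h1 hx).Wt (a :: r) (b + 1) := by
  simp only [trace_fb_Wt x n h0 h1 hx]
  rw [sum_comm]
  apply sum_congr rfl
  intro b _
  rw [← mul_sum, traceProb_sum, mul_one]
  rw [List.length_drop, length_Xb]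
  omega

/-- Total weight at a fixed length. -/
theorem sum_Pre_Weq (C : HMM q ℕ) (i : ℕ) : ∑ r ∈ Weq i, C.Pre r = 1 := by
  induction i with
  | zero => simp [Weq, C.Pre_nil]
  | succ i ih =>
    rw [sum_Weq_step, ← ih]
    apply sum_congr rfl
    intro l _
    exact C.Pre_split l

/-- Expansion of the total weight at a nonempty word. -/
theorem Pre_expand (r : Word) (a : Bool) :
    (chainS x n h0 h1 hx).Pre (a :: r) =
      ∑ b ∈ range n, (chainS x n h0 h1 hx).Wt (a :: r) (b + 1) +
        ((chainS x n h0 h1 hx).Wt (a :: r) (n + 1) + (chainS x n h0 h1 hx).Wt (a :: r) (n + 2)) := by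
  change ∑ b ∈ range (n + 3), (chainS x n h0 h1 hx).Wt (a :: r) b = _
  rw [sum_range_three, sum_range_succ' _ n, chainS_Wt_zero]
  ring

end chain

/-- Words longer than a threshold are split at the threshold. -/
theorem sum_split (m : ℕ) {B : ℕ} (hm : m ≤ B) (Φ : Word → ℝ) :
    ∑ t ∈ (W B).filter (fun t => m ≤ t.length), Φ t =
      ∑ r ∈ Weq m, ∑ g ∈ W (B - m), Φ (r.reverse ++ g) := by
  rw [sum_sigma']
  apply sum_nbij' (fun t => ⟨(t.take m).reverse, t.drop m⟩) (fun p => p.1.reverse ++ p.2)
  · intro t ht
    rw [mem_filter, mem_W] at ht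
    simp only [mem_sigma, mem_Weq, mem_W, List.length_reverse, List.length_take, List.length_drop]
    omega
  · intro p hp
    simp only [mem_sigma, mem_Weq, mem_W] at hp
    rw [mem_filter, mem_W]
    simp only [List.length_append, List.length_reverse]
    omega
  · intro t _
    simp
  · rintro ⟨r, g⟩ hp
    simp only [mem_sigma, mem_Weq, mem_W] at hp
    have h2 : r.reverse.length = m := by simp [hp.1]
    simp only [List.take_left' h2, List.reverse_reverse, List.drop_left' h2]
  · intro t _
    simp

end Vale.Agent.Lib.P321
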