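import Vale.Agent.Lib.P321.LTWindow

/-!
P321, lower tail module: lower bound for typical traces whose beginning is good.
-/

namespace Vale.Agent.Lib.P321

open Finset

section
variable {q : ℝ}

theorem Xb_drop_congr {x x' : ℕ → Bool} {b : ℕ} (h : ∀ i, b < i → x i = x' i) (n : ℕ) :
    (Xb x n).drop b = (Xb x' n).drop b := by
  induction n with
  | zero => simp [Xb]
  | succ n ih =>
    rcases Nat.lt_or_ge n b with hn | hn
    · rw [List.drop_eq_nil_of_le (by simp; omega), List.drop_eq_nil_of_le (by simp; omega)]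
    · rw [drop_Xb_succ x hn, drop_Xb_succ x' hn, ih, h (n + 1) (by omega)]

theorem xD_eq_of_large {D : Finset ℤ} {Xz : ℕ} (hD : ∀ d ∈ D, d ≤ (Xz : ℤ)) {b : ℕ} (hb : Xz < per b) :
    xD D b = xD ∅ b := by
  unfold per at hb
  have hb0 : b ≠ 0 := by
    rintro rfl
    simp at hb
  have h1 : ((((b + 1) / 2 : ℕ) : ℤ)) ∉ D := by
    intro hm
    have := hD _ hm
    omega
  unfold xD
  rw [if_neg hb0, if_neg hb0]
  by_cases hodd : b % 2 = 1
  · rw [if_pos hodd, if_pos hodd, decide_eq_false h1]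
    simp
  · rw [if_neg hodd, if_neg hodd]
    have e : b / 2 = (b + 1) / 2 := by omega
    rw [e, decide_eq_false h1]
    simp

/-- Lower bound for the law of a trace, given the comparison at the letters in the window. -/
theorem good_lower (h0 : 0 < q) (h1 : q < 1) (D : Finset ℤ) (A Xz : ℕ) (c : Bool) (r₁ g : Word) (Kk Wd K' : ℝ)
    (hD : ∀ d ∈ D, d ≤ (Xz : ℤ))
    (hwin : ∀ b < 2 * A, |(per (b + 1) : ℝ) - HR (c :: r₁) - Kk| ≤ Wd → Xz < per (b + 1))
    (hK : 0 ≤ K')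
    (hcmp : ∀ b < 2 * A, xD ∅ (b + 1) = c → |(per (b + 1) : ℝ) - HR (c :: r₁) - Kk| ≤ Wd →
      traceProb q (blockStr ∅ 0 A) ((c :: r₁).reverse ++ g) ≤
        K' * (traceProb q ((blockStr ∅ 0 A).drop (b + 1)) g * MkR q (c :: r₁))) :
    traceProb q (blockStr ∅ 0 A) ((c :: r₁).reverse ++ g) *
      ∑ b ∈ range (2 * A), (if |(per (b + 1) : ℝ) - HR (c :: r₁) - Kk| ≤ Wd then
        (chainS (xD D) (2 * A) h0 h1 (xD_zero D)).Wt (c :: r₁) (b + 1) else 0) ≤
    K' * MkR q (c :: r₁) * traceProb q (blockStr D 0 A) ((c :: r₁).reverse ++ g) := by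
  set Ch := chainS (xD D) (2 * A) h0 h1 (xD_zero D) with hCh
  have hfb := trace_fb_Wt (q := q) (xD D) (2 * A) h0 h1 (xD_zero D) r₁ c g
  rw [Xb_even] at hfb
  rw [hfb, mul_sum, mul_sum]
  have hMk := MkR_pos h0 (c :: r₁)
  apply sum_le_sum
  intro b hb
  rw [mem_range] at hb
  have hW := Ch.Wt_nonneg (c :: r₁) (b + 1)
  have hTr := traceProb_nonneg h0 h1 ((blockStr D 0 A).drop (b + 1)) g
  by_cases hin : |(per (b + 1) : ℝ) - HR (c :: r₁) - Kk| ≤ Wd
  · rw [if_pos hin]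
    by_cases hW0 : Ch.Wt (c :: r₁) (b + 1) = 0
    · rw [hW0]
      simp
    have hlarge := hwin b hb hin
    have hWs := chainS_Wt_succ (q := q) (xD D) (2 * A) h0 h1 (xD_zero D) r₁ c (c := b) (by omega)
    have hlet : xD D (b + 1) = c := by
      by_contra hne
      rw [if_neg hne] at hWs
      exact hW0 hWs
    have hc0 : xD ∅ (b + 1) = c := by
      rw [← hlet]
      exact (xD_eq_of_large hD hlarge).symm
    have hdrop : (blockStr D 0 A).drop (b + 1) = (blockStr ∅ 0 A).drop (b + 1) := by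
      rw [← Xb_even, ← Xb_even]
      apply Xb_drop_congr
      intro i hi
      apply xD_eq_of_large hD
      unfold per at hlarge ⊢
      omega
    rw [hdrop]
    have h3 := hcmp b hb hc0 hin
    calc traceProb q (blockStr ∅ 0 A) ((c :: r₁).reverse ++ g) * Ch.Wt (c :: r₁) (b + 1)
        ≤ (K' * (traceProb q ((blockStr ∅ 0 A).drop (b + 1)) g * MkR q (c :: r₁))) * Ch.Wt (c :: r₁) (b + 1) :=
          mul_le_mul_of_nonneg_right h3 hW
      _ = _ := by ring
  · rw [if_neg hin, mul_zero]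
    positivity

/-- The comparison at one letter from numerical conditions. -/
theorem compare_step (h0 : 0 < q) (h1 : q < 1) {C₀ s₀ : ℝ}
    (hNB : ∀ (l m y : ℕ) (w : ℤ) (X : ℝ), 1 ≤ l →
      |(y : ℝ) - q ^ 2 / (1 - q ^ 2) * l| ≤ X → X + 2 ≤ q ^ 2 / 4 * l → 4 / q ^ 2 * (X + 2) / l ≤ s₀ →
      NB (q ^ 2) (m + l) ((y : ℤ) + w) ≤
        2 * Real.exp (4 / q ^ 2 * (X + 2) / l * |(w : ℝ) - q ^ 2 / (1 - q ^ 2) * m| +
          C₀ * (4 / q ^ 2 * (X + 2) / l) ^ 2 * m) * NB (q ^ 2) l (y : ℤ))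
    {A b : ℕ} (hb : b < 2 * A) (c : Bool) (r₁ g : Word) (hc : xD ∅ (b + 1) = c) (X : ℝ)
    (hX : |(A : ℝ) - H ((c :: r₁).reverse ++ g) - ((per (b + 1) : ℝ) - HR (c :: r₁)) - kap1 q * ((g.length : ℝ) + 1)| ≤ X)
    (hl : X + 2 ≤ q ^ 2 / 4 * ((g.length : ℝ) + 1))
    (has : 4 / q ^ 2 * (X + 2) / ((g.length : ℝ) + 1) ≤ s₀)
    (hexp : 4 / q ^ 2 * (X + 2) / ((g.length : ℝ) + 1) *
        |((per (b + 1) : ℝ) - HR (c :: r₁)) - kap1 q * (c :: r₁).length| +
        C₀ * (4 / q ^ 2 * (X + 2) / ((g.length : ℝ) + 1)) ^ 2 * (c :: r₁).length ≤ 1) :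
    traceProb q (blockStr ∅ 0 A) ((c :: r₁).reverse ++ g) ≤
      (2 * Real.exp 1) * (traceProb q ((blockStr ∅ 0 A).drop (b + 1)) g * MkR q (c :: r₁)) := by
  have hq2 : q ^ 2 < 1 := by nlinarith
  have hq20 : 0 < q ^ 2 := by positivity
  have hp2 : 0 < 1 - q ^ 2 := by linarith
  obtain ⟨F, hF, h2, h3⟩ := base_ratio h0 h1 hb c r₁ g hc
  set r : Word := c :: r₁ with hr
  set t : Word := r.reverse ++ g with ht
  set S : ℤ := (A : ℤ) - H t with hS
  set w : ℤ := (per (b + 1) : ℤ) - HR r with hw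
  have hSR : (S : ℝ) = (A : ℝ) - H t := by rw [hS]; push_cast; ring
  have hwR : (w : ℝ) = (per (b + 1) : ℝ) - HR r := by rw [hw]; push_cast; ring
  have hκ : kap1 q = q ^ 2 / (1 - q ^ 2) := rfl
  have hκ1 : q ^ 2 ≤ kap1 q := by
    rw [hκ, le_div_iff₀ hp2]
    nlinarith
  have hX0 : 0 ≤ X := le_trans (abs_nonneg _) hX
  have hlp : (0 : ℝ) < (g.length : ℝ) + 1 := by positivity
  have hy0 : (0 : ℝ) < ((S - w : ℤ) : ℝ) := by
    push_cast
    rw [hSR, hwR]
    have h5 := (abs_le.mp hX).1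
    have h6 : q ^ 2 * ((g.length : ℝ) + 1) ≤ kap1 q * ((g.length : ℝ) + 1) :=
      mul_le_mul_of_nonneg_right hκ1 hlp.le
    nlinarith
  have hy1 : 0 < S - w := by exact_mod_cast hy0
  obtain ⟨y, hy⟩ := Int.eq_ofNat_of_zero_le hy1.le
  have hyR : (y : ℝ) = (A : ℝ) - H t - ((per (b + 1) : ℝ) - HR r) := by
    have : ((S - w : ℤ) : ℝ) = (y : ℝ) := by rw [hy]; simp
    push_cast at this
    rw [hSR, hwR] at this
    linarith
  have hl1 : ((g.length + 1 : ℕ) : ℝ) = (g.length : ℝ) + 1 := by push_cast; ring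
  have hcmp := hNB (g.length + 1) r.length y w X (by omega)
    (by rw [hl1, hyR, ← hκ]; exact hX) (by rw [hl1]; exact hl) (by rw [hl1]; exact has)
  have e1 : (y : ℤ) + w = S := by omega
  rw [e1, hl1, hwR, ← hκ] at hcmp
  have hexp2 : Real.exp (4 / q ^ 2 * (X + 2) / ((g.length : ℝ) + 1) *
      |(per (b + 1) : ℝ) - HR r - kap1 q * r.length| +
      C₀ * (4 / q ^ 2 * (X + 2) / ((g.length : ℝ) + 1)) ^ 2 * r.length) ≤ Real.exp 1 :=
    Real.exp_le_exp.mpr hexp
  have hNy := NB_nonneg hq20 hq2 (g.length + 1) (y : ℤ)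
  have hcmp2 : NB (q ^ 2) (r.length + (g.length + 1)) S ≤ 2 * Real.exp 1 * NB (q ^ 2) (g.length + 1) (y : ℤ) := by
    refine le_trans hcmp ?_
    apply mul_le_mul_of_nonneg_right _ hNy
    linarith
  have e2 : S - w = (y : ℤ) := hy
  rw [e2] at h3
  have hqt : 0 < q ^ t.length := by positivity
  apply le_of_mul_le_mul_right _ hqt
  rw [h2]
  calc F * NB (q ^ 2) (r.length + (g.length + 1)) S
      ≤ F * (2 * Real.exp 1 * NB (q ^ 2) (g.length + 1) (y : ℤ)) :=
        mul_le_mul_of_nonneg_left hcmp2 hF.le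
    _ = 2 * Real.exp 1 * (F * NB (q ^ 2) (g.length + 1) (y : ℤ)) := by ring
    _ = 2 * Real.exp 1 * (traceProb q ((blockStr ∅ 0 A).drop (b + 1)) g * MkR q r * q ^ t.length) := by rw [h3]
    _ = _ := by ring

/-- Vanishing of the error for the base string. -/
theorem Ch0_Pre (h0 : 0 < q) (h1 : q < 1) (A : ℕ) (r : Word) : (Ch0 h0 h1 A).Pre r = MkR q r := by
  apply HMM.Pre_eq_MkR _ h0
  intro r
  rw [chainS_Gs]
  have : runEnds (xD ∅) (2 * A) = ∅ := by
    have h2 := card_runEnds ∅ (by simp) (2 * A)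
    simpa using h2
  rw [this]
  simp

/-- Reduction of a tail sum to a sum over beginnings of traces. -/
theorem bad_sum_abstract (h0 : 0 < q) (h1 : q < 1) (A m : ℕ) (hm : m ≤ 2 * A) (𝓑 : Finset Word)
    (Bad Atyp : Word → Prop) [DecidablePred Bad] [DecidablePred Atyp]
    (hBad : ∀ t ∈ W (2 * A), Bad t → Atyp t ∨ (m ≤ t.length ∧ (t.take m).reverse ∈ 𝓑)) :
    ∑ t ∈ (W (2 * A)).filter Bad, traceProb q (blockStr ∅ 0 A) t ≤
      ∑ t ∈ (W (2 * A)).filter Atyp, traceProb q (blockStr ∅ 0 A) t + ∑ r ∈ 𝓑, MkR q r := by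
  set P : Word → ℝ := fun t => traceProb q (blockStr ∅ 0 A) t with hP
  have hP0 : ∀ t, 0 ≤ P t := fun t => traceProb_nonneg h0 h1 _ _
  have hsub : (W (2 * A)).filter Bad ⊆ (W (2 * A)).filter Atyp ∪
      ((W (2 * A)).filter (fun t => m ≤ t.length)).filter (fun t => (t.take m).reverse ∈ 𝓑) := by
    intro t ht
    rw [mem_filter] at ht
    rw [mem_union, mem_filter, mem_filter, mem_filter]
    rcases hBad t ht.1 ht.2 with h | h
    · exact Or.inl ⟨ht.1, h⟩
    · exact Or.inr ⟨⟨ht.1, h.1⟩, h.2⟩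
  have h2 : ∑ t ∈ (W (2 * A)).filter Bad, P t ≤ ∑ t ∈ (W (2 * A)).filter Atyp, P t +
      ∑ t ∈ ((W (2 * A)).filter (fun t => m ≤ t.length)).filter (fun t => (t.take m).reverse ∈ 𝓑), P t := by
    refine le_trans (sum_le_sum_of_subset_of_nonneg hsub (fun t _ _ => hP0 t)) ?_
    have h5 := sum_union_inter (s₁ := (W (2 * A)).filter Atyp)
      (s₂ := ((W (2 * A)).filter (fun t => m ≤ t.length)).filter (fun t => (t.take m).reverse ∈ 𝓑)) (f := P)
    have h6 : 0 ≤ ∑ t ∈ (W (2 * A)).filter Atyp ∩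
        ((W (2 * A)).filter (fun t => m ≤ t.length)).filter (fun t => (t.take m).reverse ∈ 𝓑), P t :=
      sum_nonneg (fun t _ => hP0 t)
    linarith
  refine le_trans h2 (add_le_add le_rfl ?_)
  rw [sum_filter, sum_split m hm]
  have hinner : ∀ r ∈ Weq m, ∑ g ∈ W (2 * A - m),
      (if ((r.reverse ++ g).take m).reverse ∈ 𝓑 then P (r.reverse ++ g) else 0) ≤
      if r ∈ 𝓑 then MkR q r else 0 := by
    intro r hr
    rw [mem_Weq] at hr
    have e : ∀ g : Word, ((r.reverse ++ g).take m).reverse = r := by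
      intro g
      have hl : r.reverse.length = m := by simp [hr]
      rw [List.take_left' hl, List.reverse_reverse]
    simp only [e]
    by_cases hb : r ∈ 𝓑
    · rw [if_pos hb]
      simp only [if_pos hb]
      cases r with
      | nil =>
        have hm0 : m = 0 := by simpa using hr.symm
        have h3 : ∑ g ∈ W (2 * A - m), P ([].reverse ++ g) ≤ ∑ g ∈ W (2 * A), P g := by
          simp only [List.reverse_nil, List.nil_append]
          apply sum_le_sum_of_subset_of_nonneg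
          · intro g hg
            rw [mem_W] at hg ⊢
            omega
          · intro g _ _
            exact hP0 g
        refine le_trans h3 ?_
        have h4 : ∑ g ∈ W (2 * A), P g = 1 := traceProb_sum _ (by simp [length_blockStr])
        rw [h4]
        simp
      | cons c r₁ =>
        have h3 : ∑ g ∈ W (2 * A - m), P ((c :: r₁).reverse ++ g) ≤ ∑ g ∈ W (2 * A), P ((c :: r₁).reverse ++ g) := by
          apply sum_le_sum_of_subset_of_nonneg
          · intro g hg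
            rw [mem_W] at hg ⊢
            omega
          · intro g _ _
            exact hP0 _
        refine le_trans h3 ?_
        have h4 := begin_mass (q := q) (xD ∅) (2 * A) h0 h1 (xD_zero ∅) r₁ c (B := 2 * A) le_rfl
        rw [Xb_even] at h4
        rw [hP]
        simp only
        rw [h4, ← Ch0_Pre h0 h1 A, Pre_expand]
        have h5 := (Ch0 h0 h1 A).Wt_nonneg (c :: r₁) (2 * A + 1)
        have h6 := (Ch0 h0 h1 A).Wt_nonneg (c :: r₁) (2 * A + 2)
        have : (chainS (xD ∅) (2 * A) h0 h1 (xD_zero ∅)) = Ch0 h0 h1 A := rfl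
        rw [this]
        linarith
    · rw [if_neg hb]
      simp [if_neg hb]
  refine le_trans (sum_le_sum hinner) ?_
  rw [← sum_filter]
  apply sum_le_sum_of_subset_of_nonneg
  · intro r hr
    exact (mem_filter.mp hr).2
  · intro r _ _
    exact (MkR_pos h0 r).le

end

end Vale.Agent.Lib.P321
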