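import Vale.Agent.Lib.P321.LTGood

/-!
P321, lower tail module: the numerical choices.
-/

namespace Vale.Agent.Lib.P321

open Finset

theorem pc1 {κ lam rA rX : ℝ} (hκ : 0 < κ) (hlam : 1 ≤ lam) (hrA : 1 ≤ rA) (hrXA : rX ≤ rA) :
    lam * rA + κ + lam * rX + 2 ≤ (κ + 4) * lam * rA := by
  have hl0 : 0 ≤ lam := by linarith
  have h1 : 1 ≤ lam * rA := one_le_mul_of_one_le_of_one_le hlam hrA
  have h3 : lam * rX ≤ lam * rA := mul_le_mul_of_nonneg_left hrXA hl0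
  have h5 : κ * 1 ≤ κ * (lam * rA) := mul_le_mul_of_nonneg_left h1 hκ.le
  have e : (κ + 4) * lam * rA = κ * (lam * rA) + 4 * (lam * rA) := by ring
  rw [e]
  linarith

theorem pc2 {θ κ lam rA L : ℝ} (hθ : 0 < θ) (hκ : 0 < κ) (hlam : 0 < lam) (hrA : 0 < rA)
    (h3 : (κ + 4) * (16 * (1 + κ)) / θ ≤ lam ^ 3) (h4 : lam ^ 4 ≤ rA) (hL : rA ^ 2 ≤ L * (4 * (1 + κ))) :
    (κ + 4) * lam * rA ≤ θ / 4 * L := by
  set C₆ : ℝ := (κ + 4) * (16 * (1 + κ)) / θ with hC₆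
  have h5 : C₆ * lam ≤ rA := by
    calc C₆ * lam ≤ lam ^ 3 * lam := mul_le_mul_of_nonneg_right h3 hlam.le
      _ = lam ^ 4 := by ring
      _ ≤ rA := h4
  have h6 : C₆ * lam * rA ≤ L * (4 * (1 + κ)) := by
    calc C₆ * lam * rA ≤ rA * rA := mul_le_mul_of_nonneg_right h5 hrA.le
      _ = rA ^ 2 := by ring
      _ ≤ _ := hL
  calc (κ + 4) * lam * rA = (C₆ * lam * rA) * (θ / (16 * (1 + κ))) := by
        rw [hC₆]; field_simp
    _ ≤ (L * (4 * (1 + κ))) * (θ / (16 * (1 + κ))) :=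
        mul_le_mul_of_nonneg_right h6 (by positivity)
    _ = θ / 4 * L := by field_simp; ring

theorem pc3 {θ κ lam rA L X : ℝ} (hθ : 0 < θ) (hκ : 0 < κ) (hlam : 0 < lam) (hrA : 0 < rA) (hL0 : 0 < L)
    (hX2 : X + 2 ≤ (κ + 4) * lam * rA) (hL : rA ^ 2 ≤ L * (4 * (1 + κ))) :
    4 / θ * (X + 2) / L * rA ≤ (4 / θ * (4 * (1 + κ)) * (κ + 4)) * lam := by
  rw [div_mul_eq_mul_div, div_le_iff₀ hL0]
  have h3 : 4 / θ * (X + 2) * rA ≤ 4 / θ * ((κ + 4) * lam * rA) * rA := by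
    apply mul_le_mul_of_nonneg_right _ hrA.le
    exact mul_le_mul_of_nonneg_left hX2 (by positivity)
  have h5 : 4 / θ * (κ + 4) * lam * rA ^ 2 ≤ 4 / θ * (κ + 4) * lam * (L * (4 * (1 + κ))) :=
    mul_le_mul_of_nonneg_left hL (by positivity)
  calc 4 / θ * (X + 2) * rA ≤ 4 / θ * ((κ + 4) * lam * rA) * rA := h3
    _ = 4 / θ * (κ + 4) * lam * rA ^ 2 := by ring
    _ ≤ 4 / θ * (κ + 4) * lam * (L * (4 * (1 + κ))) := h5
    _ = _ := by ring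

theorem pc4 {a rA lam C₅ s₀ : ℝ} (ha : 0 ≤ a) (hlam : 0 < lam) (hs₀ : 0 < s₀) (hab : a * rA ≤ C₅ * lam)
    (h3 : C₅ / s₀ ≤ lam ^ 3) (h4 : lam ^ 4 ≤ rA) : a ≤ s₀ := by
  have h5 : C₅ ≤ lam ^ 3 * s₀ := by rwa [div_le_iff₀ hs₀] at h3
  have h6 : a * lam ^ 4 ≤ s₀ * lam ^ 4 := by
    calc a * lam ^ 4 ≤ a * rA := mul_le_mul_of_nonneg_left h4 ha
      _ ≤ C₅ * lam := hab
      _ ≤ (lam ^ 3 * s₀) * lam := mul_le_mul_of_nonneg_right h5 hlam.le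
      _ = s₀ * lam ^ 4 := by ring
  exact le_of_mul_le_mul_right h6 (by positivity)

theorem pc5 {a rA rX lam C₅ : ℝ} (ha : 0 ≤ a) (hlam : 0 < lam) (hab : a * rA ≤ C₅ * lam)
    (hrA : lam ^ 4 * rX ≤ rA) : a * rX * lam ^ 3 ≤ C₅ := by
  have h4 : (a * rX * lam ^ 3) * lam ≤ C₅ * lam := by
    calc (a * rX * lam ^ 3) * lam = a * (lam ^ 4 * rX) := by ring
      _ ≤ a * rA := mul_le_mul_of_nonneg_left hrA ha
      _ ≤ _ := hab
  exact le_of_mul_le_mul_right h4 hlam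

theorem pc6 {a rX lam C₅ : ℝ} (hlam : 0 < lam) (h : a * rX * lam ^ 3 ≤ C₅) (h5 : 2 * C₅ ≤ lam ^ 2) :
    a * (lam * rX) ≤ 1 / 2 := by
  have h6 : 0 < lam ^ 2 := by positivity
  have h7 : (a * (lam * rX)) * lam ^ 2 ≤ (1 / 2) * lam ^ 2 := by
    calc (a * (lam * rX)) * lam ^ 2 = a * rX * lam ^ 3 := by ring
      _ ≤ C₅ := h
      _ ≤ _ := by linarith
  exact le_of_mul_le_mul_right h7 h6

theorem pc7 {a rX lam C₅ C₀ : ℝ} (ha : 0 ≤ a) (hrX : 0 ≤ rX) (hlam : 0 < lam) (hC₀ : 0 < C₀)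
    (h : a * rX * lam ^ 3 ≤ C₅) (h6 : 8 * C₀ * C₅ ^ 2 ≤ lam ^ 6) :
    C₀ * a ^ 2 * (4 * rX ^ 2) ≤ 1 / 2 := by
  have h40 : 0 ≤ a * rX * lam ^ 3 := by positivity
  have h5 : (a * rX * lam ^ 3) ^ 2 ≤ C₅ ^ 2 := pow_le_pow_left₀ h40 h 2
  have h7 : 8 * C₀ * ((a * rX * lam ^ 3) ^ 2) ≤ 8 * C₀ * C₅ ^ 2 :=
    mul_le_mul_of_nonneg_left h5 (by positivity)
  have h8 : 0 < lam ^ 6 := by positivity
  have h9 : (C₀ * a ^ 2 * (4 * rX ^ 2)) * lam ^ 6 ≤ (1 / 2) * lam ^ 6 := by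
    have e : (C₀ * a ^ 2 * (4 * rX ^ 2)) * lam ^ 6 = (1 / 2) * (8 * C₀ * ((a * rX * lam ^ 3) ^ 2)) := by ring
    rw [e]
    linarith
  exact le_of_mul_le_mul_right h9 h8

theorem pow_ge_self {lam : ℝ} (h : 1 ≤ lam) (n : ℕ) (hn : 1 ≤ n) : lam ≤ lam ^ n := by
  calc lam = lam ^ 1 := (pow_one _).symm
    _ ≤ lam ^ n := pow_le_pow_right₀ h hn

/-- Numerical conditions in the comparison of negative binomial weights. -/
theorem params_compare {θ κ C₀ s₀ : ℝ} (hθ : 0 < θ) (hκ : 0 < κ) (hC₀ : 0 < C₀) (hs₀ : 0 < s₀) :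
    ∃ Λ₀ : ℝ, 1 ≤ Λ₀ ∧ ∀ lam rA rX L X Wd w M : ℝ, Λ₀ ≤ lam → 1 ≤ rX → lam ^ 4 * rX ≤ rA → Wd = lam * rX →
      X = lam * rA + κ + Wd → rA ^ 2 / (4 * (1 + κ)) ≤ L → M = 4 * rX ^ 2 → |w| ≤ Wd →
      X + 2 ≤ θ / 4 * L ∧ 4 / θ * (X + 2) / L ≤ s₀ ∧
        4 / θ * (X + 2) / L * |w| + C₀ * (4 / θ * (X + 2) / L) ^ 2 * M ≤ 1 := by
  set C₅ : ℝ := 4 / θ * (4 * (1 + κ)) * (κ + 4) with hC₅
  have hC₅0 : 0 < C₅ := by positivity
  set C₆ : ℝ := (κ + 4) * (16 * (1 + κ)) / θ with hC₆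
  have hC₆0 : 0 < C₆ := by positivity
  have h1 : 0 < C₅ / s₀ := by positivity
  have h2 : 0 < 8 * C₀ * C₅ ^ 2 := by positivity
  refine ⟨1 + C₅ / s₀ + C₆ + 2 * C₅ + 8 * C₀ * C₅ ^ 2, by linarith, ?_⟩
  intro lam rA rX L X Wd w M hlam hrX hrA hWd hX hL hM hw
  have hlam1 : 1 ≤ lam := by linarith
  have hlam0 : 0 < lam := by linarith
  have hl2 : lam ≤ lam ^ 2 := pow_ge_self hlam1 2 (by norm_num)
  have hl3 : lam ≤ lam ^ 3 := pow_ge_self hlam1 3 (by norm_num)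
  have hl4 : 1 ≤ lam ^ 4 := one_le_pow₀ hlam1
  have hl6 : lam ≤ lam ^ 6 := pow_ge_self hlam1 6 (by norm_num)
  have hrX0 : 0 < rX := by linarith
  have hrXA : rX ≤ rA := by
    calc rX = 1 * rX := (one_mul _).symm
      _ ≤ lam ^ 4 * rX := mul_le_mul_of_nonneg_right hl4 hrX0.le
      _ ≤ rA := hrA
  have hrA1 : 1 ≤ rA := by linarith
  have hrA0 : 0 < rA := by linarith
  have hrAl : lam ^ 4 ≤ rA := by
    calc lam ^ 4 = lam ^ 4 * 1 := (mul_one _).symm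
      _ ≤ lam ^ 4 * rX := mul_le_mul_of_nonneg_left hrX (by positivity)
      _ ≤ rA := hrA
  have hk1 : 0 < 4 * (1 + κ) := by positivity
  have hL0 : 0 < L := lt_of_lt_of_le (by positivity) hL
  have hLmul : rA ^ 2 ≤ L * (4 * (1 + κ)) := by
    rwa [div_le_iff₀ hk1] at hL
  have hX2 : X + 2 ≤ (κ + 4) * lam * rA := by
    rw [hX, hWd]
    exact pc1 hκ hlam1 hrA1 hrXA
  have hX20 : 0 < X + 2 := by
    rw [hX, hWd]
    positivity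
  have hcond1 : X + 2 ≤ θ / 4 * L :=
    le_trans hX2 (pc2 hθ hκ hlam0 hrA0 (by linarith) hrAl hLmul)
  set a : ℝ := 4 / θ * (X + 2) / L with ha
  have ha0 : 0 ≤ a := by positivity
  have hab : a * rA ≤ C₅ * lam := pc3 hθ hκ hlam0 hrA0 hL0 hX2 hLmul
  have hcond2 : a ≤ s₀ := pc4 ha0 hlam0 hs₀ hab (by linarith) hrAl
  refine ⟨hcond1, hcond2, ?_⟩
  have hax2 : a * rX * lam ^ 3 ≤ C₅ := pc5 ha0 hlam0 hab hrA
  have h3 : a * |w| ≤ a * (lam * rX) := by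
    apply mul_le_mul_of_nonneg_left _ ha0
    rw [← hWd]
    exact hw
  have hfirst : a * (lam * rX) ≤ 1 / 2 := pc6 hlam0 hax2 (by linarith)
  have hsecond : C₀ * a ^ 2 * M ≤ 1 / 2 := by
    rw [hM]
    exact pc7 ha0 hrX0.le hlam0 hC₀ hax2 (by linarith)
  linarith

section B1

theorem B1_mb {C₂ W dc l : ℝ} (hC₂ : 0 < C₂) (hW0 : 0 < W) (hW : dc * l ^ 3 / 2 ≤ W) :
    C₂ / W * (dc * l ^ 3) ≤ 2 * C₂ := by
  rw [div_mul_eq_mul_div, div_le_iff₀ hW0]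
  have h : dc * l ^ 3 ≤ 2 * W := by linarith
  calc C₂ * (dc * l ^ 3) ≤ C₂ * (2 * W) := mul_le_mul_of_nonneg_left h hC₂.le
    _ = 2 * C₂ * W := by ring

theorem B1_hm {B mb dc l C₂ : ℝ} (hB : 0 < B) (hmb : 0 < mb) (hdc : 1 ≤ dc) (hl : 1 ≤ l)
    (hmb2 : mb * (dc * l ^ 3) ≤ 2 * C₂) (hl2 : 8 * B * C₂ ≤ l ^ 2) : B * mb * l ≤ 1 / 4 := by
  have hl0 : 0 < l := by linarith
  have h5 : (B * mb * l) * l ^ 2 ≤ B * (mb * (dc * l ^ 3)) := by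
    have e : B * (mb * (dc * l ^ 3)) = (B * mb * l) * (dc * l ^ 2) := by ring
    rw [e]
    apply mul_le_mul_of_nonneg_left _ (by positivity)
    calc l ^ 2 = 1 * l ^ 2 := (one_mul _).symm
      _ ≤ dc * l ^ 2 := mul_le_mul_of_nonneg_right hdc (by positivity)
  have h4 : B * (mb * (dc * l ^ 3)) ≤ B * (2 * C₂) := mul_le_mul_of_nonneg_left hmb2 hB.le
  have h6 : (B * mb * l) * l ^ 2 ≤ (1 / 4) * l ^ 2 := by linarith
  exact le_of_mul_le_mul_right h6 (by positivity)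

theorem B1_eps {B mb dc l C₂ : ℝ} (hB : 0 < B) (hmb2 : mb * (dc * l ^ 3) ≤ 2 * C₂) :
    (5 * l ^ 2 * B ^ 2 * mb) * (dc * l) ≤ 10 * B ^ 2 * C₂ := by
  have e : (5 * l ^ 2 * B ^ 2 * mb) * (dc * l) = 5 * B ^ 2 * (mb * (dc * l ^ 3)) := by ring
  rw [e]
  calc 5 * B ^ 2 * (mb * (dc * l ^ 3)) ≤ 5 * B ^ 2 * (2 * C₂) :=
        mul_le_mul_of_nonneg_left hmb2 (by positivity)
    _ = _ := by ring

theorem B1_eps_s {B ε dc l C₂ p s : ℝ} (hp : 0 < p) (hdc : 0 < dc) (hl : 0 < l)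
    (hεb : ε * (dc * l) ≤ 10 * B ^ 2 * C₂) (hsdc : s * dc = p / 4) (hl2 : 80 * B ^ 2 * C₂ / p ≤ l ^ 2) :
    ε ≤ s * l / 2 := by
  rw [div_le_iff₀ hp] at hl2
  have e : (s * l / 2) * (dc * l) = p * l ^ 2 / 8 := by
    calc (s * l / 2) * (dc * l) = (s * dc) * l ^ 2 / 2 := by ring
      _ = _ := by rw [hsdc]; ring
  have h4 : ε * (dc * l) ≤ (s * l / 2) * (dc * l) := by
    rw [e]
    linarith
  exact le_of_mul_le_mul_right h4 (by positivity)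

theorem B1_rate {B ε dc l C₂ p s τ c₆ : ℝ} (hB : 0 < B) (hC₂ : 0 < C₂) (hp : 0 < p) (hdc : 0 < dc)
    (hc₆ : c₆ = p / (160 * B ^ 2 * C₂)) (hτ : τ = s / 4) (hsdc : s * dc = p / 4)
    (hεb : ε * (dc * l) ≤ 10 * B ^ 2 * C₂) : c₆ * l * ε ≤ τ := by
  have hc₆0 : 0 < c₆ := by rw [hc₆]; positivity
  have e2 : (c₆ * l * ε) * dc = c₆ * (ε * (dc * l)) := by ring
  have h5 : (c₆ * l * ε) * dc ≤ c₆ * (10 * B ^ 2 * C₂) := by
    rw [e2]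
    exact mul_le_mul_of_nonneg_left hεb hc₆0.le
  have e3 : c₆ * (10 * B ^ 2 * C₂) = p / 16 := by
    rw [hc₆]; field_simp; ring
  have e4 : τ * dc = p / 16 := by
    rw [hτ]
    calc s / 4 * dc = (s * dc) / 4 := by ring
      _ = _ := by rw [hsdc]; ring
  have h6 : (c₆ * l * ε) * dc ≤ τ * dc := by
    rw [e4]
    linarith
  exact le_of_mul_le_mul_right h6 hdc

end B1

section
variable {q : ℝ} {ι : Type*}

/-- The outcome of the chain argument with the choice of parameters. -/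
theorem stage_B1 (h0 : 0 < q) (h1 : q < 1) {C₂ : ℝ} (hC₂ : 0 < C₂) :
    ∃ Λ₁ c₆ : ℝ, 1 ≤ Λ₁ ∧ 0 < c₆ ∧ ∀ (C : HMM q ι) (lam : ℕ) (dc W : ℝ) (i : ℕ), Λ₁ ≤ lam → 1 ≤ dc →
      dc * (lam : ℝ) ^ 3 / 2 ≤ W → (∀ r, C.Gs r ≤ (C₂ / W) * C.Pre r) → C.Bb ≤ 2 * dc * (1 / (1 - q)) →
      ∑ r ∈ (Weq i).filter (fun r => C.Pre r < MkR q r / 2), MkR q r ≤
        3 * Real.exp (-(c₆ * lam)) + (1 / 2) ^ lam * Real.exp 1 := by
  have hp : 0 < 1 - q := by linarith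
  set B : ℝ := (1 + q) / q with hB
  have hB0 : 0 < B := by positivity
  set c₆ : ℝ := (1 - q) / (160 * B ^ 2 * C₂) with hc₆
  have hc₆0 : 0 < c₆ := by positivity
  have h2 : 0 < 80 * B ^ 2 * C₂ / (1 - q) := by positivity
  have h3 : 0 < 8 * B * C₂ := by positivity
  refine ⟨1 + 8 * B * C₂ + 80 * B ^ 2 * C₂ / (1 - q), c₆, by linarith, hc₆0, ?_⟩
  intro C lam dc W i hlam hdc hW hG hBb
  set l : ℝ := (lam : ℝ) with hl
  have hl1 : 1 ≤ l := by linarith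
  have hl0 : 0 < l := by linarith
  have hl2 : l ≤ l ^ 2 := pow_ge_self hl1 2 (by norm_num)
  have hlN : 1 ≤ lam := by
    have : (1 : ℝ) ≤ lam := hl1
    exact_mod_cast this
  have hdc0 : 0 < dc := by linarith
  have hW0 : 0 < W := lt_of_lt_of_le (by positivity) hW
  set mb : ℝ := C₂ / W with hmb
  have hmb0 : 0 < mb := by positivity
  have hmb2 : mb * (dc * l ^ 3) ≤ 2 * C₂ := B1_mb hC₂ hW0 hW
  set ε : ℝ := 5 * l ^ 2 * B ^ 2 * mb with hε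
  have hε0 : 0 < ε := by positivity
  have hεb : ε * (dc * l) ≤ 10 * B ^ 2 * C₂ := B1_eps hB0 hmb2
  have hm : B * mb * l ≤ 1 / 4 := B1_hm hB0 hmb0 hdc hl1 hmb2 (by linarith)
  set s : ℝ := (1 - q) / (4 * dc) with hs
  have hs0 : 0 < s := by positivity
  have hsdc : s * dc = (1 - q) / 4 := by
    rw [hs]; field_simp
  have hsB : s * C.Bb ≤ 1 / 2 := by
    have h4 : s * C.Bb ≤ s * (2 * dc * (1 / (1 - q))) := mul_le_mul_of_nonneg_left hBb hs0.le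
    have e : s * (2 * dc * (1 / (1 - q))) = 1 / 2 := by
      rw [hs]; field_simp; ring
    linarith
  have hεs : ε ≤ s * l / 2 := B1_eps_s hp hdc0 hl0 hεb hsdc (by linarith)
  set τ : ℝ := s / 4 with hτ
  have hτ0 : 0 ≤ τ := by positivity
  have hτl : τ * ((lam : ℝ) + 1) ≤ s * l - ε := by
    rw [← hl]
    have h4 : s * 1 ≤ s * l := mul_le_mul_of_nonneg_left hl1 hs0.le
    have e : τ * (l + 1) = s * l / 4 + s * 1 / 4 := by rw [hτ]; ring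
    rw [e]
    linarith
  have hmain := C.main_tail (ε := ε) (mb := mb) (l := lam) h0 h1 hlN hG hm (le_of_eq rfl)
    (s := s) (t := τ) (Λ := 1 / ε) hs0.le hsB hτ0 hτl i
  refine le_trans hmain ?_
  have e1 : ε * (1 / ε) = 1 := by field_simp
  rw [e1]
  have h4 : c₆ * l ≤ τ * (1 / ε) := by
    rw [mul_one_div, le_div_iff₀ hε0]
    exact B1_rate hB0 hC₂ hp hdc0 hc₆ hτ hsdc hεb
  have h5 : Real.exp (-(τ * (1 / ε))) ≤ Real.exp (-(c₆ * l)) := Real.exp_le_exp.mpr (by linarith)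
  linarith

end

/-- The final elementary bound on the sum of exponentially small terms. -/
theorem final_numeric {c K : ℝ} (hc : 0 < c) (hK : 0 < K) (lam : ℝ) (hlam : 2 * K / c ≤ lam) :
    K * Real.exp (-(c * lam)) ≤ Real.exp (-(c / 2 * lam)) := by
  have h1 : K ≤ c / 2 * lam := by
    rw [div_le_iff₀ hc] at hlam
    linarith
  have h2 : K ≤ Real.exp (c / 2 * lam) := by
    have := Real.add_one_le_exp (c / 2 * lam)
    linarith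
  have e : Real.exp (-(c / 2 * lam)) = Real.exp (c / 2 * lam) * Real.exp (-(c * lam)) := by
    rw [← Real.exp_add]
    congr 1
    ring
  rw [e]
  exact mul_le_mul_of_nonneg_right h2 (Real.exp_pos _).le

theorem half_pow_le (n : ℕ) : (1 / 2 : ℝ) ^ n ≤ Real.exp (-(1 / 2 * (n : ℝ))) := by
  have h1 : (1 / 2 : ℝ) ≤ Real.exp (-(1 / 2)) := by
    have := Real.add_one_le_exp (-(1 / 2 : ℝ))
    linarith
  calc (1 / 2 : ℝ) ^ n ≤ Real.exp (-(1 / 2)) ^ n := pow_le_pow_left₀ (by norm_num) h1 n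
    _ = _ := by
      rw [← Real.exp_nat_mul]
      congr 1
      ring

end Vale.Agent.Lib.P321
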