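import Vale.Agent.Lib.P321.LTString
import Vale.Agent.Lib.P321.NB
import Vale.Agent.Lib.P321.Count

/-!
P321, lower tail module: the mass of the chain near the flipped periods is small.
-/

namespace Vale.Agent.Lib.P321

open Finset

/-- Letters of the string with flipped periods, position zero carries the virtual letter. -/
def xD (D : Finset ℤ) (b : ℕ) : Bool :=
  if b = 0 then true
  else if b % 2 = 1 then decide ((((b + 1) / 2 : ℕ) : ℤ) ∈ D)
  else !decide (((b / 2 : ℕ) : ℤ) ∈ D)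

@[simp] theorem xD_zero (D : Finset ℤ) : xD D 0 = true := rfl

theorem xD_odd (D : Finset ℤ) (T : ℕ) : xD D (2 * T + 1) = decide (((T + 1 : ℕ) : ℤ) ∈ D) := by
  unfold xD
  rw [if_neg (by omega), if_pos (by omega)]
  have : (2 * T + 1 + 1) / 2 = T + 1 := by omega
  rw [this]

theorem xD_even (D : Finset ℤ) (T : ℕ) : xD D (2 * T + 2) = !decide (((T + 1 : ℕ) : ℤ) ∈ D) := by
  unfold xD
  rw [if_neg (by omega), if_neg (by omega)]
  have : (2 * T + 2) / 2 = T + 1 := by omega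
  rw [this]

theorem block_eq (b : Bool) : block b = [b, !b] := by
  cases b <;> rfl

theorem Xb_even (D : Finset ℤ) (T : ℕ) : Xb (xD D) (2 * T) = blockStr D 0 T := by
  induction T with
  | zero => rfl
  | succ T ih =>
    have e : 2 * (T + 1) = 2 * T + 1 + 1 := by ring
    rw [e, Xb_succ, Xb_succ, ih, blockStr_add D 0 T 1, xD_odd]
    have e2 : 2 * T + 1 + 1 = 2 * T + 2 := by ring
    rw [e2, xD_even]
    simp only [blockStr, block_eq, List.append_assoc]
    have e3 : ((0 : ℤ) + (T : ℤ) + 1) = ((T + 1 : ℕ) : ℤ) := by push_cast; ring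
    rw [e3]
    simp

theorem runEnds_xD (D : Finset ℤ) (n e : ℕ) (he : e ∈ runEnds (xD D) n) :
    ∃ T : ℕ, e = 2 * T ∧ ((T : ℤ) ∈ D ∨ ((T + 1 : ℕ) : ℤ) ∈ D) := by
  have hr := (mem_filter.mp he).2
  obtain ⟨T, rfl | rfl⟩ : ∃ T, e = 2 * T ∨ e = 2 * T + 1 := ⟨e / 2, by omega⟩
  · refine ⟨T, rfl, ?_⟩
    cases T with
    | zero =>
      right
      have h2 := xD_odd D 0
      simp only [mul_zero, zero_add, xD_zero] at hr h2
      rw [h2] at hr
      simpa using hr
    | succ T =>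
      have h2 : 2 * (T + 1) + 1 = 2 * (T + 1) + 1 := rfl
      have h3 := xD_odd D (T + 1)
      have h4 := xD_even D T
      have e4 : 2 * (T + 1) = 2 * T + 2 := by ring
      rw [h3, e4, h4] at hr
      by_contra hc
      push Not at hc
      rw [decide_eq_false hc.1, decide_eq_false hc.2] at hr
      simp at hr
  · exfalso
    have h3 := xD_odd D T
    have h4 := xD_even D T
    have e4 : 2 * T + 1 + 1 = 2 * T + 2 := by ring
    rw [e4, h3, h4] at hr
    cases h : decide (((T + 1 : ℕ) : ℤ) ∈ D) <;> simp [h] at hr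

theorem cnt_le_cons (c : Bool) (y t : Word) : cnt y t ≤ cnt (c :: y) t := by
  cases t with
  | nil => simp
  | cons a t =>
    rw [cnt_cons_cons]
    omega

theorem cnt_le_of_sublist {y y' : Word} (h : y.Sublist y') (t : Word) : cnt y t ≤ cnt y' t := by
  induction h generalizing t with
  | slnil => exact le_rfl
  | cons c _ ih => exact le_trans (ih t) (cnt_le_cons c _ t)
  | cons_cons c _ ih =>
    cases t with
    | nil => simp
    | cons a t =>
      rw [cnt_cons_cons, cnt_cons_cons]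
      have h1 := ih (a :: t)
      have h2 := ih t
      split_ifs <;> omega

theorem traceProb_eq_cnt (q : ℝ) (y t : Word) :
    traceProb q y t = (cnt y t : ℝ) * (1 - q) ^ t.length * q ^ (y.length - t.length) := by
  unfold traceProb
  rw [cnt_eq_count]

theorem traceProb_sublist {q : ℝ} (h0 : 0 < q) (h1 : q < 1) {y y' : Word} (h : y.Sublist y')
    (hl : y'.length = y.length + 2) (t : Word) : q ^ 2 * traceProb q y t ≤ traceProb q y' t := by
  rw [traceProb_eq_cnt, traceProb_eq_cnt]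
  have h2 : (cnt y t : ℝ) ≤ cnt y' t := by exact_mod_cast cnt_le_of_sublist h t
  have h3 : 0 ≤ 1 - q := by linarith
  rcases Nat.lt_or_ge y.length t.length with hc | hc
  · have : cnt y t = 0 := by
      rw [cnt_eq_count]
      exact count_sublists_of_long hc
    rw [this]
    simp only [Nat.cast_zero, zero_mul, mul_zero]
    positivity
  · have e : y'.length - t.length = (y.length - t.length) + 2 := by omega
    rw [e, pow_add]
    have h4 : 0 ≤ (1 - q) ^ t.length * q ^ (y.length - t.length) * q ^ 2 := by positivity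
    calc q ^ 2 * ((cnt y t : ℝ) * (1 - q) ^ t.length * q ^ (y.length - t.length))
        = (cnt y t : ℝ) * ((1 - q) ^ t.length * q ^ (y.length - t.length) * q ^ 2) := by ring
      _ ≤ (cnt y' t : ℝ) * ((1 - q) ^ t.length * q ^ (y.length - t.length) * q ^ 2) :=
          mul_le_mul_of_nonneg_right h2 h4
      _ = _ := by ring

section window

variable {θ : ℝ}

theorem NB_mono_up {p k : ℕ}
    (hup : ∀ j : ℕ, j < k → NB θ (p + 1) (j : ℤ) ≤ NB θ (p + 1) ((j : ℤ) + 1)) {u v : ℕ}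
    (huv : u ≤ v) (hv : v ≤ k) : NB θ (p + 1) (u : ℤ) ≤ NB θ (p + 1) (v : ℤ) := by
  obtain ⟨n, rfl⟩ := Nat.exists_eq_add_of_le huv
  induction n with
  | zero => simp
  | succ n ih =>
    have h2 := ih (by omega) (by omega)
    have h3 := hup (u + n) (by omega)
    have e : ((u + n : ℕ) : ℤ) + 1 = ((u + (n + 1) : ℕ) : ℤ) := by push_cast; ring
    rw [e] at h3
    exact le_trans h2 h3

theorem NB_mono_down {p k : ℕ}
    (hdn : ∀ j : ℕ, k ≤ j → NB θ (p + 1) ((j : ℤ) + 1) ≤ NB θ (p + 1) (j : ℤ)) {u v : ℕ}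
    (hu : k ≤ u) (huv : u ≤ v) : NB θ (p + 1) (v : ℤ) ≤ NB θ (p + 1) (u : ℤ) := by
  obtain ⟨n, rfl⟩ := Nat.exists_eq_add_of_le huv
  induction n with
  | zero => simp
  | succ n ih =>
    have h2 := ih (by omega)
    have h3 := hdn (u + n) (by omega)
    have e : ((u + n : ℕ) : ℤ) + 1 = ((u + (n + 1) : ℕ) : ℤ) := by push_cast; ring
    rw [e] at h3
    exact le_trans h3 h2

/-- The real inequalities behind the window estimate. -/
theorem window_reals {κ B c C δ W L k : ℝ} (hκ0 : 0 < κ) (hB0 : 0 < B) (hc : 0 < c) (hC : 0 < C)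
    (hδ : (4 * (B + 1)) ^ 2 + ((B + 3) / (c * (1 / (4 * (1 + κ))))) ^ 2 + 1 < δ) (hW : 1 ≤ W)
    (hW2 : W * W ≤ δ) (hy : δ ≤ 2 * (k + L)) (hk : k ≤ κ * L + W + B) (hL : 0 < L) :
    W + B + W + 1 ≤ c * L ∧ C * W * (W + B + W + 1) / L ≤ C * (B + 3) / (1 / (4 * (1 + κ))) := by
  set c₂ : ℝ := 1 / (4 * (1 + κ)) with hc₂
  have hc₂0 : 0 < c₂ := by positivity
  have hδ0 : 0 ≤ δ := by nlinarith [sq_nonneg (4 * (B + 1)), sq_nonneg ((B + 3) / (c * c₂))]
  set sq : ℝ := √δ with hsq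
  have hsq0 : 0 ≤ sq := Real.sqrt_nonneg _
  have hsqq : sq * sq = δ := Real.mul_self_sqrt hδ0
  have hWsq : W ≤ sq := by
    apply Real.le_sqrt_of_sq_le
    nlinarith
  have hsqB : 4 * (B + 1) ≤ sq := by
    apply Real.le_sqrt_of_sq_le
    have := sq_nonneg ((B + 3) / (c * c₂))
    linarith
  have hsqB2 : (B + 3) / (c * c₂) ≤ sq := by
    apply Real.le_sqrt_of_sq_le
    have := sq_nonneg (4 * (B + 1))
    linarith
  have hsq1 : 1 ≤ sq := by linarith
  have hq4 : W + B ≤ δ / 4 := by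
    have h7 : sq * (4 * (B + 1)) ≤ sq * sq := mul_le_mul_of_nonneg_left hsqB hsq0
    have h8 : 1 * (B + 1) ≤ sq * (B + 1) := mul_le_mul_of_nonneg_right hsq1 (by linarith)
    have h9 : sq * 1 ≤ sq * (B + 1) := mul_le_mul_of_nonneg_left (by linarith) hsq0
    have h10 : sq * (4 * (B + 1)) = 4 * (sq * (B + 1)) := by ring
    rw [hsqq] at h7
    rw [h10] at h7
    nlinarith
  have h9 : δ / 4 ≤ (1 + κ) * L := by nlinarith
  have hLlow : c₂ * δ ≤ L := by
    rw [hc₂, div_mul_eq_mul_div, one_mul, div_le_iff₀ (by positivity)]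
    nlinarith
  have hfirst : W + B + W + 1 ≤ (B + 3) * W := by nlinarith
  constructor
  · have h8 : (B + 3) * W ≤ (B + 3) * sq := mul_le_mul_of_nonneg_left hWsq (by positivity)
    have h9' : (B + 3) ≤ c * c₂ * sq := by
      rw [div_le_iff₀ (by positivity)] at hsqB2
      linarith
    have h10 : (B + 3) * sq ≤ c * c₂ * sq * sq := mul_le_mul_of_nonneg_right h9' hsq0
    have h11 : c * c₂ * sq * sq = c * (c₂ * (sq * sq)) := by ring
    rw [h11, hsqq] at h10
    have h12 : c * (c₂ * δ) ≤ c * L := mul_le_mul_of_nonneg_left hLlow hc.le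
    linarith
  · rw [div_le_iff₀ hL]
    have h10 : δ ≤ L / c₂ := by
      rw [le_div_iff₀ hc₂0]
      linarith
    calc C * W * (W + B + W + 1) ≤ C * W * ((B + 3) * W) :=
          mul_le_mul_of_nonneg_left hfirst (by positivity)
      _ = C * (B + 3) * (W * W) := by ring
      _ ≤ C * (B + 3) * (L / c₂) := mul_le_mul_of_nonneg_left (le_trans hW2 h10) (by positivity)
      _ = C * (B + 3) / c₂ * L := by ring

/-- The near mode part of the window estimate. -/
theorem window_near {C c κ B E : ℝ} (h0 : 0 < θ) (h1 : θ < 1)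
    (hflat : ∀ θ' ∈ Set.Icc θ θ, ∀ l k k' : ℕ, ∀ x s : ℝ, 1 ≤ l →
      |(k : ℝ) - θ' * l / (1 - θ')| ≤ x → |(k' : ℝ) - k| ≤ s → 0 ≤ x → 0 ≤ s → x + s + 1 ≤ c * l →
      Real.exp (-(C * s * (x + s + 1) / l)) * NB θ' l (k : ℤ) ≤ NB θ' l (k' : ℤ))
    (hκ : κ = θ / (1 - θ)) (hB0 : 0 < B) (hc : 0 < c) (hC : 0 < C) (hE : E = C * (B + 3) / (1 / (4 * (1 + κ))))
    (p k k₀ δ W : ℕ) (hW : 1 ≤ W) (hW2 : W ^ 2 ≤ δ)
    (hδ : (4 * (B + 1)) ^ 2 + ((B + 3) / (c * (1 / (4 * (1 + κ))))) ^ 2 + 1 < (δ : ℝ))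
    (hk₀ : |(k₀ : ℝ) - θ * ((p + 1 : ℕ) : ℝ) / (1 - θ)| ≤ B) (hkk : k < k₀ + W) (hkk' : k₀ < k + W)
    (hy : (δ : ℤ) ≤ 2 * ((k : ℤ) + ((p + 1 : ℕ) : ℤ))) :
    (W : ℝ) * NB θ (p + 1) (k : ℤ) ≤ Real.exp E * ∑ i ∈ range W, NB θ (p + 1) ((k : ℤ) + i + 1) := by
  have h1θ : 0 < 1 - θ := by linarith
  have hκ0 : 0 < κ := by rw [hκ]; positivity
  have hLpos : (0 : ℝ) < ((p + 1 : ℕ) : ℝ) := by positivity
  have hWR : (1 : ℝ) ≤ W := by exact_mod_cast hW
  have hW2R : (W : ℝ) * W ≤ (δ : ℝ) := by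
    have : ((W ^ 2 : ℕ) : ℝ) ≤ (δ : ℝ) := by exact_mod_cast hW2
    push_cast at this
    nlinarith
  have hmκ : θ * ((p + 1 : ℕ) : ℝ) / (1 - θ) = κ * ((p + 1 : ℕ) : ℝ) := by rw [hκ]; ring
  rw [hmκ] at hk₀
  have hkk₀ : |(k : ℝ) - k₀| ≤ W := by
    rw [abs_le]
    have h5 : (k : ℝ) < k₀ + W := by exact_mod_cast hkk
    have h6 : (k₀ : ℝ) < k + W := by exact_mod_cast hkk'
    constructor <;> linarith
  have hkm : |(k : ℝ) - κ * ((p + 1 : ℕ) : ℝ)| ≤ W + B := by
    have : (k : ℝ) - κ * ((p + 1 : ℕ) : ℝ) = ((k : ℝ) - k₀) + ((k₀ : ℝ) - κ * ((p + 1 : ℕ) : ℝ)) := by ring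
    rw [this]
    exact le_trans (abs_add_le _ _) (add_le_add hkk₀ hk₀)
  have hyR : (δ : ℝ) ≤ 2 * ((k : ℝ) + ((p + 1 : ℕ) : ℝ)) := by
    have : ((δ : ℤ) : ℝ) ≤ ((2 * ((k : ℤ) + ((p + 1 : ℕ) : ℤ)) : ℤ) : ℝ) := by exact_mod_cast hy
    push_cast at this ⊢
    linarith
  have hkup : (k : ℝ) ≤ κ * ((p + 1 : ℕ) : ℝ) + W + B := by
    have := (abs_le.mp hkm).2
    linarith
  obtain ⟨hcond, hexpo⟩ := window_reals (C := C) hκ0 hB0 hc hC hδ hWR hW2R hyR hkup hLpos
  rw [← hE] at hexpo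
  have hup2 : ∀ i ∈ range W, Real.exp (-E) * NB θ (p + 1) (k : ℤ) ≤ NB θ (p + 1) ((k : ℤ) + i + 1) := by
    intro i hi
    rw [mem_range] at hi
    have e : (k : ℤ) + i + 1 = ((k + i + 1 : ℕ) : ℤ) := by push_cast; ring
    rw [e]
    have hs : |((k + i + 1 : ℕ) : ℝ) - (k : ℝ)| ≤ W := by
      have e2 : ((k + i + 1 : ℕ) : ℝ) - (k : ℝ) = (i : ℝ) + 1 := by push_cast; ring
      rw [e2, abs_of_nonneg (by positivity)]
      have : ((i + 1 : ℕ) : ℝ) ≤ W := by exact_mod_cast hi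
      push_cast at this
      linarith
    have hkm' : |(k : ℝ) - θ * ((p + 1 : ℕ) : ℝ) / (1 - θ)| ≤ W + B := by
      rw [hmκ]; exact hkm
    have h7 := hflat θ ⟨le_rfl, le_rfl⟩ (p + 1) k (k + i + 1) ((W : ℝ) + B) W (by omega) hkm' hs
      (by positivity) (by positivity) hcond
    refine le_trans ?_ h7
    apply mul_le_mul_of_nonneg_right _ (NB_nonneg h0 h1 _ _)
    apply Real.exp_le_exp.mpr
    linarith
  have h8 := sum_le_sum hup2
  rw [sum_const, card_range, nsmul_eq_mul] at h8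
  have h11 : Real.exp E * Real.exp (-E) = 1 := by rw [← Real.exp_add]; simp
  have h12 := mul_le_mul_of_nonneg_left h8 (Real.exp_pos E).le
  have h13 : Real.exp E * ((W : ℝ) * (Real.exp (-E) * NB θ (p + 1) (k : ℤ))) =
      (W : ℝ) * NB θ (p + 1) (k : ℤ) := by
    calc _ = (Real.exp E * Real.exp (-E)) * ((W : ℝ) * NB θ (p + 1) (k : ℤ)) := by ring
      _ = _ := by rw [h11, one_mul]
  rw [h13] at h12
  exact h12

/-- A value of `NB` is controlled by the average over a window around it, unless the point is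
close to zero with few factors. -/
theorem NB_window (h0 : 0 < θ) (h1 : θ < 1) :
    ∃ (C₁ : ℝ) (δ₀ : ℕ), 0 < C₁ ∧ ∀ δ W : ℕ, δ₀ ≤ δ → 1 ≤ W → W ^ 2 ≤ δ → ∀ l : ℕ, 1 ≤ l → ∀ y : ℤ,
      (δ : ℤ) ≤ 2 * (y + l) →
      (W : ℝ) * NB θ l y ≤ C₁ * ∑ i ∈ range W, (NB θ l (y + i + 1) + NB θ l (y - i - 1)) := by
  obtain ⟨C, c, hC, hc, hflat⟩ := NB_flat (θ₀ := θ) (θ₁ := θ) h0 h1
  have h1θ : 0 < 1 - θ := by linarith
  obtain ⟨κ, hκ⟩ : ∃ κ : ℝ, κ = θ / (1 - θ) := ⟨_, rfl⟩
  have hκ0 : 0 < κ := by rw [hκ]; positivity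
  obtain ⟨B, hB⟩ : ∃ B : ℝ, B = 1 / (1 - θ) + 1 := ⟨_, rfl⟩
  have hB0 : 0 < B := by rw [hB]; positivity
  obtain ⟨E, hE⟩ : ∃ E : ℝ, E = C * (B + 3) / (1 / (4 * (1 + κ))) := ⟨_, rfl⟩
  obtain ⟨δ₀, hδ₀⟩ := exists_nat_gt ((4 * (B + 1)) ^ 2 + ((B + 3) / (c * (1 / (4 * (1 + κ))))) ^ 2 + 1)
  refine ⟨1 + Real.exp E, δ₀, by positivity, ?_⟩
  intro δ W hδ hW hW2 l hl y hy
  have hexp := Real.exp_pos E
  have hNBn : ∀ l z, 0 ≤ NB θ l z := NB_nonneg h0 h1
  have hterm : ∀ i : ℕ, 0 ≤ NB θ l (y + i + 1) + NB θ l (y - i - 1) := fun i =>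
    add_nonneg (hNBn _ _) (hNBn _ _)
  have hsum0 : 0 ≤ ∑ i ∈ range W, (NB θ l (y + i + 1) + NB θ l (y - i - 1)) :=
    sum_nonneg (fun i _ => hterm i)
  rcases lt_or_ge y 0 with hyneg | hypos
  · rw [NB_of_neg hyneg, mul_zero]
    positivity
  obtain ⟨k, rfl⟩ := Int.eq_ofNat_of_zero_le hypos
  obtain ⟨p, rfl⟩ : ∃ p, l = p + 1 := ⟨l - 1, by omega⟩
  obtain ⟨k₀, hup, hdn, hk₀⟩ := NB_mode h0 h1 p
  have hsplit : ∀ (F G : ℕ → ℝ), (∀ i ∈ range W, NB θ (p + 1) (k : ℤ) ≤ F i) → (∀ i, 0 ≤ G i) →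
      (W : ℝ) * NB θ (p + 1) (k : ℤ) ≤ ∑ i ∈ range W, (F i + G i) := by
    intro F G hF hG
    have h2 := sum_le_sum hF
    rw [sum_const, card_range, nsmul_eq_mul] at h2
    rw [sum_add_distrib]
    have h3 : 0 ≤ ∑ i ∈ range W, G i := sum_nonneg (fun i _ => hG i)
    linarith
  have hC₁1 : ∀ x : ℝ, 0 ≤ x → x ≤ (1 + Real.exp E) * x := by
    intro x hx
    nlinarith
  by_cases hcA : k₀ + W ≤ k
  · have := hsplit (fun i => NB θ (p + 1) ((k : ℤ) - i - 1)) (fun i => NB θ (p + 1) ((k : ℤ) + i + 1))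
      (by
        intro i hi
        rw [mem_range] at hi
        have e : (k : ℤ) - i - 1 = ((k - i - 1 : ℕ) : ℤ) := by
          have : i + 1 ≤ k := by omega
          rw [Nat.cast_sub (by omega), Nat.cast_sub (by omega)]
          push_cast
          ring
        rw [e]
        exact NB_mono_down hdn (by omega) (by omega))
      (fun i => hNBn _ _)
    refine le_trans ?_ (hC₁1 _ hsum0)
    refine le_trans this (le_of_eq ?_)
    apply sum_congr rfl
    intro i _
    ring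
  by_cases hcB : k + W ≤ k₀
  · have := hsplit (fun i => NB θ (p + 1) ((k : ℤ) + i + 1)) (fun i => NB θ (p + 1) ((k : ℤ) - i - 1))
      (by
        intro i hi
        rw [mem_range] at hi
        have e : (k : ℤ) + i + 1 = ((k + i + 1 : ℕ) : ℤ) := by push_cast; ring
        rw [e]
        exact NB_mono_up hup (by omega) (by omega))
      (fun i => hNBn _ _)
    exact le_trans this (hC₁1 _ hsum0)
  have hδ1 : (4 * (B + 1)) ^ 2 + ((B + 3) / (c * (1 / (4 * (1 + κ))))) ^ 2 + 1 < (δ : ℝ) :=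
    lt_of_lt_of_le hδ₀ (by exact_mod_cast hδ)
  have hk₀B : |(k₀ : ℝ) - θ * ((p + 1 : ℕ) : ℝ) / (1 - θ)| ≤ B := by rw [hB]; exact hk₀
  have hn := window_near (θ := θ) h0 h1 hflat hκ hB0 hc hC hE p k k₀ δ W hW hW2 hδ1 hk₀B
    (by omega) (by omega) hy
  refine le_trans hn ?_
  have h9 : ∑ i ∈ range W, NB θ (p + 1) ((k : ℤ) + i + 1) ≤
      ∑ i ∈ range W, (NB θ (p + 1) ((k : ℤ) + i + 1) + NB θ (p + 1) ((k : ℤ) - i - 1)) := by
    apply sum_le_sum
    intro i _
    have := hNBn (p + 1) ((k : ℤ) - i - 1)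
    linarith
  have h10 := mul_le_mul_of_nonneg_left h9 hexp.le
  refine le_trans h10 ?_
  apply mul_le_mul_of_nonneg_right _ hsum0
  linarith

end window

section shape

variable {q : ℝ}

theorem cnt_base_NB (h0 : 0 < q) (h1 : q < 1) (s : ℤ) (Z : ℕ) (t : Word) :
    (cnt (blockStr ∅ s Z) t : ℝ) * q ^ (2 * Z) =
      q ^ (2 * H t) / (1 - q ^ 2) ^ (t.length + 1) * NB (q ^ 2) (t.length + 1) ((Z : ℤ) - H t) := by
  have h2 : 0 < 1 - q ^ 2 := by nlinarith
  rw [cnt_base]
  split_ifs with hZ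
  · obtain ⟨k, rfl⟩ := Nat.exists_eq_add_of_le hZ
    have e : ((H t + k : ℕ) : ℤ) - (H t : ℤ) = (k : ℤ) := by push_cast; ring
    rw [e, NB_natCast, Nat.add_sub_cancel_left, mul_add, pow_add, ← pow_mul]
    field_simp
  · rw [NB_of_neg (by omega)]
    simp

/-- The shifted trace law is a nonnegative combination of negative binomial weights. -/
theorem q_trace_eq (h0 : 0 < q) (h1 : q < 1) (u : Word) (s : ℤ) (Z : ℕ) (t : Word) :
    q ^ t.length * traceProb q (u ++ blockStr ∅ s Z) t =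
      ∑ i ∈ range (t.length + 1),
        ((1 - q) ^ t.length * q ^ u.length * (cnt u (t.take i) : ℝ) *
          (q ^ (2 * H (t.drop i)) / (1 - q ^ 2) ^ ((t.drop i).length + 1))) *
        NB (q ^ 2) ((t.drop i).length + 1) ((Z : ℤ) - H (t.drop i)) := by
  set y := u ++ blockStr ∅ s Z with hy
  have hlen : y.length = u.length + 2 * Z := by
    rw [hy, List.length_append, length_blockStr]
  have key : q ^ t.length * traceProb q y t = (cnt y t : ℝ) * (1 - q) ^ t.length * q ^ y.length := by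
    rw [traceProb_eq_cnt]
    rcases Nat.lt_or_ge y.length t.length with hc | hc
    · have : cnt y t = 0 := by
        rw [cnt_eq_count]
        exact count_sublists_of_long hc
      rw [this]
      simp
    · have e : q ^ y.length = q ^ t.length * q ^ (y.length - t.length) := by
        rw [← pow_add]
        congr 1
        omega
      rw [e]
      ring
  rw [key, hlen, hy, cnt_append]
  push_cast
  rw [sum_mul, sum_mul]
  apply sum_congr rfl
  intro i _
  have h2 := cnt_base_NB h0 h1 s Z (t.drop i)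
  rw [pow_add]
  calc (cnt u (t.take i) : ℝ) * (cnt (blockStr ∅ s Z) (t.drop i) : ℝ) * (1 - q) ^ t.length *
        (q ^ u.length * q ^ (2 * Z))
      = (1 - q) ^ t.length * q ^ u.length * (cnt u (t.take i) : ℝ) *
        ((cnt (blockStr ∅ s Z) (t.drop i) : ℝ) * q ^ (2 * Z)) := by ring
    _ = _ := by rw [h2]; ring

/-- The window estimate for trace laws. -/
theorem shape_window (h0 : 0 < q) (h1 : q < 1) :
    ∃ (C₁ : ℝ) (δ₀ : ℕ), 0 < C₁ ∧ ∀ δ W : ℕ, δ₀ ≤ δ → 1 ≤ W → W ^ 2 ≤ δ →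
      ∀ (u : Word) (s : ℤ) (t : Word) (Z : ℕ), δ ≤ 2 * Z → W ≤ Z →
      (W : ℝ) * traceProb q (u ++ blockStr ∅ s Z) t ≤
        C₁ * ∑ j ∈ range W, (traceProb q (u ++ blockStr ∅ s (Z + j + 1)) t +
          traceProb q (u ++ blockStr ∅ s (Z - j - 1)) t) := by
  have hθ0 : 0 < q ^ 2 := by positivity
  have hθ1 : q ^ 2 < 1 := by nlinarith
  obtain ⟨C₁, δ₀, hC₁, hw⟩ := NB_window hθ0 hθ1
  refine ⟨C₁, δ₀, hC₁, ?_⟩
  intro δ W hδ hW hW2 u s t Z hZ hWZ
  have hqm : 0 < q ^ t.length := by positivity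
  have hp : 0 < 1 - q := by linarith
  have hp2 : 0 < 1 - q ^ 2 := by linarith
  set β : ℕ → ℝ := fun i => (1 - q) ^ t.length * q ^ u.length * (cnt u (t.take i) : ℝ) *
    (q ^ (2 * H (t.drop i)) / (1 - q ^ 2) ^ ((t.drop i).length + 1)) with hβ
  have hβ0 : ∀ i, 0 ≤ β i := by
    intro i
    rw [hβ]
    positivity
  have hexp : ∀ Z : ℕ, q ^ t.length * traceProb q (u ++ blockStr ∅ s Z) t =
      ∑ i ∈ range (t.length + 1), β i * NB (q ^ 2) ((t.drop i).length + 1) ((Z : ℤ) - H (t.drop i)) :=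
    fun Z => q_trace_eq h0 h1 u s Z t
  apply le_of_mul_le_mul_left _ hqm
  have e1 : q ^ t.length * ((W : ℝ) * traceProb q (u ++ blockStr ∅ s Z) t) =
      ∑ i ∈ range (t.length + 1), β i * ((W : ℝ) *
        NB (q ^ 2) ((t.drop i).length + 1) ((Z : ℤ) - H (t.drop i))) := by
    rw [mul_left_comm, hexp, mul_sum]
    apply sum_congr rfl
    intro i _
    ring
  have e2 : q ^ t.length * (C₁ * ∑ j ∈ range W, (traceProb q (u ++ blockStr ∅ s (Z + j + 1)) t +
      traceProb q (u ++ blockStr ∅ s (Z - j - 1)) t)) =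
      ∑ i ∈ range (t.length + 1), β i * (C₁ * ∑ j ∈ range W,
        (NB (q ^ 2) ((t.drop i).length + 1) ((Z : ℤ) - H (t.drop i) + j + 1) +
         NB (q ^ 2) ((t.drop i).length + 1) ((Z : ℤ) - H (t.drop i) - j - 1))) := by
    rw [mul_left_comm, mul_sum]
    simp only [mul_sum]
    rw [sum_comm]
    apply sum_congr rfl
    intro j hj
    have hj2 : j + 1 ≤ Z := by rw [mem_range] at hj; omega
    rw [mul_add, hexp, hexp, ← sum_add_distrib, mul_sum]
    apply sum_congr rfl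
    intro i _
    have e3 : ((Z + j + 1 : ℕ) : ℤ) - H (t.drop i) = (Z : ℤ) - H (t.drop i) + j + 1 := by
      push_cast; ring
    have e4 : ((Z - j - 1 : ℕ) : ℤ) - H (t.drop i) = (Z : ℤ) - H (t.drop i) - j - 1 := by
      have : Z - j - 1 = Z - (j + 1) := by omega
      rw [this, Nat.cast_sub hj2]
      push_cast
      ring
    rw [e3, e4]
    ring
  rw [e1, e2]
  apply sum_le_sum
  intro i _
  apply mul_le_mul_of_nonneg_left _ (hβ0 i)
  apply hw δ W hδ hW hW2 _ (by omega)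
  have hHle := H_le_length (t.drop i)
  have : ((δ : ℕ) : ℤ) ≤ 2 * (Z : ℤ) := by exact_mod_cast hZ
  push_cast
  omega

theorem blockStr_empty_shift (s s' : ℤ) (n : ℕ) : blockStr ∅ s n = blockStr ∅ s' n := by
  induction n generalizing s s' with
  | zero => rfl
  | succ n ih =>
    simp only [blockStr]
    rw [ih (s + 1) (s' + 1)]
    simp

/-- Sums over an injective family of indices inside a finite set. -/
theorem sum_inj_le {V : ℕ → ℝ} (hV : ∀ T, 0 ≤ V T) {W : ℕ} {N : Finset ℕ} {φ : ℕ → ℕ}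
    (hinj : ∀ i < W, ∀ j < W, φ i = φ j → i = j) (hN : ∀ i < W, φ i ∈ N) :
    ∑ j ∈ range W, V (φ j) ≤ ∑ T ∈ N, V T := by
  have h1 : Set.InjOn φ (range W : Set ℕ) := by
    intro a ha b hb hab
    exact hinj a (by simpa using ha) b (by simpa using hb) hab
  rw [← sum_image (f := V) h1]
  apply sum_le_sum_of_subset_of_nonneg
  · intro x hx
    obtain ⟨i, hi, rfl⟩ := mem_image.mp hx
    exact hN i (by simpa using hi)
  · intro T _ _
    exact hV T

end shape

section near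

variable {q : ℝ}

/-- The estimate at one flipped period. -/
theorem near_bound (h0 : 0 < q) (h1 : q < 1) :
    ∃ (C₁ : ℝ) (δ₀ : ℕ), 0 < C₁ ∧ ∀ (δ W : ℕ) (D : Finset ℤ) (d : ℕ) (t : Word), δ₀ ≤ δ → 1 ≤ W →
      W ^ 2 ≤ δ → W + 3 ≤ δ → δ ≤ d → (d : ℤ) ∈ D →
      (∀ d' ∈ D, d' ≠ (d : ℤ) → (δ : ℤ) ≤ |d' - d|) →
      q ^ 4 * (W : ℝ) * (traceProb q (blockStr D 0 (d - 1)) t + traceProb q (blockStr D 0 d) t) ≤
        C₁ * ∑ T ∈ Icc (d - W - 1) (d + W + 2), traceProb q (blockStr D 0 T) t := by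
  obtain ⟨C₀, δ₀, hC₀, hshape⟩ := shape_window h0 h1
  refine ⟨4 * C₀, δ₀, by positivity, ?_⟩
  intro δ W D d t hδ hW hW2 hW3 hδd hdD hsp
  set V : ℕ → ℝ := fun T => traceProb q (blockStr D 0 T) t with hV
  have hV0 : ∀ T, 0 ≤ V T := fun T => traceProb_nonneg h0 h1 _ _
  obtain ⟨δ', rfl⟩ : ∃ δ', δ = δ' + 1 := ⟨δ - 1, by omega⟩
  obtain ⟨a, ha⟩ : ∃ a, d = a + δ' + 1 := ⟨d - (δ' + 1), by omega⟩
  set u := blockStr D 0 a with hu
  set Vt : ℕ → ℝ := fun Z => traceProb q (u ++ blockStr ∅ (a : ℤ) Z) t with hVt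
  have hq2 : q ^ 2 ≤ 1 := by nlinarith
  have hq20 : 0 < q ^ 2 := by positivity
  -- comparison below the site
  have hcmp1 : ∀ Z : ℕ, Z ≤ δ' → V (a + Z) = Vt Z := by
    intro Z hZ
    simp only [hV, hVt]
    rw [blockStr_add D 0 a Z, ← hu]
    have hb : blockStr D ((0 : ℤ) + (a : ℤ)) Z = blockStr ∅ (a : ℤ) Z := by
      rw [zero_add]
      apply blockStr_congr
      intro i hi hi2
      simp only [notMem_empty, iff_false]
      intro hiD
      have hne : i ≠ (d : ℤ) := by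
        rw [ha]; push_cast; omega
      have h3 := hsp i hiD hne
      have h4 : |i - (d : ℤ)| = (d : ℤ) - i := by
        rw [abs_of_nonpos (by rw [ha]; push_cast; omega)]
        ring
      rw [h4, ha] at h3
      push_cast at h3
      omega
    rw [hb]
  -- the string up to the site
  have hblock : blockStr D 0 d = u ++ blockStr ∅ (a : ℤ) δ' ++ [true, false] := by
    rw [ha, blockStr_add D 0 (a + δ') 1, blockStr_add D 0 a δ', ← hu]
    have hb : blockStr D ((0 : ℤ) + (a : ℤ)) δ' = blockStr ∅ (a : ℤ) δ' := by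
      rw [zero_add]
      apply blockStr_congr
      intro i hi hi2
      simp only [notMem_empty, iff_false]
      intro hiD
      have hne : i ≠ (d : ℤ) := by
        rw [ha]; push_cast; omega
      have h3 := hsp i hiD hne
      have h4 : |i - (d : ℤ)| = (d : ℤ) - i := by
        rw [abs_of_nonpos (by rw [ha]; push_cast; omega)]
        ring
      rw [h4, ha] at h3
      push_cast at h3
      omega
    rw [hb]
    have hd2 : decide (((0 : ℤ) + ((a + δ' : ℕ) : ℤ) + 1) ∈ D) = true := by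
      have : ((0 : ℤ) + ((a + δ' : ℕ) : ℤ) + 1) = (d : ℤ) := by
        rw [ha]; push_cast; ring
      rw [this]
      simpa using hdD
    simp only [blockStr, hd2, block]
    simp
  -- above the site
  have hcmp2 : ∀ z : ℕ, z ≤ δ' → q ^ 2 * Vt (δ' + z) ≤ V (d + z) := by
    intro z hz
    simp only [hV, hVt]
    apply traceProb_sublist h0 h1
    · rw [blockStr_add D 0 d z, hblock, blockStr_add ∅ (a : ℤ) δ' z]
      have hb : blockStr D ((0 : ℤ) + (d : ℤ)) z = blockStr ∅ ((a : ℤ) + (δ' : ℤ)) z := by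
        rw [blockStr_empty_shift ((a : ℤ) + (δ' : ℤ)) ((0 : ℤ) + (d : ℤ)) z]
        apply blockStr_congr
        intro i hi hi2
        simp only [notMem_empty, iff_false]
        intro hiD
        have hne : i ≠ (d : ℤ) := by
          omega
        have h3 := hsp i hiD hne
        have h4 : |i - (d : ℤ)| = i - (d : ℤ) := abs_of_nonneg (by omega)
        rw [h4] at h3
        push_cast at h3
        omega
      rw [hb]
      simp only [List.append_assoc]
      apply List.Sublist.append_left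
      apply List.Sublist.append_left
      apply List.Sublist.cons
      apply List.Sublist.cons
      exact List.Sublist.refl _
    · simp only [List.length_append, length_blockStr, List.length_cons, List.length_nil]
      rw [ha]
      have : (blockStr D 0 a).length = 2 * a := length_blockStr _ _ _
      simp only [hu, this]
      ring
  -- two more letters at the site
  have hcmp3 : q ^ 2 * V d ≤ Vt (δ' + 2) := by
    simp only [hV, hVt]
    apply traceProb_sublist h0 h1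
    · rw [hblock, blockStr_add ∅ (a : ℤ) δ' 2]
      have : blockStr ∅ ((a : ℤ) + (δ' : ℤ)) 2 = [false, true, false, true] := by
        simp [blockStr, block]
      rw [this]
      simp only [List.append_assoc]
      apply List.Sublist.append_left
      apply List.Sublist.append_left
      apply List.Sublist.cons
      apply List.Sublist.cons_cons
      apply List.Sublist.cons_cons
      apply List.Sublist.cons
      exact List.Sublist.refl _
    · simp only [List.length_append, length_blockStr, List.length_cons, List.length_nil]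
      rw [ha]
      have : (blockStr D 0 a).length = 2 * a := length_blockStr _ _ _
      simp only [hu, this]
      ring
  have hWpos : (0 : ℝ) < W := by exact_mod_cast hW
  set N := Icc (d - W - 1) (d + W + 2) with hN
  set Sg := ∑ T ∈ N, V T with hSg
  have hSg0 : 0 ≤ Sg := sum_nonneg (fun T _ => hV0 T)
  set τ : ℕ → ℕ := fun Z => if Z ≤ δ' then a + Z else a + Z + 1 with hτ
  have hτV : ∀ Z : ℕ, Z ≤ 2 * δ' → q ^ 2 * Vt Z ≤ V (τ Z) := by
    intro Z hZ
    simp only [hτ]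
    split_ifs with hc
    · rw [hcmp1 Z hc]
      have : 0 ≤ Vt Z := traceProb_nonneg h0 h1 _ _
      nlinarith
    · obtain ⟨z, rfl⟩ : ∃ z, Z = δ' + z := ⟨Z - δ', by omega⟩
      have h5 := hcmp2 z (by omega)
      have e : d + z = a + (δ' + z) + 1 := by rw [ha]; ring
      rw [e] at h5
      exact h5
  have hmain : ∀ Z : ℕ, (Z = δ' ∨ Z = δ' + 2) → q ^ 2 * (W : ℝ) * Vt Z ≤ 2 * C₀ * Sg := by
    intro Z hZ
    have hZ1 : δ' + 1 ≤ 2 * Z := by rcases hZ with rfl | rfl <;> omega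
    have hZ2 : W ≤ Z := by rcases hZ with rfl | rfl <;> omega
    have h5 := hshape (δ' + 1) W hδ hW hW2 u (a : ℤ) t Z hZ1 hZ2
    have h6 : q ^ 2 * ∑ j ∈ range W, (Vt (Z + j + 1) + Vt (Z - j - 1)) ≤
        ∑ j ∈ range W, (V (τ (Z + j + 1)) + V (τ (Z - j - 1))) := by
      rw [mul_sum]
      apply sum_le_sum
      intro j hj
      rw [mem_range] at hj
      rw [mul_add]
      apply add_le_add
      · apply hτV
        rcases hZ with rfl | rfl <;> omega
      · apply hτV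
        rcases hZ with rfl | rfl <;> omega
    have h7 : ∑ j ∈ range W, V (τ (Z + j + 1)) ≤ Sg := by
      apply sum_inj_le hV0
      · intro i _ j _ hij
        simp only [hτ] at hij
        split_ifs at hij <;> omega
      · intro i hi
        rw [hN, mem_Icc]
        simp only [hτ]
        rcases hZ with rfl | rfl <;> split_ifs <;> omega
    have h8 : ∑ j ∈ range W, V (τ (Z - j - 1)) ≤ Sg := by
      apply sum_inj_le hV0
      · intro i hi j hj hij
        simp only [hτ] at hij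
        rcases hZ with rfl | rfl <;> split_ifs at hij <;> omega
      · intro i hi
        rw [hN, mem_Icc]
        simp only [hτ]
        rcases hZ with rfl | rfl <;> split_ifs <;> omega
    have e6 : ∑ j ∈ range W, (V (τ (Z + j + 1)) + V (τ (Z - j - 1))) =
        ∑ j ∈ range W, V (τ (Z + j + 1)) + ∑ j ∈ range W, V (τ (Z - j - 1)) := sum_add_distrib
    rw [e6] at h6
    calc q ^ 2 * (W : ℝ) * Vt Z = q ^ 2 * ((W : ℝ) * Vt Z) := by ring
      _ ≤ q ^ 2 * (C₀ * ∑ j ∈ range W, (Vt (Z + j + 1) + Vt (Z - j - 1))) :=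
          mul_le_mul_of_nonneg_left h5 hq20.le
      _ = C₀ * (q ^ 2 * ∑ j ∈ range W, (Vt (Z + j + 1) + Vt (Z - j - 1))) := by ring
      _ ≤ C₀ * (Sg + Sg) := mul_le_mul_of_nonneg_left (by linarith) hC₀.le
      _ = _ := by ring
  have h5 := hmain δ' (Or.inl rfl)
  have h6 := hmain (δ' + 2) (Or.inr rfl)
  have h7 : V (d - 1) = Vt δ' := by
    have : d - 1 = a + δ' := by omega
    rw [this]
    exact hcmp1 δ' le_rfl
  change q ^ 4 * (W : ℝ) * (V (d - 1) + V d) ≤ 4 * C₀ * Sg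
  rw [h7]
  have hVtn : 0 ≤ Vt δ' := traceProb_nonneg h0 h1 _ _
  have hVd : 0 ≤ V d := hV0 d
  have h8 : q ^ 4 * (W : ℝ) * Vt δ' ≤ 2 * C₀ * Sg := by
    have e : q ^ 4 * (W : ℝ) * Vt δ' = q ^ 2 * (q ^ 2 * (W : ℝ) * Vt δ') := by ring
    rw [e]
    have h9 : 0 ≤ q ^ 2 * (W : ℝ) * Vt δ' := by positivity
    nlinarith
  have h9 : q ^ 4 * (W : ℝ) * V d ≤ 2 * C₀ * Sg := by
    have e : q ^ 4 * (W : ℝ) * V d = q ^ 2 * (W : ℝ) * (q ^ 2 * V d) := by ring
    rw [e]
    exact le_trans (mul_le_mul_of_nonneg_left hcmp3 (by positivity)) h6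
  linarith

/-- A finite union bound for nonnegative terms. -/
theorem sum_biUnion_le_sum {α β : Type*} [DecidableEq β] (s : Finset α) (t : α → Finset β) {f : β → ℝ}
    (hf : ∀ b, 0 ≤ f b) : ∑ b ∈ s.biUnion t, f b ≤ ∑ a ∈ s, ∑ b ∈ t a, f b := by
  classical
  induction s using Finset.induction_on with
  | empty => simp
  | insert a s ha ih =>
    rw [biUnion_insert, sum_insert ha]
    refine le_trans ?_ (add_le_add (le_refl (∑ b ∈ t a, f b)) ih)
    have h1 := sum_union_inter (s₁ := t a) (s₂ := s.biUnion t) (f := f)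
    have h2 : 0 ≤ ∑ b ∈ t a ∩ s.biUnion t, f b := sum_nonneg (fun b _ => hf b)
    linarith

/-- The natural sites. -/
def natSites (D : Finset ℤ) : Finset ℕ := D.image Int.toNat

theorem natSites_spec {D : Finset ℤ} (hD : ∀ d ∈ D, 0 ≤ d) {T : ℕ} :
    T ∈ natSites D ↔ (T : ℤ) ∈ D := by
  unfold natSites
  rw [mem_image]
  constructor
  · rintro ⟨d, hd, rfl⟩
    rw [Int.toNat_of_nonneg (hD d hd)]
    exact hd
  · intro h
    exact ⟨_, h, by simp⟩

theorem runEnds_sub (D : Finset ℤ) (hD : ∀ d ∈ D, 1 ≤ d) (n : ℕ) :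
    runEnds (xD D) n ⊆ (natSites D).biUnion (fun d => {2 * d, 2 * (d - 1)}) := by
  intro e he
  obtain ⟨T, rfl, h | h⟩ := runEnds_xD D n e he
  · rw [mem_biUnion]
    refine ⟨T, (natSites_spec (fun d hd => by have := hD d hd; omega)).mpr h, ?_⟩
    simp
  · rw [mem_biUnion]
    refine ⟨T + 1, (natSites_spec (fun d hd => by have := hD d hd; omega)).mpr h, ?_⟩
    simp

theorem card_runEnds (D : Finset ℤ) (hD : ∀ d ∈ D, 1 ≤ d) (n : ℕ) :
    (runEnds (xD D) n).card ≤ 2 * D.card := by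
  refine le_trans (card_le_card (runEnds_sub D hD n)) ?_
  refine le_trans card_biUnion_le ?_
  have h1 : (natSites D).card ≤ D.card := card_image_le
  have h2 : ∀ d ∈ natSites D, (({2 * d, 2 * (d - 1)} : Finset ℕ)).card ≤ 2 := fun d _ => card_le_two
  calc ∑ d ∈ natSites D, (({2 * d, 2 * (d - 1)} : Finset ℕ)).card ≤ ∑ d ∈ natSites D, 2 := sum_le_sum h2
    _ = (natSites D).card * 2 := by simp
    _ ≤ 2 * D.card := by omega

end near

section spread

variable {q : ℝ}

/-- The spread bound for the chain of a string with well separated flipped periods. -/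
theorem spread_bound (h0 : 0 < q) (h1 : q < 1) :
    ∃ (C₂ : ℝ) (δ₀ : ℕ), 0 < C₂ ∧ ∀ (A δ W Xz : ℕ) (D : Finset ℤ), δ₀ ≤ δ → 1 ≤ W → W ^ 2 ≤ δ →
      2 * W + 6 ≤ δ → (∀ d ∈ D, (δ : ℤ) ≤ d ∧ d ≤ (Xz : ℤ)) →
      (∀ d ∈ D, ∀ d' ∈ D, d ≠ d' → (δ : ℤ) ≤ |d - d'|) → Xz + W + 3 ≤ A → ∀ r : Word,
      (chainS (xD D) (2 * A) h0 h1 (xD_zero D)).Gs r ≤
        (C₂ / W) * (chainS (xD D) (2 * A) h0 h1 (xD_zero D)).Pre r := by
  obtain ⟨C₁, δ₀, hC₁, hnear⟩ := near_bound h0 h1
  have hp : 0 < 1 - q := by linarith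
  refine ⟨C₁ * (1 / (1 - q)) / q ^ 4 * 2, δ₀ + 1, by positivity, ?_⟩
  intro A δ W Xz D hδ hW hW2 hW3 hsites hsp hA r
  have hδ1 : 1 ≤ δ := by omega
  have hD1 : ∀ d ∈ D, 1 ≤ d := fun d hd => by
    have := (hsites d hd).1
    omega
  have hD0 : ∀ d ∈ D, 0 ≤ d := fun d hd => by
    have := hD1 d hd
    omega
  set t := r.reverse with ht
  set C := chainS (xD D) (2 * A) h0 h1 (xD_zero D) with hC
  set V : ℕ → ℝ := fun T => traceProb q (blockStr D 0 T) t with hV
  have hV0 : ∀ T, 0 ≤ V T := fun T => traceProb_nonneg h0 h1 _ _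
  have hf : ∀ e, 0 ≤ traceProb q (Xb (xD D) e) t := fun e => traceProb_nonneg h0 h1 _ _
  have hWpos : (0 : ℝ) < W := by exact_mod_cast hW
  -- first reduction
  have h2 : C.Gs r ≤ ∑ d ∈ natSites D, (V (d - 1) + V d) := by
    rw [hC, chainS_Gs]
    refine le_trans (sum_le_sum_of_subset_of_nonneg (runEnds_sub D hD1 (2 * A)) (fun e _ _ => hf e)) ?_
    refine le_trans (sum_biUnion_le_sum _ _ hf) ?_
    apply sum_le_sum
    intro d hdS
    have hX : ∀ T, traceProb q (Xb (xD D) (2 * T)) t = V T := by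
      intro T
      simp only [hV]
      rw [Xb_even]
    have hd1 : 1 ≤ (d : ℤ) := hD1 _ ((natSites_spec hD0).mp hdS)
    have hd : 2 * d ≠ 2 * (d - 1) := by omega
    rw [sum_pair hd, hX, hX]
    linarith
  -- near bound for each site
  have h3 : ∀ d ∈ natSites D, q ^ 4 * (W : ℝ) * (V (d - 1) + V d) ≤
      C₁ * ∑ T ∈ Icc (d - W - 1) (d + W + 2), V T := by
    intro d hd
    have hdD := (natSites_spec hD0).mp hd
    have hdδ : δ ≤ d := by
      have := (hsites _ hdD).1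
      omega
    apply hnear δ W D d t (by omega) hW hW2 (by omega) hdδ hdD
    intro d' hd' hne
    exact hsp d' hd' d hdD hne
  -- disjointness
  have hdisj : (natSites D : Set ℕ).PairwiseDisjoint (fun d => Icc (d - W - 1) (d + W + 2)) := by
    intro d hd d' hd' hne
    simp only [Function.onFun]
    rw [Finset.disjoint_left]
    intro T hT hT'
    rw [mem_Icc] at hT hT'
    have hdD := (natSites_spec hD0).mp (mem_coe.mp hd)
    have hdD' := (natSites_spec hD0).mp (mem_coe.mp hd')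
    have hne2 : (d : ℤ) ≠ d' := by exact_mod_cast hne
    have h4 := hsp _ hdD _ hdD' hne2
    have hdδ : δ ≤ d := by
      have := (hsites _ hdD).1
      omega
    have hdδ' : δ ≤ d' := by
      have := (hsites _ hdD').1
      omega
    rcases lt_or_ge (d : ℤ) d' with hlt | hge
    · rw [abs_of_neg (by omega)] at h4
      omega
    · rw [abs_of_nonneg (by omega)] at h4
      omega
  have hsub : (natSites D).biUnion (fun d => Icc (d - W - 1) (d + W + 2)) ⊆ range A := by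
    intro T hT
    obtain ⟨d, hd, hT'⟩ := mem_biUnion.mp hT
    rw [mem_Icc] at hT'
    rw [mem_range]
    have hdD := (natSites_spec hD0).mp hd
    have := (hsites _ hdD).2
    omega
  have h4 : ∑ d ∈ natSites D, ∑ T ∈ Icc (d - W - 1) (d + W + 2), V T ≤ ∑ T ∈ range A, V T := by
    rw [← sum_biUnion hdisj]
    exact sum_le_sum_of_subset_of_nonneg hsub (fun T _ _ => hV0 T)
  -- even positions inside all positions
  have h5 : ∑ T ∈ range A, V T ≤ ∑ b ∈ range (2 * A + 1), traceProb q (Xb (xD D) b) t := by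
    have hinj : Set.InjOn (fun T : ℕ => 2 * T) (range A : Set ℕ) := by
      intro a _ b _ hab
      simp only at hab
      omega
    have e : ∑ T ∈ range A, V T = ∑ b ∈ (range A).image (fun T : ℕ => 2 * T), traceProb q (Xb (xD D) b) t := by
      rw [sum_image hinj]
      apply sum_congr rfl
      intro T _
      simp only [hV]
      rw [Xb_even]
    rw [e]
    apply sum_le_sum_of_subset_of_nonneg
    · intro b hb
      obtain ⟨T, hT, rfl⟩ := mem_image.mp hb
      rw [mem_range] at hT ⊢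
      omega
    · intro b _ _
      exact hf b
  have h6 := chainS_sum_G (xD D) (2 * A) h0 h1 (xD_zero D) r (N := 2 * A) le_rfl
  have hq4 : 0 < q ^ 4 := by positivity
  have h7 : q ^ 4 * (W : ℝ) * C.Gs r ≤ C₁ * ((1 / (1 - q)) * C.Pre r) := by
    calc q ^ 4 * (W : ℝ) * C.Gs r ≤ q ^ 4 * (W : ℝ) * ∑ d ∈ natSites D, (V (d - 1) + V d) :=
          mul_le_mul_of_nonneg_left h2 (by positivity)
      _ = ∑ d ∈ natSites D, q ^ 4 * (W : ℝ) * (V (d - 1) + V d) := by rw [mul_sum]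
      _ ≤ ∑ d ∈ natSites D, C₁ * ∑ T ∈ Icc (d - W - 1) (d + W + 2), V T := sum_le_sum h3
      _ = C₁ * ∑ d ∈ natSites D, ∑ T ∈ Icc (d - W - 1) (d + W + 2), V T := by rw [mul_sum]
      _ ≤ C₁ * ((1 / (1 - q)) * C.Pre r) :=
          mul_le_mul_of_nonneg_left (le_trans h4 (le_trans h5 h6)) hC₁.le
  have hP : 0 ≤ C.Pre r := C.Pre_nonneg r
  have hGs : C.Gs r ≤ (C₁ * (1 / (1 - q)) / q ^ 4 / W) * C.Pre r := by
    have e : (C₁ * (1 / (1 - q)) / q ^ 4 / W) * C.Pre r =
        (C₁ * ((1 / (1 - q)) * C.Pre r)) / (q ^ 4 * (W : ℝ)) := by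
      field_simp
    rw [e, le_div_iff₀ (by positivity)]
    linarith
  refine le_trans hGs ?_
  apply mul_le_mul_of_nonneg_right _ hP
  apply div_le_div_of_nonneg_right _ hWpos.le
  have : 0 ≤ C₁ * (1 / (1 - q)) / q ^ 4 := by positivity
  linarith

end spread

end Vale.Agent.Lib.P321
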