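import Vale.Agent.Lib.P321.Basic
import Vale.Agent.Lib.P321.Defs

/-!
P321: two-point method. Hellinger distance between trace laws, tensorisation, and padding.
-/

namespace Vale.Agent.Lib.P321

open Finset

/-- Squared Hellinger distance of the trace laws of `x`, `y` (all traces have length at most the
larger length, `B` is any bound). -/
noncomputable def Hell (q : ℝ) (B : ℕ) (x y : Word) : ℝ :=
  ∑ t ∈ W B, (√(traceProb q x t) - √(traceProb q y t)) ^ 2

theorem traceProb_nonneg {q : ℝ} (h0 : 0 < q) (h1 : q < 1) (x t : Word) : 0 ≤ traceProb q x t := by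
  unfold traceProb
  have : 0 ≤ 1 - q := by linarith
  positivity

theorem count_sublists_of_long {x t : Word} (h : x.length < t.length) : x.sublists.count t = 0 := by
  apply List.count_eq_zero_of_not_mem
  intro hm
  have := (List.mem_sublists.mp hm).length_le
  omega

/-- Traces longer than the string have probability zero. -/
theorem traceProb_of_long {q : ℝ} {x t : Word} (h : x.length < t.length) : traceProb q x t = 0 := by
  unfold traceProb
  simp [count_sublists_of_long h]

/-- The part of a function on words seen through the last letter `a`. -/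
noncomputable def lastPart (a : Bool) (f : Word → ℝ) (t : Word) : ℝ :=
  if t.getLast? = some a then f t.dropLast else 0

theorem lastPart_append (a : Bool) (f : Word → ℝ) (s : Word) : lastPart a f (s ++ [a]) = f s := by
  unfold lastPart
  simp

theorem lastPart_sum (a : Bool) (f : Word → ℝ) (B : ℕ) :
    ∑ t ∈ W (B + 1), lastPart a f t = ∑ s ∈ W B, f s := by
  unfold lastPart
  rw [← sum_filter]
  apply sum_nbij' (fun t => t.dropLast) (fun s => s ++ [a])
  · intro t ht
    rw [mem_filter, mem_W] at ht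
    rw [mem_W, List.length_dropLast]
    omega
  · intro s hs
    rw [mem_W] at hs
    rw [mem_filter, mem_W]
    simp
    omega
  · intro t ht
    rw [mem_filter] at ht
    exact List.dropLast_append_getLast? _ ht.2
  · intro s _
    simp
  · intro t _
    rfl

theorem traceProb_concat (q : ℝ) (x : Word) (a : Bool) (t : Word) :
    traceProb q (x ++ [a]) t = q * traceProb q x t + (1 - q) * lastPart a (traceProb q x) t := by
  have hN : ∀ s : Word, (x.sublists.count s : ℝ) * q ^ (x.length + 1 - s.length) =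
      q * ((x.sublists.count s : ℝ) * q ^ (x.length - s.length)) := by
    intro s
    rcases Nat.lt_or_ge x.length s.length with h | h
    · rw [count_sublists_of_long h]
      simp
    · have e : x.length + 1 - s.length = (x.length - s.length) + 1 := by omega
      rw [e, pow_succ]
      ring
  have hc : (x ++ [a]).sublists.count t = x.sublists.count t +
      (x.sublists.map (fun s => s ++ [a])).count t := by
    rw [List.sublists_concat, List.count_append]
  have hlen : (x ++ [a]).length = x.length + 1 := by simp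
  by_cases hs : t.getLast? = some a
  · have ht : t.dropLast ++ [a] = t := List.dropLast_append_getLast? _ hs
    obtain ⟨s, hs'⟩ : ∃ s, s = t.dropLast := ⟨_, rfl⟩
    rw [← hs'] at ht
    subst ht
    rw [lastPart_append]
    have hinj : Function.Injective (fun s : Word => s ++ [a]) := by
      intro u v huv
      exact List.append_cancel_right huv
    have hc2 : (x.sublists.map (fun s => s ++ [a])).count (s ++ [a]) = x.sublists.count s :=
      List.count_map_of_injective _ _ hinj s
    rw [hc2] at hc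
    unfold traceProb
    rw [hc, hlen]
    push_cast
    have e : (s ++ [a]).length = s.length + 1 := by simp
    have h2 := hN (s ++ [a])
    have e3 : x.length + 1 - (s.length + 1) = x.length - s.length := by omega
    rw [e] at h2 ⊢
    rw [e3] at ⊢
    rw [e3] at h2
    linear_combination (1 - q) ^ (s.length + 1) * h2
  · have hc2 : (x.sublists.map (fun s => s ++ [a])).count t = 0 := by
      apply List.count_eq_zero_of_not_mem
      intro hm
      obtain ⟨s, _, rfl⟩ := List.mem_map.mp hm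
      exact hs (by simp)
    rw [hc2] at hc
    unfold lastPart
    rw [if_neg hs]
    unfold traceProb
    rw [hc, hlen]
    have h2 := hN t
    push_cast
    linear_combination (1 - q) ^ t.length * h2

/-- Total mass one. -/
theorem traceProb_sum {q : ℝ} (x : Word) {B : ℕ} (hB : x.length ≤ B) :
    ∑ t ∈ W B, traceProb q x t = 1 := by
  induction x using List.reverseRecOn generalizing B with
  | nil =>
    have h : ∀ t ∈ W B, traceProb q [] t = if t = [] then 1 else 0 := by
      intro t _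
      unfold traceProb
      cases t with
      | nil => simp
      | cons a s => simp
    rw [sum_congr rfl h, sum_ite_eq']
    rw [if_pos (mem_W.mpr (by simp))]
  | append_singleton x a ih =>
    obtain ⟨B', rfl⟩ : ∃ B', B = B' + 1 := ⟨B - 1, by simp at hB; omega⟩
    have hB' : x.length ≤ B' := by simp at hB; omega
    have h1 := ih (B := B' + 1) (by omega)
    have h2 := ih hB'
    have e : ∀ t ∈ W (B' + 1), traceProb q (x ++ [a]) t =
        q * traceProb q x t + (1 - q) * lastPart a (traceProb q x) t :=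
      fun t _ => traceProb_concat q x a t
    rw [sum_congr rfl e, sum_add_distrib, ← mul_sum, ← mul_sum, lastPart_sum, h1, h2]
    ring

/-- The Hellinger distance in terms of the affinity. -/
theorem Hell_eq {q : ℝ} (h0 : 0 < q) (h1 : q < 1) {B : ℕ} {x y : Word} (hx : x.length ≤ B)
    (hy : y.length ≤ B) :
    Hell q B x y = 2 - 2 * ∑ t ∈ W B, √(traceProb q x t) * √(traceProb q y t) := by
  unfold Hell
  have e : ∀ t ∈ W B, (√(traceProb q x t) - √(traceProb q y t)) ^ 2 =
      traceProb q x t + traceProb q y t - 2 * (√(traceProb q x t) * √(traceProb q y t)) := by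
    intro t _
    have h2 := Real.sq_sqrt (traceProb_nonneg h0 h1 x t)
    have h3 := Real.sq_sqrt (traceProb_nonneg h0 h1 y t)
    nlinarith
  rw [sum_congr rfl e, sum_sub_distrib, sum_add_distrib, traceProb_sum x hx, traceProb_sum y hy,
    ← mul_sum]
  ring

theorem sqrt_add_mul_sqrt_add_ge {u v u' v' : ℝ} (hu : 0 ≤ u) (hv : 0 ≤ v) (hu' : 0 ≤ u') (hv' : 0 ≤ v') :
    √u * √u' + √v * √v' ≤ √(u + v) * √(u' + v') := by
  rw [← Real.sqrt_mul (by positivity : 0 ≤ u + v) (u' + v')]
  apply Real.le_sqrt_of_sq_le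
  have h1 := Real.sq_sqrt hu
  have h2 := Real.sq_sqrt hv
  have h3 := Real.sq_sqrt hu'
  have h4 := Real.sq_sqrt hv'
  nlinarith [sq_nonneg (√u * √v' - √v * √u')]

/-- Padding: appending the same letter does not increase the Hellinger distance. -/
theorem Hell_append_le {q : ℝ} (h0 : 0 < q) (h1 : q < 1) (x y : Word) (hlen : x.length = y.length)
    (a : Bool) :
    Hell q (x.length + 1) (x ++ [a]) (y ++ [a]) ≤ Hell q x.length x y := by
  have hxa : (x ++ [a]).length ≤ x.length + 1 := by simp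
  have hya : (y ++ [a]).length ≤ x.length + 1 := by simp [hlen]
  rw [Hell_eq h0 h1 hxa hya, Hell_eq h0 h1 le_rfl (le_of_eq hlen.symm)]
  set p : ℝ := 1 - q with hp
  have hp0 : 0 < p := by rw [hp]; linarith
  set P := traceProb q x with hP
  set Q := traceProb q y with hQ
  have hPn : ∀ t, 0 ≤ P t := traceProb_nonneg h0 h1 x
  have hQn : ∀ t, 0 ≤ Q t := traceProb_nonneg h0 h1 y
  have hlast : ∀ (f : Word → ℝ), (∀ t, 0 ≤ f t) → ∀ t, 0 ≤ lastPart a f t := by
    intro f hf t
    unfold lastPart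
    split_ifs
    · exact hf _
    · exact le_rfl
  have hpt : ∀ t : Word, q * (√(P t) * √(Q t)) + p * lastPart a (fun s => √(P s) * √(Q s)) t ≤
      √(traceProb q (x ++ [a]) t) * √(traceProb q (y ++ [a]) t) := by
    intro t
    rw [traceProb_concat, traceProb_concat]
    have h2 := sqrt_add_mul_sqrt_add_ge (mul_nonneg h0.le (hPn t))
      (mul_nonneg hp0.le (hlast P hPn t)) (mul_nonneg h0.le (hQn t)) (mul_nonneg hp0.le (hlast Q hQn t))
    refine le_trans (le_of_eq ?_) h2
    have hqq : √q * √q = q := Real.mul_self_sqrt h0.le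
    have hpp : √p * √p = p := Real.mul_self_sqrt hp0.le
    rw [Real.sqrt_mul h0.le, Real.sqrt_mul h0.le, Real.sqrt_mul hp0.le, Real.sqrt_mul hp0.le]
    have e : lastPart a (fun s => √(P s) * √(Q s)) t = √(lastPart a P t) * √(lastPart a Q t) := by
      unfold lastPart
      split_ifs <;> simp
    rw [e]
    calc q * (√(P t) * √(Q t)) + p * (√(lastPart a P t) * √(lastPart a Q t))
        = (√q * √q) * (√(P t) * √(Q t)) + (√p * √p) * (√(lastPart a P t) * √(lastPart a Q t)) := by
          rw [hqq, hpp]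
      _ = _ := by ring
  have hsum := sum_le_sum (fun t (_ : t ∈ W (x.length + 1)) => hpt t)
  rw [sum_add_distrib, ← mul_sum, ← mul_sum, lastPart_sum] at hsum
  have hsub : ∑ t ∈ W x.length, √(P t) * √(Q t) ≤ ∑ t ∈ W (x.length + 1), √(P t) * √(Q t) := by
    apply sum_le_sum_of_subset_of_nonneg
    · intro t ht
      rw [mem_W] at ht ⊢
      omega
    · intro t _ _
      positivity
  have h3 : q * ∑ t ∈ W x.length, √(P t) * √(Q t) ≤ q * ∑ t ∈ W (x.length + 1), √(P t) * √(Q t) :=
    mul_le_mul_of_nonneg_left hsub h0.le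
  have h4 : q + p = 1 := by rw [hp]; ring
  nlinarith

/-- Abstract two-point inequality. -/
theorem two_point_abstract {α : Type*} [DecidableEq α] {m : ℕ} (Wd : Finset α) (A B : α → ℝ)
    (hA : ∀ t, 0 ≤ A t) (hB : ∀ t, 0 ≤ B t) (hA1 : ∑ t ∈ Wd, A t ^ 2 = 1) (hB1 : ∑ t ∈ Wd, B t ^ 2 = 1)
    (φ ψ : (Fin m → α) → ℝ) (hφ : ∀ ts, 0 ≤ φ ts) (hψ : ∀ ts, 0 ≤ ψ ts) (hle : ∀ ts, φ ts + ψ ts ≤ 1)
    (h1 : 2 / 3 ≤ ∑ ts ∈ Fintype.piFinset (fun _ : Fin m => Wd), (∏ i, A (ts i) ^ 2) * φ ts)
    (h2 : 2 / 3 ≤ ∑ ts ∈ Fintype.piFinset (fun _ : Fin m => Wd), (∏ i, B (ts i) ^ 2) * ψ ts) :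
    1 ≤ 9 * (m : ℝ) * ∑ t ∈ Wd, (A t - B t) ^ 2 := by
  set Ω := Fintype.piFinset (fun _ : Fin m => Wd) with hΩ
  set a : (Fin m → α) → ℝ := fun ts => ∏ i, A (ts i) with ha
  set b : (Fin m → α) → ℝ := fun ts => ∏ i, B (ts i) with hb
  have ha0 : ∀ ts, 0 ≤ a ts := fun ts => prod_nonneg (fun i _ => hA _)
  have hb0 : ∀ ts, 0 ≤ b ts := fun ts => prod_nonneg (fun i _ => hB _)
  have hprod : ∀ (f : α → ℝ), ∑ ts ∈ Ω, ∏ i, f (ts i) = (∑ t ∈ Wd, f t) ^ m := by
    intro f
    have := Finset.prod_univ_sum (fun _ : Fin m => Wd) (fun _ t => f t)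
    rw [← hΩ] at this
    rw [← this]
    simp
  have hsa : ∑ ts ∈ Ω, a ts ^ 2 = 1 := by
    have := hprod (fun t => A t ^ 2)
    rw [hA1, one_pow] at this
    rw [← this]
    apply sum_congr rfl
    intro ts _
    rw [ha]
    simp only
    rw [prod_pow]
  have hsb : ∑ ts ∈ Ω, b ts ^ 2 = 1 := by
    have := hprod (fun t => B t ^ 2)
    rw [hB1, one_pow] at this
    rw [← this]
    apply sum_congr rfl
    intro ts _
    rw [hb]
    simp only
    rw [prod_pow]
  set BC : ℝ := ∑ t ∈ Wd, A t * B t with hBC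
  have hsab : ∑ ts ∈ Ω, a ts * b ts = BC ^ m := by
    have := hprod (fun t => A t * B t)
    rw [← hBC] at this
    rw [← this]
    apply sum_congr rfl
    intro ts _
    rw [ha, hb]
    simp only
    rw [prod_mul_distrib]
  have hBC0 : 0 ≤ BC := sum_nonneg (fun t _ => mul_nonneg (hA t) (hB t))
  have hH : ∑ t ∈ Wd, (A t - B t) ^ 2 = 2 - 2 * BC := by
    have e : ∀ t ∈ Wd, (A t - B t) ^ 2 = A t ^ 2 + B t ^ 2 - 2 * (A t * B t) := by
      intro t _
      ring
    rw [sum_congr rfl e, sum_sub_distrib, sum_add_distrib, hA1, hB1, ← mul_sum]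
    ring
  have hH0 : 0 ≤ ∑ t ∈ Wd, (A t - B t) ^ 2 := sum_nonneg (fun t _ => sq_nonneg _)
  have hBC1 : BC ≤ 1 := by linarith
  -- success bound
  have hsucc : (4 : ℝ) / 3 ≤ ∑ ts ∈ Ω, ((a ts ^ 2 + b ts ^ 2) + |a ts ^ 2 - b ts ^ 2|) / 2 := by
    have h3 : ∀ ts ∈ Ω, (∏ i, A (ts i) ^ 2) * φ ts + (∏ i, B (ts i) ^ 2) * ψ ts ≤
        ((a ts ^ 2 + b ts ^ 2) + |a ts ^ 2 - b ts ^ 2|) / 2 := by
      intro ts _
      have e1 : ∏ i, A (ts i) ^ 2 = a ts ^ 2 := by rw [ha]; simp only; rw [prod_pow]
      have e2 : ∏ i, B (ts i) ^ 2 = b ts ^ 2 := by rw [hb]; simp only; rw [prod_pow]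
      rw [e1, e2]
      have h4 := hφ ts
      have h5 := hψ ts
      have h6 := hle ts
      have hx := sq_nonneg (a ts)
      have hy := sq_nonneg (b ts)
      have hmax : ∀ u v : ℝ, 0 ≤ u → 0 ≤ v → u * φ ts + v * ψ ts ≤ ((u + v) + |u - v|) / 2 := by
        intro u v hu hv
        rcases le_total u v with huv | huv
        · rw [abs_of_nonpos (by linarith)]
          have : u * φ ts + v * ψ ts ≤ v * φ ts + v * ψ ts := by nlinarith
          nlinarith
        · rw [abs_of_nonneg (by linarith)]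
          have : u * φ ts + v * ψ ts ≤ u * φ ts + u * ψ ts := by nlinarith
          nlinarith
      exact hmax _ _ hx hy
    have h4 := sum_le_sum h3
    rw [sum_add_distrib] at h4
    linarith
  have hsucc2 : (2 : ℝ) / 3 ≤ ∑ ts ∈ Ω, |a ts ^ 2 - b ts ^ 2| := by
    have e : ∑ ts ∈ Ω, ((a ts ^ 2 + b ts ^ 2) + |a ts ^ 2 - b ts ^ 2|) / 2 =
        (∑ ts ∈ Ω, a ts ^ 2 + ∑ ts ∈ Ω, b ts ^ 2 + ∑ ts ∈ Ω, |a ts ^ 2 - b ts ^ 2|) / 2 := by
      rw [← sum_add_distrib, ← sum_add_distrib, sum_div]
    rw [e, hsa, hsb] at hsucc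
    linarith
  -- Cauchy Schwarz
  set c : ℝ := BC ^ m with hc
  have hCS : (∑ ts ∈ Ω, |a ts ^ 2 - b ts ^ 2|) ^ 2 ≤ (2 - 2 * c) * (2 + 2 * c) := by
    have e : ∀ ts ∈ Ω, |a ts ^ 2 - b ts ^ 2| = |a ts - b ts| * (a ts + b ts) := by
      intro ts _
      have : a ts ^ 2 - b ts ^ 2 = (a ts - b ts) * (a ts + b ts) := by ring
      rw [this, abs_mul, abs_of_nonneg (add_nonneg (ha0 ts) (hb0 ts))]
    rw [sum_congr rfl e]
    refine le_trans (sum_mul_sq_le_sq_mul_sq _ _ _) ?_
    have e1 : ∑ ts ∈ Ω, |a ts - b ts| ^ 2 = 2 - 2 * c := by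
      have : ∀ ts ∈ Ω, |a ts - b ts| ^ 2 = a ts ^ 2 + b ts ^ 2 - 2 * (a ts * b ts) := by
        intro ts _
        rw [sq_abs]
        ring
      rw [sum_congr rfl this, sum_sub_distrib, sum_add_distrib, hsa, hsb, ← mul_sum, hsab]
      ring
    have e2 : ∑ ts ∈ Ω, (a ts + b ts) ^ 2 = 2 + 2 * c := by
      have : ∀ ts ∈ Ω, (a ts + b ts) ^ 2 = a ts ^ 2 + b ts ^ 2 + 2 * (a ts * b ts) := by
        intro ts _
        ring
      rw [sum_congr rfl this, sum_add_distrib, sum_add_distrib, hsa, hsb, ← mul_sum, hsab]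
      ring
    rw [e1, e2]
  have h5 : (1 : ℝ) / 9 ≤ 1 - c ^ 2 := by
    have h6 : ((2 : ℝ) / 3) ^ 2 ≤ (∑ ts ∈ Ω, |a ts ^ 2 - b ts ^ 2|) ^ 2 :=
      pow_le_pow_left₀ (by norm_num) hsucc2 2
    nlinarith
  -- Bernoulli
  have h7 : 1 + ((2 * m : ℕ) : ℝ) * (BC - 1) ≤ (1 + (BC - 1)) ^ (2 * m) :=
    one_add_mul_le_pow (by linarith) _
  have h8 : c ^ 2 = BC ^ (2 * m) := by
    rw [hc, ← pow_mul, mul_comm]
  have h9 : (1 + (BC - 1)) = BC := by ring
  rw [h9, ← h8] at h7
  rw [hH]
  push_cast at h7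
  nlinarith

/-- Two-point bound: a successful estimator on two distinct strings needs
`m ≥ 1/(36 H²)`, written without division. -/
theorem two_point {q : ℝ} (h0 : 0 < q) (h1 : q < 1) {n m : ℕ} (E : Estimator n m)
    (x y : Fin n → Bool) (hxy : x ≠ y) (hx : 2 / 3 ≤ successProb q E x)
    (hy : 2 / 3 ≤ successProb q E y) :
    1 ≤ 36 * (m : ℝ) * Hell q n (List.ofFn x) (List.ofFn y) := by
  have hlenx : (List.ofFn x).length = n := by simp
  have hleny : (List.ofFn y).length = n := by simp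
  set A : Word → ℝ := fun t => √(traceProb q (List.ofFn x) t) with hA
  set B : Word → ℝ := fun t => √(traceProb q (List.ofFn y) t) with hB
  have hsqA : ∀ t, A t ^ 2 = traceProb q (List.ofFn x) t := fun t =>
    Real.sq_sqrt (traceProb_nonneg h0 h1 _ _)
  have hsqB : ∀ t, B t ^ 2 = traceProb q (List.ofFn y) t := fun t =>
    Real.sq_sqrt (traceProb_nonneg h0 h1 _ _)
  have hA1 : ∑ t ∈ W n, A t ^ 2 = 1 := by
    simp only [hsqA]
    exact traceProb_sum _ (le_of_eq hlenx)
  have hB1 : ∑ t ∈ W n, B t ^ 2 = 1 := by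
    simp only [hsqB]
    exact traceProb_sum _ (le_of_eq hleny)
  have htsum : ∀ z : Fin n → Bool, successProb q E z =
      ∑ ts ∈ Fintype.piFinset (fun _ : Fin m => W n), (∏ i, traceProb q (List.ofFn z) (ts i)) * E.prob ts z := by
    intro z
    unfold successProb
    apply tsum_eq_sum
    intro ts hts
    rw [Fintype.mem_piFinset] at hts
    push Not at hts
    obtain ⟨i, hi⟩ := hts
    have hlong : (List.ofFn z).length < (ts i).length := by
      rw [mem_W] at hi
      simp only [List.length_ofFn]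
      omega
    rw [prod_eq_zero (mem_univ i) (traceProb_of_long hlong)]
    ring
  rw [htsum] at hx hy
  have hsA : ∀ ts : Fin m → Word, ∏ i, A (ts i) ^ 2 = ∏ i, traceProb q (List.ofFn x) (ts i) := by
    intro ts
    exact prod_congr rfl (fun i _ => hsqA _)
  have hsB : ∀ ts : Fin m → Word, ∏ i, B (ts i) ^ 2 = ∏ i, traceProb q (List.ofFn y) (ts i) := by
    intro ts
    exact prod_congr rfl (fun i _ => hsqB _)
  have hle : ∀ ts, E.prob ts x + E.prob ts y ≤ 1 := by
    intro ts
    have h3 : ∑ z ∈ ({x, y} : Finset (Fin n → Bool)), E.prob ts z ≤ ∑ z, E.prob ts z :=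
      sum_le_sum_of_subset_of_nonneg (subset_univ _) (fun z _ _ => E.nonneg ts z)
    rw [sum_pair hxy, E.sum_one] at h3
    exact h3
  have hmain := two_point_abstract (W n) A B (fun _ => Real.sqrt_nonneg _) (fun _ => Real.sqrt_nonneg _)
    hA1 hB1 (fun ts => E.prob ts x) (fun ts => E.prob ts y) (fun ts => E.nonneg ts x)
    (fun ts => E.nonneg ts y) hle
    (by simpa only [hsA] using hx) (by simpa only [hsB] using hy)
  have hH : Hell q n (List.ofFn x) (List.ofFn y) = ∑ t ∈ W n, (A t - B t) ^ 2 := rfl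
  rw [hH]
  have h4 : 0 ≤ (m : ℝ) * ∑ t ∈ W n, (A t - B t) ^ 2 :=
    mul_nonneg (by positivity) (sum_nonneg (fun t _ => sq_nonneg _))
  nlinarith

end Vale.Agent.Lib.P321
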