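import Vale.Agent.Lib.P321.LTChain
import Vale.Agent.Lib.P321.TwoPoint

/-!
P321, lower tail module: the chain attached to a string, with the alternating continuation after
its end carried by two extra states.
-/

namespace Vale.Agent.Lib.P321

open Finset

/-- Initial segments of a string given by its letters. -/
def Xb (x : ℕ → Bool) : ℕ → Word
  | 0 => []
  | b + 1 => Xb x b ++ [x (b + 1)]

theorem Xb_succ (x : ℕ → Bool) (b : ℕ) : Xb x (b + 1) = Xb x b ++ [x (b + 1)] := rfl

@[simp] theorem length_Xb (x : ℕ → Bool) (b : ℕ) : (Xb x b).length = b := by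
  induction b with
  | zero => rfl
  | succ b ih => simp [Xb, ih]

theorem lastPart_append' (c a : Bool) (f : Word → ℝ) (s : Word) :
    lastPart c f (s ++ [a]) = if a = c then f s else 0 := by
  unfold lastPart
  by_cases h : a = c
  · subst h; simp
  · simp [h]

theorem lastPart_nil (c : Bool) (f : Word → ℝ) : lastPart c f [] = 0 := by
  simp [lastPart]

theorem flipW_rec {q : ℝ} (h0 : 0 < q) (c a : Bool) :
    flipW q c a = (if (!c) = a then 1 - q else 0) + q * flipW q (!c) a := by
  have : 1 + q ≠ 0 := by positivity
  cases c <;> cases a <;> simp [flipW] <;> field_simp <;> ring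

section str

variable (q : ℝ) (x : ℕ → Bool) (n : ℕ)

/-- Ends of the alternating runs. -/
def runEnds : Finset ℕ := (range n).filter (fun e => x (e + 1) = x e)

/-- Error bound at a position. -/
noncomputable def gam (b : ℕ) : ℝ := ∑ e ∈ (runEnds x n).filter (fun e => b ≤ e), q ^ (e - b)

/-- The extra state carrying the letter `a`. -/
def star (a : Bool) : ℕ := if a then n + 2 else n + 1

/-- Letter of a state. -/
def ltS (b : ℕ) : Bool := if b ≤ n then x b else decide (b = n + 2)

/-- The kernel. -/
noncomputable def kerS (b : ℕ) (a : Bool) (b' : ℕ) : ℝ :=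
  if b ≤ n then
    if b' ≤ n then (if b < b' ∧ x b' = a then (1 - q) * q ^ (b' - b - 1) else 0)
    else if b' = star n a then q ^ (n - b) * flipW q (x n) a else 0
  else if b' = star n a then flipW q (ltS x n b) a else 0

/-- Sum over the true positions after `b`. -/
noncomputable def sumPos (b : ℕ) (a : Bool) : ℝ :=
  ∑ b' ∈ range (n + 1), (if b < b' ∧ x b' = a then (1 - q) * q ^ (b' - b - 1) else 0)

/-- Total one step weight of a letter from a position. -/
noncomputable def Ps (b : ℕ) (a : Bool) : ℝ := sumPos q x n b a + q ^ (n - b) * flipW q (x n) a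

theorem star_gt (a : Bool) : n < star n a := by
  unfold star
  split_ifs <;> omega

theorem star_le (a : Bool) : star n a < n + 3 := by
  unfold star
  split_ifs <;> omega

theorem ltS_star (a : Bool) : ltS x n (star n a) = a := by
  unfold ltS star
  cases a <;> simp

theorem sum_range_three (f : ℕ → ℝ) :
    ∑ b ∈ range (n + 3), f b = ∑ b ∈ range (n + 1), f b + f (n + 1) + f (n + 2) := by
  rw [sum_range_succ, sum_range_succ]

theorem kerS_sum_pos {b : ℕ} (hb : b ≤ n) (a : Bool) :
    ∑ b' ∈ range (n + 3), kerS q x n b a b' = Ps q x n b a := by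
  rw [sum_range_three]
  have e1 : ∑ b' ∈ range (n + 1), kerS q x n b a b' = sumPos q x n b a := by
    unfold sumPos
    apply sum_congr rfl
    intro b' hb'
    have : b' ≤ n := by rw [mem_range] at hb'; omega
    simp only [kerS, if_pos hb, if_pos this]
  rw [e1]
  unfold Ps
  simp only [kerS, if_pos hb]
  cases a <;> simp [star]

theorem kerS_sum_star {b : ℕ} (hb : n < b) (a : Bool) :
    ∑ b' ∈ range (n + 3), kerS q x n b a b' = flipW q (ltS x n b) a := by
  rw [sum_range_three]
  have e1 : ∑ b' ∈ range (n + 1), kerS q x n b a b' = 0 := by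
    apply sum_eq_zero
    intro b' hb'
    have h2 : b' ≠ star n a := by
      have := star_gt n a
      rw [mem_range] at hb'
      omega
    simp [kerS, not_le.mpr hb, h2]
  rw [e1]
  simp only [kerS, if_neg (not_le.mpr hb)]
  cases a <;> simp [star]

variable {q}

theorem sumPos_rec (h0 : 0 < q) {b : ℕ} (hb : b < n) (a : Bool) :
    sumPos q x n b a = (if x (b + 1) = a then 1 - q else 0) + q * sumPos q x n (b + 1) a := by
  unfold sumPos
  rw [mul_sum]
  have hpt : ∀ b' ∈ range (n + 1), (if b < b' ∧ x b' = a then (1 - q) * q ^ (b' - b - 1) else 0) =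
      (if b' = b + 1 then (if x (b + 1) = a then 1 - q else 0) else 0) +
      q * (if b + 1 < b' ∧ x b' = a then (1 - q) * q ^ (b' - (b + 1) - 1) else 0) := by
    intro b' _
    by_cases h1 : b' = b + 1
    · subst h1
      simp
    · rw [if_neg h1, zero_add]
      by_cases h2 : b < b'
      · have h3 : b + 1 < b' := by omega
        simp only [h2, h3, true_and]
        split_ifs
        · obtain ⟨k, rfl⟩ : ∃ k, b' = b + 1 + 1 + k := ⟨b' - (b + 1 + 1), by omega⟩
          have e1 : b + 1 + 1 + k - b - 1 = k + 1 := by omega
          have e2 : b + 1 + 1 + k - (b + 1) - 1 = k := by omega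
          rw [e1, e2, pow_succ]
          ring
        · ring
      · have h3 : ¬ (b + 1 < b') := by omega
        simp [h2, h3]
  rw [sum_congr rfl hpt, sum_add_distrib, sum_ite_eq' (range (n + 1)) (b + 1)]
  rw [if_pos (mem_range.mpr (by omega))]

theorem Ps_rec (h0 : 0 < q) {b : ℕ} (hb : b < n) (a : Bool) :
    Ps q x n b a = (if x (b + 1) = a then 1 - q else 0) + q * Ps q x n (b + 1) a := by
  unfold Ps
  rw [sumPos_rec x n h0 hb]
  have e : n - b = (n - (b + 1)) + 1 := by omega
  rw [e, pow_succ]
  ring

theorem sumPos_top (a : Bool) : sumPos q x n n a = 0 := by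
  unfold sumPos
  apply sum_eq_zero
  intro b' hb'
  have : ¬ n < b' := by rw [mem_range] at hb'; omega
  simp [this]

theorem Ps_top (a : Bool) : Ps q x n n a = flipW q (x n) a := by
  unfold Ps
  rw [sumPos_top]
  simp

theorem Ps_mass (h0 : 0 < q) {b : ℕ} (hb : b ≤ n) : Ps q x n b false + Ps q x n b true = 1 := by
  obtain ⟨k, rfl⟩ := Nat.exists_eq_add_of_le hb
  clear hb
  induction k generalizing b with
  | zero =>
    simp only [add_zero, Ps_top]
    exact flipW_sum h0 _
  | succ k ih =>
    have hb : b < b + (k + 1) := by omega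
    rw [Ps_rec x _ h0 hb, Ps_rec x _ h0 hb]
    have := ih (b := b + 1)
    have e : b + 1 + k = b + (k + 1) := by ring
    rw [e] at this
    have h2 : q * Ps q x (b + (k + 1)) (b + 1) false + q * Ps q x (b + (k + 1)) (b + 1) true = q := by
      rw [← mul_add, this, mul_one]
    cases hx : x (b + 1) <;> simp <;> linarith

theorem sumPos_nonneg (h0 : 0 < q) (h1 : q < 1) (b : ℕ) (a : Bool) : 0 ≤ sumPos q x n b a := by
  unfold sumPos
  apply sum_nonneg
  intro b' _
  have : 0 ≤ 1 - q := by linarith
  split_ifs <;> positivity

theorem Ps_nonneg (h0 : 0 < q) (h1 : q < 1) (b : ℕ) (a : Bool) : 0 ≤ Ps q x n b a := by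
  unfold Ps
  have := sumPos_nonneg x n h0 h1 b a
  have := flipW_pos h0 (x n) a
  positivity

theorem Ps_le_one (h0 : 0 < q) (h1 : q < 1) {b : ℕ} (hb : b ≤ n) (a : Bool) : Ps q x n b a ≤ 1 := by
  have h2 := Ps_mass x n h0 hb
  have h3 := Ps_nonneg x n h0 h1 b false
  have h4 := Ps_nonneg x n h0 h1 b true
  cases a <;> linarith

theorem gam_nonneg (h0 : 0 < q) (b : ℕ) : 0 ≤ gam q x n b := by
  unfold gam
  exact sum_nonneg (fun e _ => by positivity)

theorem gam_of_mem {b : ℕ} (h0 : 0 < q) (hb : b ∈ runEnds x n) : 1 ≤ gam q x n b := by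
  unfold gam
  have : q ^ (b - b) ≤ ∑ e ∈ (runEnds x n).filter (fun e => b ≤ e), q ^ (e - b) :=
    single_le_sum (f := fun e => q ^ (e - b)) (fun e _ => by positivity)
      (mem_filter.mpr ⟨hb, le_rfl⟩)
  simpa using this

theorem gam_of_not_mem {b : ℕ} (hb : b ∉ runEnds x n) : gam q x n b = q * gam q x n (b + 1) := by
  unfold gam
  rw [mul_sum]
  have e : (runEnds x n).filter (fun e => b ≤ e) = (runEnds x n).filter (fun e => b + 1 ≤ e) := by
    ext e
    simp only [mem_filter]
    constructor
    · rintro ⟨h1, h2⟩
      refine ⟨h1, ?_⟩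
      have : e ≠ b := by
        rintro rfl
        exact hb h1
      omega
    · rintro ⟨h1, h2⟩
      exact ⟨h1, by omega⟩
  rw [e]
  apply sum_congr rfl
  intro e he
  have h2 := (mem_filter.mp he).2
  have e3 : e - b = (e - (b + 1)) + 1 := by omega
  rw [e3, pow_succ]
  ring

theorem Ps_dev (h0 : 0 < q) (h1 : q < 1) {b : ℕ} (hb : b ≤ n) (a : Bool) :
    |Ps q x n b a - flipW q (x b) a| ≤ gam q x n b := by
  obtain ⟨k, rfl⟩ := Nat.exists_eq_add_of_le hb
  clear hb
  induction k generalizing b with
  | zero =>
    simp only [add_zero, Ps_top, sub_self, abs_zero]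
    exact gam_nonneg x _ h0 b
  | succ k ih =>
    have hb : b < b + (k + 1) := by omega
    by_cases hr : x (b + 1) = x b
    · have hmem : b ∈ runEnds x (b + (k + 1)) := by
        unfold runEnds
        rw [mem_filter, mem_range]
        exact ⟨hb, hr⟩
      have h2 := gam_of_mem x _ (q := q) h0 hmem
      have h3 := Ps_nonneg x (b + (k + 1)) h0 h1 b a
      have h4 := Ps_le_one x (b + (k + 1)) h0 h1 hb.le a
      have h5 := flipW_pos h0 (x b) a
      have h6 := flipW_le_one h0 h1 (x b) a
      refine le_trans ?_ h2
      rw [abs_le]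
      constructor <;> linarith
    · have hnot : b ∉ runEnds x (b + (k + 1)) := by
        unfold runEnds
        rw [mem_filter]
        tauto
      rw [gam_of_not_mem x _ hnot, Ps_rec x _ h0 hb]
      have hflip : x (b + 1) = !(x b) := by
        cases h2 : x (b + 1) <;> cases h3 : x b <;> simp_all
      rw [flipW_rec h0 (x b) a, ← hflip]
      have e : (if x (b + 1) = a then 1 - q else 0) + q * Ps q x (b + (k + 1)) (b + 1) a -
          ((if x (b + 1) = a then 1 - q else 0) + q * flipW q (x (b + 1)) a) =
          q * (Ps q x (b + (k + 1)) (b + 1) a - flipW q (x (b + 1)) a) := by ring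
      rw [e, abs_mul, abs_of_pos h0]
      apply mul_le_mul_of_nonneg_left _ h0.le
      have := ih (b := b + 1)
      have e2 : b + 1 + k = b + (k + 1) := by ring
      rw [e2] at this
      exact this

/-- The chain of a string. -/
noncomputable def chainS (h0 : 0 < q) (h1 : q < 1) (hx : x 0 = true) : HMM q ℕ where
  S := range (n + 3)
  init := fun b => if b = 0 then 1 else 0
  K := kerS q x n
  lt := ltS x n
  g := fun b => if b ≤ n then gam q x n b else 0
  B := fun b => if b ≤ n then ∑ i ∈ range b, gam q x n i else ∑ i ∈ range (n + 1), gam q x n i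
  Bb := ∑ i ∈ range (n + 1), gam q x n i
  init_nonneg := by
    intro b
    split_ifs <;> norm_num
  init_sum := by
    rw [sum_ite_eq' (range (n + 3)) 0, if_pos (mem_range.mpr (by omega))]
  init_letter := by
    intro b hb
    have hb0 : b = 0 := by
      by_contra h
      exact hb (if_neg h)
    subst hb0
    simp [ltS, hx]
  K_nonneg := by
    intro b a b'
    have h2 : 0 ≤ 1 - q := by linarith
    have h3 := flipW_pos h0 (x n) a
    have h4 := flipW_pos h0 (ltS x n b) a
    unfold kerS
    split_ifs <;> positivity
  K_mass := by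
    intro b _
    rcases Nat.lt_or_ge n b with hb | hb
    · rw [kerS_sum_star q x n hb, kerS_sum_star q x n hb]
      exact flipW_sum h0 _
    · rw [kerS_sum_pos q x n hb, kerS_sum_pos q x n hb]
      exact Ps_mass x n h0 hb
  K_letter := by
    intro b a b' hK
    unfold kerS at hK
    by_cases hb' : b' ≤ n
    · have hb2 : b ≤ n := by
        by_contra hb2
        rw [if_neg hb2, if_neg] at hK
        · exact hK rfl
        · have := star_gt n a
          omega
      rw [if_pos hb2, if_pos hb', ite_ne_right_iff] at hK
      simp only [ltS, if_pos hb']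
      exact hK.1.2
    · have hs : b' = star n a := by
        by_contra hs
        split_ifs at hK <;> simp_all
      rw [hs]
      exact ltS_star x n a
  g_nonneg := by
    intro b
    have := gam_nonneg x n h0 b
    split_ifs
    · exact this
    · exact le_rfl
  g_bound := by
    intro b _ a
    rcases Nat.lt_or_ge n b with hb | hb
    · rw [kerS_sum_star q x n hb]
      simp [not_le.mpr hb]
    · rw [kerS_sum_pos q x n hb]
      simp only [ltS, if_pos hb]
      exact Ps_dev x n h0 h1 hb a
  B_nonneg := by
    intro b _
    have h : ∀ s : Finset ℕ, 0 ≤ ∑ i ∈ s, gam q x n i := fun s =>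
      sum_nonneg (fun i _ => gam_nonneg x n h0 i)
    split_ifs
    · exact h _
    · exact h _
  B_le := by
    intro b _
    split_ifs with hb
    · apply sum_le_sum_of_subset_of_nonneg
      · intro i hi
        rw [mem_range] at hi ⊢
        omega
      · intro i _ _
        exact gam_nonneg x n h0 i
    · exact le_rfl
  B_step := by
    intro b _ a b' _ hK
    have hgam : ∀ i, 0 ≤ gam q x n i := gam_nonneg x n h0
    unfold kerS at hK
    by_cases hb : b ≤ n
    · rw [if_pos hb] at hK
      simp only [if_pos hb]
      have hsub : ∀ t : ℕ, b < t → t ≤ n + 1 → ∑ i ∈ range b, gam q x n i + gam q x n b ≤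
          ∑ i ∈ range t, gam q x n i := by
        intro t ht _
        rw [← sum_range_succ]
        apply sum_le_sum_of_subset_of_nonneg
        · intro i hi
          rw [mem_range] at hi ⊢
          omega
        · intro i _ _
          exact hgam i
      by_cases hb' : b' ≤ n
      · rw [if_pos hb', ite_ne_right_iff] at hK
        simp only [if_pos hb']
        exact hsub b' hK.1.1 (by omega)
      · simp only [if_neg hb']
        exact hsub (n + 1) (by omega) le_rfl
    · simp only [if_neg hb]
      have hb' : ¬ b' ≤ n := by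
        rw [if_neg hb, ite_ne_right_iff] at hK
        have := star_gt n a
        omega
      simp only [if_neg hb', add_zero, le_refl]

section props

variable (h0 : 0 < q) (h1 : q < 1) (hx : x 0 = true)

include h0 h1 hx in
theorem chainS_Wt_zero (r : Word) (a : Bool) : (chainS x n h0 h1 hx).Wt (a :: r) 0 = 0 := by
  rw [HMM.Wt_cons]
  apply sum_eq_zero
  intro b _
  have : kerS q x n b a 0 = 0 := by
    unfold kerS
    have h2 : 0 ≠ star n a := by
      have := star_gt n a
      omega
    split_ifs <;> simp_all
  change _ * kerS q x n b a 0 = 0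
  rw [this, mul_zero]

theorem chainS_Wt_succ_of (r : Word) (a : Bool) {c : ℕ} (hc : c + 1 ≤ n)
    (hG : traceProb q (Xb x c) r.reverse =
      ∑ i ∈ range (c + 1), (chainS x n h0 h1 hx).Wt r i * q ^ (c - i)) :
    (chainS x n h0 h1 hx).Wt (a :: r) (c + 1) =
      if x (c + 1) = a then (1 - q) * traceProb q (Xb x c) r.reverse else 0 := by
  rw [HMM.Wt_cons]
  change ∑ b ∈ range (n + 3), (chainS x n h0 h1 hx).Wt r b * kerS q x n b a (c + 1) = _
  have hsub : range (c + 1) ⊆ range (n + 3) := by
    intro i hi
    rw [mem_range] at hi ⊢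
    omega
  rw [← sum_subset hsub]
  · rw [hG]
    split_ifs with hxa
    · rw [mul_sum]
      apply sum_congr rfl
      intro b hb
      have hb2 : b ≤ n := by rw [mem_range] at hb; omega
      have hb3 : b < c + 1 := by rw [mem_range] at hb; omega
      have e : kerS q x n b a (c + 1) = (1 - q) * q ^ (c - b) := by
        unfold kerS
        rw [if_pos hb2, if_pos hc, if_pos ⟨hb3, hxa⟩]
        have e2 : c + 1 - b - 1 = c - b := by omega
        rw [e2]
      rw [e]
      ring
    · apply sum_eq_zero
      intro b hb
      have hb2 : b ≤ n := by rw [mem_range] at hb; omega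
      have e : kerS q x n b a (c + 1) = 0 := by
        unfold kerS
        rw [if_pos hb2, if_pos hc, if_neg]
        tauto
      rw [e, mul_zero]
  · intro b _ hb
    have hb2 : c + 1 ≤ b := by
      rw [mem_range] at hb
      omega
    have e : kerS q x n b a (c + 1) = 0 := by
      unfold kerS
      have h2 : c + 1 ≠ star n a := by
        have := star_gt n a
        omega
      by_cases hb3 : b ≤ n
      · rw [if_pos hb3, if_pos hc, if_neg]
        omega
      · rw [if_neg hb3, if_neg h2]
    rw [e, mul_zero]

theorem chainS_G (r : Word) (b : ℕ) (hb : b ≤ n) :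
    traceProb q (Xb x b) r.reverse =
      ∑ i ∈ range (b + 1), (chainS x n h0 h1 hx).Wt r i * q ^ (b - i) := by
  have hinit : ∀ i, (chainS x n h0 h1 hx).Wt [] i = if i = 0 then 1 else 0 := fun i => rfl
  induction r generalizing b with
  | nil =>
    simp only [List.reverse_nil]
    induction b with
    | zero =>
      simp [hinit, traceProb, Xb]
    | succ b ih =>
      rw [Xb_succ, traceProb_concat, lastPart_nil, sum_range_succ, ih (by omega), hinit]
      rw [if_neg (by omega), mul_sum]
      simp only [mul_zero, add_zero, zero_mul]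
      apply sum_congr rfl
      intro i hi
      have e : b + 1 - i = (b - i) + 1 := by rw [mem_range] at hi; omega
      rw [e, pow_succ]
      ring
  | cons a r ih =>
    rw [List.reverse_cons]
    induction b with
    | zero =>
      rw [sum_range_one, chainS_Wt_zero]
      simp only [zero_mul]
      apply traceProb_of_long
      simp [Xb]
    | succ b ihb =>
      have hb2 : b + 1 ≤ n := hb
      rw [Xb_succ, traceProb_concat, lastPart_append', sum_range_succ, ihb (by omega),
        chainS_Wt_succ_of x n h0 h1 hx r a hb2 (ih b (by omega))]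
      rw [mul_sum]
      simp only [Nat.sub_self, pow_zero, mul_one]
      congr 1
      · apply sum_congr rfl
        intro i hi
        have e : b + 1 - i = (b - i) + 1 := by rw [mem_range] at hi; omega
        rw [e, pow_succ]
        ring
      · by_cases hxa : x (b + 1) = a
        · rw [if_pos hxa, if_pos hxa.symm]
        · rw [if_neg hxa, if_neg (fun h => hxa h.symm), mul_zero]

/-- The forward weight in terms of the trace law of an initial segment. -/
theorem chainS_Wt_succ (r : Word) (a : Bool) {c : ℕ} (hc : c + 1 ≤ n) :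
    (chainS x n h0 h1 hx).Wt (a :: r) (c + 1) =
      if x (c + 1) = a then (1 - q) * traceProb q (Xb x c) r.reverse else 0 :=
  chainS_Wt_succ_of x n h0 h1 hx r a hc (chainS_G x n h0 h1 hx r c (by omega))

/-- Exchange of summation for the error bound. -/
theorem sum_mul_gam (w : ℕ → ℝ) :
    ∑ b ∈ range (n + 1), w b * gam q x n b =
      ∑ e ∈ runEnds x n, ∑ b ∈ range (e + 1), w b * q ^ (e - b) := by
  have e1 : ∀ b, w b * gam q x n b = ∑ e ∈ runEnds x n, w b * (if b ≤ e then q ^ (e - b) else 0) := by
    intro b
    unfold gam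
    rw [sum_filter, mul_sum]
  simp only [e1]
  rw [sum_comm]
  apply sum_congr rfl
  intro e he
  have hen : e < n := by
    have := (mem_filter.mp he).1
    rwa [mem_range] at this
  have hsub : range (e + 1) ⊆ range (n + 1) := by
    intro i hi
    rw [mem_range] at hi ⊢
    omega
  rw [← sum_subset hsub]
  · apply sum_congr rfl
    intro b hb
    have : b ≤ e := by rw [mem_range] at hb; omega
    rw [if_pos this]
  · intro b _ hb
    have : ¬ b ≤ e := by
      rw [mem_range] at hb
      omega
    rw [if_neg this, mul_zero]

/-- The total error is a sum of trace laws at the run ends. -/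
theorem chainS_Gs (r : Word) :
    (chainS x n h0 h1 hx).Gs r = ∑ e ∈ runEnds x n, traceProb q (Xb x e) r.reverse := by
  change ∑ b ∈ range (n + 3), (chainS x n h0 h1 hx).Wt r b * (if b ≤ n then gam q x n b else 0) = _
  rw [sum_range_three]
  simp only [if_neg (by omega : ¬ n + 1 ≤ n), if_neg (by omega : ¬ n + 2 ≤ n), mul_zero, add_zero]
  have : ∑ b ∈ range (n + 1), (chainS x n h0 h1 hx).Wt r b * (if b ≤ n then gam q x n b else 0) =
      ∑ b ∈ range (n + 1), (chainS x n h0 h1 hx).Wt r b * gam q x n b := by
    apply sum_congr rfl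
    intro b hb
    have : b ≤ n := by rw [mem_range] at hb; omega
    rw [if_pos this]
  rw [this, sum_mul_gam]
  apply sum_congr rfl
  intro e he
  have hen : e < n := by
    have := (mem_filter.mp he).1
    rwa [mem_range] at this
  rw [chainS_G x n h0 h1 hx r e hen.le]

/-- Size of the potential. -/
theorem chainS_Bb : (chainS x n h0 h1 hx).Bb ≤ (runEnds x n).card * (1 / (1 - q)) := by
  change ∑ i ∈ range (n + 1), gam q x n i ≤ _
  have := sum_mul_gam (q := q) x n (fun _ => 1)
  simp only [one_mul] at this
  rw [this, ← nsmul_eq_mul]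
  apply sum_le_card_nsmul
  intro e _
  have h2 : ∑ b ∈ range (e + 1), q ^ (e - b) = ∑ j ∈ range (e + 1), q ^ j := by
    rw [← sum_range_reflect]
    apply sum_congr rfl
    intro j hj
    rw [mem_range] at hj
    congr 1
    omega
  rw [h2, div_eq_mul_inv, one_mul, ← one_div, le_div_iff₀ (by linarith : 0 < 1 - q)]
  have h3 := mul_neg_geom_sum q (e + 1)
  have := pow_pos h0 (e + 1)
  nlinarith

/-- The sum of the trace laws of initial segments is controlled by the total mass. -/
theorem chainS_sum_G (r : Word) {N : ℕ} (hN : N ≤ n) :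
    ∑ b ∈ range (N + 1), traceProb q (Xb x b) r.reverse ≤ (1 / (1 - q)) * (chainS x n h0 h1 hx).Pre r := by
  have h3 : 0 < 1 - q := by linarith
  have hW := (chainS x n h0 h1 hx).Wt_nonneg r
  have hinv : ∀ N : ℕ, N ≤ n → (1 - q) * ∑ b ∈ range (N + 1), traceProb q (Xb x b) r.reverse +
      q * traceProb q (Xb x N) r.reverse ≤ ∑ i ∈ range (N + 1), (chainS x n h0 h1 hx).Wt r i := by
    intro N
    induction N with
    | zero =>
      intro _
      have hG0 : traceProb q (Xb x 0) r.reverse = (chainS x n h0 h1 hx).Wt r 0 := by
        rw [chainS_G x n h0 h1 hx r 0 (by omega)]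
        simp
      rw [sum_range_one, sum_range_one, hG0]
      linarith
    | succ N ih =>
      intro hN
      have h4 := ih (by omega)
      have hrec : traceProb q (Xb x (N + 1)) r.reverse = q * traceProb q (Xb x N) r.reverse +
          (chainS x n h0 h1 hx).Wt r (N + 1) := by
        rw [chainS_G x n h0 h1 hx r (N + 1) hN, chainS_G x n h0 h1 hx r N (by omega),
          sum_range_succ, mul_sum]
        simp only [Nat.sub_self, pow_zero, mul_one]
        congr 1
        apply sum_congr rfl
        intro i hi
        have e : N + 1 - i = (N - i) + 1 := by rw [mem_range] at hi; omega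
        rw [e, pow_succ]
        ring
      rw [sum_range_succ, sum_range_succ _ (N + 1)]
      nlinarith
  have h5 := hinv N hN
  have h6 : ∑ i ∈ range (N + 1), (chainS x n h0 h1 hx).Wt r i ≤ (chainS x n h0 h1 hx).Pre r := by
    unfold HMM.Pre
    apply sum_le_sum_of_subset_of_nonneg
    · intro i hi
      change i ∈ range (n + 3)
      rw [mem_range] at hi ⊢
      omega
    · intro i _ _
      exact hW i
  have h7 : 0 ≤ traceProb q (Xb x N) r.reverse := traceProb_nonneg h0 h1 _ _
  rw [div_mul_eq_mul_div, one_mul, le_div_iff₀ h3]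
  nlinarith

end props

end str

end Vale.Agent.Lib.P321
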