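import Vale.Agent.Lib.P321.LTSpread

/-!
P321, lower tail module: coupling by the deletion pattern, the tail of the statistic
`X - H t - κ |t|` for the base string and for strings with flipped periods.
-/

namespace Vale.Agent.Lib.P321

open Finset

/-- Surviving letters for a deletion pattern. -/
def maskApp : List Bool → Word → Word
  | true :: m, c :: y => c :: maskApp m y
  | false :: m, _ :: y => maskApp m y
  | _, _ => []

/-- Probability of a deletion pattern. -/
noncomputable def wtM (q : ℝ) : List Bool → ℝ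
  | [] => 1
  | true :: m => (1 - q) * wtM q m
  | false :: m => q * wtM q m

theorem wtM_nonneg {q : ℝ} (h0 : 0 < q) (h1 : q < 1) (m : List Bool) : 0 ≤ wtM q m := by
  induction m with
  | nil => simp [wtM]
  | cons a m ih =>
    cases a
    · simp only [wtM]; positivity
    · simp only [wtM]
      have : 0 ≤ 1 - q := by linarith
      positivity

/-- The part of a function seen through the first letter. -/
noncomputable def headPart (c : Bool) (f : Word → ℝ) : Word → ℝ
  | [] => 0
  | a :: s => if a = c then f s else 0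

theorem traceProb_cons (q : ℝ) (c : Bool) (y t : Word) :
    traceProb q (c :: y) t = q * traceProb q y t + (1 - q) * headPart c (traceProb q y) t := by
  rw [traceProb_eq_cnt, traceProb_eq_cnt]
  cases t with
  | nil =>
    simp only [cnt_cons_nil, List.length_nil, pow_zero, mul_one, Nat.sub_zero, List.length_cons, headPart,
      mul_zero, add_zero, cnt_right_nil, Nat.cast_one, one_mul]
    ring
  | cons a s =>
    rw [cnt_cons_cons]
    simp only [List.length_cons, headPart]
    have e1 : y.length + 1 - (s.length + 1) = y.length - s.length := by omega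
    rw [e1]
    have hA : (cnt y (a :: s) : ℝ) * q ^ (y.length - s.length) =
        q * ((cnt y (a :: s) : ℝ) * q ^ (y.length - (s.length + 1))) := by
      rcases Nat.lt_or_ge y.length (s.length + 1) with hc | hc
      · have : cnt y (a :: s) = 0 := by
          rw [cnt_eq_count]
          exact count_sublists_of_long (by simpa using hc)
        rw [this]
        simp
      · have e2 : y.length - s.length = (y.length - (s.length + 1)) + 1 := by omega
        rw [e2, pow_succ]
        have e3 : y.length - (s.length + 1) + 1 - 1 = y.length - (s.length + 1) := by omega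
        ring_nf
    by_cases hca : c = a
    · subst hca
      simp only [if_true]
      rw [traceProb_eq_cnt]
      push_cast
      linear_combination (1 - q) ^ (s.length + 1) * hA
    · rw [if_neg hca, if_neg (fun h => hca h.symm)]
      push_cast
      linear_combination (1 - q) ^ (s.length + 1) * hA

theorem headPart_sum (c : Bool) (f : Word → ℝ) (B : ℕ) :
    ∑ t ∈ W (B + 1), headPart c f t = ∑ s ∈ W B, f s := by
  have h1 : ∑ t ∈ W (B + 1), headPart c f t =
      ∑ t ∈ (W (B + 1)).filter (fun t => t.head? = some c), f t.tail := by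
    rw [sum_filter]
    apply sum_congr rfl
    intro t _
    cases t with
    | nil => simp [headPart]
    | cons a s =>
      simp only [headPart, List.head?_cons, Option.some.injEq, List.tail_cons]
  rw [h1]
  apply sum_nbij' (fun t => t.tail) (fun s => c :: s)
  · intro t ht
    rw [mem_filter, mem_W] at ht
    rw [mem_W, List.length_tail]
    omega
  · intro s hs
    rw [mem_W] at hs
    rw [mem_filter, mem_W]
    simp
    omega
  · intro t ht
    rw [mem_filter] at ht
    cases t with
    | nil => simp at ht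
    | cons a s =>
      have := ht.2
      simp only [List.head?_cons, Option.some.injEq] at this
      simp [this]
  · intro s _
    rfl
  · intro t _
    rfl

theorem headPart_mul (c : Bool) (f φ : Word → ℝ) (t : Word) :
    headPart c f t * φ t = headPart c (fun s => f s * φ (c :: s)) t := by
  cases t with
  | nil => simp [headPart]
  | cons a s =>
    simp only [headPart]
    by_cases h : a = c
    · subst h; simp
    · simp [h]

theorem sum_trace_mask {q : ℝ} (y : Word) {B : ℕ} (hB : y.length ≤ B) (φ : Word → ℝ) :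
    ∑ t ∈ W B, traceProb q y t * φ t = ∑ m ∈ Weq y.length, wtM q m * φ (maskApp m y) := by
  induction y generalizing B φ with
  | nil =>
    have h : ∀ t ∈ W B, traceProb q [] t * φ t = if t = [] then φ [] else 0 := by
      intro t _
      unfold traceProb
      cases t with
      | nil => simp
      | cons a s => simp
    rw [sum_congr rfl h, sum_ite_eq', if_pos (mem_W.mpr (by simp))]
    simp [Weq, wtM, maskApp]
  | cons c y ih =>
    obtain ⟨B', rfl⟩ : ∃ B', B = B' + 1 := ⟨B - 1, by simp at hB; omega⟩
    have hB' : y.length ≤ B' := by simp at hB; omega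
    simp only [List.length_cons]
    rw [sum_Weq_step]
    have e : ∀ t ∈ W (B' + 1), traceProb q (c :: y) t * φ t =
        q * (traceProb q y t * φ t) + (1 - q) * headPart c (fun s => traceProb q y s * φ (c :: s)) t := by
      intro t _
      rw [traceProb_cons, ← headPart_mul]
      ring
    rw [sum_congr rfl e, sum_add_distrib, ← mul_sum, ← mul_sum, headPart_sum, ih (B := B' + 1) (by omega) φ,
      ih hB' (fun s => φ (c :: s)), mul_sum, mul_sum, ← sum_add_distrib]
    apply sum_congr rfl
    intro l _
    simp only [wtM, maskApp]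
    ring

theorem coupling {q : ℝ} (h0 : 0 < q) (h1 : q < 1) {y y' : Word} (hlen : y.length = y'.length) {B : ℕ}
    (hB : y.length ≤ B) (Pr Pr' : Word → Prop) [DecidablePred Pr] [DecidablePred Pr']
    (himp : ∀ m, Pr (maskApp m y) → Pr' (maskApp m y')) :
    ∑ t ∈ (W B).filter Pr, traceProb q y t ≤ ∑ t ∈ (W B).filter Pr', traceProb q y' t := by
  have e1 : ∀ (x : Word) (P : Word → Prop) [DecidablePred P], ∑ t ∈ (W B).filter P, traceProb q x t =
      ∑ t ∈ W B, traceProb q x t * (if P t then 1 else 0) := by
    intro x P _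
    rw [sum_filter]
    apply sum_congr rfl
    intro t _
    split_ifs <;> simp
  rw [e1, e1, sum_trace_mask y hB, sum_trace_mask y' (by omega), ← hlen]
  apply sum_le_sum
  intro m _
  apply mul_le_mul_of_nonneg_left _ (wtM_nonneg h0 h1 m)
  by_cases hP : Pr (maskApp m y)
  · rw [if_pos hP, if_pos (himp m hP)]
  · rw [if_neg hP]
    split_ifs <;> norm_num

/-- Number of positions where two words differ. -/
def ham : Word → Word → ℕ
  | a :: u, b :: v => (if a = b then 0 else 1) + ham u v
  | _, _ => 0

theorem ham_cons (a b : Bool) (u v : Word) : ham (a :: u) (b :: v) = (if a = b then 0 else 1) + ham u v := rfl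

/-- Whether the first letters differ. -/
def hdiff : Word → Word → ℕ
  | a :: _, b :: _ => if a = b then 0 else 1
  | _, _ => 0

theorem H_ham_aux (u v : Word) (hl : u.length = v.length) :
    |(H u : ℤ) - H v| + hdiff u v ≤ 2 * ham u v := by
  induction u generalizing v with
  | nil =>
    cases v with
    | nil => simp [H, hdiff, ham]
    | cons b v => simp at hl
  | cons a u ih =>
    cases v with
    | nil => simp at hl
    | cons b v =>
      have hl' : u.length = v.length := by simpa using hl
      cases u with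
      | nil =>
        cases v with
        | nil =>
          simp only [H, hdiff, ham]
          split_ifs <;> simp
        | cons c v => simp at hl'
      | cons a' u =>
        cases v with
        | nil => simp at hl'
        | cons b' v =>
          have h2 := ih (b' :: v) hl'
          rw [H_cons_cons, H_cons_cons]
          simp only [hdiff, ham] at h2 ⊢
          have hpc1 := pc_le_one a a'
          have hpc2 := pc_le_one b b'
          by_cases h3 : a = b
          · subst h3
            by_cases h4 : a' = b'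
            · subst h4
              simp only [if_true, zero_add] at h2 ⊢
              push_cast
              have e : ((pc a a' : ℤ) + H (a' :: u) - ((pc a a' : ℤ) + H (a' :: v))) = (H (a' :: u) : ℤ) - H (a' :: v) := by ring
              rw [e]
              omega
            · simp only [if_true, if_neg h4, zero_add] at h2 ⊢
              push_cast
              have h5 : |(pc a a' : ℤ) + H (a' :: u) - ((pc a b' : ℤ) + H (b' :: v))| ≤
                  |(H (a' :: u) : ℤ) - H (b' :: v)| + 1 := by
                have e : (pc a a' : ℤ) + H (a' :: u) - ((pc a b' : ℤ) + H (b' :: v)) =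
                    ((H (a' :: u) : ℤ) - H (b' :: v)) + ((pc a a' : ℤ) - pc a b') := by ring
                rw [e]
                refine le_trans (abs_add_le _ _) ?_
                have h6 : |(pc a a' : ℤ) - pc a b'| ≤ 1 := by
                  rw [abs_le]
                  constructor <;> omega
                omega
              omega
          · simp only [if_neg h3] at h2 ⊢
            push_cast
            have h5 : |(pc a a' : ℤ) + H (a' :: u) - ((pc b b' : ℤ) + H (b' :: v))| ≤
                |(H (a' :: u) : ℤ) - H (b' :: v)| + 1 := by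
              have e : (pc a a' : ℤ) + H (a' :: u) - ((pc b b' : ℤ) + H (b' :: v)) =
                  ((H (a' :: u) : ℤ) - H (b' :: v)) + ((pc a a' : ℤ) - pc b b') := by ring
              rw [e]
              refine le_trans (abs_add_le _ _) ?_
              have h6 : |(pc a a' : ℤ) - pc b b'| ≤ 1 := by
                rw [abs_le]
                constructor <;> omega
              omega
            split_ifs at h2 ⊢ <;> omega

theorem H_ham (u v : Word) (hl : u.length = v.length) : |(H u : ℤ) - H v| ≤ 2 * ham u v := by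
  have := H_ham_aux u v hl
  have h2 : (0 : ℤ) ≤ hdiff u v := by positivity
  omega

theorem length_maskApp (m : List Bool) {y y' : Word} (hl : y.length = y'.length) :
    (maskApp m y).length = (maskApp m y').length := by
  induction m generalizing y y' with
  | nil => simp [maskApp]
  | cons a m ih =>
    cases y with
    | nil =>
      cases y' with
      | nil => cases a <;> simp [maskApp]
      | cons c y' => simp at hl
    | cons c y =>
      cases y' with
      | nil => simp at hl
      | cons c' y' =>
        have hl' : y.length = y'.length := by simpa using hl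
        cases a <;> simp [maskApp, ih hl']

theorem length_maskApp_le (m : List Bool) (y : Word) : (maskApp m y).length ≤ y.length := by
  induction m generalizing y with
  | nil => simp [maskApp]
  | cons a m ih =>
    cases y with
    | nil => cases a <;> simp [maskApp]
    | cons c y =>
      have := ih y
      cases a <;> simp [maskApp] <;> omega

theorem ham_maskApp (m : List Bool) (y y' : Word) : ham (maskApp m y) (maskApp m y') ≤ ham y y' := by
  induction m generalizing y y' with
  | nil => simp [maskApp, ham]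
  | cons a m ih =>
    cases y with
    | nil => cases a <;> cases y' <;> simp [maskApp, ham]
    | cons c y =>
      cases y' with
      | nil => cases a <;> simp [maskApp, ham]
      | cons c' y' =>
        have := ih y y'
        cases a
        · simp only [maskApp, ham_cons]
          omega
        · simp only [maskApp, ham_cons]
          omega

theorem ham_append (u v : Word) (a b : Bool) (hl : u.length = v.length) :
    ham (u ++ [a]) (v ++ [b]) ≤ ham u v + 1 := by
  induction u generalizing v with
  | nil =>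
    cases v with
    | nil =>
      simp only [List.nil_append, ham]
      split_ifs <;> simp
    | cons c v => simp at hl
  | cons c u ih =>
    cases v with
    | nil => simp at hl
    | cons c' v =>
      have hl' : u.length = v.length := by simpa using hl
      simp only [List.cons_append, ham_cons]
      have := ih v hl'
      omega

theorem ham_blockStr (D : Finset ℤ) (s : ℤ) (X : ℕ) :
    ham (blockStr D s X) (blockStr ∅ s X) ≤ 2 * (D.filter (fun d => s < d ∧ d ≤ s + X)).card := by
  induction X generalizing s with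
  | zero => simp [blockStr, ham]
  | succ X ih =>
    simp only [blockStr]
    have hemp : decide (s + 1 ∈ (∅ : Finset ℤ)) = false := by simp
    rw [hemp]
    have h2 := ih (s + 1)
    have hsub : (D.filter (fun d => s + 1 < d ∧ d ≤ s + 1 + X)) ⊆ (D.filter (fun d => s < d ∧ d ≤ s + (X + 1 : ℕ))) := by
      intro d hd
      rw [mem_filter] at hd ⊢
      refine ⟨hd.1, by omega, ?_⟩
      push_cast
      omega
    by_cases hs : s + 1 ∈ D
    · have hd : decide (s + 1 ∈ D) = true := by simpa using hs
      rw [hd]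
      have hb1 : block true ++ blockStr D (s + 1) X = true :: false :: blockStr D (s + 1) X := rfl
      have hb2 : block false ++ blockStr ∅ (s + 1) X = false :: true :: blockStr ∅ (s + 1) X := rfl
      rw [hb1, hb2, ham_cons, ham_cons]
      have hins : insert (s + 1) (D.filter (fun d => s + 1 < d ∧ d ≤ s + 1 + X)) ⊆
          (D.filter (fun d => s < d ∧ d ≤ s + (X + 1 : ℕ))) := by
        intro d hd2
        rw [mem_insert] at hd2
        rcases hd2 with rfl | hd2
        · rw [mem_filter]
          refine ⟨hs, by omega, ?_⟩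
          push_cast
          omega
        · exact hsub hd2
      have h3 := card_le_card hins
      rw [card_insert_of_notMem (by simp)] at h3
      simp only [Bool.true_eq_false, Bool.false_eq_true, if_false]
      omega
    · have hd : decide (s + 1 ∈ D) = false := by simpa using hs
      rw [hd]
      have hb2 : ∀ z : Word, block false ++ z = false :: true :: z := fun z => rfl
      rw [hb2, hb2, ham_cons, ham_cons]
      have h3 := card_le_card hsub
      simp only [if_true]
      omega

theorem ham_blockStr_le (D : Finset ℤ) (s : ℤ) (X : ℕ) : ham (blockStr D s X) (blockStr ∅ s X) ≤ 2 * D.card := by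
  refine le_trans (ham_blockStr D s X) ?_
  have := card_le_card (filter_subset (fun d => s < d ∧ d ≤ s + X) D)
  omega

/-- The constant `κ₁ = q²/(1-q²)`. -/
noncomputable def kap1 (q : ℝ) : ℝ := q ^ 2 / (1 - q ^ 2)

/-- Weight of a trace under deletion pattern: `(1-q)^|t| q^(n-|t|)`. -/
noncomputable def trW (q : ℝ) (n : ℕ) (t : Word) : ℝ := (1 - q) ^ t.length * q ^ (n - t.length)

/-- `H` of a forward word computed on the backward word. -/
def HR : Word → ℕ
  | [] => 0
  | a :: r => HR r + pc (lastOf r) a

theorem H_append_single (u : Word) (a : Bool) : H (u ++ [a]) = H u + pc (u.reverse.headD true) a := by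
  induction u with
  | nil => simp [H]
  | cons b l ih =>
    cases l with
    | nil =>
      simp [H]
      omega
    | cons c l =>
      simp only [List.cons_append] at ih ⊢
      rw [H_cons_cons, ih, H_cons_cons]
      have e : (b :: c :: l).reverse.headD true = (c :: l).reverse.headD true := by
        have e2 : (c :: l).reverse = l.reverse ++ [c] := by simp
        have e3 : (b :: c :: l).reverse = l.reverse ++ [c] ++ [b] := by simp
        rw [e2, e3]
        cases l.reverse <;> simp
      rw [e]
      omega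

theorem lastOf_eq_headD (r : Word) : lastOf r = r.headD true := by
  cases r <;> rfl

theorem HR_eq (r : Word) : HR r = H r.reverse := by
  induction r with
  | nil => rfl
  | cons a r ih =>
    rw [List.reverse_cons, H_append_single, List.reverse_reverse, ← ih, ← lastOf_eq_headD]
    rfl

theorem HR_le (r : Word) : HR r ≤ r.length := by
  rw [HR_eq]
  simpa using H_le_length r.reverse

theorem length_le_two_HR (r : Word) : r.length ≤ 2 * HR r := by
  rw [HR_eq]
  simpa using length_le_two_H r.reverse

section base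
variable {q : ℝ}

/-- Correction for the last letter. -/
noncomputable def lf (q : ℝ) (r : Word) : ℝ := if lastOf r = true then 1 else q

theorem lf_pos (h0 : 0 < q) (r : Word) : 0 < lf q r := by
  unfold lf
  split_ifs <;> positivity

theorem lf_le_one (h1 : q < 1) (r : Word) : lf q r ≤ 1 := by
  unfold lf
  split_ifs <;> linarith

theorem MkR_closed (h0 : 0 < q) (r : Word) :
    MkR q r * ((1 + q) ^ r.length * q ^ r.length) * lf q r = q ^ (2 * HR r) := by
  induction r with
  | nil => simp [HR, lf]
  | cons a r ih =>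
    have hstep : flipW q (lastOf r) a * ((1 + q) * q) * lf q (a :: r) =
        q ^ (2 * pc (lastOf r) a) * lf q r := by
      have h2 : 1 + q ≠ 0 := by positivity
      unfold lf
      rw [lastOf_cons]
      cases h3 : lastOf r <;> cases a <;> simp [flipW, pc] <;> field_simp <;> simp
    rw [MkR_cons, HR, mul_add, pow_add, ← ih]
    simp only [List.length_cons, pow_succ]
    have : flipW q (lastOf r) a * MkR q r * ((1 + q) ^ r.length * (1 + q) * (q ^ r.length * q)) * lf q (a :: r) =
        (flipW q (lastOf r) a * ((1 + q) * q) * lf q (a :: r)) * (MkR q r * ((1 + q) ^ r.length * q ^ r.length)) := by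
      ring
    rw [this, hstep]
    ring

/-- The trace law of the base string. -/
theorem trace_base (h0 : 0 < q) (h1 : q < 1) (s : ℤ) (A : ℕ) (r : Word) :
    traceProb q (blockStr ∅ s A) r.reverse =
      (1 - q ^ 2)⁻¹ * (MkR q r * lf q r) * NB (q ^ 2) (r.length + 1) ((A : ℤ) - HR r) := by
  have hp : 0 < 1 - q := by linarith
  have hp2 : 0 < 1 - q ^ 2 := by nlinarith
  rw [traceProb_eq_cnt, cnt_base, ← HR_eq, length_blockStr, List.length_reverse]
  split_ifs with hA
  · obtain ⟨k, hk⟩ := Nat.exists_eq_add_of_le hA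
    have e : (A : ℤ) - (HR r : ℤ) = (k : ℤ) := by rw [hk]; push_cast; ring
    rw [e, NB_natCast]
    have hkk : A - HR r = k := by omega
    rw [hkk]
    have hm := length_le_two_HR r
    have hcl := MkR_closed h0 r
    have hq : q ^ (2 * A - r.length) * q ^ r.length = q ^ (2 * A) := by
      rw [← pow_add]
      congr 1
      omega
    have hA2 : q ^ (2 * A) = q ^ (2 * HR r) * (q ^ 2) ^ k := by
      rw [hk, mul_add, pow_add, pow_mul q 2 k]
    have hfac : 1 - q ^ 2 = (1 - q) * (1 + q) := by ring
    have hqm : 0 < q ^ r.length := by positivity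
    have key : q ^ (2 * A - r.length) = MkR q r * lf q r * ((1 + q) ^ r.length * (q ^ 2) ^ k) := by
      apply mul_right_cancel₀ hqm.ne'
      rw [hq, hA2, ← hcl]
      ring
    rw [key, pow_succ (1 - q ^ 2), hfac, mul_pow]
    field_simp
  · rw [NB_of_neg (by omega)]
    simp

theorem Gsum_mono (h0 : 0 < q) (h1 : q < 1) (l : ℕ) (y : ℤ) : Gsum q l (y - 1) ≤ Gsum q l y := by
  rw [Gsum_rec q l y]
  linarith [NB_nonneg h0 h1 (l + 1) y]

theorem Gsum_step (h0 : 0 < q) (h1 : q < 1) (l : ℕ) (y : ℤ) :
    Gsum q (l + 1) y + q * NB q (l + 1) y ≤ Gsum q l y := by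
  have h1θ : 0 < 1 - q := by linarith
  have h3 := Gsum_pascal q l y
  have h4 := Gsum_rec q (l + 1) y
  have h5 := NB_pascal q (l + 1) y
  have h6 := NB_nonneg h0 h1 (l + 1 + 1) (y - 1)
  have h7 : (1 - q) * (Gsum q l y - Gsum q (l + 1) y) = q * NB q (l + 1 + 1) y := by
    have h8 : Gsum q (l + 1) (y - 1) = Gsum q (l + 1) y - NB q (l + 1 + 1) y := by linarith
    rw [h8] at h3
    linarith
  have h9 : (1 - q) * (q * NB q (l + 1) y) ≤ q * NB q (l + 1 + 1) y := by
    have : (1 - q) * NB q (l + 1) y ≤ NB q (l + 1 + 1) y := by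
      have : 0 ≤ q * NB q (l + 1 + 1) (y - 1) := by positivity
      linarith
    nlinarith
  have h10 : q * NB q (l + 1) y ≤ Gsum q l y - Gsum q (l + 1) y := by
    rw [← h7] at h9
    exact le_of_mul_le_mul_left h9 h1θ
  linarith

/-- Renewal bound averaged over the Markov law of the letters. -/
theorem renewal_avg (h0 : 0 < q) {θ : ℝ} (hθ0 : 0 < θ) (hθ1 : θ < 1) (z : ℤ) (M : ℕ) :
    θ * ∑ i ∈ range M, ∑ r ∈ Weq i, MkR q r * NB θ (i + 1) (z - HR r) ≤ 1 := by
  set Φ : ℕ → ℝ := fun i => ∑ r ∈ Weq i, MkR q r * Gsum θ i (z - HR r) with hΦ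
  have hΦ0 : ∀ i, 0 ≤ Φ i := by
    intro i
    apply sum_nonneg
    intro r _
    have := MkR_pos h0 r
    have h2 : 0 ≤ Gsum θ i (z - HR r) := sum_nonneg (fun j _ => NB_nonneg hθ0 hθ1 _ _)
    positivity
  have hstep : ∀ i, Φ (i + 1) + θ * ∑ r ∈ Weq i, MkR q r * NB θ (i + 1) (z - HR r) ≤ Φ i := by
    intro i
    simp only [hΦ]
    rw [sum_Weq_step, mul_sum, ← sum_add_distrib]
    apply sum_le_sum
    intro r _
    have hMk := MkR_pos h0 r
    have hG : ∀ a, Gsum θ (i + 1) (z - HR (a :: r)) ≤ Gsum θ (i + 1) (z - HR r) := by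
      intro a
      have hpc := pc_le_one (lastOf r) a
      simp only [HR]
      push_cast
      interval_cases hv : pc (lastOf r) a
      · simp
      · have e : z - ((HR r : ℤ) + ((1 : ℕ) : ℤ)) = z - (HR r : ℤ) - 1 := by push_cast; ring
        rw [e]
        exact Gsum_mono hθ0 hθ1 _ _
    have h2 := Gsum_step hθ0 hθ1 i (z - HR r)
    rw [MkR_cons, MkR_cons]
    have hf := flipW_sum h0 (lastOf r)
    have hf1 := flipW_pos h0 (lastOf r) false
    have hf2 := flipW_pos h0 (lastOf r) true
    have h3 : flipW q (lastOf r) false * MkR q r * Gsum θ (i + 1) (z - HR (false :: r)) +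
        flipW q (lastOf r) true * MkR q r * Gsum θ (i + 1) (z - HR (true :: r)) ≤
        MkR q r * Gsum θ (i + 1) (z - HR r) := by
      calc _ ≤ flipW q (lastOf r) false * MkR q r * Gsum θ (i + 1) (z - HR r) +
            flipW q (lastOf r) true * MkR q r * Gsum θ (i + 1) (z - HR r) :=
            add_le_add (mul_le_mul_of_nonneg_left (hG _) (by positivity))
              (mul_le_mul_of_nonneg_left (hG _) (by positivity))
        _ = (flipW q (lastOf r) false + flipW q (lastOf r) true) * (MkR q r * Gsum θ (i + 1) (z - HR r)) := by ring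
        _ = _ := by rw [hf, one_mul]
    calc _ ≤ MkR q r * Gsum θ (i + 1) (z - HR r) + θ * (MkR q r * NB θ (i + 1) (z - HR r)) :=
          add_le_add h3 le_rfl
      _ = MkR q r * (Gsum θ (i + 1) (z - HR r) + θ * NB θ (i + 1) (z - HR r)) := by ring
      _ ≤ MkR q r * Gsum θ i (z - HR r) := mul_le_mul_of_nonneg_left h2 hMk.le
  have htel : ∀ n : ℕ, Φ n + θ * ∑ i ∈ range n, ∑ r ∈ Weq i, MkR q r * NB θ (i + 1) (z - HR r) ≤ Φ 0 := by
    intro n
    induction n with
    | zero => simp
    | succ n ih =>
      rw [sum_range_succ, mul_add]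
      have := hstep n
      linarith
  have h2 := htel M
  have h3 : Φ 0 ≤ 1 := by
    simp only [hΦ, Weq, sum_singleton, MkR_nil, one_mul]
    exact NB_sum_le hθ0 hθ1 _ _
  have h4 := hΦ0 M
  linarith

/-- Splitting the sum over words according to the length, with reversal. -/
theorem sum_W_rev (f : Word → ℝ) (B : ℕ) :
    ∑ t ∈ W B, f t = ∑ i ∈ range (B + 1), ∑ r ∈ Weq i, f r.reverse := by
  unfold W
  rw [sum_biUnion]
  · apply sum_congr rfl
    intro i _
    apply sum_nbij' (fun t => t.reverse) (fun r => r.reverse)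
    · intro t ht
      rw [mem_Weq] at ht ⊢
      simpa using ht
    · intro r hr
      rw [mem_Weq] at hr ⊢
      simpa using hr
    · intro t _
      simp
    · intro r _
      simp
    · intro t _
      simp
  · intro x _ y _ hxy
    simp only [Function.onFun]
    rw [disjoint_left]
    intro w hw hw'
    rw [mem_Weq] at hw hw'
    exact hxy (hw.symm.trans hw')

/-- Reversal on words of a fixed length. -/
theorem sum_Weq_rev (f : Word → ℝ) (i : ℕ) : ∑ t ∈ Weq i, f t = ∑ r ∈ Weq i, f r.reverse := by
  apply sum_nbij' (fun t => t.reverse) (fun r => r.reverse)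
  · intro t ht
    rw [mem_Weq] at ht ⊢
    simpa using ht
  · intro r hr
    rw [mem_Weq] at hr ⊢
    simpa using hr
  · intro t _
    simp
  · intro r _
    simp
  · intro t _
    simp

/-- Control of the tilted geometric factor. -/
theorem tilt_bound {θ : ℝ} (hθ0 : 0 < θ) (hθ1 : θ < 1) :
    ∃ C s₀ : ℝ, 0 < C ∧ 0 < s₀ ∧ s₀ ≤ 1 ∧ 1 ≤ 4 * C * s₀ ∧ ∀ s : ℝ, |s| ≤ s₀ →
      0 < 1 - θ * Real.exp s ∧ (1 - θ) / (1 - θ * Real.exp s) ≤ 2 ∧
      (1 - θ) / (1 - θ * Real.exp s) * Real.exp (-(s * (θ / (1 - θ)))) ≤ Real.exp (C * s ^ 2) := by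
  have h1θ : 0 < 1 - θ := by linarith
  set κ : ℝ := θ / (1 - θ) with hκ
  have hκ0 : 0 < κ := by positivity
  set s₀ : ℝ := min 1 (1 / (4 * κ)) with hs₀
  have hs₀0 : 0 < s₀ := by
    rw [hs₀]
    exact lt_min one_pos (by positivity)
  have hs₀1 : s₀ ≤ 1 := min_le_left _ _
  have hs₀2 : s₀ ≤ 1 / (4 * κ) := min_le_right _ _
  refine ⟨κ + 8 * κ ^ 2 + 1 / (4 * s₀), s₀, by positivity, hs₀0, hs₀1, ?_, ?_⟩
  · have h2 : 4 * (1 / (4 * s₀)) * s₀ = 1 := by field_simp
    have h3 : 0 ≤ 4 * (κ + 8 * κ ^ 2) * s₀ := by positivity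
    nlinarith
  intro s hs
  have hs1 : |s| ≤ 1 := le_trans hs hs₀1
  have hexp := Real.abs_exp_sub_one_sub_id_le hs1
  obtain ⟨he1, he2⟩ := abs_le.mp hexp
  set z : ℝ := κ * (Real.exp s - 1) with hz
  have hsabs : -1 ≤ s ∧ s ≤ 1 := abs_le.mp hs1
  have hsq : s ^ 2 ≤ |s| := by
    rw [← sq_abs]
    nlinarith [abs_nonneg s]
  have hzabs : |z| ≤ 2 * κ * |s| := by
    rw [hz, abs_mul, abs_of_pos hκ0]
    have h3 : |Real.exp s - 1| ≤ 2 * |s| := by
      rw [abs_le]
      have := le_abs_self s
      have := neg_abs_le s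
      constructor <;> nlinarith
    nlinarith
  have hzhalf : |z| ≤ 1 / 2 := by
    have h3 : 2 * κ * |s| ≤ 2 * κ * (1 / (4 * κ)) :=
      mul_le_mul_of_nonneg_left (le_trans hs hs₀2) (by positivity)
    have h4 : 2 * κ * (1 / (4 * κ)) = 1 / 2 := by field_simp; norm_num
    linarith
  obtain ⟨hz1, hz2⟩ := abs_le.mp hzhalf
  have hfac : 1 - θ * Real.exp s = (1 - θ) * (1 - z) := by
    rw [hz, hκ]
    field_simp
    ring
  have hpos : 0 < 1 - θ * Real.exp s := by
    rw [hfac]
    have : 0 < 1 - z := by linarith
    positivity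
  have hR : (1 - θ) / (1 - θ * Real.exp s) = (1 - z)⁻¹ := by
    rw [hfac]
    have : 1 - z ≠ 0 := by linarith
    field_simp
  refine ⟨hpos, ?_, ?_⟩
  · rw [hR, inv_le_comm₀ (by linarith) (by norm_num)]
    linarith
  · rw [hR]
    have h3 : (1 - z)⁻¹ ≤ Real.exp (z + 2 * z ^ 2) := by
      have h4 : (1 - z)⁻¹ ≤ 1 + (z + 2 * z ^ 2) := by
        rw [inv_le_iff_one_le_mul₀ (by linarith)]
        nlinarith [sq_nonneg z]
      have h5 := Real.add_one_le_exp (z + 2 * z ^ 2)
      linarith
    have h4 : z + 2 * z ^ 2 - s * κ ≤ (κ + 8 * κ ^ 2 + 1 / (4 * s₀)) * s ^ 2 := by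
      have h5 : z - s * κ ≤ κ * s ^ 2 := by
        rw [hz]
        nlinarith
      have h6 : z ^ 2 ≤ (2 * κ * |s|) ^ 2 := by
        rw [← sq_abs z]
        exact pow_le_pow_left₀ (abs_nonneg _) hzabs 2
      have h7 : (2 * κ * |s|) ^ 2 = 4 * κ ^ 2 * s ^ 2 := by
        rw [mul_pow, sq_abs]
        ring
      have h8 : 0 ≤ (1 / (4 * s₀)) * s ^ 2 := by positivity
      rw [h7] at h6
      nlinarith
    calc (1 - z)⁻¹ * Real.exp (-(s * κ)) ≤ Real.exp (z + 2 * z ^ 2) * Real.exp (-(s * κ)) :=
          mul_le_mul_of_nonneg_right h3 (Real.exp_pos _).le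
      _ = Real.exp (z + 2 * z ^ 2 - s * κ) := by
          rw [← Real.exp_add]
          congr 1
      _ ≤ _ := Real.exp_le_exp.mpr h4

/-- Exponential moment for the base string. -/
theorem base_moment (h0 : 0 < q) (h1 : q < 1) :
    ∃ K C s₀ : ℝ, 0 < K ∧ 0 < C ∧ 0 < s₀ ∧ 1 ≤ 4 * C * s₀ ∧ ∀ (A : ℕ) (s : ℝ), |s| ≤ s₀ →
      ∑ t ∈ W (2 * A), traceProb q (blockStr ∅ 0 A) t *
        Real.exp (s * ((A : ℝ) - H t - kap1 q * t.length)) ≤ K * Real.exp (C * s ^ 2 * (2 * A)) := by
  have hθ0 : 0 < q ^ 2 := by positivity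
  have hθ1 : q ^ 2 < 1 := by nlinarith
  obtain ⟨C, s₀, hC, hs₀, hs₀1, hCs, htilt⟩ := tilt_bound hθ0 hθ1
  have h1θ : 0 < 1 - q ^ 2 := by linarith
  refine ⟨(1 - q ^ 2)⁻¹ * 2 * (Real.exp 1 / q ^ 2), C, s₀, by positivity, hC, hs₀, hCs, ?_⟩
  intro A s hs
  obtain ⟨hpos, hR2, hRC⟩ := htilt s hs
  set θ' : ℝ := q ^ 2 * Real.exp s with hθ'
  have hθ'0 : 0 < θ' := by positivity
  have hθ'1 : θ' < 1 := by linarith
  set R : ℝ := (1 - q ^ 2) / (1 - θ') with hR
  have hR0 : 0 < R := by positivity
  set E : ℝ := Real.exp (C * s ^ 2 * (2 * A)) with hE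
  have hE0 : 0 < E := Real.exp_pos _
  have hkap : kap1 q = q ^ 2 / (1 - q ^ 2) := rfl
  rw [sum_W_rev]
  have hterm : ∀ i ∈ range (2 * A + 1), ∀ r ∈ Weq i,
      traceProb q (blockStr ∅ 0 A) r.reverse *
        Real.exp (s * ((A : ℝ) - H r.reverse - kap1 q * r.reverse.length)) ≤
      ((1 - q ^ 2)⁻¹ * 2 * E) * (MkR q r * NB θ' (i + 1) ((A : ℤ) - HR r)) := by
    intro i hi r hr
    rw [mem_Weq] at hr
    have hi2 : i ≤ 2 * A := by rw [mem_range] at hi; omega
    subst hr
    rw [trace_base h0 h1, ← HR_eq, List.length_reverse]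
    have hMk := MkR_pos h0 r
    have hlf := lf_pos h0 r
    have hlf1 := lf_le_one h1 r
    rcases lt_or_ge (A : ℤ) (HR r : ℤ) with hc | hc
    · rw [NB_of_neg (by omega : (A : ℤ) - HR r < 0), NB_of_neg (by omega : (A : ℤ) - HR r < 0)]
      simp
    · obtain ⟨k, hk⟩ := Int.eq_ofNat_of_zero_le (by omega : 0 ≤ (A : ℤ) - HR r)
      have hkR : (A : ℝ) - (HR r : ℝ) = k := by
        have : (((A : ℤ) - (HR r : ℤ) : ℤ) : ℝ) = (k : ℝ) := by rw [hk]; simp
        push_cast at this
        exact this
      rw [hk, hkR]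
      have hT := NB_tilt (θ' := θ') hθ0 hθ1 (r.length + 1) k
      have hρ : θ' / q ^ 2 = Real.exp s := by
        rw [hθ']
        field_simp
      rw [hρ] at hT
      have hexpk : Real.exp s ^ k = Real.exp (k * s) := by
        rw [← Real.exp_nat_mul]
      rw [hexpk] at hT
      have hρ2 : (1 - θ') / (1 - q ^ 2) = R⁻¹ := by
        rw [hR, inv_div]
      rw [hρ2] at hT
      have hNB : NB (q ^ 2) (r.length + 1) (k : ℤ) * Real.exp (k * s) =
          NB θ' (r.length + 1) (k : ℤ) * R ^ (r.length + 1) := by
        rw [hT, inv_pow]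
        have : R ^ (r.length + 1) ≠ 0 := by positivity
        field_simp
      have hsplit : Real.exp (s * ((k : ℝ) - kap1 q * r.length)) =
          Real.exp (k * s) * Real.exp (-(s * kap1 q)) ^ r.length := by
        rw [← Real.exp_nat_mul, ← Real.exp_add]
        congr 1
        ring
      rw [hsplit]
      have hNBpos : 0 ≤ NB θ' (r.length + 1) (k : ℤ) := NB_nonneg hθ'0 hθ'1 _ _
      have hpow : (R * Real.exp (-(s * kap1 q))) ^ r.length ≤ E := by
        have h2 : (R * Real.exp (-(s * kap1 q))) ≤ Real.exp (C * s ^ 2) := hRC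
        have h3 : (R * Real.exp (-(s * kap1 q))) ^ r.length ≤ Real.exp (C * s ^ 2) ^ r.length :=
          pow_le_pow_left₀ (by positivity) h2 _
        refine le_trans h3 ?_
        rw [← Real.exp_nat_mul]
        apply Real.exp_le_exp.mpr
        have h4 : (r.length : ℝ) ≤ 2 * A := by exact_mod_cast hi2
        have h5 : 0 ≤ C * s ^ 2 := by positivity
        nlinarith
      calc (1 - q ^ 2)⁻¹ * (MkR q r * lf q r) * NB (q ^ 2) (r.length + 1) (k : ℤ) *
            (Real.exp (k * s) * Real.exp (-(s * kap1 q)) ^ r.length)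
          = (1 - q ^ 2)⁻¹ * (MkR q r * lf q r) * (NB (q ^ 2) (r.length + 1) (k : ℤ) * Real.exp (k * s)) *
            Real.exp (-(s * kap1 q)) ^ r.length := by ring
        _ = (1 - q ^ 2)⁻¹ * (MkR q r * lf q r) * NB θ' (r.length + 1) (k : ℤ) * R *
            (R * Real.exp (-(s * kap1 q))) ^ r.length := by
            rw [hNB, mul_pow, pow_succ]
            ring
        _ ≤ (1 - q ^ 2)⁻¹ * (MkR q r * 1) * NB θ' (r.length + 1) (k : ℤ) * 2 * E := by
            apply mul_le_mul _ hpow (by positivity) (by positivity)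
            apply mul_le_mul _ hR2 hR0.le (by positivity)
            apply mul_le_mul_of_nonneg_right _ hNBpos
            apply mul_le_mul_of_nonneg_left _ (by positivity)
            exact mul_le_mul_of_nonneg_left hlf1 hMk.le
        _ = _ := by ring
  have hsum := renewal_avg h0 hθ'0 hθ'1 (A : ℤ) (2 * A + 1)
  have hsum2 : ∑ i ∈ range (2 * A + 1), ∑ r ∈ Weq i, MkR q r * NB θ' (i + 1) ((A : ℤ) - HR r) ≤ Real.exp 1 / q ^ 2 := by
    rw [le_div_iff₀ hθ0]
    have h3 : q ^ 2 ≤ θ' * Real.exp 1 := by
      have hs1 : -1 ≤ s := by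
        have := (abs_le.mp (le_trans hs hs₀1)).1
        linarith
      have h4 : Real.exp (-1) ≤ Real.exp s := Real.exp_le_exp.mpr hs1
      have h5 : Real.exp (-1) * Real.exp 1 = 1 := by rw [← Real.exp_add]; simp
      have h6 : 1 ≤ Real.exp s * Real.exp 1 := by
        calc (1 : ℝ) = Real.exp (-1) * Real.exp 1 := h5.symm
          _ ≤ Real.exp s * Real.exp 1 := mul_le_mul_of_nonneg_right h4 (Real.exp_pos _).le
      rw [hθ']
      nlinarith
    have h5 : 0 ≤ ∑ i ∈ range (2 * A + 1), ∑ r ∈ Weq i, MkR q r * NB θ' (i + 1) ((A : ℤ) - HR r) := by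
      apply sum_nonneg
      intro i _
      apply sum_nonneg
      intro r _
      have := MkR_pos h0 r
      have := NB_nonneg hθ'0 hθ'1 (i + 1) ((A : ℤ) - HR r)
      positivity
    nlinarith [Real.exp_pos (1 : ℝ)]
  calc ∑ i ∈ range (2 * A + 1), ∑ r ∈ Weq i, traceProb q (blockStr ∅ 0 A) r.reverse *
        Real.exp (s * ((A : ℝ) - H r.reverse - kap1 q * r.reverse.length))
      ≤ ∑ i ∈ range (2 * A + 1), ∑ r ∈ Weq i, ((1 - q ^ 2)⁻¹ * 2 * E) * (MkR q r * NB θ' (i + 1) ((A : ℤ) - HR r)) :=
        sum_le_sum (fun i hi => sum_le_sum (fun r hr => hterm i hi r hr))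
    _ = ((1 - q ^ 2)⁻¹ * 2 * E) * ∑ i ∈ range (2 * A + 1), ∑ r ∈ Weq i, MkR q r * NB θ' (i + 1) ((A : ℤ) - HR r) := by
        simp only [mul_sum]
    _ ≤ ((1 - q ^ 2)⁻¹ * 2 * E) * (Real.exp 1 / q ^ 2) := mul_le_mul_of_nonneg_left hsum2 (by positivity)
    _ = _ := by ring

theorem trW_cnt (q : ℝ) (D : Finset ℤ) (X : ℕ) (t : Word) :
    trW q (2 * X) t * (cnt (blockStr D 0 X) t : ℝ) = traceProb q (blockStr D 0 X) t := by
  rw [traceProb_eq_cnt, length_blockStr]
  unfold trW
  ring

/-- Tail lemma for strings with flipped periods. -/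
theorem tailX (h0 : 0 < q) (h1 : q < 1) :
    ∃ C : ℝ, 0 < C ∧ ∀ (D : Finset ℤ) (X : ℕ) (u : ℝ), 1 ≤ X → 0 ≤ u → u ≤ X → (D.card : ℝ) * u ≤ X →
      ∑ t ∈ (W (2 * X)).filter (fun t => u ≤ |(X : ℝ) - H t - kap1 q * t.length|),
        trW q (2 * X) t * (cnt (blockStr D 0 X) t : ℝ) ≤ C * Real.exp (-(u ^ 2) / (C * X)) := by
  obtain ⟨K, C, s₀, hK, hC, hs₀, hCs, hmom⟩ := base_moment h0 h1
  have hexpC := Real.exp_pos (1 / C)
  refine ⟨2 * K * Real.exp (1 / C) + 8 * C, by positivity, ?_⟩
  intro D X u hX hu huX hDu
  have hXR : (1 : ℝ) ≤ X := by exact_mod_cast hX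
  have hX0 : (0 : ℝ) < X := by linarith
  simp only [trW_cnt]
  -- the coupling
  set u' : ℝ := u - 4 * D.card with hu'
  have hcoup : ∑ t ∈ (W (2 * X)).filter (fun t => u ≤ |(X : ℝ) - H t - kap1 q * t.length|),
        traceProb q (blockStr D 0 X) t ≤
      ∑ t ∈ (W (2 * X)).filter (fun t => u' ≤ |(X : ℝ) - H t - kap1 q * t.length|),
        traceProb q (blockStr ∅ 0 X) t := by
    apply coupling h0 h1 (by simp [length_blockStr]) (by simp [length_blockStr])
    intro m hm
    set t := maskApp m (blockStr D 0 X) with ht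
    set t' := maskApp m (blockStr ∅ 0 X) with ht'
    have hlen : t.length = t'.length := length_maskApp m (by simp [length_blockStr])
    have hHam := H_ham t t' hlen
    have hHam2 : ham t t' ≤ 2 * D.card :=
      le_trans (ham_maskApp m _ _) (ham_blockStr_le D 0 X)
    have hdiff : |(H t : ℝ) - H t'| ≤ 4 * D.card := by
      have h3 : |(H t : ℤ) - H t'| ≤ 4 * D.card := by
        have : ((ham t t' : ℕ) : ℤ) ≤ 2 * D.card := by exact_mod_cast hHam2
        omega
      have h4 : ((|(H t : ℤ) - H t'| : ℤ) : ℝ) ≤ ((4 * D.card : ℤ) : ℝ) := by exact_mod_cast h3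
      push_cast at h4
      exact h4
    have hlenR : (t.length : ℝ) = t'.length := by exact_mod_cast hlen
    rw [hlenR] at hm
    have e : (X : ℝ) - H t' - kap1 q * t'.length = ((X : ℝ) - H t - kap1 q * t'.length) + ((H t : ℝ) - H t') := by ring
    have h5 : |(X : ℝ) - H t - kap1 q * t'.length| ≤ |(X : ℝ) - H t' - kap1 q * t'.length| + |(H t : ℝ) - H t'| := by
      have e2 : (X : ℝ) - H t - kap1 q * t'.length = ((X : ℝ) - H t' - kap1 q * t'.length) - ((H t : ℝ) - H t') := by ring
      rw [e2]
      exact abs_sub _ _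
    rw [hu']
    linarith
  refine le_trans hcoup ?_
  -- Chernoff
  set s : ℝ := u / (4 * C * X) with hs
  have hs0 : 0 ≤ s := by positivity
  have hs1 : s ≤ s₀ := by
    rw [hs, div_le_iff₀ (by positivity)]
    have h2 : (X : ℝ) ≤ s₀ * (4 * C * X) := by nlinarith
    linarith
  have hsabs : |s| ≤ s₀ := by rwa [abs_of_nonneg hs0]
  have hsabs' : |-s| ≤ s₀ := by rwa [abs_neg]
  have hM1 := hmom X s hsabs
  have hM2 := hmom X (-s) hsabs'
  have hneg : (-s) ^ 2 = s ^ 2 := by ring
  rw [hneg] at hM2
  have hP : ∀ t, 0 ≤ traceProb q (blockStr ∅ 0 X) t := fun t => traceProb_nonneg h0 h1 _ _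
  set dev : Word → ℝ := fun t => (X : ℝ) - H t - kap1 q * t.length with hdev
  have hpt : ∀ t ∈ (W (2 * X)).filter (fun t => u' ≤ |(X : ℝ) - H t - kap1 q * t.length|),
      traceProb q (blockStr ∅ 0 X) t ≤ Real.exp (-(s * u')) *
        (traceProb q (blockStr ∅ 0 X) t * Real.exp (s * dev t) +
         traceProb q (blockStr ∅ 0 X) t * Real.exp (-s * dev t)) := by
    intro t ht
    have ht2 : u' ≤ |dev t| := (mem_filter.mp ht).2
    have hPt := hP t
    have hone : 1 ≤ Real.exp (-(s * u')) * (Real.exp (s * dev t) + Real.exp (-s * dev t)) := by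
      rcases le_abs'.mp ht2 with h3 | h3
      · have h4 : 1 ≤ Real.exp (-(s * u')) * Real.exp (-s * dev t) := by
          rw [← Real.exp_add]
          apply Real.one_le_exp
          nlinarith
        have h5 : 0 ≤ Real.exp (-(s * u')) * Real.exp (s * dev t) := by positivity
        nlinarith
      · have h4 : 1 ≤ Real.exp (-(s * u')) * Real.exp (s * dev t) := by
          rw [← Real.exp_add]
          apply Real.one_le_exp
          nlinarith
        have h5 : 0 ≤ Real.exp (-(s * u')) * Real.exp (-s * dev t) := by positivity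
        nlinarith
    calc traceProb q (blockStr ∅ 0 X) t = traceProb q (blockStr ∅ 0 X) t * 1 := (mul_one _).symm
      _ ≤ traceProb q (blockStr ∅ 0 X) t * (Real.exp (-(s * u')) * (Real.exp (s * dev t) + Real.exp (-s * dev t))) :=
          mul_le_mul_of_nonneg_left hone hPt
      _ = _ := by ring
  have hsumle : ∑ t ∈ (W (2 * X)).filter (fun t => u' ≤ |(X : ℝ) - H t - kap1 q * t.length|),
      traceProb q (blockStr ∅ 0 X) t ≤ Real.exp (-(s * u')) *
        (K * Real.exp (C * s ^ 2 * (2 * X)) + K * Real.exp (C * s ^ 2 * (2 * X))) := by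
    refine le_trans (sum_le_sum hpt) ?_
    rw [← mul_sum]
    apply mul_le_mul_of_nonneg_left _ (Real.exp_pos _).le
    refine le_trans (sum_le_sum_of_subset_of_nonneg (filter_subset _ _) ?_) ?_
    · intro t _ _
      have := hP t
      positivity
    · rw [sum_add_distrib]
      exact add_le_add hM1 hM2
  refine le_trans hsumle ?_
  -- the exponent
  have hexpo : -(s * u') + C * s ^ 2 * (2 * X) ≤ 1 / C + (-(u ^ 2) / (8 * C * X)) := by
    have e1 : s * u = u ^ 2 / (4 * C * X) := by rw [hs]; field_simp
    have e2 : C * s ^ 2 * (2 * X) = u ^ 2 / (8 * C * X) := by rw [hs]; field_simp; ring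
    have e3 : s * (4 * D.card) ≤ 1 / C := by
      rw [hs]
      rw [div_mul_eq_mul_div, div_le_div_iff₀ (by positivity) hC]
      nlinarith
    have e4 : u ^ 2 / (4 * C * X) = 2 * (u ^ 2 / (8 * C * X)) := by field_simp; ring
    have e5 : -(u ^ 2) / (8 * C * X) = -(u ^ 2 / (8 * C * X)) := by ring
    rw [hu', e2, e5]
    nlinarith
  have hfin : Real.exp (-(s * u')) * (K * Real.exp (C * s ^ 2 * (2 * X)) + K * Real.exp (C * s ^ 2 * (2 * X))) =
      2 * K * Real.exp (-(s * u') + C * s ^ 2 * (2 * X)) := by
    rw [Real.exp_add]; ring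
  rw [hfin]
  set Cf : ℝ := 2 * K * Real.exp (1 / C) + 8 * C with hCf
  have h8 : 8 * C ≤ Cf := by
    rw [hCf]
    have : 0 < 2 * K * Real.exp (1 / C) := by positivity
    linarith
  have hCfpos : 0 < Cf := by linarith
  have h9 : -(u ^ 2) / (8 * C * X) ≤ -(u ^ 2) / (Cf * X) := by
    rw [neg_div, neg_div]
    apply neg_le_neg
    apply div_le_div_of_nonneg_left (by positivity) (by positivity)
    exact mul_le_mul_of_nonneg_right h8 hX0.le
  calc 2 * K * Real.exp (-(s * u') + C * s ^ 2 * (2 * X))
      ≤ 2 * K * Real.exp (1 / C + (-(u ^ 2) / (Cf * X))) := by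
        apply mul_le_mul_of_nonneg_left _ (by positivity)
        apply Real.exp_le_exp.mpr
        linarith
    _ = (2 * K * Real.exp (1 / C)) * Real.exp (-(u ^ 2) / (Cf * X)) := by
        rw [Real.exp_add]; ring
    _ ≤ Cf * Real.exp (-(u ^ 2) / (Cf * X)) := by
        apply mul_le_mul_of_nonneg_right _ (Real.exp_pos _).le
        rw [hCf]
        linarith

end base

end Vale.Agent.Lib.P321
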