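import Vale.Agent.Lib.P321.LTCompare

/-!
P321, lower tail module: the period of the letter at a given rank is in the expected window.
-/

namespace Vale.Agent.Lib.P321

open Finset

section
variable {q : ℝ}

theorem xD_empty_succ (b : ℕ) : xD ∅ (b + 1) = decide (b % 2 = 1) := by
  rcases Nat.even_or_odd' b with ⟨T, rfl | rfl⟩
  · rw [xD_empty_odd]
    simp
  · have e : 2 * T + 1 + 1 = 2 * T + 2 := by ring
    rw [e, xD_empty_even]
    simp

theorem per_succ_inj {b b' : ℕ} (h1 : xD ∅ (b + 1) = xD ∅ (b' + 1)) (h2 : per (b + 1) = per (b' + 1)) :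
    b = b' := by
  rw [xD_empty_succ, xD_empty_succ] at h1
  have h3 : b % 2 = 1 ↔ b' % 2 = 1 := by simpa using h1
  unfold per at h2
  omega

theorem kap1_eq (q : ℝ) : q ^ 2 / (1 - q ^ 2) = kap1 q := rfl

/-- Tail for the period of the letter at a given rank, base string. -/
theorem base_window_tail (h0 : 0 < q) (h1 : q < 1) :
    ∃ C : ℝ, 0 < C ∧ ∀ (A m : ℕ) (u : ℝ), 1 ≤ m → 0 ≤ u → u ≤ (m : ℝ) / 2 →
      ∑ r ∈ Weq m, ∑ b ∈ range (2 * A),
        (if u ≤ |(per (b + 1) : ℝ) - HR r - kap1 q * m| then (Ch0 h0 h1 A).Wt r (b + 1) else 0) ≤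
        2 * Real.exp (-(u ^ 2) / (C * m)) := by
  have hθ0 : 0 < q ^ 2 := by positivity
  have hθ1 : q ^ 2 < 1 := by nlinarith
  obtain ⟨C, hC, htail⟩ := NB_tail hθ0 hθ1
  rw [kap1_eq] at htail
  refine ⟨C, hC, ?_⟩
  intro A m u hm hu hum
  set E : ℝ := 2 * Real.exp (-(u ^ 2) / (C * m)) with hE
  have hr : ∀ r ∈ Weq m, ∑ b ∈ range (2 * A),
      (if u ≤ |(per (b + 1) : ℝ) - HR r - kap1 q * m| then (Ch0 h0 h1 A).Wt r (b + 1) else 0) ≤
      MkR q r * E := by
    intro r hr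
    rw [mem_Weq] at hr
    cases r with
    | nil => simp at hr; omega
    | cons c r₁ =>
      have hMk := MkR_pos h0 (c :: r₁)
      set B₀ : Finset ℕ := (range (2 * A)).filter (fun b =>
        (u ≤ |(per (b + 1) : ℝ) - HR (c :: r₁) - kap1 q * m|) ∧ xD ∅ (b + 1) = c ∧ HR (c :: r₁) ≤ per (b + 1))
        with hB₀
      have e1 : ∑ b ∈ range (2 * A),
          (if u ≤ |(per (b + 1) : ℝ) - HR (c :: r₁) - kap1 q * m| then (Ch0 h0 h1 A).Wt (c :: r₁) (b + 1) else 0) =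
          MkR q (c :: r₁) * ∑ b ∈ B₀, NB (q ^ 2) m ((per (b + 1) - HR (c :: r₁) : ℕ) : ℤ) := by
        rw [hB₀, sum_filter, mul_sum]
        apply sum_congr rfl
        intro b hb
        rw [mem_range] at hb
        rw [Wt0_closed h0 h1 hb, hr]
        by_cases h3 : u ≤ |(per (b + 1) : ℝ) - HR (c :: r₁) - kap1 q * m|
        · by_cases h4 : xD ∅ (b + 1) = c
          · by_cases h5 : HR (c :: r₁) ≤ per (b + 1)
            · rw [if_pos h3, if_pos h4, if_pos ⟨h3, h4, h5⟩]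
              congr 2
              omega
            · rw [if_pos h3, if_pos h4, if_neg (fun h => h5 h.2.2), NB_of_neg (by omega)]
          · rw [if_pos h3, if_neg h4, if_neg (fun h => h4 h.2.1)]
            ring
        · rw [if_neg h3, if_neg (fun h => h3 h.1)]
          ring
      rw [e1]
      apply mul_le_mul_of_nonneg_left _ hMk.le
      set φ : ℕ → ℕ := fun b => per (b + 1) - HR (c :: r₁) with hφ
      have hinj : Set.InjOn φ (B₀ : Set ℕ) := by
        intro a ha a' ha' haa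
        have ha2 := (mem_filter.mp (mem_coe.mp ha)).2
        have ha2' := (mem_filter.mp (mem_coe.mp ha')).2
        apply per_succ_inj (ha2.2.1.trans ha2'.2.1.symm)
        simp only [hφ] at haa
        omega
      have e2 : ∑ b ∈ B₀, NB (q ^ 2) m ((per (b + 1) - HR (c :: r₁) : ℕ) : ℤ) =
          ∑ k ∈ B₀.image φ, NB (q ^ 2) m (k : ℤ) := by
        rw [sum_image hinj]
      rw [e2]
      have e3 : (B₀.image φ) = (B₀.image φ).filter (fun k : ℕ => u ≤ |(k : ℝ) - q ^ 2 / (1 - q ^ 2) * m|) := by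
        rw [eq_comm, filter_eq_self]
        intro k hk
        obtain ⟨b, hb, rfl⟩ := mem_image.mp hk
        have hb2 := (mem_filter.mp hb).2
        simp only [hφ]
        rw [Nat.cast_sub hb2.2.2, kap1_eq]
        exact hb2.1
      rw [e3]
      rw [hE]
      exact htail m u (B₀.image φ) hm hu hum
  refine le_trans (sum_le_sum hr) ?_
  rw [← sum_mul, MkR_sum_Weq h0, one_mul]

/-- Sum over the words of given length of the weights at a position, with a condition. -/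
theorem window_sum_form (x : ℕ → Bool) (n : ℕ) (h0 : 0 < q) (h1 : q < 1) (hx : x 0 = true)
    (P : Word → Prop) [DecidablePred P] (m₁ : ℕ) {b : ℕ} (hb : b + 1 ≤ n) :
    ∑ r ∈ Weq (m₁ + 1), (if P r then (chainS x n h0 h1 hx).Wt r (b + 1) else 0) =
      (1 - q) * ∑ s ∈ Weq m₁, (if P (x (b + 1) :: s.reverse) then traceProb q (Xb x b) s else 0) := by
  rw [sum_Weq_step, sum_Weq_rev (fun s => if P (x (b + 1) :: s.reverse) then traceProb q (Xb x b) s else 0),
    mul_sum]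
  apply sum_congr rfl
  intro l _
  rw [chainS_Wt_succ x n h0 h1 hx l false hb, chainS_Wt_succ x n h0 h1 hx l true hb]
  simp only [List.reverse_reverse]
  cases hxb : x (b + 1) with
  | false =>
    simp only [Bool.false_eq_true, if_false, if_true, ite_self, add_zero]
    split_ifs <;> ring
  | true =>
    simp only [Bool.true_eq_false, if_false, if_true, ite_self, zero_add]
    split_ifs <;> ring

theorem ham_Xb (D : Finset ℤ) (b : ℕ) : ham (Xb (xD D) b) (Xb (xD ∅) b) ≤ 2 * D.card + 1 := by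
  rcases Nat.even_or_odd' b with ⟨T, rfl | rfl⟩
  · rw [Xb_even, Xb_even]
    have := ham_blockStr_le D 0 T
    omega
  · rw [Xb_succ, Xb_succ, Xb_even, Xb_even]
    have h1 := ham_blockStr_le D 0 T
    have h2 := ham_append (blockStr D 0 T) (blockStr ∅ 0 T) (xD D (2 * T + 1)) (xD ∅ (2 * T + 1))
      (by simp [length_blockStr])
    omega

theorem sum_ite_Weq_eq (m₁ B : ℕ) (hB : m₁ ≤ B) (Q : Word → Prop) [DecidablePred Q] (f : Word → ℝ) :
    ∑ s ∈ Weq m₁, (if Q s then f s else 0) = ∑ s ∈ (W B).filter (fun s => s.length = m₁ ∧ Q s), f s := by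
  rw [← sum_filter]
  apply sum_congr _ (fun _ _ => rfl)
  ext s
  simp only [mem_filter, mem_Weq, mem_W]
  constructor
  · rintro ⟨h1, h2⟩
    exact ⟨by omega, h1, h2⟩
  · rintro ⟨_, h1, h2⟩
    exact ⟨h1, h2⟩

/-- Coupling of the weights at a position. -/
theorem couple_window (h0 : 0 < q) (h1 : q < 1) (D : Finset ℤ) (n m₁ : ℕ) {b : ℕ} (hb : b + 1 ≤ n)
    (T K u : ℝ) :
    ∑ r ∈ Weq (m₁ + 1), (if u ≤ |T - HR r - K| then (chainS (xD D) n h0 h1 (xD_zero D)).Wt r (b + 1) else 0) ≤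
    ∑ r ∈ Weq (m₁ + 1), (if u - (4 * D.card + 4) ≤ |T - HR r - K| then
      (chainS (xD ∅) n h0 h1 (xD_zero ∅)).Wt r (b + 1) else 0) := by
  rw [window_sum_form (xD D) n h0 h1 (xD_zero D) (fun r => u ≤ |T - HR r - K|) m₁ hb,
    window_sum_form (xD ∅) n h0 h1 (xD_zero ∅) (fun r => u - (4 * D.card + 4) ≤ |T - HR r - K|) m₁ hb]
  apply mul_le_mul_of_nonneg_left _ (by linarith)
  rw [sum_ite_Weq_eq m₁ (b + m₁) (by omega), sum_ite_Weq_eq m₁ (b + m₁) (by omega)]
  apply coupling h0 h1 (by simp) (by simp)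
  rintro M ⟨h2, h3⟩
  set y := Xb (xD D) b with hy
  set y' := Xb (xD ∅) b with hy'
  have hlen : (maskApp M y).length = (maskApp M y').length := length_maskApp M (by simp [hy, hy'])
  refine ⟨hlen.symm.trans h2, ?_⟩
  set s := maskApp M y with hs
  set s' := maskApp M y' with hs'
  have e1 : HR (xD D (b + 1) :: s.reverse) = H (s ++ [xD D (b + 1)]) := by
    rw [HR_eq]
    simp
  have e2 : HR (xD ∅ (b + 1) :: s'.reverse) = H (s' ++ [xD ∅ (b + 1)]) := by
    rw [HR_eq]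
    simp
  rw [e1] at h3
  rw [e2]
  have hH := H_ham (s ++ [xD D (b + 1)]) (s' ++ [xD ∅ (b + 1)]) (by simp [hlen])
  have hh1 := ham_append s s' (xD D (b + 1)) (xD ∅ (b + 1)) hlen
  have hh2 : ham s s' ≤ ham y y' := ham_maskApp M y y'
  have hh3 : ham y y' ≤ 2 * D.card + 1 := ham_Xb D b
  have hH2 : |(H (s ++ [xD D (b + 1)]) : ℤ) - (H (s' ++ [xD ∅ (b + 1)]) : ℤ)| ≤ 4 * (D.card : ℤ) + 4 := by
    have h5 : ((ham (s ++ [xD D (b + 1)]) (s' ++ [xD ∅ (b + 1)]) : ℕ) : ℤ) ≤ 2 * (D.card : ℤ) + 2 := by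
      have : ham (s ++ [xD D (b + 1)]) (s' ++ [xD ∅ (b + 1)]) ≤ 2 * D.card + 2 := by omega
      exact_mod_cast this
    omega
  have hH3 : |(H (s ++ [xD D (b + 1)]) : ℝ) - (H (s' ++ [xD ∅ (b + 1)]) : ℝ)| ≤ 4 * (D.card : ℝ) + 4 := by
    have h4 : ((|(H (s ++ [xD D (b + 1)]) : ℤ) - (H (s' ++ [xD ∅ (b + 1)]) : ℤ)| : ℤ) : ℝ) ≤
        ((4 * (D.card : ℤ) + 4 : ℤ) : ℝ) := by exact_mod_cast hH2
    push_cast at h4
    exact h4
  have h6 : |T - (H (s ++ [xD D (b + 1)]) : ℝ) - K| ≤ |T - (H (s' ++ [xD ∅ (b + 1)]) : ℝ) - K| +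
      |(H (s ++ [xD D (b + 1)]) : ℝ) - (H (s' ++ [xD ∅ (b + 1)]) : ℝ)| := by
    have e3 : T - (H (s ++ [xD D (b + 1)]) : ℝ) - K = (T - (H (s' ++ [xD ∅ (b + 1)]) : ℝ) - K) -
        ((H (s ++ [xD D (b + 1)]) : ℝ) - (H (s' ++ [xD ∅ (b + 1)]) : ℝ)) := by ring
    rw [e3]
    exact abs_sub _ _
  linarith

/-- Mass of the traces shorter than a threshold. -/
theorem short_mass (x : ℕ → Bool) (n : ℕ) (h0 : 0 < q) (h1 : q < 1) (hx : x 0 = true) (m₁ : ℕ) :
    1 - ∑ r ∈ Weq (m₁ + 1), ∑ b ∈ range n, (chainS x n h0 h1 hx).Wt r (b + 1) =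
      ∑ t ∈ (W (n + (m₁ + 1))).filter (fun t => ¬ (m₁ + 1 ≤ t.length)), traceProb q (Xb x n) t := by
  have hsum := traceProb_sum (q := q) (Xb x n) (B := n + (m₁ + 1)) (by simp)
  have hsplit := sum_filter_add_sum_filter_not (W (n + (m₁ + 1))) (fun t => m₁ + 1 ≤ t.length)
    (fun t => traceProb q (Xb x n) t)
  rw [hsum] at hsplit
  have h3 := sum_split (m₁ + 1) (B := n + (m₁ + 1)) (by omega) (fun t => traceProb q (Xb x n) t)
  rw [h3] at hsplit
  have e : n + (m₁ + 1) - (m₁ + 1) = n := by omega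
  rw [e] at hsplit
  have h4 : ∑ r ∈ Weq (m₁ + 1), ∑ g ∈ W n, traceProb q (Xb x n) (r.reverse ++ g) =
      ∑ r ∈ Weq (m₁ + 1), ∑ b ∈ range n, (chainS x n h0 h1 hx).Wt r (b + 1) := by
    apply sum_congr rfl
    intro r hr
    rw [mem_Weq] at hr
    cases r with
    | nil => simp at hr
    | cons a r₁ => exact begin_mass x n h0 h1 hx r₁ a le_rfl
  rw [h4] at hsplit
  linarith

/-- The mass outside the window, for a string with flipped periods. -/
theorem outside_mass (h0 : 0 < q) (h1 : q < 1) (D : Finset ℤ) (n m₁ : ℕ) (T : ℕ → ℝ) (K Wd : ℝ) :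
    ∑ r ∈ Weq (m₁ + 1), ((chainS (xD D) n h0 h1 (xD_zero D)).Pre r -
        ∑ b ∈ range n, (if |T (b + 1) - HR r - K| ≤ Wd then (chainS (xD D) n h0 h1 (xD_zero D)).Wt r (b + 1) else 0)) ≤
      ∑ t ∈ (W (n + (m₁ + 1))).filter (fun t => ¬ (m₁ + 1 ≤ t.length)), traceProb q (Xb (xD D) n) t +
      ∑ r ∈ Weq (m₁ + 1), ∑ b ∈ range n, (if Wd - (4 * D.card + 4) ≤ |T (b + 1) - HR r - K| then
        (chainS (xD ∅) n h0 h1 (xD_zero ∅)).Wt r (b + 1) else 0) := by
  set Ch := chainS (xD D) n h0 h1 (xD_zero D) with hCh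
  have hs := short_mass (xD D) n h0 h1 (xD_zero D) m₁
  rw [← hs]
  have hP : ∑ r ∈ Weq (m₁ + 1), Ch.Pre r = 1 := sum_Pre_Weq Ch (m₁ + 1)
  have hsplit : ∀ r, ∑ b ∈ range n, Ch.Wt r (b + 1) =
      ∑ b ∈ range n, (if |T (b + 1) - HR r - K| ≤ Wd then Ch.Wt r (b + 1) else 0) +
      ∑ b ∈ range n, (if Wd < |T (b + 1) - HR r - K| then Ch.Wt r (b + 1) else 0) := by
    intro r
    rw [← sum_add_distrib]
    apply sum_congr rfl
    intro b _
    by_cases h : |T (b + 1) - HR r - K| ≤ Wd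
    · rw [if_pos h, if_neg (not_lt.mpr h), add_zero]
    · rw [if_neg h, if_pos (not_le.mp h), zero_add]
  have h2 : ∑ r ∈ Weq (m₁ + 1), (Ch.Pre r - ∑ b ∈ range n, (if |T (b + 1) - HR r - K| ≤ Wd then Ch.Wt r (b + 1) else 0)) =
      (1 - ∑ r ∈ Weq (m₁ + 1), ∑ b ∈ range n, Ch.Wt r (b + 1)) +
      ∑ r ∈ Weq (m₁ + 1), ∑ b ∈ range n, (if Wd < |T (b + 1) - HR r - K| then Ch.Wt r (b + 1) else 0) := by
    rw [sum_sub_distrib, hP]
    simp only [hsplit]
    rw [sum_add_distrib]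
    ring
  rw [h2]
  refine add_le_add le_rfl ?_
  rw [sum_comm]
  conv_rhs => rw [sum_comm]
  apply sum_le_sum
  intro b hb
  rw [mem_range] at hb
  have h3 : ∑ r ∈ Weq (m₁ + 1), (if Wd < |T (b + 1) - HR r - K| then Ch.Wt r (b + 1) else 0) ≤
      ∑ r ∈ Weq (m₁ + 1), (if Wd ≤ |T (b + 1) - HR r - K| then Ch.Wt r (b + 1) else 0) := by
    apply sum_le_sum
    intro r _
    have := Ch.Wt_nonneg r (b + 1)
    by_cases h4 : Wd < |T (b + 1) - HR r - K|
    · rw [if_pos h4, if_pos h4.le]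
    · rw [if_neg h4]
      split_ifs
      · exact this
      · exact le_rfl
  refine le_trans h3 ?_
  exact couple_window h0 h1 D n m₁ (b := b) (by omega) (T (b + 1)) K Wd

end

end Vale.Agent.Lib.P321
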