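import Vale.Agent.Lib.P321.LTParams

/-!
P321: lower tail of the likelihood ratio. See BLUEPRINT.md, section Lower tail module.
The base string is `blockStr ∅ 0 A`, the perturbed one `blockStr D 0 A`.
`kap1`, `trW`, `tailX` live in `LTTail`.
-/

namespace Vale.Agent.Lib.P321

open Finset

section
variable {q : ℝ}

theorem kap1_pos (h0 : 0 < q) (h1 : q < 1) : 0 < kap1 q := by
  have h2 : 0 < 1 - q ^ 2 := by nlinarith
  unfold kap1
  positivity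

theorem typ_len {κ A u₀ : ℝ} {t : Word} (hκ : 0 ≤ κ) (h : ¬ u₀ ≤ |A - H t - κ * t.length|) :
    A - u₀ ≤ (1 + κ) * t.length := by
  rw [not_le] at h
  have h2 := (abs_lt.mp h).2
  have h3 : (H t : ℝ) ≤ t.length := by exact_mod_cast H_le_length t
  nlinarith

theorem short_atyp {κ A u₀ m : ℝ} {t : Word} (hκ : 0 ≤ κ) (ht : (t.length : ℝ) ≤ m)
    (hm : u₀ + (1 + κ) * m ≤ A) : u₀ ≤ |A - H t - κ * t.length| := by
  have h3 : (H t : ℝ) ≤ t.length := by exact_mod_cast H_le_length t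
  have h4 : κ * t.length ≤ κ * m := mul_le_mul_of_nonneg_left ht hκ
  refine le_trans ?_ (le_abs_self _)
  nlinarith

/-- Mass of the window. -/
noncomputable def WM (h0 : 0 < q) (h1 : q < 1) (D : Finset ℤ) (A m : ℕ) (Wd : ℝ) (r : Word) : ℝ :=
  ∑ b ∈ range (2 * A), if |(per (b + 1) : ℝ) - HR r - kap1 q * m| ≤ Wd then
    (chainS (xD D) (2 * A) h0 h1 (xD_zero D)).Wt r (b + 1) else 0

theorem WM_le_Pre (h0 : 0 < q) (h1 : q < 1) (D : Finset ℤ) (A m : ℕ) (Wd : ℝ) (c : Bool) (r₁ : Word) :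
    WM h0 h1 D A m Wd (c :: r₁) ≤ (chainS (xD D) (2 * A) h0 h1 (xD_zero D)).Pre (c :: r₁) := by
  rw [Pre_expand]
  have h2 := (chainS (xD D) (2 * A) h0 h1 (xD_zero D)).Wt_nonneg (c :: r₁) (2 * A + 1)
  have h3 := (chainS (xD D) (2 * A) h0 h1 (xD_zero D)).Wt_nonneg (c :: r₁) (2 * A + 2)
  have h4 : WM h0 h1 D A m Wd (c :: r₁) ≤
      ∑ b ∈ range (2 * A), (chainS (xD D) (2 * A) h0 h1 (xD_zero D)).Wt (c :: r₁) (b + 1) := by
    unfold WM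
    apply sum_le_sum
    intro b _
    have := (chainS (xD D) (2 * A) h0 h1 (xD_zero D)).Wt_nonneg (c :: r₁) (b + 1)
    split_ifs
    · exact le_rfl
    · exact this
  linarith

theorem stage_B2 (C : HMM q ℕ) (h0 : 0 < q) (WMf : Word → ℝ) (m : ℕ) (hWM : ∀ r ∈ Weq m, WMf r ≤ C.Pre r) :
    ∑ r ∈ (Weq m).filter (fun r => MkR q r / 2 ≤ C.Pre r ∧ WMf r < 3 / 4 * C.Pre r), MkR q r ≤
      8 * ∑ r ∈ Weq m, (C.Pre r - WMf r) := by
  rw [mul_sum]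
  have h1 : ∑ r ∈ (Weq m).filter (fun r => MkR q r / 2 ≤ C.Pre r ∧ WMf r < 3 / 4 * C.Pre r), MkR q r ≤
      ∑ r ∈ (Weq m).filter (fun r => MkR q r / 2 ≤ C.Pre r ∧ WMf r < 3 / 4 * C.Pre r), 8 * (C.Pre r - WMf r) := by
    apply sum_le_sum
    intro r hr
    obtain ⟨_, h2, h3⟩ := mem_filter.mp hr
    linarith
  refine le_trans h1 ?_
  apply sum_le_sum_of_subset_of_nonneg (filter_subset _ _)
  intro r hr _
  have := hWM r hr
  linarith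

/-- Bound for the part outside the window. -/
theorem stage_out (h0 : 0 < q) (h1 : q < 1) {Ct Cn : ℝ} (hCn : 0 < Cn)
    (htail : ∀ (D : Finset ℤ) (X : ℕ) (u : ℝ), 1 ≤ X → 0 ≤ u → u ≤ X → (D.card : ℝ) * u ≤ X →
      ∑ t ∈ (W (2 * X)).filter (fun t => u ≤ |(X : ℝ) - H t - kap1 q * t.length|),
        trW q (2 * X) t * (cnt (blockStr D 0 X) t : ℝ) ≤ Ct * Real.exp (-(u ^ 2) / (Ct * X)))
    (hbase : ∀ (A m : ℕ) (u : ℝ), 1 ≤ m → 0 ≤ u → u ≤ (m : ℝ) / 2 →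
      ∑ r ∈ Weq m, ∑ b ∈ range (2 * A),
        (if u ≤ |(per (b + 1) : ℝ) - HR r - kap1 q * m| then (Ch0 h0 h1 A).Wt r (b + 1) else 0) ≤
        2 * Real.exp (-(u ^ 2) / (Cn * m)))
    (D : Finset ℤ) (A Xz : ℕ) (u₀ Wd : ℝ) (hA : 1 ≤ A) (hXz : 1 ≤ Xz) (hm : 4 * Xz ≤ 2 * A) (hu0 : 0 ≤ u₀)
    (hshort : u₀ + (1 + kap1 q) * (4 * (Xz : ℝ)) ≤ A) (hu1 : (D.card : ℝ) * u₀ ≤ A)
    (hΓ : 4 * (D.card : ℝ) + 4 ≤ Wd / 2) (hWm : Wd ≤ 4 * (Xz : ℝ)) :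
    ∑ r ∈ Weq (4 * Xz), ((chainS (xD D) (2 * A) h0 h1 (xD_zero D)).Pre r - WM h0 h1 D A (4 * Xz) Wd r) ≤
      Ct * Real.exp (-(u₀ ^ 2) / (Ct * A)) + 2 * Real.exp (-((Wd / 2) ^ 2) / (Cn * ((4 * Xz : ℕ) : ℝ))) := by
  have hκ := (kap1_pos h0 h1).le
  obtain ⟨m₁, hm₁⟩ : ∃ m₁, 4 * Xz = m₁ + 1 := ⟨4 * Xz - 1, by omega⟩
  have hmain := outside_mass h0 h1 D (2 * A) m₁ (fun b => (per b : ℝ)) (kap1 q * ((4 * Xz : ℕ) : ℝ)) Wd
  rw [← hm₁] at hmain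
  unfold WM
  refine le_trans hmain (add_le_add ?_ ?_)
  · have hsub : (W (2 * A + 4 * Xz)).filter (fun t => ¬ (4 * Xz ≤ t.length)) ⊆
        (W (2 * A)).filter (fun t => u₀ ≤ |(A : ℝ) - H t - kap1 q * t.length|) := by
      intro t ht
      rw [mem_filter] at ht ⊢
      have hlt : t.length < 4 * Xz := not_le.mp ht.2
      rw [mem_W]
      refine ⟨by omega, ?_⟩
      apply short_atyp hκ _ hshort
      have : (t.length : ℝ) ≤ ((4 * Xz : ℕ) : ℝ) := by exact_mod_cast hlt.le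
      push_cast at this
      exact this
    have h2 := htail D A u₀ hA hu0 (by nlinarith [kap1_pos h0 h1, (by exact_mod_cast hXz : (1 : ℝ) ≤ Xz)]) hu1
    simp only [trW_cnt] at h2
    refine le_trans ?_ h2
    rw [Xb_even]
    apply sum_le_sum_of_subset_of_nonneg hsub
    intro t _ _
    exact traceProb_nonneg h0 h1 _ _
  · have hu : Wd / 2 ≤ Wd - (4 * (D.card : ℝ) + 4) := by linarith
    have h2 := hbase A (4 * Xz) (Wd / 2) (by omega) (by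
      have : 0 ≤ 4 * (D.card : ℝ) + 4 := by positivity
      linarith) (by push_cast; linarith)
    refine le_trans ?_ h2
    apply sum_le_sum
    intro r _
    apply sum_le_sum
    intro b _
    have hW := (Ch0 h0 h1 A).Wt_nonneg r (b + 1)
    by_cases h3 : Wd - (4 * (D.card : ℝ) + 4) ≤ |(per (b + 1) : ℝ) - HR r - kap1 q * ((4 * Xz : ℕ) : ℝ)|
    · rw [if_pos h3, if_pos (le_trans hu h3)]
    · rw [if_neg h3]
      split_ifs
      · exact hW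
      · exact le_rfl

/-- The comparison of counts for a typical trace with a good beginning. -/
theorem stage_good (h0 : 0 < q) (h1 : q < 1) {C₀ s₀ Λ₀ : ℝ}
    (hNB : ∀ (l m y : ℕ) (w : ℤ) (X : ℝ), 1 ≤ l →
      |(y : ℝ) - q ^ 2 / (1 - q ^ 2) * l| ≤ X → X + 2 ≤ q ^ 2 / 4 * l → 4 / q ^ 2 * (X + 2) / l ≤ s₀ →
      NB (q ^ 2) (m + l) ((y : ℤ) + w) ≤
        2 * Real.exp (4 / q ^ 2 * (X + 2) / l * |(w : ℝ) - q ^ 2 / (1 - q ^ 2) * m| +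
          C₀ * (4 / q ^ 2 * (X + 2) / l) ^ 2 * m) * NB (q ^ 2) l (y : ℤ))
    (hpar : ∀ lam rA rX L X Wd w M : ℝ, Λ₀ ≤ lam → 1 ≤ rX → lam ^ 4 * rX ≤ rA → Wd = lam * rX →
      X = lam * rA + kap1 q + Wd → rA ^ 2 / (4 * (1 + kap1 q)) ≤ L → M = 4 * rX ^ 2 → |w| ≤ Wd →
      X + 2 ≤ q ^ 2 / 4 * L ∧ 4 / q ^ 2 * (X + 2) / L ≤ s₀ ∧
        4 / q ^ 2 * (X + 2) / L * |w| + C₀ * (4 / q ^ 2 * (X + 2) / L) ^ 2 * M ≤ 1)
    (D : Finset ℤ) (A Xz : ℕ) (lam rA rX : ℝ) (hD : ∀ d ∈ D, d ≤ (Xz : ℤ)) (hΛ : Λ₀ ≤ lam) (hrX1 : 1 ≤ rX)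
    (hrA : lam ^ 4 * rX ≤ rA) (hrAs : rA ^ 2 = A) (hrXs : rX ^ 2 = Xz) (hWX : lam * rX < Xz)
    (hA4 : lam * rA + (1 + kap1 q) * (4 * (Xz : ℝ)) ≤ 3 / 4 * A)
    (t : Word) (htyp : ¬ lam * rA ≤ |(A : ℝ) - H t - kap1 q * t.length|) (hlen : 4 * Xz ≤ t.length)
    (hPre : MkR q (t.take (4 * Xz)).reverse / 2 ≤
      (chainS (xD D) (2 * A) h0 h1 (xD_zero D)).Pre (t.take (4 * Xz)).reverse)
    (hWM : 3 / 4 * (chainS (xD D) (2 * A) h0 h1 (xD_zero D)).Pre (t.take (4 * Xz)).reverse ≤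
      WM h0 h1 D A (4 * Xz) (lam * rX) (t.take (4 * Xz)).reverse) :
    (1 / 20 : ℝ) * (cnt (blockStr ∅ 0 A) t : ℝ) ≤ (cnt (blockStr D 0 A) t : ℝ) := by
  have hκ := kap1_pos h0 h1
  have hXz1 : 1 ≤ Xz := by
    by_contra hc
    have : Xz = 0 := by omega
    subst this
    simp at hrXs
    rw [hrXs] at hrX1
    norm_num at hrX1
  set m := 4 * Xz with hm
  set g := t.drop m with hg
  have ht : t = (t.take m).reverse.reverse ++ g := by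
    rw [List.reverse_reverse, hg, List.take_append_drop]
  have hrlen : (t.take m).reverse.length = m := by
    simp only [List.length_reverse, List.length_take]
    omega
  generalize hrdef : (t.take m).reverse = r at ht hPre hWM hrlen
  cases r with
  | nil => simp at hrlen; omega
  | cons c r₁ =>
    have hMk := MkR_pos h0 (c :: r₁)
    have hmR : ((c :: r₁).length : ℝ) = 4 * (Xz : ℝ) := by
      rw [hrlen, hm]
      push_cast
      ring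
    have htlen : (t.length : ℝ) = 4 * (Xz : ℝ) + g.length := by
      have : t.length = (c :: r₁).length + g.length := by
        conv_lhs => rw [ht]
        simp
        omega
      rw [this]
      push_cast
      rw [← hmR]
    have hHR : 2 * Xz ≤ HR (c :: r₁) := by
      have := length_le_two_HR (c :: r₁)
      omega
    have hHRR : 2 * (Xz : ℝ) ≤ HR (c :: r₁) := by exact_mod_cast hHR
    have hmc : ((m : ℕ) : ℝ) = 4 * (Xz : ℝ) := by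
      rw [hm]
      push_cast
      ring
    -- the window is far from the flipped periods
    have hwin : ∀ b < 2 * A, |(per (b + 1) : ℝ) - HR (c :: r₁) - kap1 q * (m : ℕ)| ≤ lam * rX → Xz < per (b + 1) := by
      intro b _ hb
      have h2 := (abs_le.mp hb).1
      have h3 : 0 ≤ kap1 q * ((m : ℕ) : ℝ) := by positivity
      have h4 : (Xz : ℝ) < per (b + 1) := by linarith
      exact_mod_cast h4
    -- length of the tail of the trace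
    have hlenL : (A : ℝ) - lam * rA ≤ (1 + kap1 q) * t.length := typ_len hκ.le htyp
    have hL : rA ^ 2 / (4 * (1 + kap1 q)) ≤ (g.length : ℝ) + 1 := by
      rw [hrAs, div_le_iff₀ (by positivity)]
      rw [htlen] at hlenL
      have h3 : 0 ≤ (1 + kap1 q) * (g.length + 1 : ℝ) := by positivity
      nlinarith
    have hcmp : ∀ b < 2 * A, xD ∅ (b + 1) = c → |(per (b + 1) : ℝ) - HR (c :: r₁) - kap1 q * (m : ℕ)| ≤ lam * rX →
        traceProb q (blockStr ∅ 0 A) ((c :: r₁).reverse ++ g) ≤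
          (2 * Real.exp 1) * (traceProb q ((blockStr ∅ 0 A).drop (b + 1)) g * MkR q (c :: r₁)) := by
      intro b hb hc hin
      obtain ⟨hp1, hp2, hp3⟩ := hpar lam rA rX ((g.length : ℝ) + 1) (lam * rA + kap1 q + lam * rX) (lam * rX)
        ((per (b + 1) : ℝ) - HR (c :: r₁) - kap1 q * (m : ℕ)) (((c :: r₁).length : ℝ)) hΛ hrX1 hrA rfl rfl hL
        (by rw [hmR, hrXs]) hin
      apply compare_step h0 h1 hNB hb c r₁ g hc (lam * rA + kap1 q + lam * rX) _ hp1 hp2 _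
      · -- the deviation
        rw [← ht]
        rw [not_le] at htyp
        set dev : ℝ := (A : ℝ) - H t - kap1 q * t.length with hdev
        set w' : ℝ := (per (b + 1) : ℝ) - HR (c :: r₁) - kap1 q * (m : ℕ) with hw'
        have e : (A : ℝ) - H t - ((per (b + 1) : ℝ) - HR (c :: r₁)) - kap1 q * ((g.length : ℝ) + 1) =
            dev - w' - kap1 q := by
          rw [hdev, hw', htlen, hmc]
          ring
        rw [e]
        have h3 := abs_lt.mp htyp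
        have h4 := abs_le.mp hin
        rw [abs_le]
        constructor <;> linarith [h3.1, h3.2, h4.1, h4.2]
      · have e : (per (b + 1) : ℝ) - HR (c :: r₁) - kap1 q * ((c :: r₁).length : ℝ) =
            (per (b + 1) : ℝ) - HR (c :: r₁) - kap1 q * (m : ℕ) := by
          rw [hmR, hmc]
        rw [e]
        exact hp3
    have hgood := good_lower h0 h1 D A Xz c r₁ g (kap1 q * (m : ℕ)) (lam * rX) (2 * Real.exp 1) hD hwin
      (by positivity) hcmp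
    rw [← ht] at hgood
    -- conclusion
    have hP0 : 0 ≤ traceProb q (blockStr ∅ 0 A) t := traceProb_nonneg h0 h1 _ _
    have hPD : 0 ≤ traceProb q (blockStr D 0 A) t := traceProb_nonneg h0 h1 _ _
    have hWM2 : (3 / 8) * MkR q (c :: r₁) ≤ WM h0 h1 D A m (lam * rX) (c :: r₁) := by linarith
    have h3 : traceProb q (blockStr ∅ 0 A) t * ((3 / 8) * MkR q (c :: r₁)) ≤
        traceProb q (blockStr ∅ 0 A) t * WM h0 h1 D A m (lam * rX) (c :: r₁) :=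
      mul_le_mul_of_nonneg_left hWM2 hP0
    have h4 : (3 / 8) * traceProb q (blockStr ∅ 0 A) t * MkR q (c :: r₁) ≤
        (2 * Real.exp 1 * traceProb q (blockStr D 0 A) t) * MkR q (c :: r₁) := by
      calc (3 / 8) * traceProb q (blockStr ∅ 0 A) t * MkR q (c :: r₁)
          = traceProb q (blockStr ∅ 0 A) t * ((3 / 8) * MkR q (c :: r₁)) := by ring
        _ ≤ traceProb q (blockStr ∅ 0 A) t * WM h0 h1 D A m (lam * rX) (c :: r₁) := h3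
        _ ≤ 2 * Real.exp 1 * MkR q (c :: r₁) * traceProb q (blockStr D 0 A) t := hgood
        _ = _ := by ring
    have h5 := le_of_mul_le_mul_right h4 hMk
    have he : Real.exp 1 ≤ 3 := by
      have := Real.exp_one_lt_d9
      linarith
    have h6 : (1 / 20 : ℝ) * traceProb q (blockStr ∅ 0 A) t ≤ traceProb q (blockStr D 0 A) t := by
      have h7 : 2 * Real.exp 1 * traceProb q (blockStr D 0 A) t ≤ 6 * traceProb q (blockStr D 0 A) t := by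
        apply mul_le_mul_of_nonneg_right _ hPD
        linarith
      linarith
    rw [traceProb_eq_cnt, traceProb_eq_cnt, length_blockStr, length_blockStr] at h6
    have hpos : 0 < (1 - q) ^ t.length * q ^ (2 * A - t.length) := by
      have : 0 < 1 - q := by linarith
      positivity
    have h7 : ((1 / 20 : ℝ) * (cnt (blockStr ∅ 0 A) t : ℝ)) * ((1 - q) ^ t.length * q ^ (2 * A - t.length)) ≤
        (cnt (blockStr D 0 A) t : ℝ) * ((1 - q) ^ t.length * q ^ (2 * A - t.length)) := by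
      calc ((1 / 20 : ℝ) * (cnt (blockStr ∅ 0 A) t : ℝ)) * ((1 - q) ^ t.length * q ^ (2 * A - t.length))
          = (1 / 20 : ℝ) * ((cnt (blockStr ∅ 0 A) t : ℝ) * (1 - q) ^ t.length * q ^ (2 * A - t.length)) := by ring
        _ ≤ _ := h6
        _ = _ := by ring
    exact le_of_mul_le_mul_right h7 hpos

/-- The sum over bad traces is controlled by the three error terms. -/
theorem core (h0 : 0 < q) (h1 : q < 1) {Ct Cn C₀ s₀ Λ₀ E₁ : ℝ} (hCn : 0 < Cn)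
    (htail : ∀ (D : Finset ℤ) (X : ℕ) (u : ℝ), 1 ≤ X → 0 ≤ u → u ≤ X → (D.card : ℝ) * u ≤ X →
      ∑ t ∈ (W (2 * X)).filter (fun t => u ≤ |(X : ℝ) - H t - kap1 q * t.length|),
        trW q (2 * X) t * (cnt (blockStr D 0 X) t : ℝ) ≤ Ct * Real.exp (-(u ^ 2) / (Ct * X)))
    (hbase : ∀ (A m : ℕ) (u : ℝ), 1 ≤ m → 0 ≤ u → u ≤ (m : ℝ) / 2 →
      ∑ r ∈ Weq m, ∑ b ∈ range (2 * A),
        (if u ≤ |(per (b + 1) : ℝ) - HR r - kap1 q * m| then (Ch0 h0 h1 A).Wt r (b + 1) else 0) ≤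
        2 * Real.exp (-(u ^ 2) / (Cn * m)))
    (hNB : ∀ (l m y : ℕ) (w : ℤ) (X : ℝ), 1 ≤ l →
      |(y : ℝ) - q ^ 2 / (1 - q ^ 2) * l| ≤ X → X + 2 ≤ q ^ 2 / 4 * l → 4 / q ^ 2 * (X + 2) / l ≤ s₀ →
      NB (q ^ 2) (m + l) ((y : ℤ) + w) ≤
        2 * Real.exp (4 / q ^ 2 * (X + 2) / l * |(w : ℝ) - q ^ 2 / (1 - q ^ 2) * m| +
          C₀ * (4 / q ^ 2 * (X + 2) / l) ^ 2 * m) * NB (q ^ 2) l (y : ℤ))
    (hpar : ∀ lam rA rX L X Wd w M : ℝ, Λ₀ ≤ lam → 1 ≤ rX → lam ^ 4 * rX ≤ rA → Wd = lam * rX →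
      X = lam * rA + kap1 q + Wd → rA ^ 2 / (4 * (1 + kap1 q)) ≤ L → M = 4 * rX ^ 2 → |w| ≤ Wd →
      X + 2 ≤ q ^ 2 / 4 * L ∧ 4 / q ^ 2 * (X + 2) / L ≤ s₀ ∧
        4 / q ^ 2 * (X + 2) / L * |w| + C₀ * (4 / q ^ 2 * (X + 2) / L) ^ 2 * M ≤ 1)
    (D : Finset ℤ) (A Xz : ℕ) (lam rA rX : ℝ) (hD : ∀ d ∈ D, d ≤ (Xz : ℤ)) (hΛ : Λ₀ ≤ lam) (hrX1 : 1 ≤ rX)
    (hrA : lam ^ 4 * rX ≤ rA) (hrAs : rA ^ 2 = A) (hrXs : rX ^ 2 = Xz) (hWX : lam * rX < Xz)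
    (hA4 : lam * rA + (1 + kap1 q) * (4 * (Xz : ℝ)) ≤ 3 / 4 * A)
    (hA1 : 1 ≤ A) (hXz : 1 ≤ Xz) (hm : 4 * Xz ≤ 2 * A) (hu0 : 0 ≤ lam * rA)
    (hu1 : (D.card : ℝ) * (lam * rA) ≤ A) (hΓ : 4 * (D.card : ℝ) + 4 ≤ lam * rX / 2)
    (hWm : lam * rX ≤ 4 * (Xz : ℝ))
    (hB1 : ∑ r ∈ (Weq (4 * Xz)).filter (fun r =>
        (chainS (xD D) (2 * A) h0 h1 (xD_zero D)).Pre r < MkR q r / 2), MkR q r ≤ E₁) :
    ∑ t ∈ (W (2 * A)).filter (fun t => (cnt (blockStr D 0 A) t : ℝ) < (1 / 20) * (cnt (blockStr ∅ 0 A) t : ℝ)),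
        traceProb q (blockStr ∅ 0 A) t ≤
      Ct * Real.exp (-((lam * rA) ^ 2) / (Ct * A)) + E₁ +
        8 * (Ct * Real.exp (-((lam * rA) ^ 2) / (Ct * A)) +
          2 * Real.exp (-((lam * rX / 2) ^ 2) / (Cn * ((4 * Xz : ℕ) : ℝ)))) := by
  classical
  have hκ := kap1_pos h0 h1
  set Ch := chainS (xD D) (2 * A) h0 h1 (xD_zero D) with hCh
  set m := 4 * Xz with hmdef
  set WMf : Word → ℝ := WM h0 h1 D A m (lam * rX) with hWMf
  set 𝓑1 : Finset Word := (Weq m).filter (fun r => Ch.Pre r < MkR q r / 2) with h𝓑1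
  set 𝓑2 : Finset Word := (Weq m).filter (fun r => MkR q r / 2 ≤ Ch.Pre r ∧ WMf r < 3 / 4 * Ch.Pre r) with h𝓑2
  have hXzR : (1 : ℝ) ≤ Xz := by exact_mod_cast hXz
  have hshort : lam * rA + (1 + kap1 q) * (4 * (Xz : ℝ)) ≤ A := by
    have hA0 : (0 : ℝ) ≤ A := by positivity
    linarith
  have hBad : ∀ t ∈ W (2 * A), (cnt (blockStr D 0 A) t : ℝ) < (1 / 20) * (cnt (blockStr ∅ 0 A) t : ℝ) →
      (lam * rA ≤ |(A : ℝ) - H t - kap1 q * t.length|) ∨ (m ≤ t.length ∧ (t.take m).reverse ∈ 𝓑1 ∪ 𝓑2) := by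
    intro t _ hbad
    by_contra hcon
    rw [not_or] at hcon
    obtain ⟨htyp, hpre⟩ := hcon
    have hlen : m ≤ t.length := by
      by_contra hc
      apply htyp
      apply short_atyp hκ.le _ hshort
      have h2 : t.length ≤ 4 * Xz := by omega
      have h3 : (t.length : ℝ) ≤ ((4 * Xz : ℕ) : ℝ) := by exact_mod_cast h2
      push_cast at h3
      exact h3
    have hnot : (t.take m).reverse ∉ 𝓑1 ∪ 𝓑2 := fun h => hpre ⟨hlen, h⟩
    have hmem : (t.take m).reverse ∈ Weq m := by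
      rw [mem_Weq]
      simp only [List.length_reverse, List.length_take]
      omega
    have hP : MkR q (t.take m).reverse / 2 ≤ Ch.Pre (t.take m).reverse := by
      by_contra hc
      exact hnot (mem_union_left _ (mem_filter.mpr ⟨hmem, not_le.mp hc⟩))
    have hW : 3 / 4 * Ch.Pre (t.take m).reverse ≤ WMf (t.take m).reverse := by
      by_contra hc
      exact hnot (mem_union_right _ (mem_filter.mpr ⟨hmem, hP, not_le.mp hc⟩))
    have := stage_good h0 h1 hNB hpar D A Xz lam rA rX hD hΛ hrX1 hrA hrAs hrXs hWX hA4 t htyp hlen hP hW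
    linarith
  have hsum := bad_sum_abstract h0 h1 A m hm (𝓑1 ∪ 𝓑2)
    (fun t => (cnt (blockStr D 0 A) t : ℝ) < (1 / 20) * (cnt (blockStr ∅ 0 A) t : ℝ))
    (fun t => lam * rA ≤ |(A : ℝ) - H t - kap1 q * t.length|) hBad
  refine le_trans hsum ?_
  have hatyp : ∑ t ∈ (W (2 * A)).filter (fun t => lam * rA ≤ |(A : ℝ) - H t - kap1 q * t.length|),
      traceProb q (blockStr ∅ 0 A) t ≤ Ct * Real.exp (-((lam * rA) ^ 2) / (Ct * A)) := by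
    have h2 := htail ∅ A (lam * rA) hA1 hu0 (by linarith [(by positivity : (0 : ℝ) ≤ (1 + kap1 q) * (4 * (Xz : ℝ)))])
      (by simp)
    simp only [trW_cnt] at h2
    exact h2
  have hMkpos : ∀ r, 0 ≤ MkR q r := fun r => (MkR_pos h0 r).le
  have hunion : ∑ r ∈ 𝓑1 ∪ 𝓑2, MkR q r ≤ ∑ r ∈ 𝓑1, MkR q r + ∑ r ∈ 𝓑2, MkR q r := by
    have h5 := sum_union_inter (s₁ := 𝓑1) (s₂ := 𝓑2) (f := fun r => MkR q r)
    have h6 : 0 ≤ ∑ r ∈ 𝓑1 ∩ 𝓑2, MkR q r := sum_nonneg (fun r _ => hMkpos r)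
    linarith
  have hB2 := stage_B2 Ch h0 WMf m (by
    intro r hr
    rw [mem_Weq] at hr
    cases r with
    | nil =>
      simp at hr
      omega
    | cons c r₁ => exact WM_le_Pre h0 h1 D A m (lam * rX) c r₁)
  have hout := stage_out h0 h1 hCn htail hbase D A Xz (lam * rA) (lam * rX) hA1 hXz hm hu0 hshort hu1 hΓ hWm
  have h8 : ∑ r ∈ 𝓑2, MkR q r ≤ 8 * (Ct * Real.exp (-((lam * rA) ^ 2) / (Ct * A)) +
      2 * Real.exp (-((lam * rX / 2) ^ 2) / (Cn * ((4 * Xz : ℕ) : ℝ)))) := by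
    refine le_trans hB2 ?_
    exact mul_le_mul_of_nonneg_left hout (by norm_num)
  linarith

theorem params_real {κ lam dc rδ rX rA Xz A : ℝ} (hκ : 0 < κ) (hlam : 16 + 8 * (1 + κ) ≤ lam) (hdc : 1 ≤ dc)
    (hcard : dc * lam ^ 3 ≤ rδ) (hδX : rδ ≤ rX) (hXz : rX ^ 2 = Xz) (hA : rA ^ 2 = A) (hrA : lam ^ 4 * rX ≤ rA) :
    lam ^ 3 ≤ rX ∧ lam * rA + (1 + κ) * (4 * Xz) ≤ 3 / 4 * A ∧ dc * (lam * rA) ≤ A ∧
      4 * dc + 4 ≤ lam * rX / 2 ∧ lam * rX ≤ 4 * Xz ∧ lam * rX < Xz := by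
  have hl16 : 16 ≤ lam := by linarith
  have hl8 : 8 * (1 + κ) ≤ lam := by linarith
  have hl1 : 1 ≤ lam := by linarith
  have hl0 : 0 < lam := by linarith
  have hl3 : lam ≤ lam ^ 3 := pow_ge_self hl1 3 (by norm_num)
  have hl8' : lam ≤ lam ^ 8 := pow_ge_self hl1 8 (by norm_num)
  have hl4 : 1 ≤ lam ^ 4 := one_le_pow₀ hl1
  have hlr : lam ^ 3 ≤ rX := by
    calc lam ^ 3 = 1 * lam ^ 3 := (one_mul _).symm
      _ ≤ dc * lam ^ 3 := mul_le_mul_of_nonneg_right hdc (by positivity)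
      _ ≤ rδ := hcard
      _ ≤ rX := hδX
  have hrX1 : 1 ≤ rX := by linarith
  have hrX0 : 0 < rX := by linarith
  have hrXA : rX ≤ rA := by
    calc rX = 1 * rX := (one_mul _).symm
      _ ≤ lam ^ 4 * rX := mul_le_mul_of_nonneg_right hl4 hrX0.le
      _ ≤ rA := hrA
  have hrA0 : 0 < rA := by linarith
  have hlX : lam < rX := by
    have h2 : 1 < lam ^ 2 := by nlinarith
    have h3 : lam * 1 < lam * lam ^ 2 := mul_lt_mul_of_pos_left h2 hl0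
    have h4 : lam * lam ^ 2 = lam ^ 3 := by ring
    linarith
  have h4lam : 4 * lam ≤ rA := by
    have h2 : 4 * 1 ≤ lam ^ 3 := by linarith
    have h3 : lam ^ 4 = lam ^ 3 * lam := by ring
    calc 4 * lam ≤ lam ^ 3 * lam := by nlinarith
      _ = lam ^ 4 := h3.symm
      _ = lam ^ 4 * 1 := (mul_one _).symm
      _ ≤ lam ^ 4 * rX := mul_le_mul_of_nonneg_left hrX1 (by positivity)
      _ ≤ rA := hrA
  refine ⟨hlr, ?_, ?_, ?_, ?_, ?_⟩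
  · have h1 : lam * rA ≤ 1 / 4 * A := by
      rw [← hA]
      have : 4 * lam * rA ≤ rA * rA := mul_le_mul_of_nonneg_right h4lam hrA0.le
      nlinarith
    have h2 : (1 + κ) * (4 * Xz) ≤ 1 / 2 * A := by
      have h3 : lam ^ 8 * Xz ≤ A := by
        rw [← hA, ← hXz]
        have : (lam ^ 4 * rX) ^ 2 ≤ rA ^ 2 := pow_le_pow_left₀ (by positivity) hrA 2
        calc lam ^ 8 * rX ^ 2 = (lam ^ 4 * rX) ^ 2 := by ring
          _ ≤ _ := this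
      have hXz0 : 0 ≤ Xz := by
        rw [← hXz]
        positivity
      have h4 : 8 * (1 + κ) ≤ lam ^ 8 := by linarith
      have h5 : 8 * (1 + κ) * Xz ≤ lam ^ 8 * Xz := mul_le_mul_of_nonneg_right h4 hXz0
      linarith
    linarith
  · rw [← hA]
    have h2 : dc * lam ≤ rA := by
      have h3 : dc * lam ≤ dc * lam ^ 3 := mul_le_mul_of_nonneg_left hl3 (by linarith)
      linarith
    calc dc * (lam * rA) = (dc * lam) * rA := by ring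
      _ ≤ rA * rA := mul_le_mul_of_nonneg_right h2 hrA0.le
      _ = rA ^ 2 := by ring
  · have h2 : 4 * dc ≤ dc * lam ^ 3 := by
      have h3 : (4 : ℝ) ≤ lam ^ 3 := by linarith
      calc 4 * dc = dc * 4 := by ring
        _ ≤ dc * lam ^ 3 := mul_le_mul_of_nonneg_left h3 (by linarith)
    have h3 : 16 * rX ≤ lam * rX := mul_le_mul_of_nonneg_right hl16 hrX0.le
    linarith
  · rw [← hXz]
    have h2 : lam * rX ≤ rX * rX := mul_le_mul_of_nonneg_right hlX.le hrX0.le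
    have h3 : 0 ≤ rX * rX := by positivity
    nlinarith
  · rw [← hXz]
    have h2 : lam * rX < rX * rX := mul_lt_mul_of_pos_right hlX hrX0
    calc lam * rX < rX * rX := h2
      _ = rX ^ 2 := by ring

/-- Choice of the auxiliary width. -/
theorem width_facts {δ Xz A lam : ℕ} {dc : ℝ} (hdc : 1 ≤ dc) (hlam : 16 ≤ lam)
    (hcard : dc * (lam : ℝ) ^ 3 ≤ √(δ : ℝ)) (hδX : δ ≤ Xz) (hA : (Xz : ℝ) * (lam : ℝ) ^ 8 ≤ A) :
    1 ≤ Nat.sqrt δ ∧ Nat.sqrt δ ^ 2 ≤ δ ∧ 2 * Nat.sqrt δ + 6 ≤ δ ∧ Xz + Nat.sqrt δ + 3 ≤ A ∧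
      dc * (lam : ℝ) ^ 3 / 2 ≤ (Nat.sqrt δ : ℝ) := by
  set W := Nat.sqrt δ with hW
  have hW2 : W ^ 2 ≤ δ := by
    rw [hW, sq]
    exact Nat.sqrt_le δ
  have hW3 : δ < (W + 1) ^ 2 := by
    rw [hW, sq]
    exact Nat.lt_succ_sqrt δ
  have hlamR : (16 : ℝ) ≤ lam := by exact_mod_cast hlam
  have hl3 : (16 : ℝ) ≤ (lam : ℝ) ^ 3 := by
    have : (lam : ℝ) ≤ (lam : ℝ) ^ 3 := pow_ge_self (by linarith) 3 (by norm_num)
    linarith
  have hsq : √(δ : ℝ) < (W : ℝ) + 1 := by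
    rw [Real.sqrt_lt' (by positivity)]
    have : ((δ : ℕ) : ℝ) < (((W + 1) ^ 2 : ℕ) : ℝ) := by exact_mod_cast hW3
    push_cast at this
    exact this
  have h1 : (lam : ℝ) ^ 3 ≤ √(δ : ℝ) := by
    calc (lam : ℝ) ^ 3 = 1 * (lam : ℝ) ^ 3 := (one_mul _).symm
      _ ≤ dc * (lam : ℝ) ^ 3 := mul_le_mul_of_nonneg_right hdc (by positivity)
      _ ≤ _ := hcard
  have hW15 : (15 : ℝ) < W := by linarith
  have hWN : 15 < W := by exact_mod_cast hW15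
  have hsqW : W ^ 2 ≥ 4 * W := by nlinarith
  have hXzW : W + 3 ≤ Xz := by nlinarith
  refine ⟨by omega, hW2, by nlinarith, ?_, ?_⟩
  · have hXz0 : (0 : ℝ) ≤ Xz := by positivity
    have hl8 : (2 : ℝ) ≤ (lam : ℝ) ^ 8 := by
      have : (lam : ℝ) ≤ (lam : ℝ) ^ 8 := pow_ge_self (by linarith) 8 (by norm_num)
      linarith
    have h2 : 2 * (Xz : ℝ) ≤ A := by
      have := mul_le_mul_of_nonneg_left hl8 hXz0
      linarith
    have h3 : 2 * Xz ≤ A := by exact_mod_cast h2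
    omega
  · have h3 : √(δ : ℝ) ≤ 2 * (W : ℝ) := by linarith
    linarith

/-- The elementary consequences of the hypotheses. -/
theorem lt_setup {κ : ℝ} (hκ : 0 < κ) {lam A δ Xz : ℕ} {dc : ℝ} (hlam : 16 + 8 * (1 + κ) ≤ (lam : ℝ)) (hdc : 1 ≤ dc)
    (hcard : dc * (lam : ℝ) ^ 3 ≤ √(δ : ℝ)) (hδXz : δ ≤ Xz) (hA : (Xz : ℝ) * (lam : ℝ) ^ 8 ≤ A) :
    1 ≤ √(Xz : ℝ) ∧ (lam : ℝ) ^ 4 * √(Xz : ℝ) ≤ √(A : ℝ) ∧ (√(A : ℝ)) ^ 2 = A ∧ (√(Xz : ℝ)) ^ 2 = Xz ∧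
      (lam : ℝ) * √(Xz : ℝ) < Xz ∧ (lam : ℝ) * √(A : ℝ) + (1 + κ) * (4 * (Xz : ℝ)) ≤ 3 / 4 * A ∧
      1 ≤ A ∧ 1 ≤ Xz ∧ 4 * Xz ≤ 2 * A ∧ 0 ≤ (lam : ℝ) * √(A : ℝ) ∧ dc * ((lam : ℝ) * √(A : ℝ)) ≤ A ∧
      4 * dc + 4 ≤ (lam : ℝ) * √(Xz : ℝ) / 2 ∧ (lam : ℝ) * √(Xz : ℝ) ≤ 4 * (Xz : ℝ) := by
  set l : ℝ := (lam : ℝ) with hl
  have hl1 : 1 ≤ l := by linarith
  have hl0 : 0 < l := by linarith
  set rA : ℝ := √(A : ℝ) with hrAdef
  set rX : ℝ := √(Xz : ℝ) with hrXdef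
  have hrAs : rA ^ 2 = A := Real.sq_sqrt (by positivity)
  have hrXs : rX ^ 2 = Xz := Real.sq_sqrt (by positivity)
  have hrδX : √(δ : ℝ) ≤ rX := Real.sqrt_le_sqrt (by exact_mod_cast hδXz)
  have hrX0 : 0 ≤ rX := Real.sqrt_nonneg _
  have hrA : l ^ 4 * rX ≤ rA := by
    apply Real.le_sqrt_of_sq_le
    calc (l ^ 4 * rX) ^ 2 = (rX ^ 2) * l ^ 8 := by ring
      _ = (Xz : ℝ) * l ^ 8 := by rw [hrXs]
      _ ≤ A := hA
  obtain ⟨hlr, hA4, hu1, hΓ, hWm, hWX⟩ := params_real hκ hlam hdc hcard hrδX hrXs hrAs hrA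
  have hl3 : l ≤ l ^ 3 := pow_ge_self hl1 3 (by norm_num)
  have hrX1 : 1 ≤ rX := by linarith
  have hXzR : (1 : ℝ) ≤ Xz := by
    rw [← hrXs]
    nlinarith
  have hXz1 : 1 ≤ Xz := by exact_mod_cast hXzR
  have hrA1 : 1 ≤ rA := by
    have : 1 * rX ≤ l ^ 4 * rX := mul_le_mul_of_nonneg_right (one_le_pow₀ hl1) hrX0
    linarith
  have hAR : (1 : ℝ) ≤ A := by
    rw [← hrAs]
    nlinarith
  have hA1 : 1 ≤ A := by exact_mod_cast hAR
  have hu0 : 0 ≤ l * rA := by positivity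
  have hm : 4 * Xz ≤ 2 * A := by
    have h3 : 4 * (Xz : ℝ) ≤ (1 + κ) * (4 * (Xz : ℝ)) := by
      have : 0 ≤ κ * (4 * (Xz : ℝ)) := by positivity
      linarith
    have h5 : 4 * (Xz : ℝ) ≤ 2 * A := by linarith
    exact_mod_cast h5
  exact ⟨hrX1, hrA, hrAs, hrXs, hWX, hA4, hA1, hXz1, hm, hu0, hu1, hΓ, hWm⟩

theorem lt_delta {δ₀ δ lam : ℕ} {dc : ℝ} (hdc : 1 ≤ dc) (hlam : (δ₀ : ℝ) + 1 ≤ lam)
    (hcard : dc * (lam : ℝ) ^ 3 ≤ √(δ : ℝ)) : δ₀ ≤ δ := by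
  have hδ₀R : (0 : ℝ) ≤ δ₀ := by positivity
  have hl1 : (1 : ℝ) ≤ lam := by linarith
  have h3 : (lam : ℝ) ≤ (lam : ℝ) ^ 3 := pow_ge_self hl1 3 (by norm_num)
  have h4 : (lam : ℝ) ^ 3 ≤ √(δ : ℝ) := by
    calc (lam : ℝ) ^ 3 = 1 * (lam : ℝ) ^ 3 := (one_mul _).symm
      _ ≤ dc * (lam : ℝ) ^ 3 := mul_le_mul_of_nonneg_right hdc (by positivity)
      _ ≤ _ := hcard
  have hδ1 : (1 : ℝ) ≤ √(δ : ℝ) := by linarith
  have h5 : √(δ : ℝ) ≤ δ := by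
    have hsq := Real.sq_sqrt (by positivity : (0 : ℝ) ≤ δ)
    nlinarith
  have h6 : (δ₀ : ℝ) ≤ δ := by linarith
  exact_mod_cast h6

/-- The final numerical bound. -/
theorem final_bound {Ct Cn c₆ c₇ K₀ C : ℝ} (hCt : 0 < Ct) (hCn : 0 < Cn) (hc₇0 : 0 < c₇) (hc1 : c₇ ≤ 1 / Ct)
    (hc2 : c₇ ≤ c₆) (hc3 : c₇ ≤ 1 / 2) (hc4 : c₇ ≤ 1 / (16 * Cn)) (hK₀ : K₀ = 9 * Ct + 3 + Real.exp 1 + 16)
    (lam : ℕ) (hl1 : (1 : ℝ) ≤ lam) (hC1 : 2 * K₀ / c₇ ≤ lam) (hC2 : 2 / c₇ ≤ C) :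
    Ct * Real.exp (-((lam : ℝ) ^ 2 / Ct)) + (3 * Real.exp (-(c₆ * (lam : ℝ))) + (1 / 2) ^ lam * Real.exp 1) +
      8 * (Ct * Real.exp (-((lam : ℝ) ^ 2 / Ct)) + 2 * Real.exp (-((lam : ℝ) ^ 2 / (16 * Cn)))) ≤
      Real.exp (-(lam : ℝ) / C) := by
  have hl0 : (0 : ℝ) < lam := by linarith
  have hl2 : (lam : ℝ) ≤ (lam : ℝ) ^ 2 := pow_ge_self hl1 2 (by norm_num)
  have hK₀0 : 0 < K₀ := by
    have := Real.exp_pos (1 : ℝ)
    rw [hK₀]
    positivity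
  have hEx0 : 0 < Real.exp (-(c₇ * (lam : ℝ))) := Real.exp_pos _
  have b1 : Real.exp (-((lam : ℝ) ^ 2 / Ct)) ≤ Real.exp (-(c₇ * (lam : ℝ))) := by
    apply Real.exp_le_exp.mpr
    apply neg_le_neg
    have h2 : c₇ * (lam : ℝ) ≤ (1 / Ct) * (lam : ℝ) := mul_le_mul_of_nonneg_right hc1 hl0.le
    have h3 : (1 / Ct) * (lam : ℝ) ≤ (1 / Ct) * (lam : ℝ) ^ 2 := mul_le_mul_of_nonneg_left hl2 (by positivity)
    calc c₇ * (lam : ℝ) ≤ (1 / Ct) * (lam : ℝ) ^ 2 := le_trans h2 h3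
      _ = _ := by ring
  have b2 : Real.exp (-((lam : ℝ) ^ 2 / (16 * Cn))) ≤ Real.exp (-(c₇ * (lam : ℝ))) := by
    apply Real.exp_le_exp.mpr
    apply neg_le_neg
    have h2 : c₇ * (lam : ℝ) ≤ (1 / (16 * Cn)) * (lam : ℝ) := mul_le_mul_of_nonneg_right hc4 hl0.le
    have h3 : (1 / (16 * Cn)) * (lam : ℝ) ≤ (1 / (16 * Cn)) * (lam : ℝ) ^ 2 :=
      mul_le_mul_of_nonneg_left hl2 (by positivity)
    calc c₇ * (lam : ℝ) ≤ (1 / (16 * Cn)) * (lam : ℝ) ^ 2 := le_trans h2 h3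
      _ = _ := by ring
  have b3 : Real.exp (-(c₆ * (lam : ℝ))) ≤ Real.exp (-(c₇ * (lam : ℝ))) := by
    apply Real.exp_le_exp.mpr
    apply neg_le_neg
    exact mul_le_mul_of_nonneg_right hc2 hl0.le
  have b4 : (1 / 2 : ℝ) ^ lam ≤ Real.exp (-(c₇ * (lam : ℝ))) := by
    refine le_trans (half_pow_le lam) ?_
    apply Real.exp_le_exp.mpr
    apply neg_le_neg
    exact mul_le_mul_of_nonneg_right hc3 hl0.le
  have he0 : 0 < Real.exp 1 := Real.exp_pos _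
  have hsum : Ct * Real.exp (-((lam : ℝ) ^ 2 / Ct)) + (3 * Real.exp (-(c₆ * (lam : ℝ))) + (1 / 2) ^ lam * Real.exp 1) +
      8 * (Ct * Real.exp (-((lam : ℝ) ^ 2 / Ct)) + 2 * Real.exp (-((lam : ℝ) ^ 2 / (16 * Cn)))) ≤
      K₀ * Real.exp (-(c₇ * (lam : ℝ))) := by
    have h2 : Ct * Real.exp (-((lam : ℝ) ^ 2 / Ct)) ≤ Ct * Real.exp (-(c₇ * (lam : ℝ))) :=
      mul_le_mul_of_nonneg_left b1 hCt.le
    have h3 : (1 / 2 : ℝ) ^ lam * Real.exp 1 ≤ Real.exp (-(c₇ * (lam : ℝ))) * Real.exp 1 :=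
      mul_le_mul_of_nonneg_right b4 he0.le
    have e : K₀ * Real.exp (-(c₇ * (lam : ℝ))) =
        9 * (Ct * Real.exp (-(c₇ * (lam : ℝ)))) + 3 * Real.exp (-(c₇ * (lam : ℝ))) +
        Real.exp (-(c₇ * (lam : ℝ))) * Real.exp 1 + 16 * Real.exp (-(c₇ * (lam : ℝ))) := by
      rw [hK₀]; ring
    rw [e]
    linarith
  refine le_trans hsum ?_
  have hfin := final_numeric hc₇0 hK₀0 (lam : ℝ) hC1
  refine le_trans hfin ?_
  apply Real.exp_le_exp.mpr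
  have hCpos : 0 < C := lt_of_lt_of_le (by positivity) hC2
  have h3 : (lam : ℝ) / C ≤ c₇ / 2 * (lam : ℝ) := by
    rw [div_le_iff₀ hCpos]
    have h4 : c₇ / 2 * (2 / c₇) = 1 := by field_simp
    have h5 : c₇ / 2 * (2 / c₇) ≤ c₇ / 2 * C := mul_le_mul_of_nonneg_left hC2 (by positivity)
    calc (lam : ℝ) = (lam : ℝ) * 1 := (mul_one _).symm
      _ ≤ (lam : ℝ) * (c₇ / 2 * C) := mul_le_mul_of_nonneg_left (by linarith) hl0.le
      _ = _ := by ring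
  have e3 : -(lam : ℝ) / C = -((lam : ℝ) / C) := by ring
  rw [e3]
  linarith

theorem exponents_eq {Ct Cn l rA rX : ℝ} {A Xz : ℕ} (hCt : 0 < Ct) (hCn : 0 < Cn) (hA : (1 : ℝ) ≤ A) (hX : (1 : ℝ) ≤ Xz)
    (hrAs : rA ^ 2 = A) (hrXs : rX ^ 2 = Xz) :
    -((l * rA) ^ 2) / (Ct * A) = -(l ^ 2 / Ct) ∧
      -((l * rX / 2) ^ 2) / (Cn * ((4 * Xz : ℕ) : ℝ)) = -(l ^ 2 / (16 * Cn)) := by
  have hAne : (A : ℝ) ≠ 0 := by linarith
  have hXne : (Xz : ℝ) ≠ 0 := by linarith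
  constructor
  · rw [mul_pow, hrAs]
    field_simp
  · rw [div_pow, mul_pow, hrXs]
    push_cast
    field_simp
    ring

/-- Main theorem of the module: the likelihood ratio of a well spaced perturbation against the
base string is rarely small under the base trace law. -/
theorem lower_tail {q : ℝ} (h0 : 0 < q) (h1 : q < 1) :
    ∃ c C : ℝ, 0 < c ∧ 0 < C ∧ ∀ (lam A δ Xz : ℕ) (D : Finset ℤ), C ≤ lam →
      (∀ d ∈ D, (δ : ℤ) ≤ d ∧ d ≤ (Xz : ℤ)) →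
      (∀ d ∈ D, ∀ d' ∈ D, d ≠ d' → (δ : ℤ) ≤ |d - d'|) →
      (D.card : ℝ) * (lam : ℝ) ^ 3 ≤ √(δ : ℝ) →
      (Xz : ℝ) * (lam : ℝ) ^ 8 ≤ A →
      ∑ t ∈ (W (2 * A)).filter
          (fun t => (cnt (blockStr D 0 A) t : ℝ) < c * (cnt (blockStr ∅ 0 A) t : ℝ)),
        trW q (2 * A) t * (cnt (blockStr ∅ 0 A) t : ℝ) ≤ Real.exp (-(lam : ℝ) / C) := by
  have hκ := kap1_pos h0 h1
  have hθ0 : 0 < q ^ 2 := by positivity
  have hθ1 : q ^ 2 < 1 := by nlinarith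
  obtain ⟨Ct, hCt, htail⟩ := tailX h0 h1
  obtain ⟨Cn, hCn, hbase⟩ := base_window_tail h0 h1
  obtain ⟨C₂, δ₀, hC₂, hspread⟩ := spread_bound h0 h1
  obtain ⟨C₀, s₀, hC₀, hs₀, hNB⟩ := NB_compare hθ0 hθ1
  obtain ⟨Λ₀, hΛ₀, hpar⟩ := params_compare hθ0 hκ hC₀ hs₀
  obtain ⟨Λ₁, c₆, hΛ₁, hc₆, hB1⟩ := stage_B1 (ι := ℕ) h0 h1 hC₂
  obtain ⟨c₇, hc₇0, hc1, hc2, hc3, hc4⟩ : ∃ c₇ : ℝ, 0 < c₇ ∧ c₇ ≤ 1 / Ct ∧ c₇ ≤ c₆ ∧ c₇ ≤ 1 / 2 ∧ c₇ ≤ 1 / (16 * Cn) :=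
    ⟨min (1 / Ct) (min c₆ (min (1 / 2) (1 / (16 * Cn)))),
      lt_min (by positivity) (lt_min hc₆ (lt_min (by norm_num) (by positivity))),
      min_le_left _ _, le_trans (min_le_right _ _) (min_le_left _ _),
      le_trans (min_le_right _ _) (le_trans (min_le_right _ _) (min_le_left _ _)),
      le_trans (min_le_right _ _) (le_trans (min_le_right _ _) (min_le_right _ _))⟩
  obtain ⟨K₀, hK₀⟩ : ∃ K₀ : ℝ, K₀ = 9 * Ct + 3 + Real.exp 1 + 16 := ⟨_, rfl⟩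
  have hK₀0 : 0 < K₀ := by
    have := Real.exp_pos (1 : ℝ)
    rw [hK₀]
    positivity
  obtain ⟨C, hC⟩ : ∃ C : ℝ, C = (δ₀ : ℝ) + 1 + Λ₀ + Λ₁ + 16 + 8 * (1 + kap1 q) + 2 * K₀ / c₇ + 2 / c₇ := ⟨_, rfl⟩
  have hδ₀R : (0 : ℝ) ≤ δ₀ := by positivity
  have hpos1 : 0 ≤ 8 * (1 + kap1 q) := by positivity
  have hpos2 : 0 < 2 * K₀ / c₇ := by positivity
  have hpos3 : 0 < 2 / c₇ := by positivity
  have hCpos : 0 < C := by linarith
  refine ⟨1 / 20, C, by norm_num, hCpos, ?_⟩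
  intro lam A δ Xz D hlam hsites hsp hcard hA
  simp only [trW_cnt]
  by_cases hD : D = ∅
  · subst hD
    rw [filter_false_of_mem]
    · simp only [sum_empty]
      positivity
    · intro t _
      have : (0 : ℝ) ≤ (cnt (blockStr ∅ 0 A) t : ℝ) := by positivity
      linarith
  obtain ⟨d, hd⟩ := Finset.nonempty_iff_ne_empty.mpr hD
  have hdc : (1 : ℝ) ≤ D.card := by
    have : 1 ≤ D.card := Finset.card_pos.mpr ⟨d, hd⟩
    exact_mod_cast this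
  have hlN : 16 ≤ lam := by
    have : (16 : ℝ) ≤ lam := by linarith
    exact_mod_cast this
  have hδXz : δ ≤ Xz := by
    have h2 := hsites d hd
    have : (δ : ℤ) ≤ Xz := le_trans h2.1 h2.2
    exact_mod_cast this
  obtain ⟨hrX1, hrA, hrAs, hrXs, hWX, hA4, hA1, hXz1, hm, hu0, hu1, hΓ, hWm⟩ :=
    lt_setup hκ (lam := lam) (A := A) (δ := δ) (Xz := Xz) (by linarith) hdc hcard hδXz hA
  obtain ⟨hW1, hW2, hW3, hW4, hW5⟩ := width_facts (δ := δ) (Xz := Xz) (A := A) hdc hlN hcard hδXz hA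
  have hδ₀ : δ₀ ≤ δ := lt_delta hdc (by linarith) hcard
  have hG := hspread A δ (Nat.sqrt δ) Xz D hδ₀ hW1 hW2 hW3 hsites hsp hW4
  have hD1 : ∀ e ∈ D, 1 ≤ e := by
    intro e he
    have h2 := (hsites e he).1
    have h3 : 1 ≤ δ := by
      have := hW1
      have h4 := Nat.sqrt_le δ
      nlinarith
    omega
  have hBb : (chainS (xD D) (2 * A) h0 h1 (xD_zero D)).Bb ≤ 2 * (D.card : ℝ) * (1 / (1 - q)) := by
    refine le_trans (chainS_Bb (xD D) (2 * A) h0 h1 (xD_zero D)) ?_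
    apply mul_le_mul_of_nonneg_right _ (by
      have : 0 < 1 - q := by linarith
      positivity)
    have h2 := card_runEnds D hD1 (2 * A)
    exact_mod_cast h2
  have hE := hB1 (chainS (xD D) (2 * A) h0 h1 (xD_zero D)) lam (D.card : ℝ) (Nat.sqrt δ : ℝ) (4 * Xz)
    (by linarith) hdc hW5 hG hBb
  have hDXz : ∀ e ∈ D, e ≤ (Xz : ℤ) := fun e he => (hsites e he).2
  have hcore := core h0 h1 hCn htail hbase hNB hpar D A Xz (lam : ℝ) √(A : ℝ) √(Xz : ℝ) hDXz (by linarith) hrX1 hrA hrAs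
    hrXs hWX hA4 hA1 hXz1 hm hu0 hu1 hΓ hWm hE
  refine le_trans hcore ?_
  obtain ⟨e1, e2⟩ := exponents_eq (l := (lam : ℝ)) hCt hCn (by exact_mod_cast hA1) (by exact_mod_cast hXz1) hrAs hrXs
  rw [e1, e2]
  exact final_bound hCt hCn hc₇0 hc1 hc2 hc3 hc4 hK₀ lam (by linarith) (by linarith) (by linarith)

end

end Vale.Agent.Lib.P321
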