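import Vale.Agent.Lib.P321.NumCore
import Vale.Agent.Lib.P321.Assembly

/-!
P321: the lower bound `T_q(n) ≥ c n^(13/8 - ε)`.
-/

namespace Vale.Agent.Lib.P321

/-- The lower bound for the exponents of the family. -/
theorem main_family {q : ℝ} (h0 : 0 < q) (h1 : q < 1) {m : ℕ} (hm : 3 ≤ m) :
    ∃ c : ℝ, 0 < c ∧ ∃ n₀ : ℕ, ∀ n ≥ n₀, ∀ s : ℕ, CanReconstruct q n s →
      c * (n : ℝ) ^ (((13 : ℝ) * m - 10) / (8 * m + 16)) ≤ (s : ℝ) := by
  have hm' : (3 : ℝ) ≤ m := by exact_mod_cast hm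
  refine main_of_core (a := 2 * (4 * m + 8)) (a' := 4 * m + 8) (pP := 8 * m + 7) (dlt := 2 * (2 * m)) (crd := 2 * m)
    (V := 17 * m) (Hh := 13 * m - 10) h0 h1 rfl (by omega) rfl (by omega) (by omega) (by omega) (by omega) ?_ ?_
    (core_inst h0 h1 hm)
  · apply div_nonneg <;> linarith
  · have e : ((13 * m - 10 : ℕ) : ℝ) = (13 : ℝ) * m - 10 := by
      rw [Nat.cast_sub (by omega)]
      push_cast
      ring
    rw [e]
    push_cast
    apply le_of_eq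
    field_simp
    ring

/-- The lower bound. -/
theorem main_eps {q : ℝ} (h0 : 0 < q) (h1 : q < 1) {ε : ℝ} (hε : 0 < ε) :
    ∃ c : ℝ, 0 < c ∧ ∃ n₀ : ℕ, ∀ n ≥ n₀, ∀ s : ℕ, CanReconstruct q n s →
      c * (n : ℝ) ^ ((13 : ℝ) / 8 - ε) ≤ (s : ℝ) := by
  obtain ⟨M, hM⟩ := exists_nat_ge (9 / (2 * ε) + 3)
  have hpos : 0 ≤ 9 / (2 * ε) := by positivity
  have hM3 : (3 : ℝ) ≤ M := by linarith
  have hm : 3 ≤ M := by exact_mod_cast hM3
  obtain ⟨c, hc, n₀, hn⟩ := main_family h0 h1 hm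
  refine ⟨c, hc, n₀ + 1, ?_⟩
  intro n hn' s hs
  refine le_trans ?_ (hn n (by omega) s hs)
  apply mul_le_mul_of_nonneg_left _ hc.le
  apply Real.rpow_le_rpow_of_exponent_le
  · have : 1 ≤ n := by omega
    exact_mod_cast this
  · have hd : (0 : ℝ) < 8 * M + 16 := by positivity
    rw [le_div_iff₀ hd]
    have h2 : 9 / (2 * ε) ≤ M := by linarith
    rw [div_le_iff₀ (by positivity)] at h2
    nlinarith

end Vale.Agent.Lib.P321
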