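import Vale.Agent.Lib.P321.Levels

/-!
P321: cancellation of the Thue-Morse sum of translates.
-/

namespace Vale.Agent.Lib.P321

open Finset

/-- Thue-Morse signs on `range (2^t)`. -/
def tmS : ℕ → ℕ → ℤ
  | 0, _ => 1
  | t + 1, c => if c < 2 ^ t then tmS t c else -tmS t (c - 2 ^ t)

theorem tmS_sq (t c : ℕ) : tmS t c = 1 ∨ tmS t c = -1 := by
  induction t generalizing c with
  | zero => left; rfl
  | succ t ih =>
    simp only [tmS]
    split_ifs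
    · exact ih c
    · rcases ih (c - 2 ^ t) with h | h <;> simp [h]

/-- Thue-Morse sum of a family of functions on words. -/
noncomputable def TMsum (t : ℕ) (φ : ℕ → Word → ℝ) (w : Word) : ℝ :=
  ∑ c ∈ range (2 ^ t), (tmS t c : ℝ) * φ c w

theorem TMsum_zero (φ : ℕ → Word → ℝ) (w : Word) : TMsum 0 φ w = φ 0 w := by
  simp [TMsum, tmS]

theorem TMsum_succ (t : ℕ) (φ : ℕ → Word → ℝ) (w : Word) :
    TMsum (t + 1) φ w = TMsum t (fun c w' => φ c w' - φ (c + 2 ^ t) w') w := by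
  unfold TMsum
  rw [pow_succ, mul_two, sum_range_add]
  have h1 : ∀ c ∈ range (2 ^ t), ((tmS (t + 1) c : ℤ) : ℝ) * φ c w = (tmS t c : ℝ) * φ c w := by
    intro c hc
    have := mem_range.mp hc
    simp [tmS, this]
  have h2 : ∀ c ∈ range (2 ^ t), ((tmS (t + 1) (2 ^ t + c) : ℤ) : ℝ) * φ (2 ^ t + c) w =
      -((tmS t c : ℝ) * φ (c + 2 ^ t) w) := by
    intro c _
    have : ¬ (2 ^ t + c < 2 ^ t) := by omega
    simp [tmS, this, add_comm]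
  rw [sum_congr rfl h1, sum_congr rfl h2, sum_neg_distrib, ← sub_eq_add_neg, ← sum_sub_distrib]
  apply sum_congr rfl
  intro c _
  ring

/-- The difference of the end point, any step. -/
theorem Tk_ker_step_gen (θ : ℝ) (a : ℕ) (as : List ℕ) (d X : ℤ) (g : Word → ℝ) (t : Word) :
    Tk θ (ker θ as) d X g t - Tk θ (ker θ as) d (X - a) g t = Tk θ (ker θ (a :: as)) d X g t := by
  simp only [Tk]
  generalize splits t = L
  induction L with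
  | nil => simp
  | cons s L ih =>
    simp only [List.map_cons, List.sum_cons]
    rw [← ih, ker_cons]
    have : X - a - d - (H s.2.2.2 : ℤ) = X - d - H s.2.2.2 - a := by ring
    rw [this]
    ring

/-- The sum of operators with general left functions, and a block with a kernel. -/
noncomputable def BB (θ : ℝ) (L : List ℤ) (as₁ as₂ : List ℕ) (s e : ℤ) (t : Word) : ℝ :=
  Yk θ (ker θ as₂) L.toFinset (fun r => VV θ (Fk θ as₁ s) L (r - 1)) e t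

theorem Fk_step (θ : ℝ) (a : ℕ) (as : List ℕ) (s X : ℤ) (t : Word) :
    Fk θ as (s - a) X t - Fk θ as s X t = Fk θ (a :: as) (s - a) X t := by
  simp only [Fk, ker_cons]
  have : X - (s - (a : ℤ)) - (H t : ℤ) - (a : ℤ) = X - s - H t := by ring
  rw [this]

theorem BB_step_left (θ : ℝ) (L : List ℤ) (a : ℕ) (as₁ as₂ : List ℕ) (s e : ℤ) (t : Word) :
    BB θ L as₁ as₂ (s - a) e t - BB θ L as₁ as₂ s e t = BB θ L (a :: as₁) as₂ (s - a) e t := by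
  simp only [BB, Yk_eq_sum_Tk]
  rw [← sum_sub_distrib]
  apply sum_congr rfl
  intro r _
  rw [← Tk_sub]
  congr 1
  funext w
  rw [← VV_sub]
  congr 1
  funext X' t'
  exact Fk_step θ a as₁ s X' t'

theorem BB_step_right (θ : ℝ) (L : List ℤ) (a : ℕ) (as₁ as₂ : List ℕ) (s e : ℤ) (t : Word) :
    BB θ L as₁ as₂ s e t - BB θ L as₁ as₂ s (e - a) t = BB θ L as₁ (a :: as₂) s e t := by
  simp only [BB, Yk_eq_sum_Tk]
  rw [← sum_sub_distrib]
  apply sum_congr rfl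
  intro r _
  exact Tk_ker_step_gen θ a as₂ r e _ t

/-- The family of translates. -/
noncomputable def phiB (θ : ℝ) (L : List ℤ) (D : ℕ) (as₁ as₂ : List ℕ) (s e : ℤ) (c : ℕ) (t : Word) : ℝ :=
  BB θ L as₁ as₂ (s - c * D) (e - c * D) t

theorem phiB_step (θ : ℝ) (L : List ℤ) (D r : ℕ) (as₁ as₂ : List ℕ) (s e : ℤ) (c : ℕ) (t : Word) :
    phiB θ L D as₁ as₂ s e c t - phiB θ L D as₁ as₂ s e (c + 2 ^ r) t =
      phiB θ L D as₁ ((2 ^ r * D) :: as₂) (s - ((2 ^ r * D : ℕ) : ℤ)) e c t -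
      phiB θ L D ((2 ^ r * D) :: as₁) as₂ (s - ((2 ^ r * D : ℕ) : ℤ)) e c t := by
  simp only [phiB]
  set a : ℕ := 2 ^ r * D with ha
  have e1 : s - ((c + 2 ^ r : ℕ) : ℤ) * D = s - c * D - a := by
    rw [ha]
    push_cast
    ring
  have e2 : e - ((c + 2 ^ r : ℕ) : ℤ) * D = e - c * D - a := by
    rw [ha]
    push_cast
    ring
  have e3 : s - (a : ℤ) - c * D = s - c * D - a := by ring
  rw [e1, e2, e3]
  have h1 := BB_step_left θ L a as₁ as₂ (s - c * D) (e - c * D) t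
  have h2 := BB_step_right θ L a as₁ as₂ (s - c * D - a) (e - c * D) t
  linarith

theorem TMsum_phiB_succ (θ : ℝ) (L : List ℤ) (D r : ℕ) (as₁ as₂ : List ℕ) (s e : ℤ) (t : Word) :
    TMsum (r + 1) (phiB θ L D as₁ as₂ s e) t =
      TMsum r (phiB θ L D as₁ ((2 ^ r * D) :: as₂) (s - ((2 ^ r * D : ℕ) : ℤ)) e) t -
      TMsum r (phiB θ L D ((2 ^ r * D) :: as₁) as₂ (s - ((2 ^ r * D : ℕ) : ℤ)) e) t := by
  rw [TMsum_succ]
  unfold TMsum
  rw [← sum_sub_distrib]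
  apply sum_congr rfl
  intro c _
  beta_reduce
  rw [phiB_step]
  ring

/-- Uniform bound of the translates, all levels. -/
theorem TM_phi_bound {q : ℝ} (h0 : 0 < q) (h1 : q < 1) (θ : ℝ) (L : List ℤ) (D t B₀ : ℕ) (s e : ℤ) (BD : ℝ)
    (hBD : ∀ (as₁ as₂ : List ℕ) (s' : ℤ), as₁.length + as₂.length = t →
      (∀ a ∈ as₁, 1 ≤ a ∧ a ≤ 2 ^ t * D) → (∀ a ∈ as₂, 1 ≤ a ∧ a ≤ 2 ^ t * D) →
      s - (t : ℤ) * (2 ^ t * D : ℕ) ≤ s' → s' ≤ s → nsq q B₀ (BB θ L as₁ as₂ s' e) ≤ BD) (hD : 1 ≤ D) :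
    ∀ (r : ℕ) (as₁ as₂ : List ℕ) (s' : ℤ), as₁.length + as₂.length + r = t →
      (∀ a ∈ as₁, 1 ≤ a ∧ a ≤ 2 ^ t * D) → (∀ a ∈ as₂, 1 ≤ a ∧ a ≤ 2 ^ t * D) →
      s - ((as₁.length + as₂.length : ℕ) : ℤ) * (2 ^ t * D : ℕ) ≤ s' → s' ≤ s →
      nsq q B₀ (TMsum r (phiB θ L D as₁ as₂ s' e)) ≤ 4 ^ r * BD := by
  intro r
  induction r with
  | zero =>
    intro as₁ as₂ s' hlen h₁ h₂ hs₁ hs₂
    have e1 : TMsum 0 (phiB θ L D as₁ as₂ s' e) = BB θ L as₁ as₂ s' e := by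
      funext w
      rw [TMsum_zero]
      simp [phiB]
    rw [e1, pow_zero, one_mul]
    apply hBD as₁ as₂ s' (by omega) h₁ h₂ _ hs₂
    have e2 : as₁.length + as₂.length = t := by omega
    rw [e2] at hs₁
    exact hs₁
  | succ r ih =>
    intro as₁ as₂ s' hlen h₁ h₂ hs₁ hs₂
    have hrt : r < t := by omega
    have hpow : 2 ^ r ≤ 2 ^ t := Nat.pow_le_pow_right (by norm_num) hrt.le
    have ha1 : 1 ≤ 2 ^ r * D := Nat.mul_pos (by positivity) hD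
    have ha2 : 2 ^ r * D ≤ 2 ^ t * D := Nat.mul_le_mul_right _ hpow
    set a := 2 ^ r * D with ha
    have e1 : TMsum (r + 1) (phiB θ L D as₁ as₂ s' e) =
        fun w => TMsum r (phiB θ L D as₁ (a :: as₂) (s' - (a : ℤ)) e) w -
          TMsum r (phiB θ L D (a :: as₁) as₂ (s' - (a : ℤ)) e) w := by
      funext w
      exact TMsum_phiB_succ θ L D r as₁ as₂ s' e w
    rw [e1]
    refine (nsq_sub_le h0 h1 B₀ _ _).trans ?_
    have hmem : ∀ (l : List ℕ), (∀ b ∈ l, 1 ≤ b ∧ b ≤ 2 ^ t * D) → ∀ b ∈ a :: l, 1 ≤ b ∧ b ≤ 2 ^ t * D := by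
      intro l hl b hb
      rcases List.mem_cons.mp hb with rfl | hb
      · exact ⟨ha1, ha2⟩
      · exact hl b hb
    have hcast : ((a : ℕ) : ℤ) ≤ ((2 ^ t * D : ℕ) : ℤ) := by exact_mod_cast ha2
    have hc0 : (0 : ℤ) ≤ ((a : ℕ) : ℤ) := by positivity
    have b1 := ih as₁ (a :: as₂) (s' - (a : ℤ)) (by simp; omega) h₁ (hmem as₂ h₂)
      (by
        simp only [List.length_cons]
        push_cast at hs₁ hcast ⊢
        nlinarith)
      (by omega)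
    have b2 := ih (a :: as₁) as₂ (s' - (a : ℤ)) (by simp; omega) (hmem as₁ h₁) h₂
      (by
        simp only [List.length_cons]
        push_cast at hs₁ hcast ⊢
        nlinarith)
      (by omega)
    rw [pow_succ]
    linarith

/-- The constants of `final_moment`, uniformly for all splittings of `t`. -/
theorem final_moment_all {q θ₀ θ₁ : ℝ} (h0 : 0 < q) (h1 : q < 1) (hθ₀ : 0 < θ₀) (hθ₁ : θ₁ < 1) (t : ℕ) :
    ∃ Cs C : ℝ, 1 ≤ Cs ∧ 0 < C ∧ ∀ t₁ t₂ : ℕ, t₁ + t₂ = t → ∀ θ ∈ Set.Icc θ₀ θ₁, ∀ as₁ as₂ : List ℕ,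
      as₁.length = t₁ → as₂.length = t₂ → (∀ a ∈ as₁, 1 ≤ a) → (∀ a ∈ as₂, 1 ≤ a) →
      ∀ (δ k Lmax B₀ n₁ n₂ : ℕ) (𝓛 : ℝ) (s I₀ e : ℤ) (M : List ℤ), Par q θ δ k Lmax 𝓛 Cs →
        M.Pairwise (· > ·) → Spaced M.toFinset δ → M.length ≤ k → s ≤ I₀ →
        (∀ r ∈ M, I₀ ≤ r ∧ r - 1 - I₀ ≤ Lmax ∧ s + n₁ + 1 ≤ r ∧ 2 * (r - 1 - s) ≤ (B₀ : ℤ) ∧ r + n₂ ≤ e) →
        (as₁.sum : ℤ) * 4 ≤ n₁ + 1 → (as₂.sum : ℤ) * 4 ≤ n₂ + 1 → 2 * (e - I₀) ≤ (B₀ : ℤ) →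
        nsq q B₀ (Yk θ (ker θ as₂) M.toFinset (fun r => VV θ (Fk θ as₁ s) M (r - 1)) e) ≤
          C * (as₁.prod : ℝ) ^ 2 * (as₂.prod : ℝ) ^ 2 * rhoL n₁ ^ (2 * t₁ + 1) * rhoL n₂ ^ (2 * t₂) * k *
            ((1 / √(δ : ℝ)) ^ 2 + rhoL n₂ + |θ - q ^ 2|) := by
  have hex := fun i : ℕ => final_moment (θ₀ := θ₀) (θ₁ := θ₁) h0 h1 hθ₀ hθ₁ i (t - i)
  choose Cs C hCs hC hmain using hex
  refine ⟨1 + ∑ i ∈ range (t + 1), Cs i, 1 + ∑ i ∈ range (t + 1), C i, ?_, ?_, ?_⟩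
  · have : 0 ≤ ∑ i ∈ range (t + 1), Cs i := sum_nonneg fun i _ => by linarith [hCs i]
    linarith
  · have : 0 ≤ ∑ i ∈ range (t + 1), C i := sum_nonneg fun i _ => (hC i).le
    linarith
  · intro t₁ t₂ htt θ hθ as₁ as₂ h₁ h₂ hp₁ hp₂ δ k Lmax B₀ n₁ n₂ 𝓛 s I₀ e M hP hpw hsp hlen hsI hM hs₁ hs₂ hB
    have ht₁ : t₁ ∈ range (t + 1) := mem_range.mpr (by omega)
    have ht₂ : t - t₁ = t₂ := by omega
    have hle1 : Cs t₁ ≤ 1 + ∑ i ∈ range (t + 1), Cs i := by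
      have := single_le_sum (f := Cs) (fun i _ => by linarith [hCs i]) ht₁
      linarith
    have hle2 : C t₁ ≤ 1 + ∑ i ∈ range (t + 1), C i := by
      have := single_le_sum (f := C) (fun i _ => (hC i).le) ht₁
      linarith
    have hm := hmain t₁ θ hθ as₁ as₂ h₁ (by rw [ht₂]; exact h₂) hp₁ hp₂ δ k Lmax B₀ n₁ n₂ 𝓛 s I₀ e M (hP.mono hle1)
      hpw hsp hlen hsI hM hs₁ hs₂ hB
    rw [ht₂] at hm
    refine hm.trans ?_
    have hr := rhoL_nonneg (n₁ : ℤ)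
    have hr2 := rhoL_nonneg (n₂ : ℤ)
    have hε := abs_nonneg (θ - q ^ 2)
    apply mul_le_mul_of_nonneg_right _ (by positivity)
    apply mul_le_mul_of_nonneg_right _ (by positivity)
    apply mul_le_mul_of_nonneg_right _ (by positivity)
    apply mul_le_mul_of_nonneg_right _ (by positivity)
    apply mul_le_mul_of_nonneg_right _ (by positivity)
    apply mul_le_mul_of_nonneg_right hle2 (by positivity)

/-- Moment bound for one list of sites. -/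
theorem moment_bound {q θ₀ θ₁ : ℝ} (h0 : 0 < q) (h1 : q < 1) (hθ₀ : 0 < θ₀) (hθ₁ : θ₁ < 1) (t : ℕ) :
    ∃ Cs C : ℝ, 1 ≤ Cs ∧ 0 < C ∧ ∀ θ ∈ Set.Icc θ₀ θ₁,
      ∀ (D δ k Lmax B₀ n₁ n₂ : ℕ) (𝓛 : ℝ) (s I₀ e : ℤ) (L : List ℤ), Par q θ δ k Lmax 𝓛 Cs → 1 ≤ D →
        L.Pairwise (· > ·) → Spaced L.toFinset δ → L.length ≤ k → s ≤ I₀ →
        (∀ r ∈ L, I₀ ≤ r ∧ r - 1 - I₀ ≤ Lmax ∧ s + n₁ + 1 ≤ r ∧
          2 * (r - 1 - s + (t : ℤ) * (2 ^ t * D : ℕ)) ≤ (B₀ : ℤ) ∧ r + n₂ ≤ e) →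
        ((t * (2 ^ t * D) : ℕ) : ℤ) * 4 ≤ n₁ + 1 → ((t * (2 ^ t * D) : ℕ) : ℤ) * 4 ≤ n₂ + 1 → n₁ ≤ n₂ →
        2 * (e - I₀) ≤ (B₀ : ℤ) →
        nsq q B₀ (TMsum t (phiB θ L D [] [] s e)) ≤
          4 ^ t * (C * (((2 ^ t * D : ℕ) : ℝ) ^ t) ^ 2 * rhoL n₁ ^ (2 * t + 1) * k *
            ((1 / √(δ : ℝ)) ^ 2 + rhoL n₂ + |θ - q ^ 2|)) := by
  obtain ⟨Cs, C, hCs, hC, hF⟩ := final_moment_all (θ₀ := θ₀) (θ₁ := θ₁) h0 h1 hθ₀ hθ₁ t
  refine ⟨Cs, C, hCs, hC, ?_⟩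
  intro θ hθ D δ k Lmax B₀ n₁ n₂ 𝓛 s I₀ e L hP hD hpw hsp hlen hsI hL hn₁ hn₂ hn₁₂ hB
  have hsum_le : ∀ as : List ℕ, (∀ a ∈ as, 1 ≤ a ∧ a ≤ 2 ^ t * D) → as.length ≤ t →
      (as.sum : ℤ) ≤ ((t * (2 ^ t * D) : ℕ) : ℤ) := by
    intro as h hlen'
    have h2 : as.sum ≤ as.length * (2 ^ t * D) := by
      have := List.sum_le_card_nsmul as (2 ^ t * D) (fun x hx => (h x hx).2)
      simpa using this
    have h3 : as.length * (2 ^ t * D) ≤ t * (2 ^ t * D) := Nat.mul_le_mul_right _ hlen'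
    exact_mod_cast h2.trans h3
  have hbound := TM_phi_bound h0 h1 θ L D t B₀ s e
    (C * (((2 ^ t * D : ℕ) : ℝ) ^ t) ^ 2 * rhoL n₁ ^ (2 * t + 1) * k *
            ((1 / √(δ : ℝ)) ^ 2 + rhoL n₂ + |θ - q ^ 2|))
    (by
      intro as₁ as₂ s' hlen' h₁ h₂ hs₁ hs₂
      have hm := hF as₁.length as₂.length hlen' θ hθ as₁ as₂ rfl rfl (fun a ha => (h₁ a ha).1)
        (fun a ha => (h₂ a ha).1) δ k Lmax B₀ n₁ n₂ 𝓛 s' I₀ e L hP hpw hsp hlen
        (by omega)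
        (by
          intro r hr
          have := hL r hr
          refine ⟨this.1, this.2.1, by omega, ?_, this.2.2.2.2⟩
          have h3 := this.2.2.2.1
          push_cast at h3 hs₁ ⊢
          linarith)
        (by
          have := hsum_le as₁ h₁ (by omega)
          omega)
        (by
          have := hsum_le as₂ h₂ (by omega)
          omega)
        hB
      unfold BB
      refine hm.trans ?_
      -- product bound
      set Am : ℕ := 2 ^ t * D with hAm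
      have hp1 : as₁.prod ≤ Am ^ as₁.length := List.prod_le_pow_card as₁ Am (fun x hx => (h₁ x hx).2)
      have hp2 : as₂.prod ≤ Am ^ as₂.length := List.prod_le_pow_card as₂ Am (fun x hx => (h₂ x hx).2)
      have hp3 : ((as₁.prod : ℕ) : ℝ) * (as₂.prod : ℝ) ≤ (Am : ℝ) ^ t := by
        have : as₁.prod * as₂.prod ≤ Am ^ as₁.length * Am ^ as₂.length := Nat.mul_le_mul hp1 hp2
        rw [← pow_add, hlen'] at this
        exact_mod_cast this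
      have hp4 : ((as₁.prod : ℕ) : ℝ) ^ 2 * (as₂.prod : ℝ) ^ 2 ≤ ((Am : ℝ) ^ t) ^ 2 := by
        rw [← mul_pow]
        exact pow_le_pow_left₀ (by positivity) hp3 2
      have hr1 := rhoL_nonneg (n₁ : ℤ)
      have hr2 := rhoL_nonneg (n₂ : ℤ)
      have hr12 : rhoL n₂ ≤ rhoL n₁ := rhoL_anti (by positivity) (by exact_mod_cast hn₁₂)
      have hp5 : rhoL n₁ ^ (2 * as₁.length + 1) * rhoL n₂ ^ (2 * as₂.length) ≤ rhoL n₁ ^ (2 * t + 1) := by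
        have e1 : rhoL n₁ ^ (2 * t + 1) = rhoL n₁ ^ (2 * as₁.length + 1) * rhoL n₁ ^ (2 * as₂.length) := by
          rw [← pow_add]
          congr 1
          omega
        rw [e1]
        apply mul_le_mul_of_nonneg_left _ (by positivity)
        exact pow_le_pow_left₀ hr2 hr12 _
      have hε := abs_nonneg (θ - q ^ 2)
      have hk0 : (0 : ℝ) ≤ k := by positivity
      set G := (k : ℝ) * ((1 / √(δ : ℝ)) ^ 2 + rhoL n₂ + |θ - q ^ 2|) with hG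
      have hG0 : 0 ≤ G := by positivity
      have e6 : C * (as₁.prod : ℝ) ^ 2 * (as₂.prod : ℝ) ^ 2 * rhoL n₁ ^ (2 * as₁.length + 1) *
          rhoL n₂ ^ (2 * as₂.length) * k * ((1 / √(δ : ℝ)) ^ 2 + rhoL n₂ + |θ - q ^ 2|) =
          C * ((as₁.prod : ℝ) ^ 2 * (as₂.prod : ℝ) ^ 2) * (rhoL n₁ ^ (2 * as₁.length + 1) *
          rhoL n₂ ^ (2 * as₂.length)) * G := by
        rw [hG]
        ring
      have e7 : C * ((Am : ℝ) ^ t) ^ 2 * rhoL n₁ ^ (2 * t + 1) * k * ((1 / √(δ : ℝ)) ^ 2 + rhoL n₂ + |θ - q ^ 2|) =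
          C * ((Am : ℝ) ^ t) ^ 2 * rhoL n₁ ^ (2 * t + 1) * G := by
        rw [hG]
        ring
      rw [e6, e7]
      apply mul_le_mul_of_nonneg_right _ hG0
      apply mul_le_mul _ hp5 (by positivity) (by positivity)
      exact mul_le_mul_of_nonneg_left hp4 hC.le)
    hD t [] [] s (by simp) (by simp) (by simp) (by simp) (le_refl s)
  exact hbound

/-- The expansion from the first block, through `BB`. -/
theorem VV_eq_F_add_BB (θ : ℝ) (L : List ℤ) (hL : L.Pairwise (· > ·)) (s e : ℤ) (t : Word) :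
    VV θ (F0 θ s) L e t = F0 θ s e t + BB θ L [] [] s e t := by
  have := VV_volterra θ (F0 θ s) L hL e t
  rw [this]
  simp only [BB, Fk_nil, ker_nil_fun]

/-- The sum of translates of a difference of two site lists. -/
theorem TMsum_VV (θ : ℝ) (L₁ L₀ : List ℤ) (h₁ : L₁.Pairwise (· > ·)) (h₀ : L₀.Pairwise (· > ·)) (D t : ℕ)
    (s e : ℤ) (w : Word) :
    TMsum t (fun c w' => VV θ (F0 θ (s - c * D)) L₁ (e - c * D) w' - VV θ (F0 θ (s - c * D)) L₀ (e - c * D) w') w =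
      TMsum t (phiB θ L₁ D [] [] s e) w - TMsum t (phiB θ L₀ D [] [] s e) w := by
  unfold TMsum
  rw [← sum_sub_distrib]
  apply sum_congr rfl
  intro c _
  beta_reduce
  rw [VV_eq_F_add_BB θ L₁ h₁, VV_eq_F_add_BB θ L₀ h₀]
  simp only [phiB]
  ring

end Vale.Agent.Lib.P321
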