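import Vale.Agent.Lib.P321.Decomp
import Vale.Agent.Lib.P321.CoreStmt

/-!
P321: choice of the parameters and proof of the statement of the analytic core.
`δ = x^dlt`, `dlt = 2 crd`, `Dn = δ+1`, `J = x^j`, `K = 2^t`, `k = 3 x^j`, `Lmax = 3 x^(dlt+j)`, `P = x^p`, `n₁ = x^(2 r₁)`,
`n₂ = x^(2 r₂)`, `L₀ = x^(dlt+j)`, `𝓛 = x`.
-/

namespace Vale.Agent.Lib.P321

open Finset

theorem pw {x M a b : ℕ} (hM : M ≤ x) (hx : 1 ≤ x) (hab : a < b) : M * x ^ a ≤ x ^ b := by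
  calc M * x ^ a ≤ x * x ^ a := Nat.mul_le_mul_right _ hM
    _ = x ^ (a + 1) := by ring
    _ ≤ x ^ b := Nat.pow_le_pow_right hx hab

theorem pmono {x a b : ℕ} (hx : 1 ≤ x) (hab : a ≤ b) : x ^ a ≤ x ^ b := Nat.pow_le_pow_right hx hab

theorem one_le_pw {x a : ℕ} (hx : 1 ≤ x) : 1 ≤ x ^ a := Nat.one_le_pow _ _ hx

section nat_params
variable {x K j dlt p r₁ r₂ a : ℕ}

theorem nc_k (hK : K + 1 ≤ x) (hj : 1 ≤ j) : 2 * x ^ j + K + 1 ≤ 3 * x ^ j := by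
  have h1 : x ^ 1 ≤ x ^ j := pmono (by omega) hj
  rw [pow_one] at h1
  omega

theorem nc_h1 (hx : 8 ≤ x) (h1 : 2 * r₁ < p) (h2 : dlt + j < p) (h3 : j < p) :
    x ^ (2 * r₁) + 1 + x ^ j * (x ^ dlt + 1) ≤ x ^ p := by
  have hx1 : 1 ≤ x := by omega
  have e : x ^ j * (x ^ dlt + 1) = x ^ (dlt + j) + x ^ j := by ring
  rw [e]
  have hq : p = (p - 1) + 1 := by omega
  have h4 : 4 * x ^ (p - 1) ≤ x ^ p := pw (by omega) hx1 (by omega)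
  have h5 : x ^ (2 * r₁) ≤ x ^ (p - 1) := pmono hx1 (by omega)
  have h6 : x ^ (dlt + j) ≤ x ^ (p - 1) := pmono hx1 (by omega)
  have h7 : x ^ j ≤ x ^ (p - 1) := pmono hx1 (by omega)
  have h8 : 1 ≤ x ^ (p - 1) := one_le_pw hx1
  omega

theorem nc_h2 (hx : 64 * (K + 1) ≤ x) (hp : p ≤ 2 * r₂) (h1 : 2 * r₂ < a) (h2 : dlt + j ≤ 2 * r₂) :
    x ^ p + (x ^ j + K) * (x ^ dlt + 1) + 2 + x ^ (2 * r₂) ≤ x ^ a := by
  have hx1 : 1 ≤ x := by omega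
  have e : (x ^ j + K) * (x ^ dlt + 1) = x ^ (dlt + j) + x ^ j + K * x ^ dlt + K := by ring
  rw [e]
  have hq : 64 * (K + 1) * x ^ (2 * r₂) ≤ x ^ a := pw hx hx1 h1
  have h3 : x ^ p ≤ x ^ (2 * r₂) := pmono hx1 hp
  have h4 : x ^ (dlt + j) ≤ x ^ (2 * r₂) := pmono hx1 h2
  have h5 : x ^ j ≤ x ^ (2 * r₂) := pmono hx1 (by omega)
  have h6 : x ^ dlt ≤ x ^ (2 * r₂) := pmono hx1 (by omega)
  have h7 : K * x ^ dlt ≤ K * x ^ (2 * r₂) := Nat.mul_le_mul_left _ h6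
  have h8 : K * 1 ≤ K * x ^ (2 * r₂) := Nat.mul_le_mul_left _ (one_le_pw hx1)
  have h9 : 1 ≤ x ^ (2 * r₂) := one_le_pw hx1
  have e2 : 64 * (K + 1) * x ^ (2 * r₂) = 64 * (K * x ^ (2 * r₂)) + 64 * x ^ (2 * r₂) := by ring
  rw [e2] at hq
  omega

theorem nc_h3 (hx : 64 * (K + 1) ≤ x) (hj : 2 ≤ j) (hd : 1 ≤ dlt) :
    (x ^ j + K + x ^ j) * (x ^ dlt + 1) ≤ 3 * x ^ (dlt + j) := by
  have hx1 : 1 ≤ x := by omega
  have e : (x ^ j + K + x ^ j) * (x ^ dlt + 1) =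
      2 * x ^ (dlt + j) + 2 * x ^ j + K * x ^ dlt + K := by ring
  rw [e]
  have hq : 64 * (K + 1) * x ^ (dlt + (j - 1)) ≤ x ^ (dlt + j) := pw hx hx1 (by omega)
  have e2 : 64 * (K + 1) * x ^ (dlt + (j - 1)) = 64 * (K * x ^ (dlt + (j - 1))) + 64 * x ^ (dlt + (j - 1)) := by ring
  rw [e2] at hq
  have h5 : x ^ j ≤ x ^ (dlt + (j - 1)) := pmono hx1 (by omega)
  have h6 : x ^ dlt ≤ x ^ (dlt + (j - 1)) := pmono hx1 (by omega)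
  have h7 : K * x ^ dlt ≤ K * x ^ (dlt + (j - 1)) := Nat.mul_le_mul_left _ h6
  have h8 : K * 1 ≤ K * x ^ (dlt + (j - 1)) := Nat.mul_le_mul_left _ (one_le_pw hx1)
  omega

theorem nc_h4 : x ^ (dlt + j) ≤ x ^ j * (x ^ dlt + 1) := by
  have e : x ^ j * (x ^ dlt + 1) = x ^ (dlt + j) + x ^ j := by ring
  omega

theorem nc_h5 {t : ℕ} (hx : 16 * (t + 1) * K ≤ x) (hK : 1 ≤ K) (h1 : dlt < 2 * r₁) :
    (t * (K * (x ^ dlt + 1))) * 4 ≤ x ^ (2 * r₁) + 1 := by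
  have hx1 : 1 ≤ x := by
    have : 1 ≤ 16 * (t + 1) * K := by
      have h : 1 ≤ (t + 1) * K := Nat.mul_pos (by omega) hK
      nlinarith
    omega
  have e : (t * (K * (x ^ dlt + 1))) * 4 = 4 * t * K * x ^ dlt + 4 * t * K := by ring
  rw [e]
  have h2 : (16 * (t + 1) * K) * x ^ dlt ≤ x ^ (2 * r₁) := pw hx hx1 h1
  have h3 : x ^ dlt ≥ 1 := one_le_pw hx1
  have h4 : 4 * t * K * x ^ dlt + 4 * t * K * 1 ≤ 4 * t * K * x ^ dlt + 4 * t * K * x ^ dlt :=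
    Nat.add_le_add_left (Nat.mul_le_mul_left _ h3) _
  have h5 : 2 * (4 * t * K * x ^ dlt) ≤ (16 * (t + 1) * K) * x ^ dlt := by
    have : (16 * (t + 1) * K) * x ^ dlt = 2 * (4 * t * K * x ^ dlt) + (8 * t + 16) * K * x ^ dlt := by ring
    rw [this]
    exact Nat.le_add_right _ _
  omega

theorem nc_h8 (hx : 64 * (K + 1) ≤ x) (h1 : dlt + j < p) :
    (x ^ j + K) * (x ^ dlt + 1) + 1 ≤ x ^ p := by
  have hx1 : 1 ≤ x := by omega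
  have e : (x ^ j + K) * (x ^ dlt + 1) = x ^ (dlt + j) + x ^ j + K * x ^ dlt + K := by ring
  rw [e]
  have hq : 64 * (K + 1) * x ^ (dlt + j) ≤ x ^ p := pw hx hx1 h1
  have e2 : 64 * (K + 1) * x ^ (dlt + j) = 64 * (K * x ^ (dlt + j)) + 64 * x ^ (dlt + j) := by ring
  rw [e2] at hq
  have h3 : x ^ j ≤ x ^ (dlt + j) := pmono hx1 (by omega)
  have h6 : x ^ dlt ≤ x ^ (dlt + j) := pmono hx1 (by omega)
  have h7 : K * x ^ dlt ≤ K * x ^ (dlt + j) := Nat.mul_le_mul_left _ h6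
  have h8 : K * 1 ≤ K * x ^ (dlt + j) := Nat.mul_le_mul_left _ (one_le_pw hx1)
  have h9 : 1 ≤ x ^ (dlt + j) := one_le_pw hx1
  omega

end nat_params

section real_params
variable {x : ℕ}

theorem nc_sqrt {m : ℕ} : √(((x ^ (2 * m) : ℕ) : ℝ)) = (x : ℝ) ^ m := by
  push_cast
  rw [pow_mul', Real.sqrt_sq (by positivity)]

theorem nc_a {m : ℕ} : 1 / √(((x ^ (2 * m) : ℕ) : ℝ)) = (1 / (x : ℝ)) ^ m := by
  rw [nc_sqrt, div_pow, one_pow]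

theorem nc_rho {m : ℕ} (hx : 1 ≤ x) {n : ℕ} (h : x ^ (2 * m) ≤ n) : rhoL (n : ℤ) ≤ (1 / (x : ℝ)) ^ m := by
  unfold rhoL
  have hx0 : (0 : ℝ) < x := by exact_mod_cast hx
  rw [div_pow, one_pow]
  apply one_div_le_one_div_of_le (by positivity)
  rw [← nc_sqrt (x := x) (m := m)]
  apply Real.sqrt_le_sqrt
  have h2 : ((x ^ (2 * m) : ℕ) : ℝ) ≤ n := by exact_mod_cast h
  push_cast at h2 ⊢
  linarith

theorem nc_harm {L : ℕ} (hx : (2 * L + 4) ^ 2 ≤ x) (hx2 : 6 ≤ x) :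
    ∑ j ∈ range (3 * x ^ L + 3), 1 / ((j : ℝ) + 1) ≤ x := by
  have hx1 : 1 ≤ x := by omega
  have hx0 : (0 : ℝ) < x := by exact_mod_cast hx1
  have e : ∑ j ∈ range (3 * x ^ L + 3), 1 / ((j : ℝ) + 1) = ((harmonic (3 * x ^ L + 3) : ℚ) : ℝ) := by
    unfold harmonic
    push_cast
    apply sum_congr rfl
    intro j _
    rw [one_div]
  rw [e]
  refine (harmonic_le_one_add_log _).trans ?_
  have h1 : 3 * x ^ L + 3 ≤ x ^ (L + 1) := by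
    have h2 : 6 * x ^ L ≤ x ^ (L + 1) := pw hx2 hx1 (by omega)
    have h3 : 1 ≤ x ^ L := one_le_pw hx1
    omega
  have h2 : Real.log ((3 * x ^ L + 3 : ℕ) : ℝ) ≤ Real.log ((x ^ (L + 1) : ℕ) : ℝ) := by
    apply Real.log_le_log
    · have : 0 < 3 * x ^ L + 3 := by omega
      exact_mod_cast this
    · exact_mod_cast h1
  have h3 : Real.log ((x ^ (L + 1) : ℕ) : ℝ) = ((L : ℝ) + 1) * Real.log x := by
    push_cast
    rw [Real.log_pow]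
    push_cast
    ring
  have hsx : √(x : ℝ) ^ 2 = x := Real.sq_sqrt hx0.le
  have hs0 : 0 < √(x : ℝ) := Real.sqrt_pos.mpr hx0
  have h4 : Real.log x = 2 * Real.log √(x : ℝ) := by
    conv_lhs => rw [← hsx]
    rw [Real.log_pow]
    norm_num
  have h5 : Real.log √(x : ℝ) ≤ √(x : ℝ) - 1 := Real.log_le_sub_one_of_pos hs0
  have h6 : 2 * (L : ℝ) + 4 ≤ √(x : ℝ) := by
    apply Real.le_sqrt_of_sq_le
    have : (((2 * L + 4) ^ 2 : ℕ) : ℝ) ≤ x := by exact_mod_cast hx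
    push_cast at this
    exact this
  have hL0 : (0 : ℝ) ≤ L := by positivity
  have h7 : ((L : ℝ) + 1) * Real.log x ≤ ((L : ℝ) + 1) * (2 * (√(x : ℝ) - 1)) := by
    apply mul_le_mul_of_nonneg_left _ (by positivity)
    rw [h4]
    linarith
  have h8 : 1 + ((L : ℝ) + 1) * (2 * (√(x : ℝ) - 1)) ≤ √(x : ℝ) * √(x : ℝ) := by
    nlinarith
  have h9 : √(x : ℝ) * √(x : ℝ) = x := by
    rw [← sq]
    exact hsx
  rw [h3] at h2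
  linarith

/-- The closeness of the grid points. -/
theorem th_close {q : ℝ} (h0 : 0 < q) {A : ℕ} {g : ℤ} (h : |(g : ℝ) / √(A : ℝ)| ≤ q ^ 2) :
    |th q A g - q ^ 2| ≤ |(g : ℝ) / √(A : ℝ)| := by
  unfold th
  obtain ⟨y, hy⟩ : ∃ y, y = (g : ℝ) / √(A : ℝ) := ⟨_, rfl⟩
  rw [← hy] at h ⊢
  have hnn : 0 ≤ q ^ 2 + y := by
    have := (abs_le.mp h).1
    linarith
  obtain ⟨s, hs⟩ : ∃ s, s = √(q ^ 2 + y) := ⟨_, rfl⟩
  rw [← hs]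
  have hs0 : 0 ≤ s := by rw [hs]; exact Real.sqrt_nonneg _
  have hs2 : s ^ 2 = q ^ 2 + y := by rw [hs]; exact Real.sq_sqrt hnn
  have e : q * s - q ^ 2 = q * (s - q) := by ring
  rw [e, abs_mul, abs_of_pos h0]
  have e2 : y = (s - q) * (s + q) := by nlinarith
  have h3 : |y| = |s - q| * (s + q) := by
    rw [e2, abs_mul, abs_of_nonneg (by positivity : 0 ≤ s + q)]
  rw [h3]
  have h4 : 0 ≤ |s - q| := abs_nonneg _
  nlinarith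

theorem th_bound {q : ℝ} (h0 : 0 < q) {x A Cg e : ℕ} {g : ℤ} (hx : 1 ≤ x) (hg : |g| ≤ Cg * x) (hCg : Cg ≤ x)
    (hA : x ^ (2 * (e + 2)) ≤ A) (hsmall : (1 / (x : ℝ)) ^ e ≤ q ^ 2) :
    |th q A g - q ^ 2| ≤ (1 / (x : ℝ)) ^ e := by
  have hx0 : (0 : ℝ) < x := by exact_mod_cast hx
  have hg' : |(g : ℝ)| ≤ (x : ℝ) ^ 2 := by
    have h2 : ((|g| : ℤ) : ℝ) ≤ ((Cg * x : ℤ) : ℝ) := by exact_mod_cast hg
    push_cast at h2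
    have h3 : (Cg : ℝ) ≤ x := by exact_mod_cast hCg
    have h4 : (Cg : ℝ) * x ≤ x * x := mul_le_mul_of_nonneg_right h3 hx0.le
    rw [sq]
    linarith
  have hsA : (x : ℝ) ^ (e + 2) ≤ √(A : ℝ) := by
    apply Real.le_sqrt_of_sq_le
    have h2 : ((x ^ (2 * (e + 2)) : ℕ) : ℝ) ≤ A := by exact_mod_cast hA
    push_cast at h2
    calc ((x : ℝ) ^ (e + 2)) ^ 2 = (x : ℝ) ^ (2 * (e + 2)) := by ring
      _ ≤ (A : ℝ) := h2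
  have hbd : |(g : ℝ) / √(A : ℝ)| ≤ (1 / (x : ℝ)) ^ e := by
    have hsA0 : 0 < √(A : ℝ) := lt_of_lt_of_le (by positivity) hsA
    rw [abs_div, abs_of_pos hsA0, div_le_iff₀ hsA0]
    have h3 : (1 / (x : ℝ)) ^ e * (x : ℝ) ^ (e + 2) = (x : ℝ) ^ 2 := by
      rw [div_pow, one_pow, pow_add]
      field_simp
    have h4 : (1 / (x : ℝ)) ^ e * (x : ℝ) ^ (e + 2) ≤ (1 / (x : ℝ)) ^ e * √(A : ℝ) :=
      mul_le_mul_of_nonneg_left hsA (by positivity)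
    linarith
  exact (th_close h0 (hbd.trans hsmall)).trans hbd

/-- The parameters are admissible. -/
theorem par_inst {q θ Cs : ℝ} {x crd j R : ℕ} (hx : (2 * (2 * crd + j) + 4) ^ 2 ≤ x) (hx6 : 6 ≤ x)
    (hCs : 4 * Cs ≤ x) (hcrd : 1 ≤ crd) (hj : j + 2 ≤ crd) (hR1 : 2 * crd + j ≤ 2 * R) (hR2 : R + 1 ≤ 2 * crd)
    (hε : |θ - q ^ 2| ≤ (1 / (x : ℝ)) ^ (2 * crd)) :
    Par q θ (x ^ (2 * crd)) (3 * x ^ j) (3 * x ^ (2 * crd + j)) x Cs := by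
  have hx1 : 1 ≤ x := by omega
  have hx0 : (0 : ℝ) < x := by exact_mod_cast hx1
  have hx1' : (1 : ℝ) ≤ x := by exact_mod_cast hx1
  have hu0 : 0 < 1 / (x : ℝ) := by positivity
  have hu1 : 1 / (x : ℝ) ≤ 1 := by
    rw [div_le_one hx0]
    exact hx1'
  have hs : √(((x ^ (2 * crd) : ℕ) : ℝ)) = (x : ℝ) ^ crd := nc_sqrt
  have hδ : (1 : ℝ) / ((x ^ (2 * crd) : ℕ) : ℝ) = (1 / (x : ℝ)) ^ (2 * crd) := by
    push_cast
    rw [div_pow, one_pow]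
  have hCs' : Cs * x ≤ (x : ℝ) ^ 2 / 4 := by
    have : Cs * x ≤ ((x : ℝ) / 4) * x := mul_le_mul_of_nonneg_right (by linarith) hx0.le
    calc Cs * x ≤ ((x : ℝ) / 4) * x := this
      _ = (x : ℝ) ^ 2 / 4 := by ring
  refine ⟨?_, ?_, hx1', ?_, ?_, ?_, ?_, ?_⟩
  · have h2 : x ^ 1 ≤ x ^ (2 * crd) := pmono hx1 (by omega)
    rw [pow_one] at h2
    omega
  · have := one_le_pw (x := x) (a := j) hx1
    omega
  · exact nc_harm hx hx6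
  · -- zone
    rw [hδ]
    have h1 : (1 / (x : ℝ)) ^ (2 * crd) + |θ - q ^ 2| ≤ 2 * (1 / (x : ℝ)) ^ (2 * crd) := by linarith
    have h2 : √(((3 * x ^ (2 * crd + j) : ℕ) : ℝ) + 1) ≤ 2 * (x : ℝ) ^ R := by
      apply Real.sqrt_le_iff.mpr
      refine ⟨by positivity, ?_⟩
      push_cast
      have h3 : (1 : ℝ) ≤ (x : ℝ) ^ (2 * crd + j) := one_le_pow₀ hx1'
      have h4 : (x : ℝ) ^ (2 * crd + j) ≤ (x : ℝ) ^ (2 * R) := pow_le_pow_right₀ hx1' hR1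
      calc 3 * (x : ℝ) ^ (2 * crd + j) + 1 ≤ 4 * (x : ℝ) ^ (2 * R) := by linarith
        _ = (2 * (x : ℝ) ^ R) ^ 2 := by ring
    have e1 : 2 * crd = R + 1 + (2 * crd - R - 1) := by omega
    calc ((1 / (x : ℝ)) ^ (2 * crd) + |θ - q ^ 2|) * √(((3 * x ^ (2 * crd + j) : ℕ) : ℝ) + 1)
        ≤ (2 * (1 / (x : ℝ)) ^ (2 * crd)) * (2 * (x : ℝ) ^ R) :=
          mul_le_mul h1 h2 (Real.sqrt_nonneg _) (by positivity)
      _ ≤ (2 * (1 / (x : ℝ)) ^ (R + 1)) * (2 * (x : ℝ) ^ R) := by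
          have h5 : (1 / (x : ℝ)) ^ (2 * crd) ≤ (1 / (x : ℝ)) ^ (R + 1) :=
            pow_le_pow_of_le_one hu0.le hu1 hR2
          apply mul_le_mul_of_nonneg_right _ (by positivity)
          linarith
      _ = 4 * (1 / (x : ℝ)) := by
          rw [div_pow, one_pow, pow_succ]
          field_simp
          norm_num
      _ ≤ 1 := by
          have h3 : (4 : ℝ) ≤ x := by
            have : (6 : ℝ) ≤ x := by exact_mod_cast hx6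
            linarith
          rw [mul_one_div, div_le_one hx0]
          exact h3
  · rw [hδ]
    exact hε
  · -- small1
    rw [hs]
    push_cast
    calc Cs * (x : ℝ) * (3 * (x : ℝ) ^ j) = 3 * (Cs * x) * (x : ℝ) ^ j := by ring
      _ ≤ 3 * ((x : ℝ) ^ 2 / 4) * (x : ℝ) ^ j := by
          apply mul_le_mul_of_nonneg_right _ (by positivity)
          linarith
      _ ≤ (x : ℝ) ^ crd := by
          have h3 : (x : ℝ) ^ (j + 2) ≤ (x : ℝ) ^ crd := pow_le_pow_right₀ hx1' hj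
          have e : 3 * ((x : ℝ) ^ 2 / 4) * (x : ℝ) ^ j = 3 / 4 * (x : ℝ) ^ (j + 2) := by ring
          rw [e]
          have h4 : 0 < (x : ℝ) ^ (j + 2) := by positivity
          linarith
  · -- small2
    rw [hs]
    push_cast
    have h3 : (1 : ℝ) ≤ (x : ℝ) ^ (2 * crd + j) := one_le_pow₀ hx1'
    calc Cs * (x : ℝ) * (3 * (x : ℝ) ^ (2 * crd + j) + 1) ≤ ((x : ℝ) ^ 2 / 4) * (4 * (x : ℝ) ^ (2 * crd + j)) :=
          mul_le_mul hCs' (by linarith) (by positivity) (by positivity)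
      _ = (x : ℝ) ^ (2 * crd + j + 2) := by ring
      _ ≤ (x : ℝ) ^ (crd * 3) := pow_le_pow_right₀ hx1' (by omega)
      _ = ((x : ℝ) ^ crd) ^ 3 := by rw [pow_mul]

/-- The final numerical inequality. -/
theorem num_final {x crd j t r₁ r₂ r₀ e e' V : ℕ} {ρ₁ ρ₂ ρ₀ ε C : ℝ} (hx : 2 ≤ x) (hρ₁0 : 0 ≤ ρ₁) (hρ₂0 : 0 ≤ ρ₂)
    (hρ₀0 : 0 ≤ ρ₀) (hε0 : 0 ≤ ε) (hC : 0 < C)
    (hρ₁ : ρ₁ ≤ (1 / (x : ℝ)) ^ r₁) (hρ₂ : ρ₂ ≤ (1 / (x : ℝ)) ^ r₂) (hρ₀ : ρ₀ ≤ (1 / (x : ℝ)) ^ r₀)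
    (hε : ε ≤ (1 / (x : ℝ)) ^ e) (hCx : C * (11 + 9 * 2 ^ (2 * t)) ≤ x)
    (he'1 : e' ≤ e) (he'2 : e' ≤ r₂) (hr₁₂ : r₁ ≤ r₂) (hrd : 2 * crd ≤ r₂) (hde : 2 * crd ≤ e) (hr₀c : 2 * r₀ ≤ 3 * crd)
    (hV1 : V + 1 ≤ r₁ + e' + 5 * crd) (hV1' : V + 1 + j ≤ r₁ + 8 * crd) (hV2 : V + 1 ≤ r₁ + e' + 3 * r₀)
    (hV3 : V + 1 + (2 * t * (2 * crd) + j) ≤ r₁ * (2 * t + 1) + 2 * crd) :
    C * (ρ₁ * ((ρ₂ + ε) * ((1 / (x : ℝ)) ^ crd) ^ 5 + ((3 * x ^ j : ℕ) : ℝ) * ((1 / (x : ℝ)) ^ crd) ^ 8) +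
        (ρ₁ * ρ₂ + ε * ρ₁ + ε * ρ₂) * (((1 / (x : ℝ)) ^ crd) ^ 3 * ρ₀ + ρ₀ ^ 3) +
        (((x ^ (2 * crd) + 1 : ℕ) : ℝ) ^ t) ^ 2 * ρ₁ ^ (2 * t + 1) * ((3 * x ^ j : ℕ) : ℝ) *
          (((1 / (x : ℝ)) ^ crd) ^ 2 + ρ₂ + ε)) ≤ 1 / (x : ℝ) ^ V := by
  have hx1 : (1 : ℝ) ≤ x := by
    have : (2 : ℝ) ≤ x := by exact_mod_cast hx
    linarith
  have hx0 : (0 : ℝ) < x := by linarith
  obtain ⟨u, hu⟩ : ∃ u : ℝ, u = 1 / (x : ℝ) := ⟨_, rfl⟩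
  rw [← hu] at hρ₁ hρ₂ hρ₀ hε ⊢
  have hu0 : 0 < u := by rw [hu]; positivity
  have hu1 : u ≤ 1 := by
    rw [hu, div_le_one hx0]
    exact hx1
  have hxu : (x : ℝ) * u = 1 := by
    rw [hu]
    field_simp
  have hpow : ∀ m : ℕ, (x : ℝ) ^ m * u ^ m = 1 := by
    intro m
    rw [← mul_pow, hxu, one_pow]
  have hmono : ∀ {a b : ℕ}, a ≤ b → u ^ b ≤ u ^ a := fun h => pow_le_pow_of_le_one hu0.le hu1 h
  have hE : 0 ≤ u ^ (V + 1) := by positivity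
  -- first term
  have hρε : ρ₂ + ε ≤ 2 * u ^ e' := by
    have h1 := hρ₂.trans (hmono he'2)
    have h2 := hε.trans (hmono he'1)
    linarith
  have hV1t : ρ₁ * ((ρ₂ + ε) * (u ^ crd) ^ 5 + ((3 * x ^ j : ℕ) : ℝ) * (u ^ crd) ^ 8) ≤ 5 * u ^ (V + 1) := by
    have hk : ρ₁ * (((3 * x ^ j : ℕ) : ℝ) * (u ^ crd) ^ 8) ≤ 3 * u ^ (V + 1) := by
      push_cast
      have e1 : (u ^ crd) ^ 8 = u ^ (8 * crd) := by ring
      have h1 : u ^ r₁ * u ^ (8 * crd) = u ^ j * u ^ (r₁ + 8 * crd - j) := by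
        rw [← pow_add, ← pow_add]
        congr 1
        omega
      calc ρ₁ * (3 * (x : ℝ) ^ j * (u ^ crd) ^ 8) ≤ u ^ r₁ * (3 * (x : ℝ) ^ j * (u ^ crd) ^ 8) :=
            mul_le_mul_of_nonneg_right hρ₁ (by positivity)
        _ = 3 * ((x : ℝ) ^ j * (u ^ r₁ * u ^ (8 * crd))) := by rw [e1]; ring
        _ = 3 * ((x : ℝ) ^ j * u ^ j) * u ^ (r₁ + 8 * crd - j) := by rw [h1]; ring
        _ = 3 * u ^ (r₁ + 8 * crd - j) := by rw [hpow]; ring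
        _ ≤ 3 * u ^ (V + 1) := by
            have := hmono (by omega : V + 1 ≤ r₁ + 8 * crd - j)
            linarith
    have h1 : (ρ₂ + ε) * (u ^ crd) ^ 5 ≤ 2 * u ^ e' * (u ^ crd) ^ 5 :=
      mul_le_mul_of_nonneg_right hρε (by positivity)
    have h2 : ρ₁ * ((ρ₂ + ε) * (u ^ crd) ^ 5) ≤ u ^ r₁ * (2 * u ^ e' * (u ^ crd) ^ 5) :=
      mul_le_mul hρ₁ h1 (by positivity) (by positivity)
    have e2 : u ^ r₁ * (2 * u ^ e' * (u ^ crd) ^ 5) = 2 * u ^ (r₁ + e' + 5 * crd) := by ring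
    have h3 := hmono hV1
    rw [mul_add]
    linarith
  -- second term
  have hV2t : (ρ₁ * ρ₂ + ε * ρ₁ + ε * ρ₂) * ((u ^ crd) ^ 3 * ρ₀ + ρ₀ ^ 3) ≤ 6 * u ^ (V + 1) := by
    have h1 : ρ₁ * ρ₂ ≤ u ^ r₁ * u ^ r₂ := mul_le_mul hρ₁ hρ₂ hρ₂0 (by positivity)
    have h2 : ε * ρ₁ ≤ u ^ e * u ^ r₁ := mul_le_mul hε hρ₁ hρ₁0 (by positivity)
    have h3 : ε * ρ₂ ≤ u ^ e * u ^ r₂ := mul_le_mul hε hρ₂ hρ₂0 (by positivity)
    have e1 : u ^ r₁ * u ^ r₂ = u ^ (r₁ + r₂) := by ring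
    have e2 : u ^ e * u ^ r₁ = u ^ (r₁ + e) := by ring
    have e3 : u ^ e * u ^ r₂ = u ^ (e + r₂) := by ring
    have h4 : u ^ (r₁ + r₂) ≤ u ^ (r₁ + e') := hmono (by omega)
    have h4' : u ^ (r₁ + e) ≤ u ^ (r₁ + e') := hmono (by omega)
    have h5 : u ^ (e + r₂) ≤ u ^ (r₁ + e') := hmono (by omega)
    have h6 : ρ₁ * ρ₂ + ε * ρ₁ + ε * ρ₂ ≤ 3 * u ^ (r₁ + e') := by linarith
    have h7 : (u ^ crd) ^ 3 * ρ₀ ≤ (u ^ crd) ^ 3 * u ^ r₀ := mul_le_mul_of_nonneg_left hρ₀ (by positivity)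
    have e4 : (u ^ crd) ^ 3 * u ^ r₀ = u ^ (3 * crd + r₀) := by ring
    have h8 : ρ₀ ^ 3 ≤ (u ^ r₀) ^ 3 := pow_le_pow_left₀ hρ₀0 hρ₀ 3
    have e5 : (u ^ r₀) ^ 3 = u ^ (3 * r₀) := by ring
    have h9 : u ^ (3 * crd + r₀) ≤ u ^ (3 * r₀) := hmono (by omega)
    have h10 : (u ^ crd) ^ 3 * ρ₀ + ρ₀ ^ 3 ≤ 2 * u ^ (3 * r₀) := by linarith
    calc (ρ₁ * ρ₂ + ε * ρ₁ + ε * ρ₂) * ((u ^ crd) ^ 3 * ρ₀ + ρ₀ ^ 3) ≤ (3 * u ^ (r₁ + e')) * (2 * u ^ (3 * r₀)) :=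
          mul_le_mul h6 h10 (by positivity) (by positivity)
      _ = 6 * u ^ (r₁ + e' + 3 * r₀) := by ring
      _ ≤ 6 * u ^ (V + 1) := by
          have := hmono hV2
          linarith
  -- third term
  have hV3t : (((x ^ (2 * crd) + 1 : ℕ) : ℝ) ^ t) ^ 2 * ρ₁ ^ (2 * t + 1) * ((3 * x ^ j : ℕ) : ℝ) *
      ((u ^ crd) ^ 2 + ρ₂ + ε) ≤ 9 * 2 ^ (2 * t) * u ^ (V + 1) := by
    have h1 : ((x ^ (2 * crd) + 1 : ℕ) : ℝ) ≤ 2 * (x : ℝ) ^ (2 * crd) := by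
      push_cast
      have : (1 : ℝ) ≤ (x : ℝ) ^ (2 * crd) := one_le_pow₀ hx1
      linarith
    have h2 : (((x ^ (2 * crd) + 1 : ℕ) : ℝ) ^ t) ^ 2 ≤ ((2 * (x : ℝ) ^ (2 * crd)) ^ t) ^ 2 := by
      gcongr
    have h3 : ρ₁ ^ (2 * t + 1) ≤ (u ^ r₁) ^ (2 * t + 1) := pow_le_pow_left₀ hρ₁0 hρ₁ _
    have h4 : (u ^ crd) ^ 2 + ρ₂ + ε ≤ 3 * u ^ (2 * crd) := by
      have h5 := hρ₂.trans (hmono hrd)
      have h6 := hε.trans (hmono hde)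
      have e : (u ^ crd) ^ 2 = u ^ (2 * crd) := by ring
      rw [e]
      linarith
    have h5 : ((3 * x ^ j : ℕ) : ℝ) = 3 * (x : ℝ) ^ j := by push_cast; ring
    rw [h5]
    have e1 : r₁ * (2 * t + 1) + 2 * crd = (2 * t * (2 * crd) + j) + (r₁ * (2 * t + 1) + 2 * crd - (2 * t * (2 * crd) + j)) := by
      omega
    calc (((x ^ (2 * crd) + 1 : ℕ) : ℝ) ^ t) ^ 2 * ρ₁ ^ (2 * t + 1) * (3 * (x : ℝ) ^ j) * ((u ^ crd) ^ 2 + ρ₂ + ε)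
        ≤ ((2 * (x : ℝ) ^ (2 * crd)) ^ t) ^ 2 * (u ^ r₁) ^ (2 * t + 1) * (3 * (x : ℝ) ^ j) * (3 * u ^ (2 * crd)) := by
          have n1 : 0 ≤ ρ₁ ^ (2 * t + 1) := pow_nonneg hρ₁0 _
          have n2 : 0 ≤ ((2 * (x : ℝ) ^ (2 * crd)) ^ t) ^ 2 := sq_nonneg _
          have n3 : (0 : ℝ) ≤ 3 * (x : ℝ) ^ j := by positivity
          have n4 : 0 ≤ (u ^ crd) ^ 2 + ρ₂ + ε := by positivity
          have n5 : 0 ≤ (u ^ r₁) ^ (2 * t + 1) := pow_nonneg (pow_nonneg hu0.le _) _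
          exact mul_le_mul (mul_le_mul_of_nonneg_right (mul_le_mul h2 h3 n1 n2) n3) h4 n4
            (mul_nonneg (mul_nonneg n2 n5) n3)
      _ = 9 * 2 ^ (2 * t) * ((x : ℝ) ^ (2 * t * (2 * crd) + j) * u ^ (r₁ * (2 * t + 1) + 2 * crd)) := by ring
      _ = 9 * 2 ^ (2 * t) * (((x : ℝ) ^ (2 * t * (2 * crd) + j) * u ^ (2 * t * (2 * crd) + j)) *
            u ^ (r₁ * (2 * t + 1) + 2 * crd - (2 * t * (2 * crd) + j))) := by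
          conv_lhs => rw [e1, pow_add u]
          ring
      _ = 9 * 2 ^ (2 * t) * u ^ (r₁ * (2 * t + 1) + 2 * crd - (2 * t * (2 * crd) + j)) := by rw [hpow]; ring
      _ ≤ 9 * 2 ^ (2 * t) * u ^ (V + 1) := by
          apply mul_le_mul_of_nonneg_left _ (by positivity)
          exact hmono (by omega)
  have e : 1 / (x : ℝ) ^ V = u ^ V := by
    rw [hu, div_pow, one_pow]
  rw [e]
  have hsum := add_le_add (add_le_add hV1t hV2t) hV3t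
  calc _ ≤ C * (5 * u ^ (V + 1) + 6 * u ^ (V + 1) + 9 * 2 ^ (2 * t) * u ^ (V + 1)) :=
        mul_le_mul_of_nonneg_left hsum hC.le
    _ = (C * (11 + 9 * 2 ^ (2 * t))) * u * u ^ V := by ring
    _ ≤ (x : ℝ) * u * u ^ V := by
        apply mul_le_mul_of_nonneg_right _ (by positivity)
        exact mul_le_mul_of_nonneg_right hCx hu0.le
    _ = u ^ V := by rw [hxu]; ring

end real_params

/-- Counts in terms of the expansion. -/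
theorem cnt_UC {θ : ℝ} (hθ : θ ≠ 0) (P D : ℤ) (J K A : ℕ) (ς : ℕ → ℤ)
    (hL : (apL (posS P D K ς) ((J : ℤ) + K) (2 * J + K + 1)).Pairwise (· > ·))
    (hX : ∀ d ∈ apL (posS P D K ς) ((J : ℤ) + K) (2 * J + K + 1), 0 < d ∧ d ≤ (A : ℤ)) (t : Word) :
    (cnt (blockStr (apL (posS P D K ς) ((J : ℤ) + K) (2 * J + K + 1)).toFinset 0 A) t : ℝ) *
      (1 - θ) ^ (t.length + 1) * θ ^ ((A : ℤ) - (H t : ℤ)) = UC θ P D J K A ς t := by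
  have := chain_eq θ hθ 0 _ hL (A : ℤ) hX (by positivity) t
  simp only [sub_zero, Int.toNat_natCast] at this
  rw [this, UU_eq_VV]
  rfl

/-- Properties of the lists of sites. -/
theorem sites_facts {x K dlt j p r₁ : ℕ} (hx : 64 * (K + 1) ≤ x) (h1 : dlt + j < p) (hr₁ : 2 * r₁ < p)
    (hd : dlt ≤ 2 * r₁) {ς : ℕ → ℤ} (hς : ∀ j, ς j = 0 ∨ ς j = 1) :
    (apL (posS ((x : ℤ) ^ p) ((x ^ dlt + 1 : ℕ) : ℤ) K ς) (((x ^ j : ℕ) : ℤ) + (K : ℤ))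
        (2 * x ^ j + K + 1)).Pairwise (· > ·) ∧
    (∀ d ∈ apL (posS ((x : ℤ) ^ p) ((x ^ dlt + 1 : ℕ) : ℤ) K ς)
        (((x ^ j : ℕ) : ℤ) + (K : ℤ)) (2 * x ^ j + K + 1),
        (x : ℤ) ^ dlt ≤ d ∧ d ≤ 2 * (x : ℤ) ^ p) ∧
    Spaced (apL (posS ((x : ℤ) ^ p) ((x ^ dlt + 1 : ℕ) : ℤ) K ς)
        (((x ^ j : ℕ) : ℤ) + (K : ℤ)) (2 * x ^ j + K + 1)).toFinset (x ^ dlt) := by
  have hx1 : 1 ≤ x := by omega
  have hgap : Gap (posS ((x : ℤ) ^ p) ((x ^ dlt + 1 : ℕ) : ℤ) K ς) (x ^ dlt) :=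
    Gap_posS hς (by push_cast; exact le_refl _)
  have hδ1 : 1 ≤ x ^ dlt := one_le_pw hx1
  refine ⟨apL_pairwise hgap hδ1 _ _, ?_, apL_spaced hgap _ _⟩
  intro d hd'
  obtain ⟨j', h2, h3, rfl⟩ := mem_apL.mp hd'
  have hD0 : (0 : ℤ) ≤ ((x ^ dlt + 1 : ℕ) : ℤ) := by positivity
  push_cast at h2 h3
  have hj : -(((x ^ j : ℕ) : ℤ)) ≤ j' := by
    push_cast
    omega
  have h4 := posS_ge (K := K) hς hD0 (P := (x : ℤ) ^ p) hj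
  have hj2 : j' ≤ (((x ^ j : ℕ) : ℤ)) + (K : ℤ) := by
    push_cast
    omega
  have h5 := posS_le (K := K) hς hD0 (P := (x : ℤ) ^ p) hj2
  have h6 : ((x ^ (2 * r₁) + 1 + x ^ j * (x ^ dlt + 1) : ℕ) : ℤ) ≤ ((x ^ p : ℕ) : ℤ) := by
    exact_mod_cast nc_h1 (by omega) hr₁ h1 (by omega)
  have h7 : (((x ^ j + K) * (x ^ dlt + 1) + 1 : ℕ) : ℤ) ≤ ((x ^ p : ℕ) : ℤ) := by
    exact_mod_cast nc_h8 hx h1
  have h8 : ((x ^ dlt : ℕ) : ℤ) ≤ ((x ^ (2 * r₁) : ℕ) : ℤ) := by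
    exact_mod_cast pmono hx1 hd
  push_cast at h4 h5 h6 h7 h8 ⊢
  constructor <;> linarith

/-- The slots. -/
theorem sxT_vals (t j : ℕ) : sxT t j = 0 ∨ sxT t j = 1 := by
  unfold sxT
  split_ifs <;> simp

theorem syT_vals (t j : ℕ) : syT t j = 0 ∨ syT t j = 1 := by
  unfold syT
  split_ifs <;> simp

theorem tmS_zero (t : ℕ) : tmS t 0 = 1 := by
  induction t with
  | zero => rfl
  | succ t ih =>
    simp only [tmS]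
    rw [if_pos (by positivity)]
    exact ih

theorem core_card {x p crd j t : ℕ} {ς : ℕ → ℤ} (hx : 64 * (2 ^ t + 1) ≤ x) (hj : 1 ≤ j) (hjc : j + 4 ≤ crd) :
    (apL (posS ((x : ℤ) ^ p) ((x ^ (2 * crd) + 1 : ℕ) : ℤ) (2 ^ t) ς)
      (((x ^ j : ℕ) : ℤ) + ((2 ^ t : ℕ) : ℤ)) (2 * x ^ j + 2 ^ t + 1)).toFinset.card * x ^ 3 ≤ x ^ crd := by
  have hK1 : 1 ≤ 2 ^ t := Nat.one_le_two_pow
  have hx1 : 1 ≤ x := by omega
  have h2 := List.toFinset_card_le (apL (posS ((x : ℤ) ^ p) ((x ^ (2 * crd) + 1 : ℕ) : ℤ) (2 ^ t) ς)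
    (((x ^ j : ℕ) : ℤ) + ((2 ^ t : ℕ) : ℤ)) (2 * x ^ j + 2 ^ t + 1))
  rw [length_apL] at h2
  have h3 := nc_k (K := 2 ^ t) (x := x) (j := j) (by omega) (by omega)
  have h4 : 3 * x ^ (j + 3) ≤ x ^ crd := pw (by omega) hx1 (by omega)
  calc _ ≤ (3 * x ^ j) * x ^ 3 := Nat.mul_le_mul_right _ (h2.trans h3)
    _ = 3 * x ^ (j + 3) := by ring
    _ ≤ x ^ crd := h4

theorem core_ne {x p crd j t : ℕ} (hx1 : 1 ≤ x) :
    (apL (posS ((x : ℤ) ^ p) ((x ^ (2 * crd) + 1 : ℕ) : ℤ) (2 ^ t) (sxT t))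
      (((x ^ j : ℕ) : ℤ) + ((2 ^ t : ℕ) : ℤ)) (2 * x ^ j + 2 ^ t + 1)).toFinset ≠
    (apL (posS ((x : ℤ) ^ p) ((x ^ (2 * crd) + 1 : ℕ) : ℤ) (2 ^ t) (syT t))
      (((x ^ j : ℕ) : ℤ) + ((2 ^ t : ℕ) : ℤ)) (2 * x ^ j + 2 ^ t + 1)).toFinset := by
  intro heq
  have hD2 : (2 : ℤ) ≤ ((x ^ (2 * crd) + 1 : ℕ) : ℤ) := by
    have := one_le_pw (x := x) (a := 2 * crd) hx1
    have h2 : 2 ≤ x ^ (2 * crd) + 1 := by omega
    exact_mod_cast h2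
  have hK0 : (0 : ℤ) < ((2 ^ t : ℕ) : ℤ) := by positivity
  have hmem : (x : ℤ) ^ p + 1 ∈ (apL (posS ((x : ℤ) ^ p) ((x ^ (2 * crd) + 1 : ℕ) : ℤ) (2 ^ t) (sxT t))
      (((x ^ j : ℕ) : ℤ) + ((2 ^ t : ℕ) : ℤ)) (2 * x ^ j + 2 ^ t + 1)).toFinset := by
    rw [List.mem_toFinset, mem_apL]
    refine ⟨0, ?_, ?_, ?_⟩
    · push_cast
      have : (0 : ℤ) ≤ (x : ℤ) ^ j := by positivity
      have : (0 : ℤ) < (2 : ℤ) ^ t := by positivity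
      omega
    · positivity
    · simp [posS, sigT, sxT, tmS_zero]
  rw [heq, List.mem_toFinset, mem_apL] at hmem
  obtain ⟨j', _, _, h3⟩ := hmem
  unfold posS at h3
  have hb := sigT_bounds (K := 2 ^ t) (syT_vals t) j'
  rcases lt_trichotomy j' 0 with hj | hj | hj
  · have : j' * ((x ^ (2 * crd) + 1 : ℕ) : ℤ) ≤ -1 * ((x ^ (2 * crd) + 1 : ℕ) : ℤ) :=
      mul_le_mul_of_nonneg_right (by omega) (by omega)
    omega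
  · subst hj
    simp [sigT, syT, tmS_zero] at h3
  · have : 1 * ((x ^ (2 * crd) + 1 : ℕ) : ℤ) ≤ j' * ((x ^ (2 * crd) + 1 : ℕ) : ℤ) :=
      mul_le_mul_of_nonneg_right (by omega) (by omega)
    omega

set_option maxHeartbeats 600000 in
/-- The analytic core for exponents satisfying the linear constraints. -/
theorem core_gen {q : ℝ} (h0 : 0 < q) (h1 : q < 1) {a' p crd j r₁ r₂ r₀ R e e' t V : ℕ}
    (hj2 : 2 ≤ j) (hjc : j + 4 ≤ crd) (hp1 : 2 * crd + j < p) (hr₁ : 2 * r₁ < p) (hpr₂ : p ≤ 2 * r₂)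
    (hr₂a : 2 * r₂ < 2 * a') (hr₁₂ : r₁ ≤ r₂) (h2crd : 2 * crd < 2 * r₁) (h3crd : 3 * crd ≤ 2 * r₁)
    (hr₀ : 2 * r₀ ≤ 2 * crd + j) (hR1 : 2 * crd + j ≤ 2 * R) (hR2 : R + 1 ≤ 2 * crd) (hae : a' = e + 2)
    (hde : 2 * crd ≤ e) (he'1 : e' ≤ e) (he'2 : e' ≤ r₂) (hrd : 2 * crd ≤ r₂)
    (hV1 : V + 1 ≤ r₁ + e' + 5 * crd) (hV1' : V + 1 + j ≤ r₁ + 8 * crd) (hV2 : V + 1 ≤ r₁ + e' + 3 * r₀)
    (hV3 : V + 1 + (2 * t * (2 * crd) + j) ≤ r₁ * (2 * t + 1) + 2 * crd) :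
    CoreStatement q (2 * a') p (2 * crd) crd V := by
  subst hae
  intro Cg
  have hq2 : 0 < q ^ 2 := by positivity
  have hq21 : q ^ 2 < 1 := by nlinarith
  have hq31 : 0 < 1 - q ^ 2 := by linarith
  obtain ⟨Cs, C, hCs, hC, hF⟩ := decomp_bound (θ₀ := q ^ 2 / 2) (θ₁ := (1 + q ^ 2) / 2) h0 h1 (by positivity)
    (by linarith) t
  obtain ⟨N₁, hN₁⟩ : ∃ N₁ : ℕ, N₁ = (2 * (2 * crd + j) + 4) ^ 2 + 64 * (2 ^ t + 1) + 16 * (t + 1) * 2 ^ t + 8 := ⟨_, rfl⟩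
  obtain ⟨lam₀, hlam₀⟩ := exists_nat_ge
    ((N₁ : ℝ) + Cg + 4 * Cs + C * (11 + 9 * 2 ^ (2 * t)) + 2 / q ^ 2 + 2 / (1 - q ^ 2))
  refine ⟨lam₀, ?_⟩
  intro x A hx hA1 hA2
  have hxR : (lam₀ : ℝ) ≤ x := by exact_mod_cast hx
  have hp1' : 0 ≤ 2 / q ^ 2 := by positivity
  have hp2' : 0 ≤ 2 / (1 - q ^ 2) := by positivity
  have hp3' : 0 ≤ C * (11 + 9 * 2 ^ (2 * t)) := by positivity
  have hp4' : 0 ≤ 4 * Cs := by linarith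
  have hp5' : (0 : ℝ) ≤ Cg := by positivity
  have hp6' : (0 : ℝ) ≤ N₁ := by positivity
  have hxN : N₁ ≤ x := by
    have : (N₁ : ℝ) ≤ x := by linarith
    exact_mod_cast this
  have hCg : Cg ≤ x := by
    have : (Cg : ℝ) ≤ x := by linarith
    exact_mod_cast this
  have hCs' : 4 * Cs ≤ x := by linarith
  have hCx : C * (11 + 9 * 2 ^ (2 * t)) ≤ x := by linarith
  have hq₁ : 2 / q ^ 2 ≤ x := by linarith
  have hq₂ : 2 / (1 - q ^ 2) ≤ x := by linarith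
  have hx8 : 8 ≤ x := by omega
  have hx64 : 64 * (2 ^ t + 1) ≤ x := by omega
  have hx16 : 16 * (t + 1) * 2 ^ t ≤ x := by omega
  have hxS : (2 * (2 * crd + j) + 4) ^ 2 ≤ x := by omega
  have hK1 : 1 ≤ 2 ^ t := Nat.one_le_two_pow
  have hx1 : 1 ≤ x := by omega
  have hx1' : (1 : ℝ) ≤ x := by exact_mod_cast hx1
  have hx0 : (0 : ℝ) < x := by linarith
  have hu0 : 0 < 1 / (x : ℝ) := by positivity
  have hu1 : 1 / (x : ℝ) ≤ 1 := by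
    rw [div_le_one hx0]
    exact hx1'
  have hu2 : 1 / (x : ℝ) ≤ q ^ 2 / 2 := by
    rw [div_le_iff₀ hx0]
    rw [div_le_iff₀ hq2] at hq₁
    nlinarith
  have hu3 : 1 / (x : ℝ) ≤ (1 - q ^ 2) / 2 := by
    rw [div_le_iff₀ hx0]
    rw [div_le_iff₀ hq31] at hq₂
    nlinarith
  have hue : (1 / (x : ℝ)) ^ e ≤ 1 / (x : ℝ) := by
    have := pow_le_pow_of_le_one hu0.le hu1 (by omega : 1 ≤ e)
    rwa [pow_one] at this
  -- the data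
  have hX := sites_facts (K := 2 ^ t) (dlt := 2 * crd) (j := j) (p := p) (r₁ := r₁) hx64 hp1 hr₁ (by omega) (sxT_vals t)
  have hY := sites_facts (K := 2 ^ t) (dlt := 2 * crd) (j := j) (p := p) (r₁ := r₁) hx64 hp1 hr₁ (by omega) (syT_vals t)
  obtain ⟨hX1, hX2, hX3⟩ := hX
  obtain ⟨hY1, hY2, hY3⟩ := hY
  have hcardL := fun ς : ℕ → ℤ => core_card (p := p) (crd := crd) (j := j) (t := t) (x := x) (ς := ς) (by omega) (by omega) (by omega)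
  have hspaced : ∀ S : Finset ℤ, Spaced S (x ^ (2 * crd)) →
      ∀ d ∈ S, ∀ d' ∈ S, d ≠ d' → (x : ℤ) ^ (2 * crd) ≤ |d - d'| := by
    intro S hS d hd d' hd' hne
    have := hS d hd d' hd' hne
    push_cast at this
    exact this
  refine ⟨_, _, ?_, fun d hd => hX2 d (List.mem_toFinset.mp hd), fun d hd => hY2 d (List.mem_toFinset.mp hd),
    hspaced _ hX3, hspaced _ hY3, hcardL _, hcardL _, ?_⟩
  · exact core_ne hx1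
  · intro g hg
    have hε := th_bound (A := A) (e := e) h0 hx1 hg hCg hA1 (hue.trans (hu2.trans (by linarith)))
    obtain ⟨θ, hθdef⟩ : ∃ θ, θ = th q A g := ⟨_, rfl⟩
    rw [← hθdef] at hε ⊢
    have hεa := abs_le.mp (hε.trans hue)
    have hθ : θ ∈ Set.Icc (q ^ 2 / 2) ((1 + q ^ 2) / 2) := by
      constructor <;> linarith [hεa.1, hεa.2]
    have hθ0 : θ ≠ 0 := by
      have : 0 < θ := by
        have := hθ.1
        linarith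
      exact this.ne'
    have hP := par_inst (q := q) (θ := θ) (Cs := Cs) (x := x) (crd := crd) (j := j) (R := R) hxS (by omega) hCs'
      (by omega) (by omega) hR1 hR2 (hε.trans (pow_le_pow_of_le_one hu0.le hu1 hde))
    have hr₁' : rhoL ((x ^ (2 * r₁) : ℕ) : ℤ) ≤ (1 / (x : ℝ)) ^ r₁ := nc_rho hx1 (le_refl _)
    have hr₂' : rhoL ((x ^ (2 * r₂) : ℕ) : ℤ) ≤ (1 / (x : ℝ)) ^ r₂ := nc_rho hx1 (le_refl _)
    have hr₀' : rhoL ((x ^ (2 * crd + j) : ℕ) : ℤ) ≤ (1 / (x : ℝ)) ^ r₀ := nc_rho hx1 (pmono hx1 hr₀)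
    have hr₁0 : 0 ≤ rhoL ((x ^ (2 * r₁) : ℕ) : ℤ) := rhoL_nonneg _
    have hr₂0 : 0 ≤ rhoL ((x ^ (2 * r₂) : ℕ) : ℤ) := rhoL_nonneg _
    have hr₀0 : 0 ≤ rhoL ((x ^ (2 * crd + j) : ℕ) : ℤ) := rhoL_nonneg _
    have hN1 := nc_h1 (r₁ := r₁) (p := p) (dlt := 2 * crd) (j := j) hx8 hr₁ hp1 (by omega)
    have hN2 := nc_h2 (K := 2 ^ t) (p := p) (r₂ := r₂) (a := 2 * (e + 2)) (dlt := 2 * crd) (j := j) hx64 hpr₂ hr₂a (by omega)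
    have hN3 := nc_h3 (K := 2 ^ t) (dlt := 2 * crd) (j := j) hx64 hj2 (by omega)
    have hN4 := nc_h4 (x := x) (dlt := 2 * crd) (j := j)
    have hN5 := nc_h5 (K := 2 ^ t) (t := t) (dlt := 2 * crd) (r₁ := r₁) hx16 hK1 (by omega)
    have hN5' := nc_h5 (K := 2 ^ t) (t := t) (dlt := 2 * crd) (r₁ := r₂) hx16 hK1 (by omega)
    have hN7 : x ^ (2 * r₁) ≤ x ^ (2 * r₂) := pmono hx1 (by omega)
    have hB := hF θ hθ ((x : ℤ) ^ p) (A : ℤ) (x ^ (2 * crd) + 1) (x ^ j) (x ^ (2 * crd)) (3 * x ^ j)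
      (3 * x ^ (2 * crd + j))
      (2 * A + 2 * (t * (2 ^ t * (x ^ (2 * crd) + 1)))) (x ^ (2 * r₁)) (x ^ (2 * r₂)) (x ^ (2 * crd + j)) (x : ℝ) hP (le_refl _)
      (one_le_pw hx1) (nc_k (by omega) (by omega))
      (by
        have h2 : ((x ^ (2 * r₁) + 1 + x ^ j * (x ^ (2 * crd) + 1) : ℕ) : ℤ) ≤ ((x ^ p : ℕ) : ℤ) := by exact_mod_cast hN1
        push_cast at h2 ⊢
        linarith)
      (by
        have h2 : ((x ^ p + (x ^ j + 2 ^ t) * (x ^ (2 * crd) + 1) + 2 + x ^ (2 * r₂) : ℕ) : ℤ) ≤ (A : ℤ) := by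
          exact_mod_cast hN2.trans hA1
        push_cast at h2 ⊢
        linarith)
      (by exact_mod_cast hN3)
      (by push_cast; exact le_refl _)
      (by
        rw [nc_a]
        calc rhoL ((x ^ (2 * r₁) : ℕ) : ℤ) ^ 2 ≤ ((1 / (x : ℝ)) ^ r₁) ^ 2 := pow_le_pow_left₀ hr₁0 hr₁' 2
          _ = (1 / (x : ℝ)) ^ (2 * r₁) := by ring
          _ ≤ (1 / (x : ℝ)) ^ (3 * crd) := pow_le_pow_of_le_one hu0.le hu1 h3crd
          _ = ((1 / (x : ℝ)) ^ crd) ^ 3 := by ring)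
      (by
        rw [nc_a]
        calc rhoL ((x ^ (2 * r₂) : ℕ) : ℤ) ^ 2 ≤ ((1 / (x : ℝ)) ^ r₂) ^ 2 := pow_le_pow_left₀ hr₂0 hr₂' 2
          _ = (1 / (x : ℝ)) ^ (2 * r₂) := by ring
          _ ≤ (1 / (x : ℝ)) ^ (3 * crd) := pow_le_pow_of_le_one hu0.le hu1 (by omega)
          _ = ((1 / (x : ℝ)) ^ crd) ^ 3 := by ring)
      (by
        have := pmono (x := x) hx1 (by omega : 2 * crd ≤ 2 * r₂)
        omega)
      (by exact_mod_cast hN4)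
      (by exact_mod_cast hN5)
      (by exact_mod_cast hN5')
      hN7
    rw [nc_a] at hB
    have hfin := num_final (x := x) (ρ₁ := rhoL ((x ^ (2 * r₁) : ℕ) : ℤ)) (ρ₂ := rhoL ((x ^ (2 * r₂) : ℕ) : ℤ))
      (ρ₀ := rhoL ((x ^ (2 * crd + j) : ℕ) : ℤ)) (ε := |θ - q ^ 2|) (C := C)
      (by omega) hr₁0 hr₂0 hr₀0 (abs_nonneg _) hC hr₁' hr₂' hr₀' hε hCx he'1 he'2 hr₁₂ hrd hde
      (by omega) hV1 hV1' hV2 hV3
    have e1 : ∀ t' : Word, ((cnt (blockStr (apL (posS ((x : ℤ) ^ p) ((x ^ (2 * crd) + 1 : ℕ) : ℤ) (2 ^ t) (sxT t))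
          (((x ^ j : ℕ) : ℤ) + ((2 ^ t : ℕ) : ℤ)) (2 * x ^ j + 2 ^ t + 1)).toFinset 0 A) t' : ℝ) -
        (cnt (blockStr (apL (posS ((x : ℤ) ^ p) ((x ^ (2 * crd) + 1 : ℕ) : ℤ) (2 ^ t) (syT t))
          (((x ^ j : ℕ) : ℤ) + ((2 ^ t : ℕ) : ℤ)) (2 * x ^ j + 2 ^ t + 1)).toFinset 0 A) t' : ℝ)) *
        (1 - θ) ^ (t'.length + 1) * θ ^ ((A : ℤ) - (H t' : ℤ)) =
        UC θ ((x : ℤ) ^ p) ((x ^ (2 * crd) + 1 : ℕ) : ℤ) (x ^ j) (2 ^ t) (A : ℤ) (sxT t) t' -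
        UC θ ((x : ℤ) ^ p) ((x ^ (2 * crd) + 1 : ℕ) : ℤ) (x ^ j) (2 ^ t) (A : ℤ) (syT t) t' := by
      intro t'
      have hAx : ∀ ς : ℕ → ℤ, (∀ d ∈ apL (posS ((x : ℤ) ^ p) ((x ^ (2 * crd) + 1 : ℕ) : ℤ) (2 ^ t) ς)
        (((x ^ j : ℕ) : ℤ) + ((2 ^ t : ℕ) : ℤ)) (2 * x ^ j + 2 ^ t + 1), (x : ℤ) ^ (2 * crd) ≤ d ∧ d ≤ 2 * (x : ℤ) ^ p) →
        ∀ d ∈ apL (posS ((x : ℤ) ^ p) ((x ^ (2 * crd) + 1 : ℕ) : ℤ) (2 ^ t) ς)
        (((x ^ j : ℕ) : ℤ) + ((2 ^ t : ℕ) : ℤ)) (2 * x ^ j + 2 ^ t + 1), 0 < d ∧ d ≤ (A : ℤ) := by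
        intro ς hς d hd
        obtain ⟨h2, h3⟩ := hς d hd
        have h4 : (0 : ℤ) < (x : ℤ) ^ (2 * crd) := by positivity
        have h5 : 2 * x ^ p ≤ x ^ (2 * (e + 2)) := pw (by omega) hx1 (by omega)
        have h6 : (2 * (x : ℤ) ^ p) ≤ (A : ℤ) := by exact_mod_cast h5.trans hA1
        exact ⟨by linarith, by linarith⟩
      rw [sub_mul, sub_mul, cnt_UC hθ0 _ _ _ _ _ _ hX1 (hAx _ hX2), cnt_UC hθ0 _ _ _ _ _ _ hY1 (hAx _ hY2)]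
    rw [nsq_congr e1]
    refine le_trans (nsq_mono h0 h1 (by omega) _) (hB.trans hfin)

/-- The exponents used. -/
theorem core_inst {q : ℝ} (h0 : 0 < q) (h1 : q < 1) {m : ℕ} (hm : 3 ≤ m) :
    CoreStatement q (2 * (4 * m + 8)) (8 * m + 7) (2 * (2 * m)) (2 * m) (17 * m) := by
  obtain ⟨s, hs⟩ : ∃ s, m = s + 3 := ⟨m - 3, by omega⟩
  have hV3 : 17 * m + 1 + (2 * (2 * m) * (2 * (2 * m)) + (2 * s + 2)) ≤
      (4 * m + 3) * (2 * (2 * m) + 1) + 2 * (2 * m) := by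
    subst hs
    nlinarith
  exact core_gen (a' := 4 * m + 8) (p := 8 * m + 7) (crd := 2 * m) (j := 2 * s + 2) (r₁ := 4 * m + 3)
    (r₂ := 4 * m + 4) (r₀ := 3 * s + 7) (R := 3 * s + 7) (e := 4 * m + 6) (e' := 4 * m + 4) (t := 2 * m)
    (V := 17 * m) h0 h1 (by omega) (by omega) (by omega) (by omega) (by omega) (by omega) (by omega) (by omega)
    (by omega) (by omega) (by omega) (by omega) (by omega) (by omega) (by omega) (by omega) (by omega)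
    (by omega) (by omega) (by omega) hV3

end Vale.Agent.Lib.P321
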