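import Vale.Agent.Lib.P321.Chain

/-!
P321: the core expansion of the square of a sum of transfer operators.
-/

namespace Vale.Agent.Lib.P321

open Finset

section
variable (θ : ℝ) (β : Blk) (S : Finset ℤ) (f : ℤ → Word → ℝ) (X : ℤ)

/-- Sum over sites of the left function times the block. -/
noncomputable def GG (w w' : Word) : ℝ :=
  ∑ d ∈ S, f d w * β (w'.length + 1) (X - d - H w')

/-- Sum of transfer operators, as a token sum. -/
noncomputable def Yk (t : Word) : ℝ :=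
  ((splits t).map fun s => nu θ s * GG β S f X s.1 s.2.2.2).sum

/-- The plain sum of transfer operators restricted to tokens with nonempty right part. -/
noncomputable def Yb (i : ℤ) (t : Word) : ℝ :=
  ((splitsNE t).map fun s => nu θ s * GG (NB θ) S f i s.1 s.2.2.2).sum

theorem Yk_eq_sum_Tk (t : Word) : Yk θ β S f X t = ∑ d ∈ S, Tk θ β d X (f d) t := by
  simp only [Yk, Tk, GG]
  have : ∀ L : List Spl, (L.map fun s => nu θ s * ∑ d ∈ S, f d s.1 * β (s.2.2.2.length + 1) (X - d - H s.2.2.2)).sum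
      = ∑ d ∈ S, (L.map fun s => f d s.1 * nu θ s * β (s.2.2.2.length + 1) (X - d - H s.2.2.2)).sum := by
    intro L
    induction L with
    | nil => simp
    | cons x L ih =>
      simp only [List.map_cons, List.sum_cons]
      rw [ih, sum_add_distrib, mul_sum]
      congr 1
      apply sum_congr rfl
      intro d _
      ring
  exact this _

end

/-- Splitting a `Quad` sum into independent sums when the summand has bounded support. -/
theorem sum_Quad_eq_prod {B B₁ B₂ : ℕ} (h : B₁ + B₂ + 2 ≤ B) (φ : Spl → ℝ)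
    (hφ : ∀ s : Spl, φ s ≠ 0 → s.1.length ≤ B₁ ∧ s.2.2.2.length ≤ B₂) :
    ∑ s ∈ Quad B, φ s = ∑ w ∈ W B₁, ∑ w' ∈ W B₂, ∑ a : Bool, ∑ b : Bool, φ (w, a, b, w') := by
  have h1 : ∑ w ∈ W B₁, ∑ w' ∈ W B₂, ∑ a : Bool, ∑ b : Bool, φ (w, a, b, w') =
      ∑ s ∈ (W B₁) ×ˢ ((univ : Finset Bool) ×ˢ ((univ : Finset Bool) ×ˢ (W B₂))), φ s := by
    simp only [sum_product]
    apply sum_congr rfl
    intro w _
    rw [sum_comm]
    apply sum_congr rfl
    intro a _
    rw [sum_comm]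
  rw [h1]
  symm
  apply sum_subset_zero_on_sdiff
  · intro s hs
    simp only [mem_product, mem_W, mem_univ, true_and] at hs
    rw [mem_Quad]
    rcases s with ⟨w, a, b, w'⟩
    simp only [joinS, List.length_append, List.length_cons] at hs ⊢
    omega
  · intro s hs
    simp only [mem_sdiff, mem_product, mem_W, mem_univ, true_and, not_and, not_le] at hs
    by_contra hne
    have := hφ s hne
    exact absurd (hs.2 this.1) (not_lt.mpr this.2)
  · intros; rfl

theorem piT_pos {q : ℝ} (h0 : 0 < q) (h1 : q < 1) (w : Word) : 0 < piT q w := by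
  unfold piT
  have : 0 < 1 - q ^ 2 := by nlinarith
  positivity

theorem nsq_nonneg {q : ℝ} (h0 : 0 < q) (h1 : q < 1) (B : ℕ) (f : Word → ℝ) : 0 ≤ nsq q B f := by
  unfold nsq
  exact sum_nonneg fun w _ => mul_nonneg (piT_pos h0 h1 w).le (sq_nonneg _)

theorem W_mono {B B' : ℕ} (h : B ≤ B') : W B ⊆ W B' := by
  intro w hw
  rw [mem_W] at hw ⊢
  omega

theorem nsq_mono {q : ℝ} (h0 : 0 < q) (h1 : q < 1) {B B' : ℕ} (h : B ≤ B') (f : Word → ℝ) :
    nsq q B f ≤ nsq q B' f := by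
  unfold nsq
  exact sum_le_sum_of_subset_of_nonneg (W_mono h)
    fun w _ _ => mul_nonneg (piT_pos h0 h1 w).le (sq_nonneg _)

/-- Cauchy-Schwarz for the weighted inner product. -/
theorem nsq_cauchy {q : ℝ} (h0 : 0 < q) (h1 : q < 1) (B : ℕ) (f g : Word → ℝ) :
    ∑ w ∈ W B, piT q w * |f w| * |g w| ≤ √(nsq q B f) * √(nsq q B g) := by
  have h := Real.sum_mul_le_sqrt_mul_sqrt (W B) (fun w => √(piT q w) * |f w|)
    (fun w => √(piT q w) * |g w|)
  have e : ∀ (u : Word → ℝ) (w : Word), (√(piT q w) * |u w|) ^ 2 = piT q w * u w ^ 2 := by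
    intro u w
    rw [mul_pow, Real.sq_sqrt (piT_pos h0 h1 w).le, sq_abs]
  simp only [e] at h
  calc ∑ w ∈ W B, piT q w * |f w| * |g w|
      = ∑ w ∈ W B, (√(piT q w) * |f w|) * (√(piT q w) * |g w|) := by
        apply sum_congr rfl
        intro w _
        have := Real.mul_self_sqrt (piT_pos h0 h1 w).le
        calc piT q w * |f w| * |g w| = (√(piT q w) * √(piT q w)) * |f w| * |g w| := by rw [this]
          _ = _ := by ring
    _ ≤ _ := h

section main
variable {q θ : ℝ}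

/-- The token term. -/
noncomputable def Atok (θ : ℝ) (β : Blk) (S : Finset ℤ) (f : ℤ → Word → ℝ) (X : ℤ) (s : Spl) : ℝ :=
  nu θ s * GG β S f X s.1 s.2.2.2

/-- The main pointwise expansion, summed. -/
theorem nsq_Yk_le (h0 : 0 < q) (h1 : q < 1) (θ : ℝ) (β : Blk) (S : Finset ℤ) (f : ℤ → Word → ℝ)
    (X : ℤ) (B : ℕ) :
    nsq q B (Yk θ β S f X) ≤
      5 * ∑ s ∈ Quad B, piT q (joinS s) * Atok θ β S f X s ^ 2 +
      2 * ∑ s ∈ Quad B, piT q (joinS s) * (Atok θ β S f X s *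
            ((before s).map (Atok θ β S f X)).sum) := by
  have hpw : ∀ (g : Spl → ℝ) (t : Word), piT q t * ((splits t).map g).sum =
      ((splits t).map fun s => piT q (joinS s) * g s).sum := by
    intro g t
    rw [← List.sum_map_mul_left]
    apply congrArg List.sum
    apply List.map_congr_left
    intro s hs
    rw [mem_splits.mp hs]
  unfold nsq
  rw [← sum_W_splits, ← sum_W_splits, mul_sum, mul_sum, ← sum_add_distrib]
  apply sum_le_sum
  intro t _
  rw [← hpw, ← hpw]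
  have h := token_sum_sq (Atok θ β S f X) t
  have hp := piT_pos h0 h1 t
  calc piT q t * Yk θ β S f X t ^ 2
      ≤ piT q t * (5 * ((splits t).map fun s => Atok θ β S f X s ^ 2).sum +
        2 * ((splits t).map fun s' => Atok θ β S f X s' * ((before s').map (Atok θ β S f X)).sum).sum) := by
        apply mul_le_mul_of_nonneg_left _ hp.le
        exact h
    _ = _ := by ring

/-- Convolution hypothesis for a block family. -/
def IsBlk (θ : ℝ) (β : Blk) : Prop :=
  (∀ r z, z < 0 → β r z = 0) ∧ ∀ (a b : ℕ) (y : ℤ), β (a + b) y = ∑ i ∈ Icc 0 y, NB θ a i * β b (y - i)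

/-- Shifted convolution on a common range. -/
theorem blk_conv_shift {β : Blk} (hβ : IsBlk θ β) (a b : ℕ) (p r I₀ I₁ : ℤ) (hp : I₀ ≤ p) (hr : r ≤ I₁) :
    β (a + b) (r - p) = ∑ i ∈ Icc I₀ I₁, NB θ a (i - p) * β b (r - i) := by
  rw [hβ.2]
  have h1 : ∑ i ∈ Icc 0 (r - p), NB θ a i * β b (r - p - i) =
      ∑ i ∈ Icc p r, NB θ a (i - p) * β b (r - i) := by
    apply sum_nbij' (fun i => i + p) (fun i => i - p)
    · intro i hi
      simp only [mem_Icc] at hi ⊢
      omega
    · intro i hi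
      simp only [mem_Icc] at hi ⊢
      omega
    · intro i _
      ring
    · intro i _
      ring
    · intro i _
      congr 2 <;> ring
  rw [h1]
  apply sum_subset_zero_on_sdiff
  · intro i hi
    simp only [mem_Icc] at hi ⊢
    omega
  · intro i hi
    simp only [mem_sdiff, mem_Icc, not_and, not_le] at hi
    by_cases h : i < p
    · rw [NB_of_neg (by omega)]
      ring
    · rw [hβ.1 _ _ (by have := hi.2 (by omega); omega)]
      ring
  · intros; rfl

/-- The difference kernel in the off-diagonal term. -/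
noncomputable def Dt (q θ : ℝ) (β : Blk) (c r : ℕ) (y : ℤ) : ℝ :=
  rh q θ c * β (r + 2) (y - c) - β (r + 2) (y - 1)

/-- Sum over the three costs. -/
noncomputable def Dm (q θ : ℝ) (β : Blk) (r : ℕ) (y : ℤ) : ℝ :=
  ∑ c ∈ range 3, |Dt q θ β c r y|

theorem Dt_le_Dm (q θ : ℝ) (β : Blk) {c : ℕ} (hc : c ≤ 2) (r : ℕ) (y : ℤ) :
    |Dt q θ β c r y| ≤ Dm q θ β r y := by
  unfold Dm
  exact single_le_sum (f := fun c => |Dt q θ β c r y|) (fun i _ => abs_nonneg _)
    (mem_range.mpr (by omega))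

/-- The kernel of the off-diagonal term. -/
noncomputable def Qv (q θ : ℝ) (β : Blk) (B₂ : ℕ) (X d' i : ℤ) : ℝ :=
  ∑ w2 ∈ W B₂, piT q w2 * |β (w2.length + 1) (X - d' - H w2)| * Dm q θ β w2.length (X - i - H w2)

/-- The left tokens of a token `s'` in terms of `Yb`. -/
theorem before_sum {β : Blk} (hβ : IsBlk θ β) (S : Finset ℤ) (f : ℤ → Word → ℝ) (X : ℤ) {I₀ : ℤ}
    (hI : ∀ d ∈ S, I₀ ≤ d) (w1 w2 : Word) (a' b' : Bool) (c : ℕ)
    (hc : ∀ s ∈ splitsNE w1, H (s.2.2.2 ++ a' :: b' :: w2) = H s.2.2.2 + H w2 + c) :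
    ((before (w1, a', b', w2)).map (Atok θ β S f X)).sum =
      ∑ i ∈ Icc I₀ X, β (w2.length + 2) (X - i - H w2 - c) * Yb θ S f i w1 := by
  simp only [before, List.map_map, Yb, mul_comm (β _ _), ← List.sum_map_mul_right]
  -- interchange
  have key : ∀ L : List Spl, (∀ s ∈ L, s ∈ splitsNE w1) →
      (L.map (Atok θ β S f X ∘ fun s : Spl => (s.1, s.2.1, s.2.2.1, s.2.2.2 ++ a' :: b' :: w2))).sum =
      ∑ i ∈ Icc I₀ X, (L.map fun s =>
        nu θ s * GG (NB θ) S f i s.1 s.2.2.2 * β (w2.length + 2) (X - i - H w2 - c)).sum := by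
    intro L hL
    induction L with
    | nil => simp
    | cons s L ih =>
      simp only [List.map_cons, List.sum_cons]
      rw [ih (fun x hx => hL x (by simp [hx])), sum_add_distrib]
      congr 1
      have hs := hL s (by simp)
      have hne : s.2.2.2 ≠ [] := by
        simp only [splitsNE, List.mem_filter] at hs
        simpa using hs.2
      have hHc := hc s hs
      rcases s with ⟨w, a, b, tail⟩
      simp only at hne hHc ⊢
      obtain ⟨e, l, rfl⟩ := List.exists_cons_of_ne_nil hne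
      simp only [Function.comp, Atok, nu_append_right θ w a b e l, GG]
      have e1 : ((e :: l) ++ a' :: b' :: w2).length + 1 = ((e :: l).length + 1) + (w2.length + 2) := by
        simp
        ring
      rw [e1, hHc, mul_sum]
      simp only [mul_sum, sum_mul]
      rw [sum_comm]
      apply sum_congr rfl
      intro d hd
      have e2 : X - d - ((H (e :: l) + H w2 + c : ℕ) : ℤ) =
          (X - H w2 - c) - (d + H (e :: l)) := by push_cast; ring
      rw [e2, blk_conv_shift hβ _ _ (d + H (e :: l)) (X - H w2 - c) I₀ X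
        (by have := hI d hd; have : (0 : ℤ) ≤ H (e :: l) := by positivity
            omega) (by omega)]
      rw [mul_sum, mul_sum]
      apply sum_congr rfl
      intro i _
      have e3 : i - (d + (H (e :: l) : ℤ)) = i - d - H (e :: l) := by ring
      have e4 : X - (H w2 : ℤ) - c - i = X - i - H w2 - c := by ring
      rw [e3, e4]
      ring
  exact key _ (fun x hx => hx)

theorem getLastD_indep (v : Word) (hv : v ≠ []) (a d : Bool) : v.getLastD a = v.getLastD d := by
  cases v with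
  | nil => exact absurd rfl hv
  | cons b l => simp only [List.getLastD_cons]

theorem getLastD_append_ne (u v : Word) (hv : v ≠ []) (d : Bool) :
    (u ++ v).getLastD d = v.getLastD d := by
  induction u generalizing d with
  | nil => simp
  | cons a u ih =>
    simp only [List.cons_append, List.getLastD_cons]
    rw [ih a]
    exact getLastD_indep v hv a d

/-- Exact form of the off-diagonal sum. -/
theorem off_expand (h0 : 0 < q) (h1 : q < 1) (hθ0 : 0 < θ) {β : Blk} (hβ : IsBlk θ β)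
    (S : Finset ℤ) (f : ℤ → Word → ℝ) (X : ℤ) {I₀ : ℤ} (hI : ∀ d ∈ S, I₀ ≤ d)
    {B B₁ B₂ : ℕ} (hB : B₁ + B₂ + 2 ≤ B) (hf : ∀ d ∈ S, ∀ w, f d w ≠ 0 → w.length ≤ B₁)
    (hX : ∀ d ∈ S, 2 * (X - d) ≤ (B₂ : ℤ)) :
    ∑ s ∈ Quad B, piT q (joinS s) * (Atok θ β S f X s * ((before s).map (Atok θ β S f X)).sum) =
      kapT q θ * ∑ w1 ∈ W B₁, ∑ w2 ∈ W B₂, piT q w1 * piT q w2 * GG β S f X w1 w2 *
        ∑ i ∈ Icc I₀ X, Yb θ S f i w1 *
          Dt q θ β (cTok (w1.getLastD true) (w2.headD false)) w2.length (X - i - H w2) := by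
  rw [sum_Quad_eq_prod hB]
  · rw [mul_sum]
    apply sum_congr rfl
    intro w1 _
    rw [mul_sum]
    apply sum_congr rfl
    intro w2 _
    set c := cTok (w1.getLastD true) (w2.headD false) with hc
    have hts := token_sum q θ h0 h1 hθ0 w1 w2
      (fun a b => GG β S f X w1 w2 * ((before (w1, a, b, w2)).map (Atok θ β S f X)).sum)
    have e1 : ∀ a b : Bool, piT q (joinS (w1, a, b, w2)) * (Atok θ β S f X (w1, a, b, w2) *
          ((before (w1, a, b, w2)).map (Atok θ β S f X)).sum) =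
        piT q (joinS (w1, a, b, w2)) * nu θ (w1, a, b, w2) *
          (GG β S f X w1 w2 * ((before (w1, a, b, w2)).map (Atok θ β S f X)).sum) := by
      intro a b
      simp only [Atok]
      ring
    simp only [e1]
    rw [hts]
    have h10 : ((before (w1, true, false, w2)).map (Atok θ β S f X)).sum =
        ∑ i ∈ Icc I₀ X, β (w2.length + 2) (X - i - H w2 - c) * Yb θ S f i w1 := by
      apply before_sum hβ S f X hI
      intro s hs
      have hs' := List.mem_filter.mp hs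
      have hj := mem_splits.mp hs'.1
      have hne : s.2.2.2 ≠ [] := by simpa using hs'.2
      rw [H_join_tf, hc]
      have : s.2.2.2.getLastD true = w1.getLastD true := by
        rw [← hj]
        simp only [joinS]
        have : s.1 ++ s.2.1 :: s.2.2.1 :: s.2.2.2 = (s.1 ++ [s.2.1, s.2.2.1]) ++ s.2.2.2 := by simp
        rw [this, getLastD_append_ne _ _ hne]
      rw [this]
    have h01 : ((before (w1, false, true, w2)).map (Atok θ β S f X)).sum =
        ∑ i ∈ Icc I₀ X, β (w2.length + 2) (X - i - H w2 - (1 : ℕ)) * Yb θ S f i w1 := by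
      apply before_sum hβ S f X hI
      intro s _
      rw [H_join_ft]
    rw [h10, h01, mul_sum (Icc I₀ X), mul_sum (Icc I₀ X), mul_sum (Icc I₀ X), ← sum_sub_distrib,
      mul_sum (Icc I₀ X), mul_sum (Icc I₀ X), mul_sum (Icc I₀ X)]
    apply sum_congr rfl
    intro i _
    simp only [Dt]
    push_cast
    ring
  · rintro ⟨w, a, b, w'⟩ hne
    simp only [Atok] at hne
    have hG : GG β S f X w w' ≠ 0 := by
      intro h
      apply hne
      rw [h]
      ring
    obtain ⟨d, hd, hdne⟩ := Finset.exists_ne_zero_of_sum_ne_zero hG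
    have hf0 : f d w ≠ 0 := left_ne_zero_of_mul hdne
    have hb0 : β (w'.length + 1) (X - d - H w') ≠ 0 := right_ne_zero_of_mul hdne
    refine ⟨hf d hd w hf0, ?_⟩
    have h3 : ¬ (X - d - (H w' : ℤ) < 0) := fun h => hb0 (hβ.1 _ _ h)
    have h4 := length_le_two_H w'
    have h5 := hX d hd
    simp only
    omega

/-- Bound of the off-diagonal sum. -/
theorem off_bound (h0 : 0 < q) (h1 : q < 1) (hθ0 : 0 < θ) (hθ1 : θ < 1) {β : Blk} (hβ : IsBlk θ β)
    (S : Finset ℤ) (f : ℤ → Word → ℝ) (X : ℤ) {I₀ : ℤ} (hI : ∀ d ∈ S, I₀ ≤ d)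
    {B B₁ B₂ : ℕ} (hB : B₁ + B₂ + 2 ≤ B) (hf : ∀ d ∈ S, ∀ w, f d w ≠ 0 → w.length ≤ B₁)
    (hX : ∀ d ∈ S, 2 * (X - d) ≤ (B₂ : ℤ)) :
    |∑ s ∈ Quad B, piT q (joinS s) * (Atok θ β S f X s * ((before s).map (Atok θ β S f X)).sum)| ≤
      kapT q θ * ∑ i ∈ Icc I₀ X, ∑ d' ∈ S, Qv q θ β B₂ X d' i *
        (√(nsq q B₁ (f d')) * √(nsq q B₁ (Yb θ S f i))) := by
  rw [off_expand h0 h1 hθ0 hβ S f X hI hB hf hX]
  have hk : 0 ≤ kapT q θ := by
    unfold kapT
    have : 0 < 1 - q := by linarith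
    have : 0 < 1 - θ := by linarith
    positivity
  rw [abs_mul, abs_of_nonneg hk]
  apply mul_le_mul_of_nonneg_left _ hk
  -- term by term
  have hterm : ∀ w1 w2 : Word, ∀ d' ∈ S, ∀ i ∈ Icc I₀ X,
      |piT q w1 * piT q w2 * (f d' w1 * β (w2.length + 1) (X - d' - H w2)) *
        (Yb θ S f i w1 * Dt q θ β (cTok (w1.getLastD true) (w2.headD false)) w2.length (X - i - H w2))| ≤
      (piT q w1 * |f d' w1| * |Yb θ S f i w1|) *
        (piT q w2 * |β (w2.length + 1) (X - d' - H w2)| * Dm q θ β w2.length (X - i - H w2)) := by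
    intro w1 w2 d' _ i _
    have p1 := piT_pos h0 h1 w1
    have p2 := piT_pos h0 h1 w2
    have hD := Dt_le_Dm q θ β (cTok_le (w1.getLastD true) (w2.headD false)) w2.length (X - i - H w2)
    rw [abs_mul, abs_mul, abs_mul, abs_mul, abs_mul, abs_of_pos p1, abs_of_pos p2]
    have : 0 ≤ piT q w1 * |f d' w1| * |Yb θ S f i w1| * (piT q w2 * |β (w2.length + 1) (X - d' - H w2)|) := by
      positivity
    calc piT q w1 * piT q w2 * (|f d' w1| * |β (w2.length + 1) (X - d' - H w2)|) *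
          (|Yb θ S f i w1| * |Dt q θ β (cTok (w1.getLastD true) (w2.headD false)) w2.length (X - i - H w2)|)
        = piT q w1 * |f d' w1| * |Yb θ S f i w1| * (piT q w2 * |β (w2.length + 1) (X - d' - H w2)|) *
          |Dt q θ β (cTok (w1.getLastD true) (w2.headD false)) w2.length (X - i - H w2)| := by ring
      _ ≤ piT q w1 * |f d' w1| * |Yb θ S f i w1| * (piT q w2 * |β (w2.length + 1) (X - d' - H w2)|) *
          Dm q θ β w2.length (X - i - H w2) := mul_le_mul_of_nonneg_left hD this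
      _ = _ := by ring
  have e0 : ∑ w1 ∈ W B₁, ∑ w2 ∈ W B₂, piT q w1 * piT q w2 * GG β S f X w1 w2 *
        ∑ i ∈ Icc I₀ X, Yb θ S f i w1 *
          Dt q θ β (cTok (w1.getLastD true) (w2.headD false)) w2.length (X - i - H w2) =
      ∑ w1 ∈ W B₁, ∑ w2 ∈ W B₂, ∑ d' ∈ S, ∑ i ∈ Icc I₀ X,
        piT q w1 * piT q w2 * (f d' w1 * β (w2.length + 1) (X - d' - H w2)) *
        (Yb θ S f i w1 * Dt q θ β (cTok (w1.getLastD true) (w2.headD false)) w2.length (X - i - H w2)) := by
    apply sum_congr rfl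
    intro w1 _
    apply sum_congr rfl
    intro w2 _
    simp only [GG, mul_sum, sum_mul]
    rw [sum_comm]
  rw [e0]
  calc |∑ w1 ∈ W B₁, ∑ w2 ∈ W B₂, ∑ d' ∈ S, ∑ i ∈ Icc I₀ X,
        piT q w1 * piT q w2 * (f d' w1 * β (w2.length + 1) (X - d' - H w2)) *
        (Yb θ S f i w1 * Dt q θ β (cTok (w1.getLastD true) (w2.headD false)) w2.length (X - i - H w2))|
      ≤ ∑ w1 ∈ W B₁, ∑ w2 ∈ W B₂, ∑ d' ∈ S, ∑ i ∈ Icc I₀ X,
        (piT q w1 * |f d' w1| * |Yb θ S f i w1|) *
        (piT q w2 * |β (w2.length + 1) (X - d' - H w2)| * Dm q θ β w2.length (X - i - H w2)) := by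
        refine (abs_sum_le_sum_abs _ _).trans (sum_le_sum fun w1 _ => ?_)
        refine (abs_sum_le_sum_abs _ _).trans (sum_le_sum fun w2 _ => ?_)
        refine (abs_sum_le_sum_abs _ _).trans (sum_le_sum fun d' hd' => ?_)
        refine (abs_sum_le_sum_abs _ _).trans (sum_le_sum fun i hi => ?_)
        exact hterm w1 w2 d' hd' i hi
    _ = ∑ i ∈ Icc I₀ X, ∑ d' ∈ S, (∑ w1 ∈ W B₁, piT q w1 * |f d' w1| * |Yb θ S f i w1|) *
          Qv q θ β B₂ X d' i := by
        have : ∀ w1 ∈ W B₁, ∑ w2 ∈ W B₂, ∑ d' ∈ S, ∑ i ∈ Icc I₀ X,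
            (piT q w1 * |f d' w1| * |Yb θ S f i w1|) *
            (piT q w2 * |β (w2.length + 1) (X - d' - H w2)| * Dm q θ β w2.length (X - i - H w2)) =
            ∑ i ∈ Icc I₀ X, ∑ d' ∈ S, (piT q w1 * |f d' w1| * |Yb θ S f i w1|) * Qv q θ β B₂ X d' i := by
          intro w1 _
          simp only [Qv, mul_sum]
          rw [sum_comm]
          rw [sum_congr rfl (fun d' _ => sum_comm)]
          rw [sum_comm]
        rw [sum_congr rfl this, sum_comm]
        apply sum_congr rfl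
        intro i _
        rw [sum_comm]
        apply sum_congr rfl
        intro d' _
        rw [sum_mul]
    _ ≤ _ := by
        apply sum_le_sum
        intro i _
        apply sum_le_sum
        intro d' _
        have hQ : 0 ≤ Qv q θ β B₂ X d' i := by
          unfold Qv Dm
          exact sum_nonneg fun w2 _ => mul_nonneg (mul_nonneg (piT_pos h0 h1 w2).le (abs_nonneg _))
            (sum_nonneg fun _ _ => abs_nonneg _)
        rw [mul_comm]
        exact mul_le_mul_of_nonneg_left (nsq_cauchy h0 h1 B₁ _ _) hQ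

/-- Constant for the diagonal token sum. -/
noncomputable def Cnu (q θ₀ : ℝ) : ℝ := 2 * (1 / q ^ 2 + 1 / θ₀ ^ 2)

theorem Cnu_pos {q θ₀ : ℝ} (h0 : 0 < q) (hθ₀ : 0 < θ₀) : 0 < Cnu q θ₀ := by
  unfold Cnu
  positivity

/-- The diagonal token sum. -/
theorem token_diag {θ₀ : ℝ} (h0 : 0 < q) (h1 : q < 1) (hθ₀ : 0 < θ₀) (hθ₀θ : θ₀ ≤ θ) (hθ1 : θ < 1)
    (hθ₀1 : θ₀ ≤ 1) (w w' : Word) :
    ∑ a : Bool, ∑ b : Bool, piT q (joinS (w, a, b, w')) * nu θ (w, a, b, w') ^ 2 ≤
      Cnu q θ₀ * (piT q w * piT q w') := by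
  have hq : 1 - q ^ 2 ≠ 0 := by nlinarith
  have hθ0 : 0 < θ := by linarith
  have hp : 0 < piT q w * piT q w' := mul_pos (piT_pos h0 h1 w) (piT_pos h0 h1 w')
  simp only [Fintype.sum_bool, nu_tt, nu_ff]
  rw [piT_join q hq w w' true false _ (H_join_tf w w'), piT_join q hq w w' false true 1 (H_join_ft w w')]
  rw [nu_tf, nu_ft]
  have hc := cTok_le (w.getLastD true) (w'.headD false)
  set c := cTok (w.getLastD true) (w'.headD false) with hcdef
  have hq1 : q ^ 2 < 1 := by nlinarith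
  have hq0 : 0 < q ^ 2 := by positivity
  have h1q : (1 : ℝ) ≤ 1 + q := by linarith
  have hbound1 : om q c * ((1 - θ) * θ ^ ((1 : ℤ) - (c : ℤ))) ^ 2 ≤ 1 / q ^ 2 + 1 / θ₀ ^ 2 := by
    have hθ2 : θ₀ ^ 2 ≤ θ ^ 2 := by nlinarith
    have hθ₀2 : 0 < θ₀ ^ 2 := by positivity
    have hθ21 : θ ^ 2 ≤ 1 := by nlinarith
    have h1θ : (1 - θ) ^ 2 ≤ 1 := by nlinarith
    have h1θ0 : 0 ≤ (1 - θ) ^ 2 := sq_nonneg _
    have hom : ∀ c' : ℕ, om q c' ≤ 1 / q ^ 2 := by
      intro c'
      unfold om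
      have e : (1 / (q * (1 + q))) ^ 2 = 1 / (q ^ 2 * (1 + q) ^ 2) := by
        rw [div_pow, one_pow, mul_pow]
      rw [e]
      have h2 : q ^ (2 * c') ≤ 1 := pow_le_one₀ h0.le h1.le
      have h3 : 0 ≤ q ^ (2 * c') := by positivity
      have h4 : 1 / (q ^ 2 * (1 + q) ^ 2) ≤ 1 / q ^ 2 := by
        apply one_div_le_one_div_of_le hq0
        nlinarith
      have h5 : 0 ≤ 1 / (q ^ 2 * (1 + q) ^ 2) := by positivity
      have h6 : 0 ≤ 1 - q ^ 2 := by linarith
      calc (1 - q ^ 2) * (1 / (q ^ 2 * (1 + q) ^ 2)) * q ^ (2 * c')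
          ≤ 1 * (1 / q ^ 2) * 1 := by
            apply mul_le_mul _ h2 h3 (by positivity)
            apply mul_le_mul (by linarith) h4 h5 (by norm_num)
        _ = 1 / q ^ 2 := by ring
    have hom0 : ∀ c' : ℕ, 0 ≤ om q c' := by
      intro c'
      unfold om
      have : 0 ≤ 1 - q ^ 2 := by linarith
      positivity
    interval_cases c
    · -- c = 0
      simp only [Nat.cast_zero, sub_zero, zpow_one]
      have : ((1 - θ) * θ) ^ 2 ≤ 1 := by
        rw [mul_pow]
        nlinarith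
      have h7 : 0 ≤ ((1 - θ) * θ) ^ 2 := sq_nonneg _
      have h8 : 0 < 1 / θ₀ ^ 2 := by positivity
      nlinarith [hom 0, hom0 0]
    · simp only [Nat.cast_one, sub_self, zpow_zero, mul_one]
      have h8 : 0 < 1 / θ₀ ^ 2 := by positivity
      nlinarith [hom 1, hom0 1]
    · -- c = 2
      have e : ((1 : ℤ) - ((2 : ℕ) : ℤ)) = -1 := by norm_num
      rw [e, zpow_neg_one]
      unfold om
      have e2 : (1 - q ^ 2) * (1 / (q * (1 + q))) ^ 2 * q ^ (2 * 2) = (1 - q ^ 2) * q ^ 2 / (1 + q) ^ 2 := by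
        field_simp
      rw [e2]
      have e3 : ((1 - θ) * θ⁻¹) ^ 2 = (1 - θ) ^ 2 / θ ^ 2 := by
        rw [mul_pow, inv_pow]
        rfl
      rw [e3]
      have h9 : (1 - q ^ 2) * q ^ 2 / (1 + q) ^ 2 ≤ 1 := by
        rw [div_le_one (by positivity)]
        nlinarith
      have h10 : (1 - θ) ^ 2 / θ ^ 2 ≤ 1 / θ₀ ^ 2 := by
        apply div_le_div₀ (by norm_num) h1θ hθ₀2 hθ2
      have h11 : 0 ≤ (1 - θ) ^ 2 / θ ^ 2 := by positivity
      have h12 : 0 ≤ (1 - q ^ 2) * q ^ 2 / (1 + q) ^ 2 := by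
        have : 0 ≤ 1 - q ^ 2 := by linarith
        positivity
      have h13 : 0 < 1 / q ^ 2 := by positivity
      nlinarith
  have hbound2 : om q 1 * (-(1 - θ)) ^ 2 ≤ 1 / q ^ 2 + 1 / θ₀ ^ 2 := by
    have hom1 : om q 1 ≤ 1 / q ^ 2 := by
      unfold om
      have e : (1 / (q * (1 + q))) ^ 2 * q ^ (2 * 1) = 1 / (1 + q) ^ 2 := by
        field_simp
      have h14 : (1 - q ^ 2) * (1 / (q * (1 + q))) ^ 2 * q ^ (2 * 1) = (1 - q ^ 2) * (1 / (1 + q) ^ 2) := by
        rw [mul_assoc, e]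
      rw [h14]
      have h15 : (1 - q ^ 2) * (1 / (1 + q) ^ 2) ≤ 1 := by
        rw [mul_one_div, div_le_one (by positivity)]
        nlinarith
      have h16 : (1 : ℝ) ≤ 1 / q ^ 2 := by
        rw [le_div_iff₀ hq0]
        linarith
      linarith
    have h17 : (-(1 - θ)) ^ 2 ≤ 1 := by nlinarith
    have h18 : 0 ≤ om q 1 := by
      unfold om
      have : 0 ≤ 1 - q ^ 2 := by linarith
      positivity
    have h19 : 0 ≤ (-(1 - θ)) ^ 2 := sq_nonneg _
    have h8 : 0 < 1 / θ₀ ^ 2 := by positivity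
    nlinarith
  unfold Cnu
  have z : (0 : ℝ) ^ 2 = 0 := by norm_num
  simp only [z, mul_zero, zero_add, add_zero]
  calc piT q w * piT q w' * om q c * ((1 - θ) * θ ^ ((1 : ℤ) - (c : ℤ))) ^ 2 +
        piT q w * piT q w' * om q 1 * (-(1 - θ)) ^ 2
      = (piT q w * piT q w') * (om q c * ((1 - θ) * θ ^ ((1 : ℤ) - (c : ℤ))) ^ 2 +
          om q 1 * (-(1 - θ)) ^ 2) := by ring
    _ ≤ (piT q w * piT q w') * (2 * (1 / q ^ 2 + 1 / θ₀ ^ 2)) := by
        apply mul_le_mul_of_nonneg_left _ hp.le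
        linarith
    _ = 2 * (1 / q ^ 2 + 1 / θ₀ ^ 2) * (piT q w * piT q w') := by ring

/-- The diagonal weight of a block family at distance `L`. -/
noncomputable def DGv (q : ℝ) (β : Blk) (bb : ℕ → ℝ) (B : ℕ) (L : ℤ) : ℝ :=
  ∑ w' ∈ W B, piT q w' * bb (w'.length + 1) * |β (w'.length + 1) (L - H w')|

/-- The diagonal sum is bounded through the block bound `bb` on `Σ_d |β r (c - d)|`. -/
theorem diag_bound {θ₀ : ℝ} (h0 : 0 < q) (h1 : q < 1) (hθ₀ : 0 < θ₀) (hθ₀θ : θ₀ ≤ θ) (hθ1 : θ < 1)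
    (hθ₀1 : θ₀ ≤ 1) (β : Blk) (S : Finset ℤ) (f : ℤ → Word → ℝ) (X : ℤ) (B : ℕ)
    (bb : ℕ → ℝ) (hbb : ∀ r c, 1 ≤ r → ∑ d ∈ S, |β r (c - d)| ≤ bb r) :
    ∑ s ∈ Quad B, piT q (joinS s) * Atok θ β S f X s ^ 2 ≤
      Cnu q θ₀ * ∑ d ∈ S, nsq q B (f d) * DGv q β bb B (X - d) := by
  have hsub : ∑ s ∈ Quad B, piT q (joinS s) * Atok θ β S f X s ^ 2 ≤
      ∑ s ∈ (W B) ×ˢ ((univ : Finset Bool) ×ˢ ((univ : Finset Bool) ×ˢ (W B))),
        piT q (joinS s) * Atok θ β S f X s ^ 2 := by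
    apply sum_le_sum_of_subset_of_nonneg
    · intro s hs
      simp only [Quad, mem_filter] at hs
      exact hs.1
    · intro s _ _
      exact mul_nonneg (piT_pos h0 h1 _).le (sq_nonneg _)
  refine hsub.trans ?_
  simp only [sum_product]
  have hstep : ∀ w ∈ W B, ∀ w' ∈ W B,
      ∑ a : Bool, ∑ b : Bool, piT q (joinS (w, a, b, w')) * Atok θ β S f X (w, a, b, w') ^ 2 ≤
      Cnu q θ₀ * (piT q w * piT q w') *
        (bb (w'.length + 1) * ∑ d ∈ S, f d w ^ 2 * |β (w'.length + 1) (X - d - H w')|) := by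
    intro w _ w' _
    have hG : GG β S f X w w' ^ 2 ≤
        bb (w'.length + 1) * ∑ d ∈ S, f d w ^ 2 * |β (w'.length + 1) (X - d - H w')| := by
      unfold GG
      have hC := Finset.sum_mul_sq_le_sq_mul_sq S
        (fun d => √|β (w'.length + 1) (X - d - H w')|)
        (fun d => f d w * (if 0 ≤ β (w'.length + 1) (X - d - H w') then 1 else -1) *
          √|β (w'.length + 1) (X - d - H w')|)
      have e1 : ∀ d, √|β (w'.length + 1) (X - d - H w')| *
          (f d w * (if 0 ≤ β (w'.length + 1) (X - d - H w') then 1 else -1) *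
          √|β (w'.length + 1) (X - d - H w')|) = f d w * β (w'.length + 1) (X - d - H w') := by
        intro d
        have hs := Real.mul_self_sqrt (abs_nonneg (β (w'.length + 1) (X - d - H w')))
        split_ifs with hb
        · rw [abs_of_nonneg hb] at hs ⊢
          calc _ = f d w * (√(β (w'.length + 1) (X - d - H w')) * √(β (w'.length + 1) (X - d - H w'))) := by ring
            _ = _ := by rw [hs]
        · rw [abs_of_neg (not_le.mp hb)] at hs ⊢
          calc _ = -f d w * (√(-β (w'.length + 1) (X - d - H w')) * √(-β (w'.length + 1) (X - d - H w'))) := by ring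
            _ = _ := by rw [hs]; ring
      simp only [e1] at hC
      have e2 : ∀ d, √|β (w'.length + 1) (X - d - H w')| ^ 2 = |β (w'.length + 1) (X - d - H w')| := by
        intro d
        exact Real.sq_sqrt (abs_nonneg _)
      have e3 : ∀ d, (f d w * (if 0 ≤ β (w'.length + 1) (X - d - H w') then 1 else -1) *
          √|β (w'.length + 1) (X - d - H w')|) ^ 2 = f d w ^ 2 * |β (w'.length + 1) (X - d - H w')| := by
        intro d
        rw [mul_pow, mul_pow, e2]
        split_ifs <;> ring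
      simp only [e2, e3] at hC
      refine hC.trans ?_
      apply mul_le_mul_of_nonneg_right
      · have := hbb (w'.length + 1) (X - H w') (by omega)
        have e4 : ∀ d, X - (H w' : ℤ) - d = X - d - H w' := by intro d; ring
        simp only [e4] at this
        exact this
      · exact sum_nonneg fun d _ => mul_nonneg (sq_nonneg _) (abs_nonneg _)
    have e5 : ∀ a b : Bool, piT q (joinS (w, a, b, w')) * Atok θ β S f X (w, a, b, w') ^ 2 =
        (piT q (joinS (w, a, b, w')) * nu θ (w, a, b, w') ^ 2) * GG β S f X w w' ^ 2 := by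
      intro a b
      simp only [Atok]
      ring
    simp only [e5, ← sum_mul]
    have htd := token_diag h0 h1 hθ₀ hθ₀θ hθ1 hθ₀1 w w'
    have hCp := Cnu_pos (q := q) h0 hθ₀
    have hpp := mul_pos (piT_pos h0 h1 w) (piT_pos h0 h1 w')
    calc (∑ a : Bool, ∑ b : Bool, piT q (joinS (w, a, b, w')) * nu θ (w, a, b, w') ^ 2) * GG β S f X w w' ^ 2
        ≤ (Cnu q θ₀ * (piT q w * piT q w')) * GG β S f X w w' ^ 2 :=
          mul_le_mul_of_nonneg_right htd (sq_nonneg _)
      _ ≤ _ := mul_le_mul_of_nonneg_left hG (by positivity)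
  have hswap : ∑ w ∈ W B, ∑ a : Bool, ∑ b : Bool, ∑ w' ∈ W B,
        piT q (joinS (w, a, b, w')) * Atok θ β S f X (w, a, b, w') ^ 2 =
      ∑ w ∈ W B, ∑ w' ∈ W B, ∑ a : Bool, ∑ b : Bool,
        piT q (joinS (w, a, b, w')) * Atok θ β S f X (w, a, b, w') ^ 2 := by
    apply sum_congr rfl
    intro w _
    rw [sum_congr rfl (fun a _ => sum_comm)]
    rw [sum_comm]
  rw [hswap]
  calc ∑ w ∈ W B, ∑ w' ∈ W B, ∑ a : Bool, ∑ b : Bool,
        piT q (joinS (w, a, b, w')) * Atok θ β S f X (w, a, b, w') ^ 2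
      ≤ ∑ w ∈ W B, ∑ w' ∈ W B, Cnu q θ₀ * (piT q w * piT q w') *
        (bb (w'.length + 1) * ∑ d ∈ S, f d w ^ 2 * |β (w'.length + 1) (X - d - H w')|) :=
        sum_le_sum fun w hw => sum_le_sum fun w' hw' => hstep w hw w' hw'
    _ = Cnu q θ₀ * ∑ d ∈ S, nsq q B (f d) * DGv q β bb B (X - d) := by
        have e6 : ∀ w w', Cnu q θ₀ * (piT q w * piT q w') *
            (bb (w'.length + 1) * ∑ d ∈ S, f d w ^ 2 * |β (w'.length + 1) (X - d - H w')|) =
            ∑ d ∈ S, Cnu q θ₀ * ((piT q w * f d w ^ 2) *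
              (piT q w' * bb (w'.length + 1) * |β (w'.length + 1) (X - d - H w')|)) := by
          intro w w'
          rw [mul_sum, mul_sum]
          apply sum_congr rfl
          intro d _
          ring
        simp only [e6]
        rw [sum_congr rfl (fun w _ => sum_comm), sum_comm, mul_sum]
        apply sum_congr rfl
        intro d _
        simp only [nsq, DGv]
        rw [sum_mul_sum, mul_sum]
        apply sum_congr rfl
        intro w _
        rw [mul_sum]

/-- The core estimate for a sum of transfer operators. -/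
theorem OL_core {θ₀ : ℝ} (h0 : 0 < q) (h1 : q < 1) (hθ₀ : 0 < θ₀) (hθ₀θ : θ₀ ≤ θ) (hθ1 : θ < 1)
    (hθ₀1 : θ₀ ≤ 1) {β : Blk} (hβ : IsBlk θ β)
    (S : Finset ℤ) (f : ℤ → Word → ℝ) (X : ℤ) {I₀ : ℤ} (hI : ∀ d ∈ S, I₀ ≤ d)
    {B B₁ B₂ : ℕ} (hB : B₁ + B₂ + 2 ≤ B) (hf : ∀ d ∈ S, ∀ w, f d w ≠ 0 → w.length ≤ B₁)
    (hX : ∀ d ∈ S, 2 * (X - d) ≤ (B₂ : ℤ))
    (bb : ℕ → ℝ) (hbb : ∀ r c, 1 ≤ r → ∑ d ∈ S, |β r (c - d)| ≤ bb r) :
    nsq q B (Yk θ β S f X) ≤
      5 * (Cnu q θ₀ * ∑ d ∈ S, nsq q B (f d) * DGv q β bb B (X - d)) +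
      2 * (kapT q θ * ∑ i ∈ Icc I₀ X, ∑ d' ∈ S, Qv q θ β B₂ X d' i *
        (√(nsq q B₁ (f d')) * √(nsq q B₁ (Yb θ S f i)))) := by
  have hθ0 : 0 < θ := by linarith
  refine (nsq_Yk_le h0 h1 θ β S f X B).trans ?_
  have hd := diag_bound h0 h1 hθ₀ hθ₀θ hθ1 hθ₀1 β S f X B bb hbb
  have ho := off_bound h0 h1 hθ0 hθ1 hβ S f X hI hB hf hX
  have ho' := (le_abs_self _).trans ho
  linarith

end main

end Vale.Agent.Lib.P321
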