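import Vale.Agent.Lib.P321.LTChain

/-!
P321, lower tail module, second version: control of the likelihood ratio through the sum of squares of the errors.

`Mr r = Pre r / MkR r` is a martingale under the Markov law, with increments bounded by `K₁ mm r`. The good words
are those all of whose beginnings have `Mr` in `[1/2, 2]`, small sum of squares `Vh` and a further property `Aux`.
If the expected future sum of squares `Up` of good words is at most `B`, then by the exponential moment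
(Khasminskii) and two supermartingales (powers of `Mr` and of its reciprocal) the first exit from the good words has small mass.
-/

namespace Vale.Agent.Lib.P321

open Finset

namespace HMM

variable {q : ℝ} {ι : Type*} (C : HMM q ι)

/-- Ratio of the total mass to the Markov weight. -/
noncomputable def Mr (r : Word) : ℝ := C.Pre r / MkR q r

/-- Error relative to the Markov weight. -/
noncomputable def mh (r : Word) : ℝ := C.Gs r / MkR q r

/-- Sum of squares of `mh` along the proper beginnings. -/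
noncomputable def Vh : Word → ℝ
  | [] => 0
  | _ :: r => Vh r + C.mh r ^ 2

/-- Sum of squares of `mm` along the proper beginnings. -/
noncomputable def Vm : Word → ℝ
  | [] => 0
  | _ :: r => Vm r + C.mm r ^ 2

theorem Vh_cons (a : Bool) (r : Word) : C.Vh (a :: r) = C.Vh r + C.mh r ^ 2 := rfl
theorem Vm_cons (a : Bool) (r : Word) : C.Vm (a :: r) = C.Vm r + C.mm r ^ 2 := rfl

theorem Vh_nonneg (r : Word) : 0 ≤ C.Vh r := by
  induction r with
  | nil => exact le_rfl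
  | cons a r ih =>
    rw [Vh_cons]
    positivity

theorem Vm_nonneg (r : Word) : 0 ≤ C.Vm r := by
  induction r with
  | nil => exact le_rfl
  | cons a r ih =>
    rw [Vm_cons]
    positivity

theorem Mr_nil : C.Mr [] = 1 := by
  simp [Mr, C.Pre_nil]

/-- The good words. -/
def Gd (Λ : ℝ) (Aux : Word → Prop) : Word → Prop
  | [] => True
  | a :: r => Gd Λ Aux r ∧ 1 / 2 ≤ C.Mr (a :: r) ∧ C.Mr (a :: r) ≤ 2 ∧ C.Vh (a :: r) ≤ Λ ∧ Aux (a :: r)

section good

variable {Λ : ℝ} {Aux : Word → Prop}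

theorem Gd_nil : C.Gd Λ Aux [] := trivial

theorem Gd_cons {a : Bool} {r : Word} :
    C.Gd Λ Aux (a :: r) ↔ C.Gd Λ Aux r ∧ 1 / 2 ≤ C.Mr (a :: r) ∧ C.Mr (a :: r) ≤ 2 ∧ C.Vh (a :: r) ≤ Λ ∧ Aux (a :: r) :=
  Iff.rfl

theorem Gd_Mr_ge {r : Word} (h : C.Gd Λ Aux r) : 1 / 2 ≤ C.Mr r := by
  cases r with
  | nil => rw [Mr_nil]; norm_num
  | cons a r => exact h.2.1

theorem Gd_Mr_le {r : Word} (h : C.Gd Λ Aux r) : C.Mr r ≤ 2 := by
  cases r with
  | nil => rw [Mr_nil]; norm_num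
  | cons a r => exact h.2.2.1

theorem Gd_Vh_le (hΛ : 0 ≤ Λ) {r : Word} (h : C.Gd Λ Aux r) : C.Vh r ≤ Λ := by
  cases r with
  | nil => exact hΛ
  | cons a r => exact h.2.2.2.1

theorem mh_nonneg (h0 : 0 < q) (r : Word) : 0 ≤ C.mh r :=
  div_nonneg (C.Gs_nonneg r) (MkR_pos h0 r).le

/-- On good words `mh` is controlled by the spread bound. -/
theorem Gd_mh_le (h0 : 0 < q) {mb : ℝ} (hmb : 0 ≤ mb) (hs : ∀ r, C.Gs r ≤ mb * C.Pre r) {r : Word}
    (h : C.Gd Λ Aux r) : C.mh r ≤ 2 * mb := by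
  have hMk := MkR_pos h0 r
  unfold mh
  rw [div_le_iff₀ hMk]
  have h2 := C.Gd_Mr_le h
  unfold Mr at h2
  rw [div_le_iff₀ hMk] at h2
  calc C.Gs r ≤ mb * C.Pre r := hs r
    _ ≤ mb * (2 * MkR q r) := mul_le_mul_of_nonneg_left h2 hmb
    _ = _ := by ring

/-- On good words `mm` is controlled by `mh`. -/
theorem Gd_mm_le (h0 : 0 < q) (hpos : ∀ r, 0 < C.Pre r) {r : Word} (h : C.Gd Λ Aux r) :
    C.mm r ≤ 2 * C.mh r := by
  have hMk := MkR_pos h0 r
  have hP := hpos r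
  have h2 := C.Gd_Mr_ge h
  unfold Mr at h2
  rw [le_div_iff₀ hMk] at h2
  unfold mm mh
  rw [div_le_iff₀ hP]
  have hG := C.Gs_nonneg r
  have e : 2 * (C.Gs r / MkR q r) * C.Pre r = C.Gs r * (2 * C.Pre r / MkR q r) := by ring
  rw [e]
  have h3 : 1 ≤ 2 * C.Pre r / MkR q r := by
    rw [le_div_iff₀ hMk]
    linarith
  nlinarith

theorem Gd_Vm_le (h0 : 0 < q) (hpos : ∀ r, 0 < C.Pre r) {r : Word} (h : C.Gd Λ Aux r) :
    C.Vm r ≤ 4 * C.Vh r := by
  induction r with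
  | nil => simp [Vm, Vh]
  | cons a r ih =>
    have hr : C.Gd Λ Aux r := h.1
    have h2 := ih hr
    have h3 := C.Gd_mm_le h0 hpos hr
    have h4 := C.mm_nonneg r
    rw [Vm_cons, Vh_cons]
    have h5 : C.mm r ^ 2 ≤ (2 * C.mh r) ^ 2 := pow_le_pow_left₀ h4 h3 2
    nlinarith

/-- The sum of squares one step after a good word. -/
theorem Gd_Vm_cons (h0 : 0 < q) (hpos : ∀ r, 0 < C.Pre r) (a : Bool) {r : Word} (h : C.Gd Λ Aux r) :
    C.Vm (a :: r) ≤ 4 * C.Vh (a :: r) := by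
  have h2 := C.Gd_Vm_le h0 hpos h
  have h3 := C.Gd_mm_le h0 hpos h
  have h4 := C.mm_nonneg r
  rw [Vm_cons, Vh_cons]
  have h5 : C.mm r ^ 2 ≤ (2 * C.mh r) ^ 2 := pow_le_pow_left₀ h4 h3 2
  nlinarith

end good

section dev

/-- The increments of the ratio. -/
theorem xi_props (h0 : 0 < q) (h1 : q < 1) (hpos : ∀ r, 0 < C.Pre r) (r : Word) :
    ∃ ξ : Bool → ℝ, (∀ a, C.Pre (a :: r) = flipW q (lastOf r) a * C.Pre r * (1 + ξ a)) ∧
      (∀ a, |ξ a| ≤ (1 + q) / q * C.mm r) ∧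
      flipW q (lastOf r) false * ξ false + flipW q (lastOf r) true * ξ true = 0 := by
  set P := C.Pre r with hP
  have hP0 : 0 < P := hpos r
  set K₁ : ℝ := (1 + q) / q with hK₁
  have hK₁0 : 0 < K₁ := by rw [hK₁]; positivity
  set m := C.mm r with hm
  have hGm : C.Gs r = m * P := by
    rw [hm]
    change C.Gs r = C.Gs r / P * P
    field_simp
  have hu : ∀ a, 0 < flipW q (lastOf r) a := flipW_pos h0 _
  refine ⟨fun a => C.Pre (a :: r) / (flipW q (lastOf r) a * P) - 1, ?_, ?_, ?_⟩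
  · intro a
    have hua := hu a
    simp only
    field_simp
    ring
  · intro a
    have h2 := C.Pre_dev h0 a r
    have hua := hu a
    have e : C.Pre (a :: r) / (flipW q (lastOf r) a * P) - 1 =
        (C.Pre (a :: r) - flipW q (lastOf r) a * P) / (flipW q (lastOf r) a * P) := by
      field_simp
    simp only
    rw [e, abs_div, abs_of_pos (by positivity : 0 < flipW q (lastOf r) a * P), div_le_iff₀ (by positivity)]
    have h3 := flipW_ge h0 h1 (lastOf r) a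
    have h4 : 1 ≤ K₁ * flipW q (lastOf r) a := by
      have e2 : K₁ * (q / (1 + q)) = 1 := by rw [hK₁]; field_simp
      calc 1 = K₁ * (q / (1 + q)) := e2.symm
        _ ≤ _ := mul_le_mul_of_nonneg_left h3 hK₁0.le
    have hm0 : 0 ≤ m := C.mm_nonneg r
    calc |C.Pre (a :: r) - flipW q (lastOf r) a * P| ≤ C.Gs r := h2
      _ = 1 * (m * P) := by rw [hGm, one_mul]
      _ ≤ (K₁ * flipW q (lastOf r) a) * (m * P) := mul_le_mul_of_nonneg_right h4 (by positivity)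
      _ = _ := by ring
  · have h2 := C.Pre_split r
    have h3 := flipW_sum h0 (lastOf r)
    have hua := hu false
    have hub := hu true
    have e1 : flipW q (lastOf r) false * (C.Pre (false :: r) / (flipW q (lastOf r) false * P) - 1) =
        C.Pre (false :: r) / P - flipW q (lastOf r) false := by
      field_simp
    have e2 : flipW q (lastOf r) true * (C.Pre (true :: r) / (flipW q (lastOf r) true * P) - 1) =
        C.Pre (true :: r) / P - flipW q (lastOf r) true := by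
      field_simp
    simp only
    rw [e1, e2]
    have h4 : C.Pre (false :: r) / P + C.Pre (true :: r) / P = 1 := by
      rw [← add_div, h2]
      exact div_self hP0.ne'
    linarith

/-- Upper bound for a power. -/
theorem pow_bound {x : ℝ} {l : ℕ} (hx : |x| * l ≤ 1 / 4) (hl : 1 ≤ l) :
    (1 + x) ^ l ≤ 1 + l * x + l ^ 2 * x ^ 2 := by
  have hl0 : (1 : ℝ) ≤ l := by exact_mod_cast hl
  have hxa : |x| ≤ 1 / 4 := by
    have : |x| * 1 ≤ |x| * l := mul_le_mul_of_nonneg_left hl0 (abs_nonneg _)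
    linarith
  obtain ⟨hx1, hx2⟩ := abs_le.mp hxa
  have h1 : (1 + x) ^ l ≤ Real.exp x ^ l :=
    pow_le_pow_left₀ (by linarith) (by linarith [Real.add_one_le_exp x]) l
  have h2 : Real.exp x ^ l = Real.exp (l * x) := by
    rw [← Real.exp_nat_mul]
  have hy : |(l : ℝ) * x| ≤ 1 := by
    rw [abs_mul, Nat.abs_cast, mul_comm]
    linarith
  have h3 := Real.abs_exp_sub_one_sub_id_le hy
  have h4 := (abs_le.mp h3).2
  rw [h2] at h1
  have e : ((l : ℝ) * x) ^ 2 = l ^ 2 * x ^ 2 := by ring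
  rw [e] at h4
  linarith

variable {l : ℕ} {κ mb : ℝ}

/-- The supermartingale with the reciprocal of the ratio. -/
noncomputable def QM (l : ℕ) (κ : ℝ) (r : Word) : ℝ :=
  MkR q r * (MkR q r / C.Pre r) ^ l * Real.exp (-(κ * C.Vm r))

/-- The supermartingale with the ratio. -/
noncomputable def QP (l : ℕ) (κ : ℝ) (r : Word) : ℝ :=
  MkR q r * (C.Pre r / MkR q r) ^ l * Real.exp (-(κ * C.Vm r))

theorem QM_nonneg (h0 : 0 < q) (hpos : ∀ r, 0 < C.Pre r) (r : Word) : 0 ≤ C.QM l κ r := by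
  unfold QM
  have := MkR_pos h0 r
  have := hpos r
  positivity

theorem QP_nonneg (h0 : 0 < q) (hpos : ∀ r, 0 < C.Pre r) (r : Word) : 0 ≤ C.QP l κ r := by
  unfold QP
  have := MkR_pos h0 r
  have := hpos r
  positivity

theorem mm_le_mb (hpos : ∀ r, 0 < C.Pre r) (hs : ∀ r, C.Gs r ≤ mb * C.Pre r) (r : Word) : C.mm r ≤ mb := by
  unfold mm
  rw [div_le_iff₀ (hpos r)]
  exact hs r

theorem QM_step (h0 : 0 < q) (h1 : q < 1) (hl : 1 ≤ l) (hpos : ∀ r, 0 < C.Pre r)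
    (hs : ∀ r, C.Gs r ≤ mb * C.Pre r) (hmb : (1 + q) / q * mb * l ≤ 1 / 4)
    (hκ : 5 * (l : ℝ) ^ 2 * ((1 + q) / q) ^ 2 ≤ κ) (r : Word) :
    C.QM l κ (false :: r) + C.QM l κ (true :: r) ≤ C.QM l κ r := by
  obtain ⟨ξ, hξ1, hξ2, hξ3⟩ := C.xi_props h0 h1 hpos r
  set K₁ : ℝ := (1 + q) / q with hK₁
  have hK₁0 : 0 < K₁ := by rw [hK₁]; positivity
  have hl0 : (0 : ℝ) < l := by exact_mod_cast hl
  set m := C.mm r with hm
  have hm0 : 0 ≤ m := C.mm_nonneg r
  have hmle : m ≤ mb := C.mm_le_mb hpos hs r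
  have hu : ∀ a, 0 < flipW q (lastOf r) a := flipW_pos h0 _
  have hξl : ∀ a, |ξ a| * l ≤ 1 / 4 := by
    intro a
    have h2 : |ξ a| * l ≤ K₁ * mb * l := by
      apply mul_le_mul_of_nonneg_right _ hl0.le
      exact le_trans (hξ2 a) (mul_le_mul_of_nonneg_left hmle hK₁0.le)
    linarith
  have hP0 := hpos r
  have hMk := MkR_pos h0 r
  have hformula : ∀ a, C.QM l κ (a :: r) = C.QM l κ r *
      (flipW q (lastOf r) a * ((1 + ξ a)⁻¹) ^ l * Real.exp (-(κ * m ^ 2))) := by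
    intro a
    unfold QM
    rw [MkR_cons, Vm_cons, hξ1 a]
    have hua := hu a
    have h1ξ : 0 < 1 + ξ a := by
      have hPa := hpos (a :: r)
      rw [hξ1 a] at hPa
      by_contra hn
      have : flipW q (lastOf r) a * C.Pre r * (1 + ξ a) ≤ 0 :=
        mul_nonpos_of_nonneg_of_nonpos (by positivity) (not_lt.mp hn)
      linarith
    have h3 : flipW q (lastOf r) a * MkR q r / (flipW q (lastOf r) a * C.Pre r * (1 + ξ a)) =
        (MkR q r / C.Pre r) * (1 + ξ a)⁻¹ := by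
      field_simp
    rw [h3, mul_pow]
    have h4 : -(κ * (C.Vm r + m ^ 2)) = -(κ * C.Vm r) + -(κ * m ^ 2) := by ring
    rw [h4, Real.exp_add]
    ring
  rw [hformula, hformula, ← mul_add]
  have hQ := C.QM_nonneg (l := l) (κ := κ) h0 hpos r
  have hfinal : flipW q (lastOf r) false * ((1 + ξ false)⁻¹) ^ l * Real.exp (-(κ * m ^ 2)) +
      flipW q (lastOf r) true * ((1 + ξ true)⁻¹) ^ l * Real.exp (-(κ * m ^ 2)) ≤ 1 := by
    have hb : ∀ a, flipW q (lastOf r) a * ((1 + ξ a)⁻¹) ^ l ≤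
        flipW q (lastOf r) a * (1 - l * ξ a + 5 * l ^ 2 * (K₁ * m) ^ 2) := by
      intro a
      apply mul_le_mul_of_nonneg_left _ (hu a).le
      refine le_trans (inv_pow_bound hl (hξl a)) ?_
      have h2 : ξ a ^ 2 ≤ (K₁ * m) ^ 2 := by
        rw [← sq_abs (ξ a)]
        exact pow_le_pow_left₀ (abs_nonneg _) (hξ2 a) 2
      have h3 : (5 : ℝ) * l ^ 2 * ξ a ^ 2 ≤ 5 * l ^ 2 * (K₁ * m) ^ 2 :=
        mul_le_mul_of_nonneg_left h2 (by positivity)
      linarith
    have h2 := hb false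
    have h3 := hb true
    have hsum := flipW_sum h0 (lastOf r)
    have h4 : flipW q (lastOf r) false * ((1 + ξ false)⁻¹) ^ l +
        flipW q (lastOf r) true * ((1 + ξ true)⁻¹) ^ l ≤ 1 + 5 * l ^ 2 * (K₁ * m) ^ 2 := by
      have e : flipW q (lastOf r) false * (1 - l * ξ false + 5 * l ^ 2 * (K₁ * m) ^ 2) +
          flipW q (lastOf r) true * (1 - l * ξ true + 5 * l ^ 2 * (K₁ * m) ^ 2) =
          (flipW q (lastOf r) false + flipW q (lastOf r) true) * (1 + 5 * l ^ 2 * (K₁ * m) ^ 2)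
            - l * (flipW q (lastOf r) false * ξ false + flipW q (lastOf r) true * ξ true) := by ring
      rw [hξ3, hsum] at e
      linarith
    have h5 : 1 + 5 * (l : ℝ) ^ 2 * (K₁ * m) ^ 2 ≤ Real.exp (κ * m ^ 2) := by
      have h6 : 5 * (l : ℝ) ^ 2 * (K₁ * m) ^ 2 ≤ κ * m ^ 2 := by
        have e : 5 * (l : ℝ) ^ 2 * (K₁ * m) ^ 2 = (5 * (l : ℝ) ^ 2 * K₁ ^ 2) * m ^ 2 := by ring
        rw [e]
        exact mul_le_mul_of_nonneg_right hκ (by positivity)
      have h7 := Real.add_one_le_exp (κ * m ^ 2)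
      linarith
    have h6 : Real.exp (-(κ * m ^ 2)) * Real.exp (κ * m ^ 2) = 1 := by
      rw [← Real.exp_add]; simp
    have h7 := Real.exp_pos (-(κ * m ^ 2))
    calc flipW q (lastOf r) false * ((1 + ξ false)⁻¹) ^ l * Real.exp (-(κ * m ^ 2)) +
        flipW q (lastOf r) true * ((1 + ξ true)⁻¹) ^ l * Real.exp (-(κ * m ^ 2))
        = (flipW q (lastOf r) false * ((1 + ξ false)⁻¹) ^ l +
          flipW q (lastOf r) true * ((1 + ξ true)⁻¹) ^ l) * Real.exp (-(κ * m ^ 2)) := by ring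
      _ ≤ Real.exp (κ * m ^ 2) * Real.exp (-(κ * m ^ 2)) :=
          mul_le_mul_of_nonneg_right (le_trans h4 h5) h7.le
      _ = 1 := by rw [mul_comm]; exact h6
  calc _ ≤ C.QM l κ r * 1 := mul_le_mul_of_nonneg_left hfinal hQ
    _ = _ := mul_one _

theorem QP_step (h0 : 0 < q) (h1 : q < 1) (hl : 1 ≤ l) (hpos : ∀ r, 0 < C.Pre r)
    (hs : ∀ r, C.Gs r ≤ mb * C.Pre r) (hmb : (1 + q) / q * mb * l ≤ 1 / 4)
    (hκ : 5 * (l : ℝ) ^ 2 * ((1 + q) / q) ^ 2 ≤ κ) (r : Word) :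
    C.QP l κ (false :: r) + C.QP l κ (true :: r) ≤ C.QP l κ r := by
  obtain ⟨ξ, hξ1, hξ2, hξ3⟩ := C.xi_props h0 h1 hpos r
  set K₁ : ℝ := (1 + q) / q with hK₁
  have hK₁0 : 0 < K₁ := by rw [hK₁]; positivity
  have hl0 : (0 : ℝ) < l := by exact_mod_cast hl
  set m := C.mm r with hm
  have hm0 : 0 ≤ m := C.mm_nonneg r
  have hmle : m ≤ mb := C.mm_le_mb hpos hs r
  have hu : ∀ a, 0 < flipW q (lastOf r) a := flipW_pos h0 _
  have hξl : ∀ a, |ξ a| * l ≤ 1 / 4 := by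
    intro a
    have h2 : |ξ a| * l ≤ K₁ * mb * l := by
      apply mul_le_mul_of_nonneg_right _ hl0.le
      exact le_trans (hξ2 a) (mul_le_mul_of_nonneg_left hmle hK₁0.le)
    linarith
  have hP0 := hpos r
  have hMk := MkR_pos h0 r
  have hformula : ∀ a, C.QP l κ (a :: r) = C.QP l κ r *
      (flipW q (lastOf r) a * (1 + ξ a) ^ l * Real.exp (-(κ * m ^ 2))) := by
    intro a
    unfold QP
    rw [MkR_cons, Vm_cons, hξ1 a]
    have hua := hu a
    have h3 : flipW q (lastOf r) a * C.Pre r * (1 + ξ a) / (flipW q (lastOf r) a * MkR q r) =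
        (C.Pre r / MkR q r) * (1 + ξ a) := by
      field_simp
    rw [h3, mul_pow]
    have h4 : -(κ * (C.Vm r + m ^ 2)) = -(κ * C.Vm r) + -(κ * m ^ 2) := by ring
    rw [h4, Real.exp_add]
    ring
  rw [hformula, hformula, ← mul_add]
  have hQ := C.QP_nonneg (l := l) (κ := κ) h0 hpos r
  have hfinal : flipW q (lastOf r) false * (1 + ξ false) ^ l * Real.exp (-(κ * m ^ 2)) +
      flipW q (lastOf r) true * (1 + ξ true) ^ l * Real.exp (-(κ * m ^ 2)) ≤ 1 := by
    have hb : ∀ a, flipW q (lastOf r) a * (1 + ξ a) ^ l ≤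
        flipW q (lastOf r) a * (1 + l * ξ a + 5 * l ^ 2 * (K₁ * m) ^ 2) := by
      intro a
      apply mul_le_mul_of_nonneg_left _ (hu a).le
      refine le_trans (pow_bound (hξl a) hl) ?_
      have h2 : ξ a ^ 2 ≤ (K₁ * m) ^ 2 := by
        rw [← sq_abs (ξ a)]
        exact pow_le_pow_left₀ (abs_nonneg _) (hξ2 a) 2
      have h3 : (l : ℝ) ^ 2 * ξ a ^ 2 ≤ 5 * l ^ 2 * (K₁ * m) ^ 2 := by
        have h4 : (l : ℝ) ^ 2 * ξ a ^ 2 ≤ (l : ℝ) ^ 2 * (K₁ * m) ^ 2 :=
          mul_le_mul_of_nonneg_left h2 (by positivity)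
        have h5 : 0 ≤ (l : ℝ) ^ 2 * (K₁ * m) ^ 2 := by positivity
        linarith
      linarith
    have h2 := hb false
    have h3 := hb true
    have hsum := flipW_sum h0 (lastOf r)
    have h4 : flipW q (lastOf r) false * (1 + ξ false) ^ l +
        flipW q (lastOf r) true * (1 + ξ true) ^ l ≤ 1 + 5 * l ^ 2 * (K₁ * m) ^ 2 := by
      have e : flipW q (lastOf r) false * (1 + l * ξ false + 5 * l ^ 2 * (K₁ * m) ^ 2) +
          flipW q (lastOf r) true * (1 + l * ξ true + 5 * l ^ 2 * (K₁ * m) ^ 2) =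
          (flipW q (lastOf r) false + flipW q (lastOf r) true) * (1 + 5 * l ^ 2 * (K₁ * m) ^ 2)
            + l * (flipW q (lastOf r) false * ξ false + flipW q (lastOf r) true * ξ true) := by ring
      rw [hξ3, hsum] at e
      linarith
    have h5 : 1 + 5 * (l : ℝ) ^ 2 * (K₁ * m) ^ 2 ≤ Real.exp (κ * m ^ 2) := by
      have h6 : 5 * (l : ℝ) ^ 2 * (K₁ * m) ^ 2 ≤ κ * m ^ 2 := by
        have e : 5 * (l : ℝ) ^ 2 * (K₁ * m) ^ 2 = (5 * (l : ℝ) ^ 2 * K₁ ^ 2) * m ^ 2 := by ring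
        rw [e]
        exact mul_le_mul_of_nonneg_right hκ (by positivity)
      have h7 := Real.add_one_le_exp (κ * m ^ 2)
      linarith
    have h6 : Real.exp (-(κ * m ^ 2)) * Real.exp (κ * m ^ 2) = 1 := by
      rw [← Real.exp_add]; simp
    have h7 := Real.exp_pos (-(κ * m ^ 2))
    calc flipW q (lastOf r) false * (1 + ξ false) ^ l * Real.exp (-(κ * m ^ 2)) +
        flipW q (lastOf r) true * (1 + ξ true) ^ l * Real.exp (-(κ * m ^ 2))
        = (flipW q (lastOf r) false * (1 + ξ false) ^ l +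
          flipW q (lastOf r) true * (1 + ξ true) ^ l) * Real.exp (-(κ * m ^ 2)) := by ring
      _ ≤ Real.exp (κ * m ^ 2) * Real.exp (-(κ * m ^ 2)) :=
          mul_le_mul_of_nonneg_right (le_trans h4 h5) h7.le
      _ = 1 := by rw [mul_comm]; exact h6
  calc _ ≤ C.QP l κ r * 1 := mul_le_mul_of_nonneg_left hfinal hQ
    _ = _ := mul_one _

theorem QM_sum (h0 : 0 < q) (h1 : q < 1) (hl : 1 ≤ l) (hpos : ∀ r, 0 < C.Pre r)
    (hs : ∀ r, C.Gs r ≤ mb * C.Pre r) (hmb : (1 + q) / q * mb * l ≤ 1 / 4)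
    (hκ : 5 * (l : ℝ) ^ 2 * ((1 + q) / q) ^ 2 ≤ κ) (i : ℕ) :
    ∑ r ∈ Weq i, C.QM l κ r ≤ 1 := by
  induction i with
  | zero =>
    simp only [Weq, sum_singleton]
    unfold QM
    simp [Vm, C.Pre_nil]
  | succ i ih =>
    refine le_trans ?_ ih
    rw [sum_Weq_step]
    exact sum_le_sum (fun r _ => C.QM_step h0 h1 hl hpos hs hmb hκ r)

theorem QP_sum (h0 : 0 < q) (h1 : q < 1) (hl : 1 ≤ l) (hpos : ∀ r, 0 < C.Pre r)
    (hs : ∀ r, C.Gs r ≤ mb * C.Pre r) (hmb : (1 + q) / q * mb * l ≤ 1 / 4)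
    (hκ : 5 * (l : ℝ) ^ 2 * ((1 + q) / q) ^ 2 ≤ κ) (i : ℕ) :
    ∑ r ∈ Weq i, C.QP l κ r ≤ 1 := by
  induction i with
  | zero =>
    simp only [Weq, sum_singleton]
    unfold QP
    simp [Vm, C.Pre_nil]
  | succ i ih =>
    refine le_trans ?_ ih
    rw [sum_Weq_step]
    exact sum_le_sum (fun r _ => C.QP_step h0 h1 hl hpos hs hmb hκ r)

end dev

section potential

variable (Λ : ℝ) (Aux : Word → Prop)

open Classical in
/-- The contribution of a word to the sum of squares. -/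
noncomputable def Yq (r : Word) : ℝ := if C.Gd Λ Aux r then C.mh r ^ 2 else 0

/-- The expected future sum of squares along good words. -/
noncomputable def Up : ℕ → Word → ℝ
  | 0, r => C.Yq Λ Aux r
  | n + 1, r => C.Yq Λ Aux r +
      (flipW q (lastOf r) false * Up n (false :: r) + flipW q (lastOf r) true * Up n (true :: r))

theorem Up_succ (n : ℕ) (r : Word) : C.Up Λ Aux (n + 1) r = C.Yq Λ Aux r +
      (flipW q (lastOf r) false * C.Up Λ Aux n (false :: r) + flipW q (lastOf r) true * C.Up Λ Aux n (true :: r)) := rfl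

theorem Yq_nonneg (r : Word) : 0 ≤ C.Yq Λ Aux r := by
  unfold Yq
  split_ifs <;> positivity

theorem Up_nonneg (h0 : 0 < q) (n : ℕ) (r : Word) : 0 ≤ C.Up Λ Aux n r := by
  induction n generalizing r with
  | zero => exact C.Yq_nonneg Λ Aux r
  | succ n ih =>
    rw [Up_succ]
    have h1 := C.Yq_nonneg Λ Aux r
    have h2 := ih (false :: r)
    have h3 := ih (true :: r)
    have h4 := flipW_pos h0 (lastOf r) false
    have h5 := flipW_pos h0 (lastOf r) true
    positivity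

theorem Up_of_not_Gd (n : ℕ) {r : Word} (h : ¬ C.Gd Λ Aux r) : C.Up Λ Aux n r = 0 := by
  induction n generalizing r with
  | zero =>
    change C.Yq Λ Aux r = 0
    unfold Yq
    rw [if_neg h]
  | succ n ih =>
    rw [Up_succ]
    have h1 : C.Yq Λ Aux r = 0 := by
      unfold Yq
      rw [if_neg h]
    rw [h1, ih (fun hg => h ((C.Gd_cons).mp hg).1), ih (fun hg => h ((C.Gd_cons).mp hg).1)]
    simp

theorem exp_step {x c : ℝ} (hx : 0 ≤ x) (hc0 : 0 ≤ c) (hc : c ≤ 2) : Real.exp x * (c - 2 * x) ≤ c := by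
  have h1 : Real.exp x - 1 ≤ x * Real.exp x := by
    have h2 := Real.add_one_le_exp (-x)
    have h3 : Real.exp x * Real.exp (-x) = 1 := by rw [← Real.exp_add]; simp
    have h4 := Real.exp_pos x
    nlinarith
  have h2 : c * (Real.exp x - 1) ≤ 2 * (x * Real.exp x) := by
    have h3 := Real.exp_pos x
    have h4 : 0 ≤ x * Real.exp x := by positivity
    calc c * (Real.exp x - 1) ≤ c * (x * Real.exp x) := mul_le_mul_of_nonneg_left h1 hc0
      _ ≤ 2 * (x * Real.exp x) := mul_le_mul_of_nonneg_right hc h4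
  nlinarith

open Classical in
/-- The quantity that decreases with the length. -/
noncomputable def LL (s : ℝ) (i j : ℕ) : ℝ :=
  ∑ r ∈ Weq j, if C.Gd Λ Aux r then MkR q r * Real.exp (s * C.Vh r) * (1 + 2 * s * C.Up Λ Aux (i - j) r) else 0

theorem LL_step (h0 : 0 < q) {s B : ℝ} (hs0 : 0 ≤ s) (hsB : s * B ≤ 1 / 2) {i j : ℕ} (hj : j < i)
    (hU : ∀ f : Word, f.length ≤ i → C.Gd Λ Aux f → C.Up Λ Aux (i - f.length) f ≤ B) :
    C.LL Λ Aux s i (j + 1) ≤ C.LL Λ Aux s i j := by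
  classical
  unfold LL
  rw [sum_Weq_step]
  apply sum_le_sum
  intro r hr
  have hlen : r.length = j := mem_Weq.mp hr
  by_cases hg : C.Gd Λ Aux r
  · rw [if_pos hg]
    obtain ⟨n, hn⟩ : ∃ n, i - j = n + 1 := ⟨i - j - 1, by omega⟩
    have hn' : i - (j + 1) = n := by omega
    rw [hn, hn']
    have hMk := MkR_pos h0 r
    have hE := Real.exp_pos (s * C.Vh r)
    set x : ℝ := s * C.mh r ^ 2 with hx
    have hx0 : 0 ≤ x := by positivity
    set c : ℝ := 1 + 2 * s * C.Up Λ Aux (n + 1) r with hc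
    have hU0 := C.Up_nonneg Λ Aux h0 (n + 1) r
    have hc1 : 0 ≤ c := by rw [hc]; positivity
    have hUB := hU r (by omega) hg
    rw [hlen, hn] at hUB
    have hc2 : c ≤ 2 := by
      have : s * C.Up Λ Aux (n + 1) r ≤ s * B := mul_le_mul_of_nonneg_left hUB hs0
      rw [hc]
      nlinarith
    have hterm : ∀ a, (if C.Gd Λ Aux (a :: r) then MkR q (a :: r) * Real.exp (s * C.Vh (a :: r)) *
          (1 + 2 * s * C.Up Λ Aux n (a :: r)) else 0) ≤
        MkR q r * Real.exp (s * C.Vh r) * Real.exp x *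
          (flipW q (lastOf r) a * (1 + 2 * s * C.Up Λ Aux n (a :: r))) := by
      intro a
      have hp : 0 ≤ MkR q r * Real.exp (s * C.Vh r) * Real.exp x *
          (flipW q (lastOf r) a * (1 + 2 * s * C.Up Λ Aux n (a :: r))) := by
        have h2 := C.Up_nonneg Λ Aux h0 n (a :: r)
        have h3 := flipW_pos h0 (lastOf r) a
        positivity
      split_ifs
      · refine le_of_eq ?_
        rw [MkR_cons, Vh_cons, mul_add s, Real.exp_add]
        ring
      · exact hp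
    have h5 := add_le_add (hterm false) (hterm true)
    refine le_trans h5 ?_
    have hsum := flipW_sum h0 (lastOf r)
    have hYq : C.Yq Λ Aux r = C.mh r ^ 2 := by
      unfold Yq
      rw [if_pos hg]
    have e : flipW q (lastOf r) false * (1 + 2 * s * C.Up Λ Aux n (false :: r)) +
        flipW q (lastOf r) true * (1 + 2 * s * C.Up Λ Aux n (true :: r)) = c - 2 * x := by
      rw [hc, Up_succ, hYq, hx]
      have : flipW q (lastOf r) false * (1 + 2 * s * C.Up Λ Aux n (false :: r)) +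
          flipW q (lastOf r) true * (1 + 2 * s * C.Up Λ Aux n (true :: r)) =
          (flipW q (lastOf r) false + flipW q (lastOf r) true) + 2 * s * (flipW q (lastOf r) false * C.Up Λ Aux n (false :: r) +
            flipW q (lastOf r) true * C.Up Λ Aux n (true :: r)) := by ring
      rw [this, hsum]
      ring
    calc MkR q r * Real.exp (s * C.Vh r) * Real.exp x * (flipW q (lastOf r) false * (1 + 2 * s * C.Up Λ Aux n (false :: r))) +
        MkR q r * Real.exp (s * C.Vh r) * Real.exp x * (flipW q (lastOf r) true * (1 + 2 * s * C.Up Λ Aux n (true :: r)))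
        = MkR q r * Real.exp (s * C.Vh r) * (Real.exp x * (flipW q (lastOf r) false * (1 + 2 * s * C.Up Λ Aux n (false :: r)) +
          flipW q (lastOf r) true * (1 + 2 * s * C.Up Λ Aux n (true :: r)))) := by ring
      _ = MkR q r * Real.exp (s * C.Vh r) * (Real.exp x * (c - 2 * x)) := by rw [e]
      _ ≤ MkR q r * Real.exp (s * C.Vh r) * c :=
          mul_le_mul_of_nonneg_left (exp_step hx0 hc1 hc2) (by positivity)
  · rw [if_neg hg, if_neg (fun h => hg ((C.Gd_cons).mp h).1), if_neg (fun h => hg ((C.Gd_cons).mp h).1)]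
    simp

open Classical in
/-- The exponential moment of the sum of squares along good words. -/
theorem exp_moment_Vh (h0 : 0 < q) {s B : ℝ} (hs0 : 0 ≤ s) (hsB : s * B ≤ 1 / 2) {i : ℕ}
    (hU : ∀ f : Word, f.length ≤ i → C.Gd Λ Aux f → C.Up Λ Aux (i - f.length) f ≤ B) {j : ℕ} (hj : j ≤ i) :
    ∑ r ∈ (Weq j).filter (fun r => C.Gd Λ Aux r), MkR q r * Real.exp (s * C.Vh r) ≤ 2 := by
  classical
  have hLL : ∀ j, j ≤ i → C.LL Λ Aux s i j ≤ 2 := by
    intro j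
    induction j with
    | zero =>
      intro _
      unfold LL
      simp only [Weq, sum_singleton]
      rw [if_pos (C.Gd_nil)]
      have h2 := hU [] (by simp) C.Gd_nil
      simp only [List.length_nil, Nat.sub_zero] at h2
      have h3 : s * C.Up Λ Aux i [] ≤ s * B := mul_le_mul_of_nonneg_left h2 hs0
      simp only [MkR_nil, Vh, mul_zero, Real.exp_zero, mul_one, one_mul, Nat.sub_zero]
      nlinarith
    | succ j ih =>
      intro hj
      exact le_trans (C.LL_step Λ Aux h0 hs0 hsB (by omega) hU) (ih (by omega))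
  refine le_trans ?_ (hLL j hj)
  unfold LL
  rw [sum_filter]
  apply sum_le_sum
  intro r _
  split_ifs with hg
  · have hMk := MkR_pos h0 r
    have hE := Real.exp_pos (s * C.Vh r)
    have h2 := C.Up_nonneg Λ Aux h0 (i - j) r
    have h3 : 1 ≤ 1 + 2 * s * C.Up Λ Aux (i - j) r := by
      have : 0 ≤ 2 * s * C.Up Λ Aux (i - j) r := by positivity
      linarith
    have h4 : 0 ≤ MkR q r * Real.exp (s * C.Vh r) := by positivity
    nlinarith
  · exact le_rfl

end potential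

section exits

variable {l : ℕ} {Λ B mb η : ℝ} {Aux : Word → Prop}

open Classical in
/-- Mass of the words that are not good. -/
noncomputable def bad (Λ : ℝ) (Aux : Word → Prop) (j : ℕ) : ℝ :=
  ∑ r ∈ Weq j, if C.Gd Λ Aux r then 0 else MkR q r

theorem bad_zero : bad (q := q) C Λ Aux 0 = 0 := by
  unfold bad
  simp only [Weq, sum_singleton]
  rw [if_pos C.Gd_nil]

theorem MkR_split (h0 : 0 < q) (r : Word) : MkR q (false :: r) + MkR q (true :: r) = MkR q r := by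
  rw [MkR_cons, MkR_cons, ← add_mul, flipW_sum h0, one_mul]

/-- The exit of the ratio from `[1/2, 2]`. -/
theorem qv_exit (h0 : 0 < q) (hpos : ∀ r, 0 < C.Pre r) (hs : ∀ r, C.Gs r ≤ mb * C.Pre r) (hmb0 : 0 ≤ mb)
    (hΛ0 : 0 ≤ Λ) (hmbΛ : 8 * mb ^ 2 ≤ Λ) {κ : ℝ} (hκ0 : 0 ≤ κ) (hκΛ : κ * (8 * Λ) ≤ 2)
    (a : Bool) {r : Word} (hg : C.Gd Λ Aux r) (hn : ¬ (1 / 2 ≤ C.Mr (a :: r) ∧ C.Mr (a :: r) ≤ 2)) :
    MkR q (a :: r) ≤ (Real.exp 2 * (1 / 2) ^ l) * (C.QM l κ (a :: r) + C.QP l κ (a :: r)) := by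
  have hw0 : 0 < Real.exp 2 * (1 / 2 : ℝ) ^ l := by positivity
  have hm := C.Gd_mh_le h0 hmb0 hs hg
  have hm0 := C.mh_nonneg h0 r
  have hV := C.Gd_Vh_le hΛ0 hg
  have hVc : C.Vh (a :: r) ≤ 2 * Λ := by
    rw [Vh_cons]
    have h2 : C.mh r ^ 2 ≤ (2 * mb) ^ 2 := pow_le_pow_left₀ hm0 hm 2
    nlinarith
  have hVm : C.Vm (a :: r) ≤ 8 * Λ := by
    have := C.Gd_Vm_cons h0 hpos a hg
    linarith
  have hExp : Real.exp (-2) ≤ Real.exp (-(κ * C.Vm (a :: r))) := by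
    apply Real.exp_le_exp.mpr
    have : κ * C.Vm (a :: r) ≤ κ * (8 * Λ) := mul_le_mul_of_nonneg_left hVm hκ0
    linarith
  have hMk := MkR_pos h0 (a :: r)
  have hPa := hpos (a :: r)
  have hinv : Real.exp 2 * Real.exp (-2) = 1 := by rw [← Real.exp_add]; simp
  have hQM0 := C.QM_nonneg (l := l) (κ := κ) h0 hpos (a :: r)
  have hQP0 := C.QP_nonneg (l := l) (κ := κ) h0 hpos (a :: r)
  have hkey : ∀ y : ℝ, (2 : ℝ) ≤ y → MkR q (a :: r) ≤
      (Real.exp 2 * (1 / 2) ^ l) * (MkR q (a :: r) * y ^ l * Real.exp (-(κ * C.Vm (a :: r)))) := by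
    intro y hy
    have h2 : (2 : ℝ) ^ l ≤ y ^ l := pow_le_pow_left₀ (by norm_num) hy l
    have h3 : (1 / 2 : ℝ) ^ l * 2 ^ l = 1 := by
      rw [← mul_pow]; norm_num
    have h4 : (1 / 2 : ℝ) ^ l * y ^ l ≥ 1 := by
      calc (1 : ℝ) = (1 / 2 : ℝ) ^ l * 2 ^ l := h3.symm
        _ ≤ _ := mul_le_mul_of_nonneg_left h2 (by positivity)
    have h5 : Real.exp 2 * Real.exp (-(κ * C.Vm (a :: r))) ≥ 1 := by
      calc (1 : ℝ) = Real.exp 2 * Real.exp (-2) := hinv.symm
        _ ≤ _ := mul_le_mul_of_nonneg_left hExp (Real.exp_pos 2).le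
    have e : (Real.exp 2 * (1 / 2) ^ l) * (MkR q (a :: r) * y ^ l * Real.exp (-(κ * C.Vm (a :: r)))) =
        MkR q (a :: r) * (((1 / 2 : ℝ) ^ l * y ^ l) * (Real.exp 2 * Real.exp (-(κ * C.Vm (a :: r))))) := by
      ring
    rw [e]
    have h6 : 1 ≤ ((1 / 2 : ℝ) ^ l * y ^ l) * (Real.exp 2 * Real.exp (-(κ * C.Vm (a :: r)))) := by
      nlinarith
    nlinarith
  have hMr : C.Mr (a :: r) = C.Pre (a :: r) / MkR q (a :: r) := rfl
  by_cases hlow : 1 / 2 ≤ C.Mr (a :: r)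
  · have hhigh : 2 < C.Mr (a :: r) := by
      by_contra h3
      exact hn ⟨hlow, not_lt.mp h3⟩
    have h2 := hkey (C.Pre (a :: r) / MkR q (a :: r)) hhigh.le
    have hwQM : 0 ≤ (Real.exp 2 * (1 / 2) ^ l) * C.QM l κ (a :: r) := by positivity
    calc MkR q (a :: r) ≤ (Real.exp 2 * (1 / 2) ^ l) * C.QP l κ (a :: r) := h2
      _ ≤ _ := by rw [mul_add]; linarith
  · have hlt : C.Mr (a :: r) < 1 / 2 := not_le.mp hlow
    rw [hMr, div_lt_iff₀ hMk] at hlt
    have hy : (2 : ℝ) ≤ MkR q (a :: r) / C.Pre (a :: r) := by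
      rw [le_div_iff₀ hPa]
      linarith
    have h2 := hkey (MkR q (a :: r) / C.Pre (a :: r)) hy
    have hwQP : 0 ≤ (Real.exp 2 * (1 / 2) ^ l) * C.QP l κ (a :: r) := by positivity
    calc MkR q (a :: r) ≤ (Real.exp 2 * (1 / 2) ^ l) * C.QM l κ (a :: r) := h2
      _ ≤ _ := by rw [mul_add]; linarith

open Classical in
/-- Pointwise bound for the first exit. -/
theorem qv_point (h0 : 0 < q) (hpos : ∀ r, 0 < C.Pre r) (hs : ∀ r, C.Gs r ≤ mb * C.Pre r) (hmb0 : 0 ≤ mb)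
    (hΛ0 : 0 ≤ Λ) (hmbΛ : 8 * mb ^ 2 ≤ Λ) {κ : ℝ} (hκ0 : 0 ≤ κ) (hκΛ : κ * (8 * Λ) ≤ 2)
    (r : Word) (a : Bool) (hg : C.Gd Λ Aux r) (hn : ¬ C.Gd Λ Aux (a :: r)) :
    MkR q (a :: r) ≤ (Real.exp 2 * (1 / 2) ^ l) * (C.QM l κ (a :: r) + C.QP l κ (a :: r)) +
      (if Aux (a :: r) then 0 else MkR q (a :: r)) + (if Λ / 2 < C.Vh r then MkR q (a :: r) else 0) := by
  have hMk := MkR_pos h0 (a :: r)
  have hQM0 := C.QM_nonneg (l := l) (κ := κ) h0 hpos (a :: r)
  have hQP0 := C.QP_nonneg (l := l) (κ := κ) h0 hpos (a :: r)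
  have hw2 : 0 ≤ (Real.exp 2 * (1 / 2 : ℝ) ^ l) * (C.QM l κ (a :: r) + C.QP l κ (a :: r)) := by positivity
  have h3 : (0 : ℝ) ≤ (if Aux (a :: r) then 0 else MkR q (a :: r)) := by split_ifs <;> linarith
  have h4 : (0 : ℝ) ≤ (if Λ / 2 < C.Vh r then MkR q (a :: r) else 0) := by split_ifs <;> linarith
  by_cases hA : Aux (a :: r)
  · by_cases hM : 1 / 2 ≤ C.Mr (a :: r) ∧ C.Mr (a :: r) ≤ 2
    · have hVb : Λ < C.Vh (a :: r) := by
        by_contra h5
        exact hn ((C.Gd_cons).mpr ⟨hg, hM.1, hM.2, not_lt.mp h5, hA⟩)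
      have hVr : Λ / 2 < C.Vh r := by
        rw [Vh_cons] at hVb
        have hm := C.Gd_mh_le h0 hmb0 hs hg
        have hm0 := C.mh_nonneg h0 r
        have h2 : C.mh r ^ 2 ≤ (2 * mb) ^ 2 := pow_le_pow_left₀ hm0 hm 2
        nlinarith
      rw [if_pos hVr]
      linarith
    · have := C.qv_exit (l := l) h0 hpos hs hmb0 hΛ0 hmbΛ hκ0 hκΛ a hg hM
      linarith
  · rw [if_neg hA]
    linarith

open Classical in
theorem qv_term (h0 : 0 < q) (hpos : ∀ r, 0 < C.Pre r) (hs : ∀ r, C.Gs r ≤ mb * C.Pre r) (hmb0 : 0 ≤ mb)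
    (hΛ0 : 0 ≤ Λ) (hmbΛ : 8 * mb ^ 2 ≤ Λ) {κ : ℝ} (hκ0 : 0 ≤ κ) (hκΛ : κ * (8 * Λ) ≤ 2) (r : Word) :
    ((if C.Gd Λ Aux (false :: r) then 0 else MkR q (false :: r)) +
      (if C.Gd Λ Aux (true :: r) then 0 else MkR q (true :: r))) ≤
    (if C.Gd Λ Aux r then 0 else MkR q r) +
    (((Real.exp 2 * (1 / 2) ^ l) * (C.QM l κ (false :: r) + C.QP l κ (false :: r)) + (if Aux (false :: r) then 0 else MkR q (false :: r))) +
     ((Real.exp 2 * (1 / 2) ^ l) * (C.QM l κ (true :: r) + C.QP l κ (true :: r)) + (if Aux (true :: r) then 0 else MkR q (true :: r)))) +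
    (if C.Gd Λ Aux r ∧ Λ / 2 < C.Vh r then MkR q r else 0) := by
  have hsplit := MkR_split h0 r
  have hnn : ∀ a : Bool, 0 ≤ (Real.exp 2 * (1 / 2) ^ l) * (C.QM l κ (a :: r) + C.QP l κ (a :: r)) +
      (if Aux (a :: r) then 0 else MkR q (a :: r)) := by
    intro a
    have hQM0 := C.QM_nonneg (l := l) (κ := κ) h0 hpos (a :: r)
    have hQP0 := C.QP_nonneg (l := l) (κ := κ) h0 hpos (a :: r)
    have hMk := MkR_pos h0 (a :: r)
    have h3 : (0 : ℝ) ≤ (if Aux (a :: r) then 0 else MkR q (a :: r)) := by split_ifs <;> linarith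
    positivity
  have hMkf := MkR_pos h0 (false :: r)
  have hMkt := MkR_pos h0 (true :: r)
  by_cases hg : C.Gd Λ Aux r
  · rw [if_pos hg]
    have hbd : ∀ a : Bool, (if C.Gd Λ Aux (a :: r) then 0 else MkR q (a :: r)) ≤
        (Real.exp 2 * (1 / 2) ^ l) * (C.QM l κ (a :: r) + C.QP l κ (a :: r)) + (if Aux (a :: r) then 0 else MkR q (a :: r)) +
        (if Λ / 2 < C.Vh r then MkR q (a :: r) else 0) := by
      intro a
      have hMk := MkR_pos h0 (a :: r)
      have h4 : (0 : ℝ) ≤ (if Λ / 2 < C.Vh r then MkR q (a :: r) else 0) := by split_ifs <;> linarith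
      by_cases h : C.Gd Λ Aux (a :: r)
      · rw [if_pos h]
        have := hnn a
        linarith
      · rw [if_neg h]
        exact C.qv_point (l := l) h0 hpos hs hmb0 hΛ0 hmbΛ hκ0 hκΛ r a hg h
    have h2 := hbd false
    have h3 := hbd true
    by_cases hV : Λ / 2 < C.Vh r
    · rw [if_pos hV] at h2 h3
      have h5 : C.Gd Λ Aux r ∧ Λ / 2 < C.Vh r := ⟨hg, hV⟩
      rw [if_pos h5]
      linarith
    · rw [if_neg hV] at h2 h3
      have h5 : ¬ (C.Gd Λ Aux r ∧ Λ / 2 < C.Vh r) := fun h => hV h.2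
      rw [if_neg h5]
      linarith
  · have h5 : ¬ (C.Gd Λ Aux r ∧ Λ / 2 < C.Vh r) := fun h => hg h.1
    have h6 : ∀ a, ¬ C.Gd Λ Aux (a :: r) := fun a h => hg ((C.Gd_cons).mp h).1
    rw [if_neg hg, if_neg (h6 false), if_neg (h6 true), if_neg h5]
    have h2 := hnn false
    have h3 := hnn true
    linarith

open Classical in
theorem qv_vh_tail (h0 : 0 < q) {s : ℝ} (hs0 : 0 ≤ s) (j : ℕ)
    (h2 : ∑ r ∈ (Weq j).filter (fun r => C.Gd Λ Aux r), MkR q r * Real.exp (s * C.Vh r) ≤ 2) :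
    ∑ r ∈ Weq j, (if C.Gd Λ Aux r ∧ Λ / 2 < C.Vh r then MkR q r else 0) ≤ 2 * Real.exp (-(s * (Λ / 2))) := by
  rw [sum_filter] at h2
  have h3 : ∑ r ∈ Weq j, (if C.Gd Λ Aux r ∧ Λ / 2 < C.Vh r then MkR q r else 0) ≤
      ∑ r ∈ Weq j, (if C.Gd Λ Aux r then MkR q r * Real.exp (s * C.Vh r) else 0) * Real.exp (-(s * (Λ / 2))) := by
    apply sum_le_sum
    intro r _
    have hMk := MkR_pos h0 r
    by_cases hg : C.Gd Λ Aux r
    · rw [if_pos hg]
      by_cases hV : Λ / 2 < C.Vh r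
      · have h6 : C.Gd Λ Aux r ∧ Λ / 2 < C.Vh r := ⟨hg, hV⟩
        rw [if_pos h6]
        have h4 : s * (Λ / 2) ≤ s * C.Vh r := mul_le_mul_of_nonneg_left hV.le hs0
        have h5 : 1 ≤ Real.exp (s * C.Vh r) * Real.exp (-(s * (Λ / 2))) := by
          rw [← Real.exp_add]
          apply Real.one_le_exp
          linarith
        calc MkR q r = MkR q r * 1 := (mul_one _).symm
          _ ≤ MkR q r * (Real.exp (s * C.Vh r) * Real.exp (-(s * (Λ / 2)))) :=
              mul_le_mul_of_nonneg_left h5 hMk.le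
          _ = _ := by ring
      · have h6 : ¬ (C.Gd Λ Aux r ∧ Λ / 2 < C.Vh r) := fun h => hV h.2
        rw [if_neg h6]
        positivity
    · have h6 : ¬ (C.Gd Λ Aux r ∧ Λ / 2 < C.Vh r) := fun h => hg h.1
      rw [if_neg hg, if_neg h6]
      simp
  refine le_trans h3 ?_
  rw [← sum_mul]
  exact mul_le_mul_of_nonneg_right h2 (Real.exp_pos _).le

open Classical in
theorem qv_aux_sum {w : ℝ} (hw0 : 0 ≤ w) {κ : ℝ} (j : ℕ) (h2 : ∑ r ∈ Weq (j + 1), C.QM l κ r ≤ 1)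
    (h3 : ∑ r ∈ Weq (j + 1), C.QP l κ r ≤ 1)
    (h4 : ∑ r ∈ (Weq (j + 1)).filter (fun r => ¬ Aux r), MkR q r ≤ η) :
    ∑ r ∈ Weq j, ((w * (C.QM l κ (false :: r) + C.QP l κ (false :: r)) + (if Aux (false :: r) then 0 else MkR q (false :: r))) +
         (w * (C.QM l κ (true :: r) + C.QP l κ (true :: r)) + (if Aux (true :: r) then 0 else MkR q (true :: r)))) ≤
        2 * w + η := by
  have e := sum_Weq_step (fun r' => w * (C.QM l κ r' + C.QP l κ r') + (if Aux r' then 0 else MkR q r')) j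
  rw [← e, sum_add_distrib, ← mul_sum, sum_add_distrib]
  rw [sum_filter] at h4
  have h5 : ∑ r ∈ Weq (j + 1), (if Aux r then 0 else MkR q r) =
      ∑ r ∈ Weq (j + 1), (if ¬ Aux r then MkR q r else 0) := by
    apply sum_congr rfl
    intro r _
    by_cases h : Aux r <;> simp [h]
  rw [h5]
  have h6 : w * (∑ r ∈ Weq (j + 1), C.QM l κ r + ∑ r ∈ Weq (j + 1), C.QP l κ r) ≤ w * 2 :=
    mul_le_mul_of_nonneg_left (by linarith) hw0
  linarith

open Classical in
/-- One step for the mass of the words that are not good. -/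
theorem qv_step (h0 : 0 < q) (h1 : q < 1) (hl : 1 ≤ l) (hs : ∀ r, C.Gs r ≤ mb * C.Pre r) (hmb0 : 0 ≤ mb)
    (hmb : (1 + q) / q * mb * l ≤ 1 / 4) (hΛ0 : 0 ≤ Λ) (hΛ : 20 * ((1 + q) / q) ^ 2 * (l : ℝ) ^ 2 * Λ ≤ 1)
    (hmbΛ : 8 * mb ^ 2 ≤ Λ) (hB : 0 < B) {i : ℕ}
    (hAux : ∀ j ≤ i, ∑ r ∈ (Weq j).filter (fun r => ¬ Aux r), MkR q r ≤ η)
    (hU : ∀ f : Word, f.length ≤ i → C.Gd Λ Aux f → C.Up Λ Aux (i - f.length) f ≤ B) (j : ℕ) (hj : j < i) :
    bad (q := q) C Λ Aux (j + 1) ≤ bad (q := q) C Λ Aux j +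
      (2 * Real.exp 2 * (1 / 2) ^ l + 2 * Real.exp (-(Λ / (4 * B))) + η) := by
  have hl0 : (1 : ℝ) ≤ l := by exact_mod_cast hl
  have hK₁0 : 0 < (1 + q) / q := by positivity
  have hmb2 : (1 + q) / q * mb ≤ 1 / 2 := by
    have h2 : (1 + q) / q * mb * 1 ≤ (1 + q) / q * mb * l := mul_le_mul_of_nonneg_left hl0 (by positivity)
    linarith
  have hpos : ∀ r, 0 < C.Pre r := C.Pre_pos h0 h1 hmb2 hs
  set κ : ℝ := 5 * (l : ℝ) ^ 2 * ((1 + q) / q) ^ 2 with hκ
  have hκ0 : 0 ≤ κ := by positivity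
  have hκΛ : κ * (8 * Λ) ≤ 2 := by
    have e : κ * (8 * Λ) = 2 * (20 * ((1 + q) / q) ^ 2 * (l : ℝ) ^ 2 * Λ) := by rw [hκ]; ring
    rw [e]
    linarith
  set s : ℝ := 1 / (2 * B) with hs'
  have hs0 : 0 ≤ s := by positivity
  have hsB : s * B ≤ 1 / 2 := by
    rw [hs']
    apply le_of_eq
    field_simp
  have hsΛ : s * (Λ / 2) = Λ / (4 * B) := by
    rw [hs']
    field_simp
    ring
  have hQM := C.QM_sum (l := l) (κ := κ) h0 h1 hl hpos hs hmb (le_of_eq rfl) (j + 1)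
  have hQP := C.QP_sum (l := l) (κ := κ) h0 h1 hl hpos hs hmb (le_of_eq rfl) (j + 1)
  have hA2 := C.qv_vh_tail h0 hs0 j (C.exp_moment_Vh Λ Aux h0 hs0 hsB hU (by omega : j ≤ i))
  rw [hsΛ] at hA2
  have hA1 := C.qv_aux_sum (w := Real.exp 2 * (1 / 2) ^ l) (by positivity) j hQM hQP (hAux (j + 1) (by omega))
  unfold bad
  rw [sum_Weq_step]
  refine le_trans (sum_le_sum (fun r _ => C.qv_term (l := l) h0 hpos hs hmb0 hΛ0 hmbΛ hκ0 hκΛ r)) ?_
  rw [sum_add_distrib, sum_add_distrib]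
  have e : 2 * Real.exp 2 * (1 / 2 : ℝ) ^ l = 2 * (Real.exp 2 * (1 / 2) ^ l) := by ring
  rw [e]
  linarith

open Classical in
/-- Main estimate of the abstract part. -/
theorem qv_tail (h0 : 0 < q) (h1 : q < 1) (hl : 1 ≤ l) (hs : ∀ r, C.Gs r ≤ mb * C.Pre r) (hmb0 : 0 ≤ mb)
    (hmb : (1 + q) / q * mb * l ≤ 1 / 4) (hΛ0 : 0 ≤ Λ) (hΛ : 20 * ((1 + q) / q) ^ 2 * (l : ℝ) ^ 2 * Λ ≤ 1)
    (hmbΛ : 8 * mb ^ 2 ≤ Λ) (hB : 0 < B) {i : ℕ}
    (hAux : ∀ j ≤ i, ∑ r ∈ (Weq j).filter (fun r => ¬ Aux r), MkR q r ≤ η)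
    (hU : ∀ f : Word, f.length ≤ i → C.Gd Λ Aux f → C.Up Λ Aux (i - f.length) f ≤ B) :
    ∑ r ∈ (Weq i).filter (fun r => C.Pre r < MkR q r / 2), MkR q r ≤
      i * (2 * Real.exp 2 * (1 / 2) ^ l + 2 * Real.exp (-(Λ / (4 * B))) + η) := by
  have hbad : ∀ j, j ≤ i → bad (q := q) C Λ Aux j ≤
      j * (2 * Real.exp 2 * (1 / 2) ^ l + 2 * Real.exp (-(Λ / (4 * B))) + η) := by
    intro j
    induction j with
    | zero =>
      intro _
      rw [bad_zero]
      simp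
    | succ j ih =>
      intro hj
      have h2 := C.qv_step h0 h1 hl hs hmb0 hmb hΛ0 hΛ hmbΛ hB hAux hU j (by omega)
      have h3 := ih (by omega)
      push_cast
      linarith
  refine le_trans ?_ (hbad i le_rfl)
  unfold bad
  rw [sum_filter]
  apply sum_le_sum
  intro r _
  have hMk := MkR_pos h0 r
  by_cases hlt : C.Pre r < MkR q r / 2
  · rw [if_pos hlt]
    have hng : ¬ C.Gd Λ Aux r := by
      intro hg
      have h2 := C.Gd_Mr_ge hg
      unfold Mr at h2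
      rw [le_div_iff₀ hMk] at h2
      linarith
    rw [if_neg hng]
  · rw [if_neg hlt]
    split_ifs
    · exact le_rfl
    · exact hMk.le

end exits

end HMM

end Vale.Agent.Lib.P321
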