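import Vale.Agent.Lib.P321.QVAbstract
import Vale.Agent.Lib.P321.Levels
import Vale.Agent.Lib.P321.LTFB

/-!
P321, lower tail module, second version: the energy of the block after a position, seen from the Markov weight.
-/

namespace Vale.Agent.Lib.P321

open Finset

section site

variable {q : ℝ}

/-- Norm along the sites of the plain expansion, with the loss of one harmonic factor. -/
theorem VV_site_bound (h0 : 0 < q) (h1 : q < 1) :
    ∃ C : ℝ, 0 < C ∧ ∀ (δ k Lmax B₀ : ℕ) (𝓛 : ℝ) (s I₀ : ℤ) (M : List ℤ),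
      1 ≤ δ → M.Pairwise (· > ·) → Spaced M.toFinset δ → M.length ≤ k → s ≤ I₀ →
      (∀ r ∈ M, I₀ ≤ r ∧ r - 1 - I₀ ≤ Lmax ∧ s + 1 ≤ r ∧ 2 * (r - 1 - s) ≤ (B₀ : ℤ)) →
      1 ≤ 𝓛 → (∑ j ∈ range (Lmax + 3), 1 / ((j : ℝ) + 1) ≤ 𝓛) →
      (1 / (δ : ℝ)) * √((Lmax : ℝ) + 1) ≤ 1 →
      C * 𝓛 * (√(k : ℝ) * (1 / √(δ : ℝ))) ≤ 1 →
      ∀ r ∈ M, nsq q B₀ (VV (q ^ 2) (F0 (q ^ 2) s) M (r - 1)) ≤ C * 𝓛 * rhoL (r - 1 - s) := by
  have hθ0 : 0 < q ^ 2 := by positivity
  have hθ1 : q ^ 2 < 1 := by nlinarith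
  obtain ⟨Cw, hCw, hV⟩ := volterra_bound (θ₀ := q ^ 2) (θ₁ := q ^ 2) h0 h1 hθ0 hθ1
  obtain ⟨Cn, hCn, hN⟩ := kerF_norm (θ₀ := q ^ 2) (θ₁ := q ^ 2) h0 h1 hθ0 hθ1 0
  refine ⟨4 * ((1 + 16 * Cw) * Cn) + 32 * Cw, by positivity, ?_⟩
  intro δ k Lmax B₀ 𝓛 s I₀ M hδ hpw hsp hlen hsI hM h𝓛 hharm hzone hsmall r hr
  have hθ : q ^ 2 ∈ Set.Icc (q ^ 2) (q ^ 2) := ⟨le_rfl, le_rfl⟩
  set S := M.toFinset with hS
  have hcard : S.card ≤ k := (List.toFinset_card_le M).trans hlen
  have hrS : r ∈ S := List.mem_toFinset.mpr hr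
  have hne : S.Nonempty := ⟨r, hrS⟩
  set d₁ := S.min' hne with hd₁
  have hd₁S : d₁ ∈ S := S.min'_mem hne
  have hd₁le : ∀ d ∈ S, d₁ ≤ d := fun d hd => S.min'_le d hd
  have hMS : ∀ d ∈ S, I₀ ≤ d ∧ d - 1 - I₀ ≤ Lmax ∧ s + 1 ≤ d ∧ 2 * (d - 1 - s) ≤ (B₀ : ℤ) :=
    fun d hd => hM d (List.mem_toFinset.mp hd)
  set a : ℝ := 1 / √(δ : ℝ) with ha
  have ha0 : 0 ≤ a := by positivity
  set K₁ : ℝ := (1 + 16 * Cw) * Cn * 𝓛 with hK₁
  have h𝓛0 : 0 < 𝓛 := by linarith
  have hK₁0 : 0 < K₁ := by positivity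
  have hCnK : Cn ≤ K₁ := by
    have : Cn * 1 ≤ ((1 + 16 * Cw) * Cn) * 𝓛 := by
      apply mul_le_mul _ h𝓛 (by norm_num) (by positivity)
      nlinarith
    rw [hK₁]
    linarith
  have hsm : 32 * Cw * 𝓛 * (√(k : ℝ) * a) ≤ 1 := by
    have h2 : 0 ≤ 𝓛 * (√(k : ℝ) * a) := by positivity
    have e : (4 * ((1 + 16 * Cw) * Cn) + 32 * Cw) * 𝓛 * (√(k : ℝ) * a) =
        (4 * ((1 + 16 * Cw) * Cn)) * (𝓛 * (√(k : ℝ) * a)) + 32 * Cw * 𝓛 * (√(k : ℝ) * a) := by ring
    rw [e] at hsmall
    have h3 : 0 ≤ (4 * ((1 + 16 * Cw) * Cn)) * (𝓛 * (√(k : ℝ) * a)) := by positivity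
    linarith
  set Φ : ℤ → ℝ := fun d => if d = d₁ then Cn * rhoL (d - 1 - s) else K₁ * rhoL (d - 1 - s) with hΦ
  have hρ := rhoL_nonneg
  have hΦ0 : ∀ d ∈ S, 0 ≤ Φ d := by
    intro d _
    simp only [hΦ]
    have := hρ (d - 1 - s)
    split_ifs <;> positivity
  have hΦle : ∀ d, Φ d ≤ K₁ * rhoL (d - 1 - s) := by
    intro d
    simp only [hΦ]
    have := hρ (d - 1 - s)
    split_ifs
    · exact mul_le_mul_of_nonneg_right hCnK this
    · exact le_rfl
  have hzone' : (1 / (δ : ℝ) + |q ^ 2 - q ^ 2|) * √((Lmax : ℝ) + 1) ≤ 1 := by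
    simpa using hzone
  have hres := hV (q ^ 2) hθ δ S (F0 (q ^ 2) s) (VV (q ^ 2) (F0 (q ^ 2) s) M) B₀ I₀ Lmax 𝓛 Φ hδ hsp
    (fun d hd => (hMS d hd).1)
    (by
      intro d hd w hw
      have h2 := VV_supp (θ := q ^ 2) (F := F0 (q ^ 2) s) (s := s) (by
        have := Fk_supp (q ^ 2) [] s
        rwa [Fk_nil] at this) M (d - 1) w hw
      have h3 := (hMS d hd).2.2.2
      omega)
    h𝓛 hharm hzone' (fun d hd => (hMS d hd).2.1)
    (fun d hd => by
      have h3 := (hMS d hd).2.2.2
      have h4 := (hMS d hd).1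
      omega)
    (fun X w => VV_volterra (q ^ 2) (F0 (q ^ 2) s) M hpw X w)
    (by
      intro d hd
      have h3 := (hMS d hd).2.2.1
      have hL : 0 ≤ d - 1 - s := by omega
      have hN' := hN (q ^ 2) hθ [] rfl (by simp) B₀ s (d - 1) hL (Or.inl (by simp; omega))
      rw [Fk_nil] at hN'
      simp only [List.prod_nil, Nat.cast_one, one_pow, mul_one, mul_zero, zero_add, pow_one] at hN'
      refine hN'.trans ?_
      simp only [hΦ]
      have := hρ (d - 1 - s)
      split_ifs
      · exact le_rfl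
      · exact mul_le_mul_of_nonneg_right hCnK this)
    hΦ0
    (by
      intro d hd
      by_cases hdd : d = d₁
      · have hT : S.filter (· < d) = ∅ := by
          apply filter_false_of_mem
          intro x hx
          have := hd₁le x hx
          omega
        rw [hT]
        simp only [sum_empty, mul_zero]
        exact hΦ0 d hd
      · have hΦd : Φ d = K₁ * rhoL (d - 1 - s) := by
          simp only [hΦ]
          rw [if_neg hdd]
        rw [hΦd]
        set T := S.filter (· < d) with hT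
        have hd₁T : d₁ ∈ T := by
          refine mem_filter.mpr ⟨hd₁S, ?_⟩
          have := hd₁le d hd
          omega
        have hsplit : ∑ d' ∈ T, Φ d' * rhoL (d - 1 - d') =
            Φ d₁ * rhoL (d - 1 - d₁) + ∑ d' ∈ T.erase d₁, Φ d' * rhoL (d - 1 - d') :=
          (add_sum_erase T _ hd₁T).symm
        rw [hsplit]
        set R := rhoL (d - 1 - s) with hR
        have hR0 : 0 ≤ R := hρ _
        have hpt : ∀ d' ∈ T, rhoL (d' - 1 - s) * rhoL (d - 1 - d') ≤ R * (rhoL (d' - 1 - s) + rhoL (d - 1 - d')) := by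
          intro d' hd'
          obtain ⟨h3, h4⟩ := mem_filter.mp hd'
          have h5 := (hMS d' h3).2.2.1
          have := ptw1_rho (u := d' - s) (v := d - d') (by omega) (by omega)
          have e1 : d' - s - 1 = d' - 1 - s := by ring
          have e2 : d - d' - 1 = d - 1 - d' := by ring
          have e3 : d' - s + (d - d') - 1 = d - 1 - s := by ring
          rwa [e1, e2, e3] at this
        have hfirst : Φ d₁ * rhoL (d - 1 - d₁) ≤ 2 * Cn * R := by
          have e : Φ d₁ = Cn * rhoL (d₁ - 1 - s) := if_pos rfl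
          rw [e]
          have h3 := hpt d₁ hd₁T
          have h4 := (hMS d₁ hd₁S).2.2.1
          have h5 := hd₁le d hd
          have hle1 : rhoL (d₁ - 1 - s) ≤ 1 := rhoL_le_one (by omega)
          have hle2 : rhoL (d - 1 - d₁) ≤ 1 := rhoL_le_one (by omega)
          have h6 : R * (rhoL (d₁ - 1 - s) + rhoL (d - 1 - d₁)) ≤ R * 2 :=
            mul_le_mul_of_nonneg_left (by linarith) hR0
          calc Cn * rhoL (d₁ - 1 - s) * rhoL (d - 1 - d₁) = Cn * (rhoL (d₁ - 1 - s) * rhoL (d - 1 - d₁)) := by ring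
            _ ≤ Cn * (R * 2) := mul_le_mul_of_nonneg_left (h3.trans h6) hCn.le
            _ = _ := by ring
        have hspT : Spaced (T.erase d₁) δ := hsp.mono ((erase_subset _ _).trans (filter_subset _ _))
        have hcT : (T.erase d₁).card ≤ k := (card_le_card ((erase_subset _ _).trans (filter_subset _ _))).trans hcard
        have hs1 : ∑ d' ∈ T.erase d₁, rhoL (d' - (s + 1)) ≤ 2 * √(k : ℝ) * a := by
          apply spaced_rho1_right hδ hspT hcT
          intro d' hd'
          obtain ⟨h3, h4⟩ := mem_erase.mp hd'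
          have h5 := (mem_filter.mp h4).1
          have h6 := hsp d' h5 d₁ hd₁S h3
          have h7 := hd₁le d' h5
          rw [abs_of_pos (by omega)] at h6
          have h8 := (hMS d₁ hd₁S).2.2.1
          omega
        have hs2 : ∑ d' ∈ T.erase d₁, rhoL (d - 1 - d') ≤ 2 * √(k : ℝ) * a := by
          apply spaced_rho1 hδ hspT hcT
          intro d' hd'
          obtain ⟨_, h4⟩ := mem_erase.mp hd'
          obtain ⟨h5, h6⟩ := mem_filter.mp h4
          have h7 := hsp d hd d' h5 (by omega)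
          rw [abs_of_pos (by omega)] at h7
          omega
        have hsecond : ∑ d' ∈ T.erase d₁, Φ d' * rhoL (d - 1 - d') ≤ K₁ * R * (4 * √(k : ℝ) * a) := by
          have h3 : ∑ d' ∈ T.erase d₁, Φ d' * rhoL (d - 1 - d') ≤
              ∑ d' ∈ T.erase d₁, K₁ * R * (rhoL (d' - (s + 1)) + rhoL (d - 1 - d')) := by
            apply sum_le_sum
            intro d' hd'
            obtain ⟨_, h4⟩ := mem_erase.mp hd'
            have h5 := hpt d' h4
            have h6 := hρ (d - 1 - d')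
            have e : d' - (s + 1) = d' - 1 - s := by ring
            rw [e]
            calc Φ d' * rhoL (d - 1 - d') ≤ (K₁ * rhoL (d' - 1 - s)) * rhoL (d - 1 - d') :=
                  mul_le_mul_of_nonneg_right (hΦle d') h6
              _ = K₁ * (rhoL (d' - 1 - s) * rhoL (d - 1 - d')) := by ring
              _ ≤ K₁ * (R * (rhoL (d' - 1 - s) + rhoL (d - 1 - d'))) :=
                  mul_le_mul_of_nonneg_left h5 hK₁0.le
              _ = _ := by ring
          refine h3.trans ?_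
          rw [← mul_sum, sum_add_distrib]
          apply mul_le_mul_of_nonneg_left _ (by positivity)
          linarith
        have hC𝓛 : 0 ≤ 4 * Cw * 𝓛 := by positivity
        have hm1 : 4 * Cw * 𝓛 * (2 * Cn * R) ≤ K₁ * R / 2 := by
          have e : K₁ * R / 2 - 4 * Cw * 𝓛 * (2 * Cn * R) = (Cn * 𝓛 * R) / 2 := by
            rw [hK₁]; ring
          have : 0 ≤ (Cn * 𝓛 * R) / 2 := by positivity
          linarith
        have hm2 : 4 * Cw * 𝓛 * (K₁ * R * (4 * √(k : ℝ) * a)) ≤ K₁ * R / 2 := by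
          have h3 : 0 ≤ K₁ * R := by positivity
          have e : 4 * Cw * 𝓛 * (K₁ * R * (4 * √(k : ℝ) * a)) = (K₁ * R) * ((32 * Cw * 𝓛 * (√(k : ℝ) * a)) / 2) := by ring
          rw [e]
          have h4 := mul_le_mul_of_nonneg_left hsm h3
          linarith
        calc 4 * Cw * 𝓛 * (Φ d₁ * rhoL (d - 1 - d₁) + ∑ d' ∈ T.erase d₁, Φ d' * rhoL (d - 1 - d'))
            ≤ 4 * Cw * 𝓛 * (2 * Cn * R + K₁ * R * (4 * √(k : ℝ) * a)) :=
              mul_le_mul_of_nonneg_left (add_le_add hfirst hsecond) hC𝓛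
          _ = 4 * Cw * 𝓛 * (2 * Cn * R) + 4 * Cw * 𝓛 * (K₁ * R * (4 * √(k : ℝ) * a)) := by ring
          _ ≤ K₁ * R := by linarith)
    r hrS
  refine hres.trans ?_
  have h2 := hΦle r
  have h3 : 4 * Φ r ≤ 4 * (K₁ * rhoL (r - 1 - s)) := by linarith
  refine h3.trans ?_
  have hρr := hρ (r - 1 - s)
  have e : (4 * ((1 + 16 * Cw) * Cn) + 32 * Cw) * 𝓛 * rhoL (r - 1 - s) =
      4 * (K₁ * rhoL (r - 1 - s)) + 32 * Cw * 𝓛 * rhoL (r - 1 - s) := by
    rw [hK₁]; ring
  rw [e]
  have : 0 ≤ 32 * Cw * 𝓛 * rhoL (r - 1 - s) := by positivity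
  linarith

/-- Sites beyond the end point do not matter. -/
theorem VV_filter (θ : ℝ) (F : ℤ → Word → ℝ) (M : List ℤ) (hM : M.Pairwise (· > ·)) (X : ℤ) (t : Word) :
    VV θ F M X t = VV θ F (M.filter (· ≤ X)) X t := by
  induction M with
  | nil => rfl
  | cons d ds ih =>
    have hP := List.pairwise_cons.mp hM
    by_cases hd : d ≤ X
    · have hall : ∀ e ∈ ds, e ≤ X := fun e he => by
        have := hP.1 e he
        omega
      have e1 : ds.filter (· ≤ X) = ds := List.filter_eq_self.mpr (fun e he => by simpa using hall e he)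
      rw [List.filter_cons_of_pos (by simpa using hd), e1]
    · rw [List.filter_cons_of_neg (by simpa using hd), VV_cons_of_lt θ F d ds (by omega) t]
      exact ih hP.2

/-- The trace law of a block with flipped periods in terms of the expansion. -/
theorem traceProb_eq_piT_VV (h0 : 0 < q) (h1 : q < 1) (s : ℤ) (M : List ℤ) (hM : M.Pairwise (· > ·))
    (hs : ∀ d ∈ M, s < d) (X : ℤ) (hX : s ≤ X) (t : Word) :
    traceProb q (blockStr M.toFinset s (X - s).toNat) t = piT q t * VV (q ^ 2) (F0 (q ^ 2) s) M X t := by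
  have hθ : q ^ 2 ≠ 0 := by positivity
  have hθ1 : 0 < 1 - q ^ 2 := by nlinarith
  set L := M.filter (· ≤ X) with hL
  have hLp : L.Pairwise (· > ·) := hM.filter _
  have hLX : ∀ d ∈ L, s < d ∧ d ≤ X := by
    intro d hd
    obtain ⟨h2, h3⟩ := List.mem_filter.mp hd
    exact ⟨hs d h2, by simpa using h3⟩
  obtain ⟨Z, hZ⟩ : ∃ Z : ℕ, (Z : ℤ) = X - s := ⟨(X - s).toNat, by omega⟩
  have hZt : (X - s).toNat = Z := by omega
  have hblock : blockStr M.toFinset s Z = blockStr L.toFinset s Z := by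
    apply blockStr_congr
    intro i _ hi2
    have h4 : i ≤ X := by omega
    simp only [List.mem_toFinset, hL, List.mem_filter]
    constructor
    · intro h5
      exact ⟨h5, by simpa using h4⟩
    · intro h5
      exact h5.1
  have hchain := chain_eq (q ^ 2) hθ s L hLp X hLX hX t
  rw [UU_eq_VV, ← VV_filter (q ^ 2) (F0 (q ^ 2) s) M hM X t, hZt, ← hblock] at hchain
  rw [hZt, ← hchain]
  set c : ℝ := (cnt (blockStr M.toFinset s Z) t : ℝ) with hc
  rw [traceProb_eq_cnt, length_blockStr, ← hc]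
  by_cases hlen : t.length ≤ 2 * Z
  · -- exponents
    have hzp : (q ^ 2) ^ (X - s - (H t : ℤ)) * (q ^ 2) ^ (H t) = (q ^ 2) ^ Z := by
      rw [← zpow_natCast (q ^ 2) (H t), ← zpow_add₀ hθ, ← zpow_natCast (q ^ 2) Z]
      congr 1
      omega
    set E := (q ^ 2) ^ (X - s - (H t : ℤ)) with hE
    have hq2 : q ^ (2 * Z - t.length) * q ^ t.length = (q ^ 2) ^ Z := by
      rw [← pow_add, ← pow_mul]
      congr 1
      omega
    have hfac : 1 - q ^ 2 = (1 - q) * (1 + q) := by ring
    unfold piT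
    have hqt : q ^ t.length ≠ 0 := by positivity
    apply mul_right_cancel₀ hqt
    have h2H : q ^ (2 * H t) = (q ^ 2) ^ H t := by rw [pow_mul]
    have h3 : (1 - q) ≠ 0 := by linarith
    have h4 : (1 + q) ≠ 0 := by positivity
    have h1q : (1 + q) ^ t.length ≠ 0 := by positivity
    have h1m : (1 - q) ^ t.length ≠ 0 := by positivity
    have h5 : (1 - q ^ 2) ^ (t.length + 1) = (1 - q ^ 2) * ((1 - q) ^ t.length * (1 + q) ^ t.length) := by
      rw [pow_succ, hfac, mul_pow]
      ring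
    have h6 : (1 / (q * (1 + q))) ^ t.length * q ^ t.length * (1 + q) ^ t.length = 1 := by
      rw [div_pow, one_pow, mul_pow]
      field_simp
    have key : (1 - q) ^ t.length * (q ^ (2 * Z - t.length) * q ^ t.length) =
        1 / (1 - q ^ 2) * (1 / (q * (1 + q))) ^ t.length * q ^ (2 * H t) *
          ((1 - q ^ 2) ^ (t.length + 1) * E) * q ^ t.length := by
      rw [hq2, ← hzp, h2H, h5]
      have h7 : 1 / (1 - q ^ 2) * (1 - q ^ 2) = 1 := by field_simp
      calc (1 - q) ^ t.length * (E * (q ^ 2) ^ H t)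
          = (1 - q) ^ t.length * (E * (q ^ 2) ^ H t) * (1 * 1) := by ring
        _ = (1 - q) ^ t.length * (E * (q ^ 2) ^ H t) *
            ((1 / (1 - q ^ 2) * (1 - q ^ 2)) * ((1 / (q * (1 + q))) ^ t.length * q ^ t.length * (1 + q) ^ t.length)) := by
            rw [h7, h6]
        _ = _ := by ring
    linear_combination c * key
  · have hzero : cnt (blockStr M.toFinset s Z) t = 0 := by
      rw [cnt_eq_count]
      apply count_sublists_of_long
      rw [length_blockStr]
      omega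
    rw [hc, hzero]
    simp

end site

section weights

variable {q : ℝ}

theorem MkR_append (g f : Word) : MkR q (g.reverse ++ f) = MkR q f * mkFrom q (lastOf f) g := by
  induction g generalizing f with
  | nil => simp [mkFrom]
  | cons a g ih =>
    have e : (a :: g).reverse ++ f = g.reverse ++ a :: f := by simp
    rw [e, ih, MkR_cons, lastOf_cons]
    simp only [mkFrom]
    ring

theorem MkR_reverse (g : Word) : MkR q g.reverse = mkFrom q true g := by
  have := MkR_append (q := q) g []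
  simpa using this

theorem mkFrom_pos (h0 : 0 < q) (c : Bool) (g : Word) : 0 < mkFrom q c g := by
  induction g generalizing c with
  | nil => simp [mkFrom]
  | cons a g ih =>
    simp only [mkFrom]
    exact mul_pos (flipW_pos h0 _ _) (ih a)

theorem mkFrom_ge (h0 : 0 < q) (h1 : q < 1) (c : Bool) (g : Word) : q * mkFrom q true g ≤ mkFrom q c g := by
  cases g with
  | nil =>
    simp only [mkFrom]
    linarith
  | cons a g =>
    simp only [mkFrom]
    have h2 := mkFrom_pos h0 a g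
    have h3 : q * flipW q true a ≤ flipW q c a := by
      have h5 : 0 < 1 + q := by positivity
      refine le_trans ?_ (flipW_ge h0 h1 c a)
      rw [flipW_eq]
      split_ifs
      · rw [← mul_div_assoc]
        apply div_le_div_of_nonneg_right _ h5.le
        nlinarith
      · rw [mul_one_div]
    calc q * (flipW q true a * mkFrom q a g) = (q * flipW q true a) * mkFrom q a g := by ring
      _ ≤ _ := mul_le_mul_of_nonneg_right h3 h2.le

theorem piT_le_mkFrom (h0 : 0 < q) (h1 : q < 1) (c : Bool) (t : Word) :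
    piT q t ≤ (1 / (q * (1 - q ^ 2))) * mkFrom q c t := by
  have hθ1 : 0 < 1 - q ^ 2 := by nlinarith
  have hcl := MkR_closed h0 t.reverse
  rw [HR_eq, List.reverse_reverse, List.length_reverse, MkR_reverse] at hcl
  have hlf := lf_le_one h1 t.reverse
  have hlf0 := lf_pos h0 t.reverse
  have hmk := mkFrom_pos h0 true t
  have h2 : piT q t = (1 / (1 - q ^ 2)) * (mkFrom q true t * lf q t.reverse) := by
    unfold piT
    rw [← hcl, div_pow, one_pow, mul_pow]
    field_simp
  rw [h2]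
  have h3 : mkFrom q true t * lf q t.reverse ≤ mkFrom q true t := by nlinarith
  have h4 := mkFrom_ge h0 h1 c t
  have h5 : mkFrom q true t ≤ (1 / q) * mkFrom q c t := by
    rw [div_mul_eq_mul_div, one_mul, le_div_iff₀ h0]
    linarith
  calc (1 / (1 - q ^ 2)) * (mkFrom q true t * lf q t.reverse)
      ≤ (1 / (1 - q ^ 2)) * ((1 / q) * mkFrom q c t) :=
        mul_le_mul_of_nonneg_left (h3.trans h5) (by positivity)
    _ = _ := by
      field_simp

/-- The energy of a string seen from the Markov weight. -/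
noncomputable def QE (q : ℝ) (c : Bool) (n : ℕ) (y : Word) : ℝ :=
  ∑ g ∈ W n, traceProb q y g ^ 2 / mkFrom q c g

theorem QE_nonneg (h0 : 0 < q) (c : Bool) (n : ℕ) (y : Word) : 0 ≤ QE q c n y := by
  unfold QE
  apply sum_nonneg
  intro g _
  have := mkFrom_pos h0 c g
  positivity

theorem headPart_nonneg (h0 : 0 < q) (h1 : q < 1) (c : Bool) (y t : Word) :
    0 ≤ headPart c (traceProb q y) t := by
  cases t with
  | nil => exact le_rfl
  | cons a s =>
    simp only [headPart]
    split_ifs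
    · exact traceProb_nonneg h0 h1 _ _
    · exact le_rfl

/-- Removing a first letter. -/
theorem QE_tail (h0 : 0 < q) (h1 : q < 1) (c a : Bool) (n : ℕ) (y : Word) :
    QE q c n y ≤ (1 / q ^ 2) * QE q c n (a :: y) := by
  unfold QE
  rw [mul_sum]
  apply sum_le_sum
  intro g _
  have hm := mkFrom_pos h0 c g
  have h2 : q * traceProb q y g ≤ traceProb q (a :: y) g := by
    rw [traceProb_cons]
    have h3 := headPart_nonneg h0 h1 a y g
    have h4 : 0 ≤ (1 - q) * headPart a (traceProb q y) g := mul_nonneg (by linarith) h3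
    linarith
  have h5 := traceProb_nonneg h0 h1 y g
  have h6 : (q * traceProb q y g) ^ 2 ≤ traceProb q (a :: y) g ^ 2 :=
    pow_le_pow_left₀ (by positivity) h2 2
  have h7 : traceProb q y g ^ 2 ≤ (1 / q ^ 2) * traceProb q (a :: y) g ^ 2 := by
    rw [div_mul_eq_mul_div, one_mul, le_div_iff₀ (by positivity)]
    calc traceProb q y g ^ 2 * q ^ 2 = (q * traceProb q y g) ^ 2 := by ring
      _ ≤ _ := h6
  calc traceProb q y g ^ 2 / mkFrom q c g ≤ ((1 / q ^ 2) * traceProb q (a :: y) g ^ 2) / mkFrom q c g :=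
        div_le_div_of_nonneg_right h7 hm.le
    _ = _ := by ring

theorem mkFrom_concat (h0 : 0 < q) (h1 : q < 1) (c a : Bool) (g : Word) :
    q / (1 + q) * mkFrom q c g ≤ mkFrom q c (g ++ [a]) := by
  induction g generalizing c with
  | nil =>
    simp only [List.nil_append, mkFrom, mul_one]
    exact flipW_ge h0 h1 c a
  | cons b g ih =>
    simp only [List.cons_append, mkFrom]
    have h2 := ih b
    have h3 := flipW_pos h0 c b
    calc q / (1 + q) * (flipW q c b * mkFrom q b g) = flipW q c b * (q / (1 + q) * mkFrom q b g) := by ring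
      _ ≤ _ := mul_le_mul_of_nonneg_left h2 h3.le

/-- Adding a last letter. -/
theorem QE_concat (h0 : 0 < q) (h1 : q < 1) (c a : Bool) (n : ℕ) (y : Word) :
    QE q c n (y ++ [a]) ≤ (2 + 2 * ((1 + q) / q)) * QE q c n y := by
  have hq1 : 0 < 1 - q := by linarith
  have hA : ∀ g ∈ W n, traceProb q (y ++ [a]) g ^ 2 / mkFrom q c g ≤
      2 * (traceProb q y g ^ 2 / mkFrom q c g) +
      2 * (lastPart a (fun g' => traceProb q y g' ^ 2 / (q / (1 + q) * mkFrom q c g')) g) := by
    intro g _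
    have hm := mkFrom_pos h0 c g
    rw [traceProb_concat]
    have ht := traceProb_nonneg h0 h1 y g
    by_cases hs : g.getLast? = some a
    · have hg : g.dropLast ++ [a] = g := List.dropLast_append_getLast? _ hs
      obtain ⟨s, hs'⟩ : ∃ s, s = g.dropLast := ⟨_, rfl⟩
      rw [← hs'] at hg
      subst hg
      rw [lastPart_append, lastPart_append]
      have hts := traceProb_nonneg h0 h1 y s
      have hmc := mkFrom_concat h0 h1 c a s
      have hms := mkFrom_pos h0 c s
      have hq' : 0 < q / (1 + q) * mkFrom q c s := by positivity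
      have h3 : (q * traceProb q y (s ++ [a]) + (1 - q) * traceProb q y s) ^ 2 ≤
          2 * traceProb q y (s ++ [a]) ^ 2 + 2 * traceProb q y s ^ 2 := by
        have h4 : q * traceProb q y (s ++ [a]) + (1 - q) * traceProb q y s ≤
            traceProb q y (s ++ [a]) + traceProb q y s := by
          have := traceProb_nonneg h0 h1 y (s ++ [a])
          nlinarith
        have h5 : (q * traceProb q y (s ++ [a]) + (1 - q) * traceProb q y s) ^ 2 ≤
            (traceProb q y (s ++ [a]) + traceProb q y s) ^ 2 :=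
          pow_le_pow_left₀ (by
            have := traceProb_nonneg h0 h1 y (s ++ [a])
            positivity) h4 2
        nlinarith [sq_nonneg (traceProb q y (s ++ [a]) - traceProb q y s)]
      calc (q * traceProb q y (s ++ [a]) + (1 - q) * traceProb q y s) ^ 2 / mkFrom q c (s ++ [a])
          ≤ (2 * traceProb q y (s ++ [a]) ^ 2 + 2 * traceProb q y s ^ 2) / mkFrom q c (s ++ [a]) :=
            div_le_div_of_nonneg_right h3 hm.le
        _ = 2 * (traceProb q y (s ++ [a]) ^ 2 / mkFrom q c (s ++ [a])) +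
            2 * (traceProb q y s ^ 2 / mkFrom q c (s ++ [a])) := by ring
        _ ≤ _ := by
            have h6 : traceProb q y s ^ 2 / mkFrom q c (s ++ [a]) ≤
                traceProb q y s ^ 2 / (q / (1 + q) * mkFrom q c s) :=
              div_le_div_of_nonneg_left (by positivity) hq' hmc
            linarith
    · have hl : lastPart a (traceProb q y) g = 0 := by
        unfold lastPart
        rw [if_neg hs]
      have hl2 : lastPart a (fun g' => traceProb q y g' ^ 2 / (q / (1 + q) * mkFrom q c g')) g = 0 := by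
        unfold lastPart
        rw [if_neg hs]
      rw [hl, hl2, mul_zero, add_zero, mul_zero, add_zero]
      have h3 : (q * traceProb q y g) ^ 2 ≤ 2 * traceProb q y g ^ 2 := by
        have : (q * traceProb q y g) ^ 2 = q ^ 2 * traceProb q y g ^ 2 := by ring
        rw [this]
        have hq2 : q ^ 2 ≤ 1 := by nlinarith
        nlinarith [sq_nonneg (traceProb q y g)]
      calc (q * traceProb q y g) ^ 2 / mkFrom q c g ≤ (2 * traceProb q y g ^ 2) / mkFrom q c g :=
            div_le_div_of_nonneg_right h3 hm.le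
        _ = _ := by ring
  have hlastPart : ∀ (f : Word → ℝ), (∀ s, 0 ≤ f s) → ∑ g ∈ W n, lastPart a f g ≤ ∑ s ∈ W n, f s := by
    intro f hf
    have h2 := lastPart_sum a f n
    have hsub : W n ⊆ W (n + 1) := W_mono (by omega)
    refine le_trans (sum_le_sum_of_subset_of_nonneg hsub ?_) (le_of_eq h2)
    intro s _ _
    unfold lastPart
    split_ifs
    · exact hf _
    · exact le_rfl
  unfold QE
  refine (sum_le_sum hA).trans ?_
  rw [sum_add_distrib, ← mul_sum, ← mul_sum]
  have h3 := hlastPart (fun g' => traceProb q y g' ^ 2 / (q / (1 + q) * mkFrom q c g')) (by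
    intro s
    have := mkFrom_pos h0 c s
    positivity)
  have e : ∑ s ∈ W n, traceProb q y s ^ 2 / (q / (1 + q) * mkFrom q c s) =
      ((1 + q) / q) * ∑ g ∈ W n, traceProb q y g ^ 2 / mkFrom q c g := by
    rw [mul_sum]
    apply sum_congr rfl
    intro s _
    have := mkFrom_pos h0 c s
    field_simp
  rw [e] at h3
  have h4 : 0 ≤ ∑ g ∈ W n, traceProb q y g ^ 2 / mkFrom q c g := by
    apply sum_nonneg
    intro g _
    have := mkFrom_pos h0 c g
    positivity
  nlinarith

/-- The energy of a block in terms of the norm of the expansion. -/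
theorem QE_le_nsq (h0 : 0 < q) (h1 : q < 1) (c : Bool) (n B₀ : ℕ) (hn : n ≤ B₀) (s : ℤ) (M : List ℤ)
    (hM : M.Pairwise (· > ·)) (hs : ∀ d ∈ M, s < d) (X : ℤ) (hX : s ≤ X) :
    QE q c n (blockStr M.toFinset s (X - s).toNat) ≤
      (1 / (q * (1 - q ^ 2))) * nsq q B₀ (VV (q ^ 2) (F0 (q ^ 2) s) M X) := by
  have hθ1 : 0 < 1 - q ^ 2 := by nlinarith
  refine le_trans ?_ (mul_le_mul_of_nonneg_left (nsq_mono h0 h1 hn _) (by positivity))
  unfold QE nsq
  rw [mul_sum]
  apply sum_le_sum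
  intro g _
  rw [traceProb_eq_piT_VV h0 h1 s M hM hs X hX g]
  have hm := mkFrom_pos h0 c g
  have hp := piT_pos h0 h1 g
  have hle := piT_le_mkFrom h0 h1 c g
  rw [div_le_iff₀ hm]
  set v := VV (q ^ 2) (F0 (q ^ 2) s) M X g with hv
  have e : (piT q g * v) ^ 2 = piT q g * v ^ 2 * piT q g := by ring
  rw [e]
  have e2 : 1 / (q * (1 - q ^ 2)) * (piT q g * v ^ 2) * mkFrom q c g =
      piT q g * v ^ 2 * ((1 / (q * (1 - q ^ 2))) * mkFrom q c g) := by ring
  rw [e2]
  exact mul_le_mul_of_nonneg_left hle (by positivity)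

/-- The string after a position of the form `2 s`. -/
theorem drop_Xb_even (D : Finset ℤ) (s Z : ℕ) :
    (Xb (xD D) (2 * (s + Z))).drop (2 * s) = blockStr D (s : ℤ) Z := by
  rw [Xb_even, blockStr_add, zero_add]
  apply List.drop_left'
  exact length_blockStr _ _ _

/-- The energy at a run end before a site, from any position far enough. -/
theorem QE_before_site (h0 : 0 < q) (h1 : q < 1) (c : Bool) (n : ℕ) (D : Finset ℤ) (b Z : ℕ)
    (hZ : 1 ≤ Z) :
    QE q c n ((Xb (xD D) (2 * (b / 2 + Z))).drop b) ≤ (1 / q ^ 2) * QE q c n (blockStr D ((b / 2 : ℕ) : ℤ) Z) := by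
  set s := b / 2 with hs
  have hq2 : 1 ≤ 1 / q ^ 2 := by
    rw [le_div_iff₀ (by positivity)]
    nlinarith
  have hQ := QE_nonneg h0 c n (blockStr D (s : ℤ) Z)
  rcases Nat.even_or_odd' b with ⟨k, rfl | rfl⟩
  · have e : 2 * k / 2 = k := by omega
    rw [hs, e, drop_Xb_even]
    have hQ' := QE_nonneg h0 c n (blockStr D (k : ℤ) Z)
    nlinarith
  · have e : (2 * k + 1) / 2 = k := by omega
    rw [hs, e]
    have hlen : 2 * k < (Xb (xD D) (2 * (k + Z))).length := by
      rw [length_Xb]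
      omega
    have h2 := drop_Xb_even D k Z
    rw [List.drop_eq_getElem_cons hlen] at h2
    rw [← h2]
    exact QE_tail h0 h1 c _ n _

/-- The energy one run end later. -/
theorem QE_later (h0 : 0 < q) (h1 : q < 1) (c : Bool) (n : ℕ) (x : ℕ → Bool) (b T : ℕ) (hb : b ≤ T) :
    QE q c n ((Xb x (T + 2)).drop b) ≤ (2 + 2 * ((1 + q) / q)) ^ 2 * QE q c n ((Xb x T).drop b) := by
  have hC : 0 ≤ 2 + 2 * ((1 + q) / q) := by positivity
  rw [drop_Xb_succ x (by omega : b ≤ T + 1), drop_Xb_succ x hb, sq, mul_assoc]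
  refine (QE_concat h0 h1 c _ n _).trans ?_
  exact mul_le_mul_of_nonneg_left (QE_concat h0 h1 c _ n _) hC

/-- The energies of the far run ends sum up to little. -/
theorem far_energy (h0 : 0 < q) (h1 : q < 1) :
    ∃ C : ℝ, 0 < C ∧ ∀ (δ Lm N n : ℕ) (𝓛 : ℝ) (D : Finset ℤ) (b : ℕ),
      1 ≤ δ → (∀ d ∈ D, 1 ≤ d) → Spaced D δ → (∀ d ∈ D, ∀ d' ∈ D, |d - d'| ≤ Lm) → 1 ≤ 𝓛 →
      (∑ j ∈ range (Lm + 3), 1 / ((j : ℝ) + 1) ≤ 𝓛) → (1 / (δ : ℝ)) * √((Lm : ℝ) + 1) ≤ 1 →
      C * 𝓛 * (√(D.card : ℝ) * (1 / √(δ : ℝ))) ≤ 1 →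
      ∑ e ∈ (runEnds (xD D) N).filter (fun e => b + 2 * δ < e), QE q (xD D b) n ((Xb (xD D) e).drop b) ≤
        C * 𝓛 * (√(D.card : ℝ) * (1 / √(δ : ℝ))) := by
  obtain ⟨C₁, hC₁, hsite⟩ := VV_site_bound h0 h1
  have hθ1 : 0 < 1 - q ^ 2 := by nlinarith
  set Ca : ℝ := (2 + 2 * ((1 + q) / q)) ^ 2 with hCa
  have hCa0 : 0 ≤ Ca := by positivity
  set K : ℝ := (1 / q ^ 2) * ((1 / (q * (1 - q ^ 2))) * C₁) with hK
  have hK0 : 0 < K := by positivity
  refine ⟨C₁ + 2 * ((Ca + 1) * K), by positivity, ?_⟩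
  intro δ Lm N n 𝓛 D b hδ hD1 hsp hLm h𝓛 hharm hzone hsmall
  set x := xD D with hx
  set c := x b with hc
  set a : ℝ := 1 / √(δ : ℝ) with ha
  have ha0 : 0 ≤ a := by positivity
  have hk0 : 0 ≤ √(D.card : ℝ) := Real.sqrt_nonneg _
  have h𝓛0 : 0 < 𝓛 := by linarith
  have hsmall₁ : C₁ * 𝓛 * (√(D.card : ℝ) * a) ≤ 1 := by
    refine le_trans ?_ hsmall
    apply mul_le_mul_of_nonneg_right _ (by positivity)
    apply mul_le_mul_of_nonneg_right _ h𝓛0.le
    have : 0 ≤ 2 * ((Ca + 1) * K) := by positivity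
    linarith
  set s : ℕ := b / 2 with hs
  set G : ℕ → ℝ := fun e => QE q c n ((Xb x e).drop b) with hG
  have hG0 : ∀ e, 0 ≤ G e := fun e => QE_nonneg h0 c n _
  set Dp := D.filter (fun d => (s : ℤ) < d) with hDp
  set R := D.filter (fun d => (b : ℤ) + 2 * δ < 2 * d) with hR
  have hRDp : R ⊆ Dp := by
    intro d hd
    obtain ⟨h2, h3⟩ := mem_filter.mp hd
    refine mem_filter.mpr ⟨h2, ?_⟩
    have : 2 * s ≤ b := by omega
    have h4 : (2 : ℤ) * s ≤ b := by exact_mod_cast this
    have h5 : (0 : ℤ) ≤ δ := by positivity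
    omega
  -- the pointwise bound
  have hpt : ∀ r ∈ R, G (2 * r.toNat) + G (2 * r.toNat - 2) ≤ (Ca + 1) * K * 𝓛 * rhoL (r - (s + 1)) := by
    intro r hr
    obtain ⟨hrD, hrb⟩ := mem_filter.mp hr
    have hrDp := hRDp hr
    have hne : Dp.Nonempty := ⟨r, hrDp⟩
    have hr1 := hD1 r hrD
    obtain ⟨T, hT⟩ : ∃ T : ℕ, (T : ℤ) = r := ⟨r.toNat, by omega⟩
    have hrT : r.toNat = T := by omega
    rw [hrT]
    have hbs : 2 * s ≤ b ∧ b ≤ 2 * s + 1 := by omega
    have hsT : s + δ < T := by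
      have h2 : (b : ℤ) + 2 * δ < 2 * T := by rw [hT]; exact hrb
      have h3 : b + 2 * δ < 2 * T := by exact_mod_cast h2
      omega
    obtain ⟨Z, hZ⟩ : ∃ Z, T = s + Z + 1 := ⟨T - s - 1, by omega⟩
    have hZ1 : 1 ≤ Z := by omega
    have e2 : 2 * T - 2 = 2 * (s + Z) := by omega
    have hbT : b ≤ 2 * (s + Z) := by omega
    have e3 : 2 * T = 2 * (s + Z) + 2 := by omega
    rw [e3, Nat.add_sub_cancel]
    have hlater : G (2 * (s + Z) + 2) ≤ Ca * G (2 * (s + Z)) := QE_later h0 h1 c n x b _ hbT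
    -- the list of the sites after `s`
    set M := Dp.sort (· ≥ ·) with hM
    have hMp : M.Pairwise (· > ·) := by
      have h2 := (Dp.pairwise_sort (· ≥ ·)).and (Dp.sort_nodup (· ≥ ·))
      refine h2.imp ?_
      rintro u v ⟨h3, h4⟩
      exact lt_of_le_of_ne h3 (Ne.symm h4)
    have hMf : M.toFinset = Dp := Dp.sort_toFinset (· ≥ ·)
    have hMm : ∀ d, d ∈ M ↔ d ∈ Dp := fun d => by
      rw [← List.mem_toFinset, hMf]
    have hMs : ∀ d ∈ M, (s : ℤ) < d := fun d hd => (mem_filter.mp ((hMm d).mp hd)).2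
    have hMD : ∀ d ∈ M, d ∈ D := fun d hd => (mem_filter.mp ((hMm d).mp hd)).1
    set B₀ : ℕ := n + 2 * D.sup Int.toNat with hB₀
    have hsup : ∀ d ∈ D, d ≤ (D.sup Int.toNat : ℕ) := by
      intro d hd
      have h2 : d.toNat ≤ D.sup Int.toNat := Finset.le_sup (f := Int.toNat) hd
      have h3 := hD1 d hd
      omega
    set I₀ := Dp.min' hne with hI₀
    have hI₀m : I₀ ∈ Dp := Dp.min'_mem hne
    have hI₀s : (s : ℤ) < I₀ := (mem_filter.mp hI₀m).2
    have hI₀D : I₀ ∈ D := (mem_filter.mp hI₀m).1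
    have hlen : M.length ≤ D.card := by
      rw [hM, Finset.length_sort]
      exact card_le_card (filter_subset _ _)
    have hsb := hsite δ D.card Lm B₀ 𝓛 (s : ℤ) I₀ M hδ hMp (by
        rw [hMf]
        exact hsp.mono (filter_subset _ _)) hlen hI₀s.le
      (by
        intro d hd
        have hdD := hMD d hd
        have hdDp := (hMm d).mp hd
        refine ⟨Dp.min'_le d hdDp, ?_, ?_, ?_⟩
        · have := hLm d hdD I₀ hI₀D
          have h3 := (abs_le.mp this).2
          omega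
        · have := hMs d hd
          omega
        · have := hsup d hdD
          have h3 := hMs d hd
          have h4 := hD1 d hdD
          rw [hB₀]
          push_cast
          have h5 : (0 : ℤ) ≤ n := by positivity
          have h6 : (0 : ℤ) ≤ s := by positivity
          omega)
      h𝓛 hharm hzone hsmall₁ r ((hMm r).mpr hrDp)
    have hq := QE_le_nsq h0 h1 c n B₀ (by omega) (s : ℤ) M hMp hMs (r - 1) (by omega)
    have hZt : (r - 1 - (s : ℤ)).toNat = Z := by
      rw [← hT, hZ]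
      push_cast
      omega
    rw [hZt] at hq
    have hblock : blockStr D (s : ℤ) Z = blockStr M.toFinset (s : ℤ) Z := by
      rw [hMf]
      apply blockStr_congr
      intro i hi _
      simp only [hDp, mem_filter]
      constructor
      · intro h5
        exact ⟨h5, hi⟩
      · intro h5
        exact h5.1
    have hbefore := QE_before_site h0 h1 c n D b Z hZ1
    rw [← hs, hblock] at hbefore
    have hρ := rhoL_nonneg (r - (s + 1))
    have e5 : r - 1 - (s : ℤ) = r - ((s : ℤ) + 1) := by ring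
    rw [e5] at hsb
    have hfin : G (2 * (s + Z)) ≤ K * 𝓛 * rhoL (r - (s + 1)) := by
      have h6 : (1 / (q * (1 - q ^ 2))) * nsq q B₀ (VV (q ^ 2) (F0 (q ^ 2) (s : ℤ)) M (r - 1)) ≤
          (1 / (q * (1 - q ^ 2))) * (C₁ * 𝓛 * rhoL (r - (s + 1))) :=
        mul_le_mul_of_nonneg_left hsb (by positivity)
      have h7 := mul_le_mul_of_nonneg_left (hq.trans h6) (by positivity : 0 ≤ 1 / q ^ 2)
      refine hbefore.trans (h7.trans (le_of_eq ?_))
      rw [hK]
      ring
    have hfin0 := hG0 (2 * (s + Z))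
    calc G (2 * (s + Z) + 2) + G (2 * (s + Z)) ≤ Ca * G (2 * (s + Z)) + G (2 * (s + Z)) := by linarith
      _ = (Ca + 1) * G (2 * (s + Z)) := by ring
      _ ≤ (Ca + 1) * (K * 𝓛 * rhoL (r - (s + 1))) := mul_le_mul_of_nonneg_left hfin (by positivity)
      _ = _ := by ring
  -- the covering of the run ends
  have hcover : (runEnds x N).filter (fun e => b + 2 * δ < e) ⊆
      R.biUnion (fun r => {2 * r.toNat, 2 * r.toNat - 2}) := by
    intro e he
    obtain ⟨he1, he2⟩ := mem_filter.mp he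
    obtain ⟨T, rfl, hT⟩ := runEnds_xD D N e he1
    rw [mem_biUnion]
    rcases hT with hT | hT
    · refine ⟨(T : ℤ), mem_filter.mpr ⟨hT, ?_⟩, by simp⟩
      have : ((b + 2 * δ : ℕ) : ℤ) < ((2 * T : ℕ) : ℤ) := by exact_mod_cast he2
      push_cast at this
      exact this
    · refine ⟨((T + 1 : ℕ) : ℤ), mem_filter.mpr ⟨hT, ?_⟩, ?_⟩
      · have : ((b + 2 * δ : ℕ) : ℤ) < ((2 * T : ℕ) : ℤ) := by exact_mod_cast he2
        push_cast at this ⊢
        omega
      · simp only [Int.toNat_natCast, mem_insert, mem_singleton]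
        right
        omega
  refine (sum_le_sum_of_subset_of_nonneg hcover (fun e _ _ => hG0 e)).trans ?_
  refine (sum_biUnion_le_sum _ _ hG0).trans ?_
  have hpair : ∀ r ∈ R, ∑ e ∈ ({2 * r.toNat, 2 * r.toNat - 2} : Finset ℕ), G e ≤
      (Ca + 1) * K * 𝓛 * rhoL (r - (s + 1)) := by
    intro r hr
    have hr1 := hD1 r (mem_filter.mp hr).1
    have hne : 2 * r.toNat ≠ 2 * r.toNat - 2 := by omega
    rw [sum_pair hne]
    exact hpt r hr
  refine (sum_le_sum hpair).trans ?_
  rw [← mul_sum]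
  have hsum : ∑ r ∈ R, rhoL (r - (s + 1)) ≤ 2 * √(D.card : ℝ) * a := by
    apply spaced_rho1_right hδ (hsp.mono (filter_subset _ _)) (card_le_card (filter_subset _ _))
    intro r hr
    obtain ⟨_, hrb⟩ := mem_filter.mp hr
    have h2 : 2 * s ≤ b := by omega
    have h3 : (2 : ℤ) * s ≤ b := by exact_mod_cast h2
    omega
  have hC : 0 ≤ (Ca + 1) * K * 𝓛 := by positivity
  calc (Ca + 1) * K * 𝓛 * ∑ r ∈ R, rhoL (r - (s + 1)) ≤ (Ca + 1) * K * 𝓛 * (2 * √(D.card : ℝ) * a) :=
        mul_le_mul_of_nonneg_left hsum hC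
    _ = 2 * ((Ca + 1) * K) * 𝓛 * (√(D.card : ℝ) * a) := by ring
    _ ≤ _ := by
        apply mul_le_mul_of_nonneg_right _ (by positivity)
        apply mul_le_mul_of_nonneg_right _ h𝓛0.le
        linarith

end weights

end Vale.Agent.Lib.P321
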