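import Vale.Agent.Lib.P321.QVEnergy

/-!
P321, lower tail module, second version: bound for the expected future sum of squares along good words.
-/

namespace Vale.Agent.Lib.P321

open Finset

section unroll

variable {q : ℝ}

theorem sum_mkFrom_Weq (h0 : 0 < q) (c : Bool) (l : ℕ) : ∑ g ∈ Weq l, mkFrom q c g = 1 := by
  induction l generalizing c with
  | zero => simp [Weq, mkFrom]
  | succ l ih =>
    rw [sum_Weq_step]
    simp only [mkFrom]
    rw [sum_add_distrib, ← mul_sum, ← mul_sum, ih, ih, mul_one, mul_one]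
    exact flipW_sum h0 c

theorem sum_mkFrom_W (h0 : 0 < q) (c : Bool) (n : ℕ) : ∑ g ∈ W n, mkFrom q c g = (n : ℝ) + 1 := by
  rw [sum_W]
  simp only [sum_mkFrom_Weq h0]
  simp

namespace HMM

variable {ι : Type*} (C : HMM q ι) (Λ : ℝ) (Aux : Word → Prop)

theorem Up_unroll_range (n : ℕ) (f : Word) :
    C.Up Λ Aux n f = ∑ l ∈ range (n + 1), ∑ g ∈ Weq l, mkFrom q (lastOf f) g * C.Yq Λ Aux (g.reverse ++ f) := by
  induction n generalizing f with
  | zero => simp [Up, Weq, mkFrom]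
  | succ n ih =>
    rw [Up_succ, ih (false :: f), ih (true :: f),
      sum_range_succ' (fun l => ∑ g ∈ Weq l, mkFrom q (lastOf f) g * C.Yq Λ Aux (g.reverse ++ f)) (n + 1)]
    have hz : ∑ g ∈ Weq 0, mkFrom q (lastOf f) g * C.Yq Λ Aux (g.reverse ++ f) = C.Yq Λ Aux f := by
      simp [Weq, mkFrom]
    rw [hz, add_comm]
    congr 1
    simp only [lastOf_cons]
    rw [mul_sum, mul_sum, ← sum_add_distrib]
    apply sum_congr rfl
    intro l _
    rw [sum_Weq_step, mul_sum, mul_sum, ← sum_add_distrib]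
    apply sum_congr rfl
    intro g _
    simp only [mkFrom, List.reverse_cons, List.append_assoc, List.singleton_append]
    ring

theorem Up_unroll (n : ℕ) (f : Word) :
    C.Up Λ Aux n f = ∑ g ∈ W n, mkFrom q (lastOf f) g * C.Yq Λ Aux (g.reverse ++ f) := by
  rw [Up_unroll_range, sum_W]

end HMM

end unroll

section nearfar

variable {q : ℝ}

/-- Weighted Cauchy inequality. -/
theorem cauchy_weighted {α : Type*} (s : Finset α) (w t : α → ℝ) (hw : ∀ i ∈ s, 0 ≤ w i) :
    (∑ i ∈ s, w i * t i) ^ 2 ≤ (∑ i ∈ s, w i) * ∑ i ∈ s, w i * t i ^ 2 := by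
  apply Finset.sum_sq_le_sum_mul_sum_of_sq_eq_mul
  · exact hw
  · intro i hi
    have := hw i hi
    positivity
  · intro i _
    ring

/-- The abstract estimate with a near and a far part. -/
theorem nf_abstract {N : ℕ} {E : Finset ℕ} (hE : ∀ e ∈ E, e < N) (w : ℕ → ℝ) (hw : ∀ b, 0 ≤ w b) {Pr : ℝ}
    (hPr : ∑ b ∈ range (N + 1), w b ≤ Pr) (𝒢 : Finset Word) (m : Word → ℝ) (hm : ∀ g, 0 < m g) {Mf : ℝ} (hMf : 0 < Mf)
    (T : ℕ → ℕ → Word → ℝ) (hT0 : ∀ b e g, 0 ≤ T b e g) (hT1 : ∀ b e, ∑ g ∈ 𝒢, T b e g ≤ 1) (δ' : ℕ) {S NN mb : ℝ}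
    (hS0 : 0 ≤ S) (hmb0 : 0 ≤ mb)
    (hQ : ∀ b ∈ range (N + 1), w b ≠ 0 → ∑ e ∈ E.filter (fun e => b + 2 * δ' < e), ∑ g ∈ 𝒢, T b e g ^ 2 / m g ≤ S)
    (hNN : ∀ b, ((E.filter (fun e => b ≤ e ∧ e ≤ b + 2 * δ')).card : ℝ) ≤ NN)
    (G : Word → Prop) [DecidablePred G]
    (hG : ∀ g ∈ 𝒢, G g → ∀ e ∈ E, ∑ b ∈ range (e + 1), w b * T b e g ≤ 2 * mb * Mf * m g) :
    ∑ e ∈ E, ∑ g ∈ 𝒢, (if G g then m g * ((∑ b ∈ range (e + 1), w b * T b e g) / (Mf * m g)) ^ 2 else 0) ≤
      2 * (2 * mb / Mf) * (NN * Pr) + 2 * (Pr / Mf ^ 2) * (Pr * S) := by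
  have hPr0 : 0 ≤ Pr := le_trans (sum_nonneg (fun b _ => hw b)) hPr
  set Nn : ℕ → Word → ℝ := fun e g => ∑ b ∈ (range (e + 1)).filter (fun b => e ≤ b + 2 * δ'), w b * T b e g with hNn
  set Fr : ℕ → ℕ → Word → ℝ := fun e b g => if b + 2 * δ' < e then w b * (T b e g ^ 2 / m g) else 0 with hFr
  have hnn : ∀ b e g, 0 ≤ w b * T b e g := fun b e g => mul_nonneg (hw b) (hT0 b e g)
  have hterm : ∀ e ∈ E, ∀ g ∈ 𝒢, (if G g then m g * ((∑ b ∈ range (e + 1), w b * T b e g) / (Mf * m g)) ^ 2 else 0) ≤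
      2 * (2 * mb / Mf) * Nn e g + 2 * (Pr / Mf ^ 2) * ∑ b ∈ range (e + 1), Fr e b g := by
    intro e he g hg
    have hmg := hm g
    have hNn0 : 0 ≤ Nn e g := sum_nonneg (fun b _ => hnn b e g)
    have hFr0 : ∀ b, 0 ≤ Fr e b g := by
      intro b
      simp only [hFr]
      have := hw b
      split_ifs <;> positivity
    have hFrS : 0 ≤ ∑ b ∈ range (e + 1), Fr e b g := sum_nonneg (fun b _ => hFr0 b)
    have hrhs : 0 ≤ 2 * (2 * mb / Mf) * Nn e g + 2 * (Pr / Mf ^ 2) * ∑ b ∈ range (e + 1), Fr e b g := by positivity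
    split_ifs with hGg
    swap
    · exact hrhs
    set Ff : ℝ := ∑ b ∈ (range (e + 1)).filter (fun b => ¬ e ≤ b + 2 * δ'), w b * T b e g with hFf
    have hFf0 : 0 ≤ Ff := sum_nonneg (fun b _ => hnn b e g)
    have hsplit : ∑ b ∈ range (e + 1), w b * T b e g = Nn e g + Ff :=
      (sum_filter_add_sum_filter_not _ _ _).symm
    rw [hsplit]
    have hNb := hG g hg hGg e he
    rw [hsplit] at hNb
    have hNle : Nn e g ≤ 2 * mb * Mf * m g := by linarith
    -- the near part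
    have hnear : m g * (Nn e g / (Mf * m g)) ^ 2 ≤ (2 * mb / Mf) * Nn e g := by
      have e1 : m g * (Nn e g / (Mf * m g)) ^ 2 = Nn e g * Nn e g / (Mf ^ 2 * m g) := by
        field_simp
      rw [e1, div_le_iff₀ (by positivity)]
      have e2 : (2 * mb / Mf) * Nn e g * (Mf ^ 2 * m g) = Nn e g * (2 * mb * Mf * m g) := by
        field_simp
      rw [e2]
      exact mul_le_mul_of_nonneg_left hNle hNn0
    -- the far part
    have hfar : m g * (Ff / (Mf * m g)) ^ 2 ≤ (Pr / Mf ^ 2) * ∑ b ∈ range (e + 1), Fr e b g := by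
      have e1 : m g * (Ff / (Mf * m g)) ^ 2 = Ff ^ 2 / (Mf ^ 2 * m g) := by
        field_simp
      rw [e1]
      have hc := cauchy_weighted ((range (e + 1)).filter (fun b => ¬ e ≤ b + 2 * δ')) w (fun b => T b e g)
        (fun b _ => hw b)
      have hsub : ∑ b ∈ (range (e + 1)).filter (fun b => ¬ e ≤ b + 2 * δ'), w b ≤ Pr := by
        refine le_trans ?_ hPr
        apply sum_le_sum_of_subset_of_nonneg
        · intro b hb
          have := (mem_filter.mp hb).1
          have h2 := hE e he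
          rw [mem_range] at this ⊢
          omega
        · intro b _ _
          exact hw b
      have hS2 : 0 ≤ ∑ b ∈ (range (e + 1)).filter (fun b => ¬ e ≤ b + 2 * δ'), w b * T b e g ^ 2 :=
        sum_nonneg (fun b _ => mul_nonneg (hw b) (by positivity))
      have h2 : Ff ^ 2 ≤ Pr * ∑ b ∈ (range (e + 1)).filter (fun b => ¬ e ≤ b + 2 * δ'), w b * T b e g ^ 2 :=
        hc.trans (mul_le_mul_of_nonneg_right hsub hS2)
      have h3 : ∑ b ∈ range (e + 1), Fr e b g =
          (∑ b ∈ (range (e + 1)).filter (fun b => ¬ e ≤ b + 2 * δ'), w b * T b e g ^ 2) / m g := by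
        rw [sum_filter, sum_div]
        apply sum_congr rfl
        intro b _
        simp only [hFr, not_le]
        split_ifs
        · ring
        · simp
      rw [h3, div_le_iff₀ (by positivity)]
      calc Ff ^ 2 ≤ _ := h2
        _ = _ := by field_simp
    have hsq : m g * ((Nn e g + Ff) / (Mf * m g)) ^ 2 ≤
        2 * (m g * (Nn e g / (Mf * m g)) ^ 2) + 2 * (m g * (Ff / (Mf * m g)) ^ 2) := by
      have e1 : (Nn e g + Ff) / (Mf * m g) = Nn e g / (Mf * m g) + Ff / (Mf * m g) := add_div _ _ _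
      rw [e1]
      set u := Nn e g / (Mf * m g)
      set v := Ff / (Mf * m g)
      have : (u + v) ^ 2 ≤ 2 * u ^ 2 + 2 * v ^ 2 := by nlinarith [sq_nonneg (u - v)]
      calc m g * (u + v) ^ 2 ≤ m g * (2 * u ^ 2 + 2 * v ^ 2) := mul_le_mul_of_nonneg_left this hmg.le
        _ = _ := by ring
    calc _ ≤ _ := hsq
      _ ≤ 2 * ((2 * mb / Mf) * Nn e g) + 2 * ((Pr / Mf ^ 2) * ∑ b ∈ range (e + 1), Fr e b g) := by linarith
      _ = _ := by ring
  refine (sum_le_sum (fun e he => sum_le_sum (hterm e he))).trans ?_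
  simp only [sum_add_distrib, ← mul_sum]
  have h2m : 0 ≤ 2 * (2 * mb / Mf) := by positivity
  have hPM : 0 ≤ 2 * (Pr / Mf ^ 2) := by positivity
  apply add_le_add
  · apply mul_le_mul_of_nonneg_left _ h2m
    have h1 : ∀ e ∈ E, ∑ g ∈ 𝒢, Nn e g ≤ ∑ b ∈ (range (e + 1)).filter (fun b => e ≤ b + 2 * δ'), w b := by
      intro e _
      simp only [hNn]
      rw [sum_comm]
      apply sum_le_sum
      intro b _
      rw [← mul_sum]
      have := mul_le_mul_of_nonneg_left (hT1 b e) (hw b)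
      linarith
    refine (sum_le_sum h1).trans ?_
    have hex : ∑ e ∈ E, ∑ b ∈ (range (e + 1)).filter (fun b => e ≤ b + 2 * δ'), w b =
        ∑ b ∈ range (N + 1), ∑ e ∈ E.filter (fun e => b ≤ e ∧ e ≤ b + 2 * δ'), w b := by
      apply sum_comm'
      intro e b
      simp only [mem_filter, mem_range]
      constructor
      · rintro ⟨he, hb, hbe⟩
        have := hE e he
        exact ⟨⟨he, by omega, hbe⟩, by omega⟩
      · rintro ⟨⟨he, hb, hbe⟩, _⟩
        exact ⟨he, by omega, hbe⟩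
    rw [hex]
    simp only [sum_const, nsmul_eq_mul]
    have hNN0 : 0 ≤ NN := le_trans (by positivity) (hNN 0)
    calc ∑ b ∈ range (N + 1), ((E.filter (fun e => b ≤ e ∧ e ≤ b + 2 * δ')).card : ℝ) * w b
        ≤ ∑ b ∈ range (N + 1), NN * w b := sum_le_sum (fun b _ => mul_le_mul_of_nonneg_right (hNN b) (hw b))
      _ = NN * ∑ b ∈ range (N + 1), w b := by rw [mul_sum]
      _ ≤ _ := mul_le_mul_of_nonneg_left hPr hNN0
  · apply mul_le_mul_of_nonneg_left _ hPM
    have hF : ∀ e ∈ E, ∑ g ∈ 𝒢, ∑ b ∈ range (e + 1), Fr e b g =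
        ∑ b ∈ (range (e + 1)).filter (fun b => b + 2 * δ' < e), w b * ∑ g ∈ 𝒢, T b e g ^ 2 / m g := by
      intro e _
      rw [sum_comm, sum_filter]
      apply sum_congr rfl
      intro b _
      simp only [hFr]
      split_ifs
      · rw [mul_sum]
      · simp
    rw [sum_congr rfl hF]
    have hex : ∑ e ∈ E, ∑ b ∈ (range (e + 1)).filter (fun b => b + 2 * δ' < e), w b * ∑ g ∈ 𝒢, T b e g ^ 2 / m g =
        ∑ b ∈ range (N + 1), ∑ e ∈ E.filter (fun e => b + 2 * δ' < e), w b * ∑ g ∈ 𝒢, T b e g ^ 2 / m g := by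
      apply sum_comm'
      intro e b
      simp only [mem_filter, mem_range]
      constructor
      · rintro ⟨he, hb, hbe⟩
        have := hE e he
        exact ⟨⟨he, hbe⟩, by omega⟩
      · rintro ⟨⟨he, hbe⟩, _⟩
        exact ⟨he, by omega, hbe⟩
    rw [hex]
    simp only [← mul_sum]
    calc ∑ b ∈ range (N + 1), w b * ∑ e ∈ E.filter (fun e => b + 2 * δ' < e), ∑ g ∈ 𝒢, T b e g ^ 2 / m g
        ≤ ∑ b ∈ range (N + 1), w b * S := by
          apply sum_le_sum
          intro b hb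
          by_cases hwb : w b = 0
          · rw [hwb]
            simp
          · exact mul_le_mul_of_nonneg_left (hQ b hb hwb) (hw b)
      _ = (∑ b ∈ range (N + 1), w b) * S := by rw [sum_mul]
      _ ≤ _ := mul_le_mul_of_nonneg_right hPr hS0

end nearfar

section chainpot

variable {q : ℝ} (x : ℕ → Bool) (N : ℕ) (h0 : 0 < q) (h1 : q < 1) (hx : x 0 = true)

/-- The decomposition of the trace law with the forward weights, for any beginning. -/
theorem trace_fb_all (f g : Word) {e : ℕ} (he : e ≤ N) :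
    traceProb q (Xb x e) (g.reverse ++ f).reverse =
      ∑ b ∈ range (e + 1), (chainS x N h0 h1 hx).Wt f b * traceProb q ((Xb x e).drop b) g := by
  have e1 : (g.reverse ++ f).reverse = f.reverse ++ g := by simp
  rw [e1]
  cases f with
  | nil =>
    have hinit : ∀ i, (chainS x N h0 h1 hx).Wt [] i = if i = 0 then 1 else 0 := fun i => rfl
    simp only [List.reverse_nil, List.nil_append, hinit]
    rw [sum_eq_single 0]
    · simp
    · intro b _ hb
      simp [hb]
    · simp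
  | cons a r =>
    have e2 : (a :: r).reverse ++ g = r.reverse ++ a :: g := by simp
    rw [e2, traceProb_fb, sum_range_succ', chainS_Wt_zero, zero_mul, add_zero]
    apply sum_congr rfl
    intro b hb
    rw [mem_range] at hb
    rw [chainS_Wt_succ x N h0 h1 hx r a (by omega)]
    split_ifs
    · ring
    · ring

theorem Wt_letter_le (f : Word) {b : ℕ} (hb : b ≤ N) (h : (chainS x N h0 h1 hx).Wt f b ≠ 0) : x b = lastOf f := by
  have := (chainS x N h0 h1 hx).Wt_letter f b h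
  change ltS x N b = lastOf f at this
  rwa [ltS, if_pos hb] at this

theorem sum_Wt_le_Pre (f : Word) : ∑ b ∈ range (N + 1), (chainS x N h0 h1 hx).Wt f b ≤ (chainS x N h0 h1 hx).Pre f := by
  unfold HMM.Pre
  apply sum_le_sum_of_subset_of_nonneg
  · intro i hi
    change i ∈ range (N + 3)
    rw [mem_range] at hi ⊢
    omega
  · intro i _ _
    exact (chainS x N h0 h1 hx).Wt_nonneg f i

include h0 h1 in
theorem traceProb_sum_le (y : Word) (n : ℕ) : ∑ g ∈ W n, traceProb q y g ≤ 1 := by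
  have h2 := traceProb_sum (q := q) y (B := max n y.length) (le_max_right _ _)
  rw [← h2]
  apply sum_le_sum_of_subset_of_nonneg (W_mono (le_max_left _ _))
  intro g _ _
  exact traceProb_nonneg h0 h1 _ _

open Classical in
/-- One term of the sum of squares. -/
theorem Y_term {Λ mb εw na : ℝ} {Aux : Word → Prop} (Act : Word → ℕ → Prop)
    (hs : ∀ r, (chainS x N h0 h1 hx).Gs r ≤ mb * (chainS x N h0 h1 hx).Pre r) (hmb0 : 0 ≤ mb) (hna0 : 0 ≤ na)
    (hεw : 0 ≤ εw)
    (hAux : ∀ r, r ≠ [] → Aux r → ∑ e ∈ (runEnds x N).filter (fun e => ¬ Act r e), traceProb q (Xb x e) r.reverse ≤ εw * MkR q r)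
    (hna : ∀ r, (((runEnds x N).filter (Act r)).card : ℝ) ≤ na) {r : Word} (hg : (chainS x N h0 h1 hx).Gd Λ Aux r) :
    (chainS x N h0 h1 hx).Yq Λ Aux r ≤ (if r = [] then 4 * mb ^ 2 else 0) + 2 * εw ^ 2 +
      2 * na * ∑ e ∈ runEnds x N, (traceProb q (Xb x e) r.reverse / MkR q r) ^ 2 := by
  set Ch := chainS x N h0 h1 hx with hCh
  have hYq : Ch.Yq Λ Aux r = Ch.mh r ^ 2 := by
    unfold HMM.Yq
    rw [if_pos hg]
  rw [hYq]
  have hMk := MkR_pos h0 r
  have hsum0 : 0 ≤ ∑ e ∈ runEnds x N, (traceProb q (Xb x e) r.reverse / MkR q r) ^ 2 :=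
    sum_nonneg (fun e _ => by positivity)
  by_cases hr : r = []
  · rw [if_pos hr]
    have h2 := Ch.Gd_mh_le h0 hmb0 hs hg
    have h3 := Ch.mh_nonneg h0 r
    have h4 : Ch.mh r ^ 2 ≤ (2 * mb) ^ 2 := pow_le_pow_left₀ h3 h2 2
    have h5 : 0 ≤ 2 * na * ∑ e ∈ runEnds x N, (traceProb q (Xb x e) r.reverse / MkR q r) ^ 2 := by positivity
    have h6 : 0 ≤ 2 * εw ^ 2 := by positivity
    nlinarith
  · rw [if_neg hr, zero_add]
    have hA : Aux r := by
      cases r with
      | nil => exact absurd rfl hr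
      | cons a r' => exact hg.2.2.2.2
    have h2 := hAux r hr hA
    have hG : Ch.Gs r = ∑ e ∈ runEnds x N, traceProb q (Xb x e) r.reverse := chainS_Gs x N h0 h1 hx r
    rw [← sum_filter_add_sum_filter_not (runEnds x N) (Act r)] at hG
    set Ac := (runEnds x N).filter (Act r) with hAc
    set u : ℝ := ∑ e ∈ Ac, traceProb q (Xb x e) r.reverse / MkR q r with hu
    have hu0 : 0 ≤ u := sum_nonneg (fun e _ => div_nonneg (traceProb_nonneg h0 h1 _ _) hMk.le)
    have hmh : Ch.mh r ≤ u + εw := by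
      unfold HMM.mh
      rw [div_le_iff₀ hMk, hG, add_mul, hu, ← sum_div, div_mul_cancel₀ _ hMk.ne']
      linarith
    have hmh0 := Ch.mh_nonneg h0 r
    have h3 : Ch.mh r ^ 2 ≤ (u + εw) ^ 2 := pow_le_pow_left₀ hmh0 hmh 2
    have h4 : (u + εw) ^ 2 ≤ 2 * u ^ 2 + 2 * εw ^ 2 := by nlinarith [sq_nonneg (u - εw)]
    have h5 : u ^ 2 ≤ (Ac.card : ℝ) * ∑ e ∈ Ac, (traceProb q (Xb x e) r.reverse / MkR q r) ^ 2 :=
      sq_sum_le_card_mul_sum_sq
    have h6 : ∑ e ∈ Ac, (traceProb q (Xb x e) r.reverse / MkR q r) ^ 2 ≤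
        ∑ e ∈ runEnds x N, (traceProb q (Xb x e) r.reverse / MkR q r) ^ 2 :=
      sum_le_sum_of_subset_of_nonneg (filter_subset _ _) (fun e _ _ => by positivity)
    have h7 : u ^ 2 ≤ na * ∑ e ∈ runEnds x N, (traceProb q (Xb x e) r.reverse / MkR q r) ^ 2 :=
      h5.trans (mul_le_mul (hna r) h6 (sum_nonneg (fun e _ => by positivity)) hna0)
    nlinarith

open Classical in
/-- Bound for the expected future sum of squares. -/
theorem Up_bound {Λ mb εw S na NN : ℝ} {Aux : Word → Prop} (Act : Word → ℕ → Prop) (n δ' : ℕ)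
    (hs : ∀ r, (chainS x N h0 h1 hx).Gs r ≤ mb * (chainS x N h0 h1 hx).Pre r) (hmb0 : 0 ≤ mb) (hS0 : 0 ≤ S) (hna0 : 0 ≤ na)
    (hεw : 0 ≤ εw)
    (hAux : ∀ r, r ≠ [] → Aux r → ∑ e ∈ (runEnds x N).filter (fun e => ¬ Act r e), traceProb q (Xb x e) r.reverse ≤ εw * MkR q r)
    (hna : ∀ r, (((runEnds x N).filter (Act r)).card : ℝ) ≤ na)
    (hNN : ∀ b, (((runEnds x N).filter (fun e => b ≤ e ∧ e ≤ b + 2 * δ')).card : ℝ) ≤ NN)
    (hfar : ∀ b ≤ N, ∑ e ∈ (runEnds x N).filter (fun e => b + 2 * δ' < e), QE q (x b) n ((Xb x e).drop b) ≤ S)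
    {f : Word} (hf : (chainS x N h0 h1 hx).Gd Λ Aux f) :
    (chainS x N h0 h1 hx).Up Λ Aux n f ≤ 2 * na * (8 * NN * mb + 8 * S) + 2 * ((n : ℝ) + 1) * εw ^ 2 + 4 * mb ^ 2 := by
  set Ch := chainS x N h0 h1 hx with hCh
  set c := lastOf f with hc
  set Mf := MkR q f with hMf
  have hMf0 : 0 < Mf := MkR_pos h0 f
  set Pr := Ch.Pre f with hPr
  have hPr0 : 0 ≤ Pr := Ch.Pre_nonneg f
  have hPrMf : Pr / Mf ≤ 2 := Ch.Gd_Mr_le hf
  have hNN0 : 0 ≤ NN := le_trans (by positivity) (hNN 0)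
  have hEN : ∀ e ∈ runEnds x N, e < N := by
    intro e he
    have := (mem_filter.mp he).1
    rwa [mem_range] at this
  set G : Word → Prop := fun g => Ch.Gd Λ Aux (g.reverse ++ f) with hG
  have hfb : ∀ g, ∀ e ∈ runEnds x N, traceProb q (Xb x e) (g.reverse ++ f).reverse =
      ∑ b ∈ range (e + 1), Ch.Wt f b * traceProb q ((Xb x e).drop b) g :=
    fun g e he => trace_fb_all x N h0 h1 hx f g (hEN e he).le
  have hMkr : ∀ g, MkR q (g.reverse ++ f) = Mf * mkFrom q c g := fun g => MkR_append g f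
  -- pointwise
  have hpt : ∀ g ∈ W n, mkFrom q c g * Ch.Yq Λ Aux (g.reverse ++ f) ≤
      (if g = [] then 4 * mb ^ 2 else 0) + 2 * εw ^ 2 * mkFrom q c g +
        2 * na * ∑ e ∈ runEnds x N, (if G g then mkFrom q c g *
          ((∑ b ∈ range (e + 1), Ch.Wt f b * traceProb q ((Xb x e).drop b) g) / (Mf * mkFrom q c g)) ^ 2 else 0) := by
    intro g _
    have hm := mkFrom_pos h0 c g
    have hif : (0 : ℝ) ≤ (if g = [] then 4 * mb ^ 2 else 0) := by
      split_ifs <;> positivity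
    have hsum0 : 0 ≤ ∑ e ∈ runEnds x N, (if G g then mkFrom q c g *
          ((∑ b ∈ range (e + 1), Ch.Wt f b * traceProb q ((Xb x e).drop b) g) / (Mf * mkFrom q c g)) ^ 2 else 0) := by
      apply sum_nonneg
      intro e _
      split_ifs
      · positivity
      · exact le_rfl
    by_cases hGg : G g
    · have hY := Y_term x N h0 h1 hx Act hs hmb0 hna0 hεw hAux hna hGg
      have hsimp : ∑ e ∈ runEnds x N, (if G g then mkFrom q c g *
          ((∑ b ∈ range (e + 1), Ch.Wt f b * traceProb q ((Xb x e).drop b) g) / (Mf * mkFrom q c g)) ^ 2 else 0) =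
          mkFrom q c g * ∑ e ∈ runEnds x N, (traceProb q (Xb x e) (g.reverse ++ f).reverse / MkR q (g.reverse ++ f)) ^ 2 := by
        rw [mul_sum]
        apply sum_congr rfl
        intro e he
        rw [if_pos hGg, hfb g e he, hMkr]
      rw [hsimp]
      have hle1 : mkFrom q c g * (if g.reverse ++ f = [] then 4 * mb ^ 2 else 0) ≤ (if g = [] then 4 * mb ^ 2 else 0) := by
        by_cases hnil : g.reverse ++ f = []
        · have hg0 : g = [] := by
            have := (List.append_eq_nil_iff.mp hnil).1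
            simpa using this
          have hf0 : f = [] := (List.append_eq_nil_iff.mp hnil).2
          rw [if_pos hnil, if_pos hg0, hg0]
          simp [mkFrom]
        · rw [if_neg hnil, mul_zero]
          exact hif
      have hmul := mul_le_mul_of_nonneg_left hY hm.le
      have e : mkFrom q c g * ((if g.reverse ++ f = [] then 4 * mb ^ 2 else 0) + 2 * εw ^ 2 +
            2 * na * ∑ e ∈ runEnds x N, (traceProb q (Xb x e) (g.reverse ++ f).reverse / MkR q (g.reverse ++ f)) ^ 2) =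
          mkFrom q c g * (if g.reverse ++ f = [] then 4 * mb ^ 2 else 0) + 2 * εw ^ 2 * mkFrom q c g +
          2 * na * (mkFrom q c g * ∑ e ∈ runEnds x N, (traceProb q (Xb x e) (g.reverse ++ f).reverse / MkR q (g.reverse ++ f)) ^ 2) := by
        ring
      rw [e] at hmul
      linarith
    · have hYq : Ch.Yq Λ Aux (g.reverse ++ f) = 0 := by
        unfold HMM.Yq
        rw [if_neg hGg]
      rw [hYq, mul_zero]
      have : 0 ≤ 2 * εw ^ 2 * mkFrom q c g := by positivity
      have h3 : 0 ≤ 2 * na * ∑ e ∈ runEnds x N, (if G g then mkFrom q c g *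
          ((∑ b ∈ range (e + 1), Ch.Wt f b * traceProb q ((Xb x e).drop b) g) / (Mf * mkFrom q c g)) ^ 2 else 0) := by
        positivity
      linarith
  rw [HMM.Up_unroll]
  refine (sum_le_sum hpt).trans ?_
  rw [sum_add_distrib, sum_add_distrib, ← mul_sum, ← mul_sum, sum_comm]
  have h1' : ∑ g ∈ W n, (if g = [] then 4 * mb ^ 2 else 0) = 4 * mb ^ 2 := by
    rw [sum_ite_eq' (W n) ([] : Word)]
    rw [if_pos (mem_W.mpr (by simp))]
  rw [h1', sum_mkFrom_W h0]
  -- the main estimate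
  have hnf := nf_abstract (N := N) (E := runEnds x N) hEN (Ch.Wt f) (Ch.Wt_nonneg f) (Pr := Pr)
    (sum_Wt_le_Pre x N h0 h1 hx f) (W n) (mkFrom q c) (mkFrom_pos h0 c) hMf0
    (fun b e g => traceProb q ((Xb x e).drop b) g) (fun _ _ _ => traceProb_nonneg h0 h1 _ _)
    (fun b e => traceProb_sum_le h0 h1 _ n) δ' (S := S) (NN := NN) (mb := mb) hS0 hmb0
    (by
      intro b hb hw
      rw [mem_range] at hb
      have hxb := Wt_letter_le x N h0 h1 hx f (by omega) hw
      have := hfar b (by omega)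
      rw [hxb] at this
      exact this)
    hNN G
    (by
      intro g _ hGg e he
      rw [← hfb g e he]
      have h2 : traceProb q (Xb x e) (g.reverse ++ f).reverse ≤ Ch.Gs (g.reverse ++ f) := by
        rw [hCh, chainS_Gs]
        exact single_le_sum (f := fun e => traceProb q (Xb x e) (g.reverse ++ f).reverse)
          (fun e _ => traceProb_nonneg h0 h1 _ _) he
      have h3 := hs (g.reverse ++ f)
      have h4 := Ch.Gd_Mr_le hGg
      unfold HMM.Mr at h4
      rw [div_le_iff₀ (MkR_pos h0 _), hMkr] at h4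
      have h5 : mb * Ch.Pre (g.reverse ++ f) ≤ mb * (2 * (Mf * mkFrom q c g)) :=
        mul_le_mul_of_nonneg_left h4 hmb0
      calc _ ≤ _ := h2
        _ ≤ _ := h3
        _ ≤ _ := h5
        _ = _ := by ring)
  have hb1 : 2 * (2 * mb / Mf) * (NN * Pr) ≤ 8 * NN * mb := by
    have e : 2 * (2 * mb / Mf) * (NN * Pr) = 4 * mb * NN * (Pr / Mf) := by
      field_simp
      ring
    rw [e]
    have h5 : 0 ≤ 4 * mb * NN := by positivity
    have := mul_le_mul_of_nonneg_left hPrMf h5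
    linarith
  have hb2 : 2 * (Pr / Mf ^ 2) * (Pr * S) ≤ 8 * S := by
    have e : 2 * (Pr / Mf ^ 2) * (Pr * S) = 2 * S * (Pr / Mf) ^ 2 := by
      field_simp
    rw [e]
    have h5 : (Pr / Mf) ^ 2 ≤ 2 ^ 2 := pow_le_pow_left₀ (by positivity) hPrMf 2
    nlinarith
  have hfinal := hnf.trans (add_le_add hb1 hb2)
  have hna2 : 0 ≤ 2 * na := by positivity
  have := mul_le_mul_of_nonneg_left hfinal hna2
  linarith

end chainpot

end Vale.Agent.Lib.P321
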