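import Vale.Agent.Lib.P321.QVPotential
import Vale.Agent.Lib.P321.LowerTail

/-!
P321, lower tail module, second version: the active run ends and the assembly.
-/

namespace Vale.Agent.Lib.P321

open Finset

/-- Number of spaced points in a window. -/
theorem spaced_card_window {S : Finset ℤ} {δ : ℕ} (hδ : 1 ≤ δ) (hS : Spaced S δ) (c₀ ℓ : ℝ) (hℓ : 0 ≤ ℓ) :
    ((S.filter (fun d : ℤ => c₀ ≤ (d : ℝ) ∧ (d : ℝ) ≤ c₀ + ℓ)).card : ℝ) ≤ ℓ / δ + 1 := by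
  have hδ0 : (0 : ℝ) < δ := by exact_mod_cast hδ
  have hcard : (S.filter (fun d : ℤ => c₀ ≤ (d : ℝ) ∧ (d : ℝ) ≤ c₀ + ℓ)).card ≤ (range (⌊ℓ / δ⌋₊ + 1)).card := by
    apply card_le_card_of_injOn (fun d : ℤ => ⌊((d : ℝ) - c₀) / δ⌋₊)
    · intro d hd
      have hd' := (mem_filter.mp (mem_coe.mp hd)).2
      simp only [coe_range, Set.mem_Iio]
      have h2 : ⌊((d : ℝ) - c₀) / δ⌋₊ ≤ ⌊ℓ / δ⌋₊ := by
        apply Nat.floor_le_floor
        apply div_le_div_of_nonneg_right _ hδ0.le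
        linarith [hd'.2]
      omega
    · intro d hd d' hd' hfl
      by_contra hne
      simp only at hfl
      have h1 := (mem_filter.mp (mem_coe.mp hd))
      have h2 := (mem_filter.mp (mem_coe.mp hd'))
      have hsp := hS d h1.1 d' h2.1 hne
      have hu : 0 ≤ ((d : ℝ) - c₀) / δ := div_nonneg (by linarith [h1.2.1]) hδ0.le
      have hv : 0 ≤ ((d' : ℝ) - c₀) / δ := div_nonneg (by linarith [h2.2.1]) hδ0.le
      have a1 := Nat.floor_le hu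
      have a2 := Nat.lt_floor_add_one (((d : ℝ) - c₀) / δ)
      have a3 := Nat.floor_le hv
      have a4 := Nat.lt_floor_add_one (((d' : ℝ) - c₀) / δ)
      rw [← hfl] at a3 a4
      have hlt : |((d : ℝ) - c₀) / δ - ((d' : ℝ) - c₀) / δ| < 1 := by
        rw [abs_lt]
        constructor <;> linarith
      have e : ((d : ℝ) - c₀) / δ - ((d' : ℝ) - c₀) / δ = ((d : ℝ) - d') / δ := by ring
      rw [e, abs_div, abs_of_pos hδ0, div_lt_one hδ0] at hlt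
      have h3 : ((δ : ℤ) : ℝ) ≤ ((|d - d'| : ℤ) : ℝ) := by exact_mod_cast hsp
      push_cast at h3
      linarith
  rw [card_range] at hcard
  have h2 : ((S.filter (fun d : ℤ => c₀ ≤ (d : ℝ) ∧ (d : ℝ) ≤ c₀ + ℓ)).card : ℝ) ≤ ((⌊ℓ / δ⌋₊ + 1 : ℕ) : ℝ) := by
    exact_mod_cast hcard
  push_cast at h2
  have h3 := Nat.floor_le (by positivity : 0 ≤ ℓ / δ)
  linarith

/-- Counting run ends through the sites around them. -/
theorem runEnds_card_filter (D : Finset ℤ) (hD : ∀ d ∈ D, 1 ≤ d) (N : ℕ) (P : ℕ → Prop) (Q : ℤ → Prop)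
    [DecidablePred P] [DecidablePred Q]
    (h : ∀ T : ℕ, P (2 * T) → Q (T : ℤ) ∧ Q ((T : ℤ) + 1)) :
    ((runEnds (xD D) N).filter P).card ≤ 2 * (D.filter Q).card := by
  have hsub : (runEnds (xD D) N).filter P ⊆ (D.filter Q).biUnion (fun d => {2 * d.toNat, 2 * d.toNat - 2}) := by
    intro e he
    obtain ⟨he1, he2⟩ := mem_filter.mp he
    obtain ⟨T, rfl, hT⟩ := runEnds_xD D N e he1
    obtain ⟨hQ1, hQ2⟩ := h T he2
    rw [mem_biUnion]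
    rcases hT with hT | hT
    · exact ⟨(T : ℤ), mem_filter.mpr ⟨hT, hQ1⟩, by simp⟩
    · refine ⟨((T + 1 : ℕ) : ℤ), mem_filter.mpr ⟨hT, by push_cast; exact hQ2⟩, ?_⟩
      simp only [Int.toNat_natCast, mem_insert, mem_singleton]
      right
      omega
  refine (card_le_card hsub).trans (card_biUnion_le.trans ?_)
  calc ∑ d ∈ D.filter Q, (({2 * d.toNat, 2 * d.toNat - 2} : Finset ℕ)).card ≤ ∑ _d ∈ D.filter Q, 2 :=
        sum_le_sum (fun _ _ => card_le_two)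
    _ = _ := by simp; ring

/-- The run ends in a window of the index. -/
theorem runEnds_window (D : Finset ℤ) (hD : ∀ d ∈ D, 1 ≤ d) {δ : ℕ} (hδ : 1 ≤ δ) (hS : Spaced D δ) (N : ℕ)
    (P : ℕ → Prop) [DecidablePred P] (c₀ ℓ : ℝ) (hℓ : 0 ≤ ℓ)
    (h : ∀ T : ℕ, P (2 * T) → c₀ ≤ (T : ℝ) ∧ (T : ℝ) + 1 ≤ c₀ + ℓ) :
    (((runEnds (xD D) N).filter P).card : ℝ) ≤ 2 * (ℓ / δ + 1) := by
  have h1 := runEnds_card_filter D hD N P (fun d : ℤ => c₀ ≤ (d : ℝ) ∧ (d : ℝ) ≤ c₀ + ℓ) (by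
    intro T hT
    obtain ⟨h2, h3⟩ := h T hT
    refine ⟨⟨by push_cast; exact h2, by push_cast; linarith⟩, ⟨?_, ?_⟩⟩
    · push_cast
      linarith
    · push_cast
      linarith)
  have h2 := spaced_card_window hδ hS c₀ ℓ hℓ
  have h3 : (((runEnds (xD D) N).filter P).card : ℝ) ≤ ((2 * (D.filter (fun d : ℤ => c₀ ≤ (d : ℝ) ∧ (d : ℝ) ≤ c₀ + ℓ)).card : ℕ) : ℝ) := by
    exact_mod_cast h1
  push_cast at h3
  linarith

section active

variable {q : ℝ}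

/-- An active run end for a word. -/
def Actv (q : ℝ) (Wd : ℝ) (r : Word) (e : ℕ) : Prop :=
  |((e / 2 : ℕ) : ℝ) - HR r - kap1 q * r.length| ≤ Wd

open Classical in
theorem active_count (D : Finset ℤ) (hD : ∀ d ∈ D, 1 ≤ d) {δ : ℕ} (hδ : 1 ≤ δ) (hS : Spaced D δ) (N : ℕ)
    {Wd : ℝ} (hWd : 0 ≤ Wd) (r : Word) :
    (((runEnds (xD D) N).filter (Actv q Wd r)).card : ℝ) ≤ 2 * ((2 * Wd + 1) / δ + 1) := by
  apply runEnds_window D hD hδ hS N _ ((HR r : ℝ) + kap1 q * r.length - Wd) (2 * Wd + 1) (by positivity)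
  intro T hT
  unfold Actv at hT
  have e : 2 * T / 2 = T := by omega
  rw [e, abs_le] at hT
  constructor <;> linarith [hT.1, hT.2]

theorem near_count (D : Finset ℤ) (hD : ∀ d ∈ D, 1 ≤ d) {δ : ℕ} (hδ : 1 ≤ δ) (hS : Spaced D δ) (N b : ℕ) :
    (((runEnds (xD D) N).filter (fun e => b ≤ e ∧ e ≤ b + 2 * δ)).card : ℝ) ≤ 6 := by
  have hδ0 : (1 : ℝ) ≤ δ := by exact_mod_cast hδ
  have h := runEnds_window D hD hδ hS N (fun e => b ≤ e ∧ e ≤ b + 2 * δ) ((b : ℝ) / 2) ((δ : ℝ) + 1) (by positivity) (by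
    intro T hT
    obtain ⟨h2, h3⟩ := hT
    have h4 : (b : ℝ) ≤ 2 * (T : ℝ) := by exact_mod_cast h2
    have h5 : 2 * (T : ℝ) ≤ (b : ℝ) + 2 * (δ : ℝ) := by exact_mod_cast h3
    constructor <;> linarith)
  refine h.trans ?_
  have h2 : ((δ : ℝ) + 1) / δ ≤ 2 := by
    rw [div_le_iff₀ (by linarith)]
    linarith
  linarith

open Classical in
/-- The inactive part is small for most words. -/
theorem inactive_mass (h0 : 0 < q) (h1 : q < 1) {Ct : ℝ} (hCt : 0 < Ct)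
    (htail : ∀ (D : Finset ℤ) (X : ℕ) (u : ℝ), 1 ≤ X → 0 ≤ u → u ≤ X → (D.card : ℝ) * u ≤ X →
      ∑ t ∈ (W (2 * X)).filter (fun t => u ≤ |(X : ℝ) - H t - kap1 q * t.length|),
        trW q (2 * X) t * (cnt (blockStr D 0 X) t : ℝ) ≤ Ct * Real.exp (-(u ^ 2) / (Ct * X)))
    (D : Finset ℤ) (N j Xz : ℕ) {Wd εw : ℝ} (hWd : 0 ≤ Wd) (hεw : 0 < εw)
    (hE : ∀ T : ℕ, 2 * T ∈ runEnds (xD D) N → 1 ≤ T ∧ (T : ℝ) ≤ Xz ∧ Wd ≤ T ∧ (D.card : ℝ) * Wd ≤ T) :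
    ∑ r ∈ (Weq j).filter (fun r => ¬ ∑ e ∈ (runEnds (xD D) N).filter (fun e => ¬ Actv q Wd r e),
        traceProb q (Xb (xD D) e) r.reverse ≤ εw * MkR q r), MkR q r ≤
      (1 / εw) * (((runEnds (xD D) N).card : ℝ) * (Ct * Real.exp (-(Wd ^ 2) / (Ct * Xz)))) := by
  set E := runEnds (xD D) N with hEdef
  -- one run end
  have hone : ∀ e ∈ E, ∑ r ∈ Weq j, (if Actv q Wd r e then 0 else traceProb q (Xb (xD D) e) r.reverse) ≤
      Ct * Real.exp (-(Wd ^ 2) / (Ct * Xz)) := by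
    intro e he
    obtain ⟨T, rfl, _⟩ := runEnds_xD D N e he
    obtain ⟨hT1, hTX, hWT, hWT2⟩ := hE T he
    have hT0 : (0 : ℝ) < T := by exact_mod_cast hT1
    have ht := htail D T Wd hT1 hWd hWT hWT2
    simp only [trW_cnt] at ht
    have e2 : ∑ r ∈ Weq j, (if Actv q Wd r (2 * T) then 0 else traceProb q (Xb (xD D) (2 * T)) r.reverse) =
        ∑ t ∈ Weq j, (if Actv q Wd t.reverse (2 * T) then 0 else traceProb q (blockStr D 0 T) t) := by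
      rw [sum_Weq_rev (fun t => if Actv q Wd t.reverse (2 * T) then 0 else traceProb q (blockStr D 0 T) t)]
      apply sum_congr rfl
      intro r _
      simp only [List.reverse_reverse, Xb_even]
    rw [e2]
    have hle : ∑ t ∈ Weq j, (if Actv q Wd t.reverse (2 * T) then 0 else traceProb q (blockStr D 0 T) t) ≤
        ∑ t ∈ (W (2 * T)).filter (fun t => Wd ≤ |(T : ℝ) - H t - kap1 q * t.length|), traceProb q (blockStr D 0 T) t := by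
      rw [sum_filter]
      by_cases hj : j ≤ 2 * T
      · have hsub : Weq j ⊆ W (2 * T) := by
          intro t ht
          rw [mem_Weq] at ht
          rw [mem_W]
          omega
        refine le_trans (sum_le_sum ?_) (sum_le_sum_of_subset_of_nonneg hsub ?_)
        · intro t _
          by_cases hA : Actv q Wd t.reverse (2 * T)
          · rw [if_pos hA]
            split_ifs
            · exact traceProb_nonneg h0 h1 _ _
            · exact le_rfl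
          · rw [if_neg hA, if_pos]
            unfold Actv at hA
            rw [not_le, HR_eq, List.reverse_reverse, List.length_reverse] at hA
            have e3 : 2 * T / 2 = T := by omega
            rw [e3] at hA
            exact hA.le
        · intro t _ _
          split_ifs
          · exact traceProb_nonneg h0 h1 _ _
          · exact le_rfl
      · have hz : ∑ t ∈ Weq j, (if Actv q Wd t.reverse (2 * T) then 0 else traceProb q (blockStr D 0 T) t) = 0 := by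
          apply sum_eq_zero
          intro t ht
          rw [mem_Weq] at ht
          split_ifs
          · rfl
          · apply traceProb_of_long
            rw [length_blockStr]
            omega
        rw [hz]
        apply sum_nonneg
        intro t _
        split_ifs
        · exact traceProb_nonneg h0 h1 _ _
        · exact le_rfl
    refine hle.trans (ht.trans ?_)
    apply mul_le_mul_of_nonneg_left _ hCt.le
    apply Real.exp_le_exp.mpr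
    have hXz0 : (0 : ℝ) < Xz := by linarith
    have e3 : -(Wd ^ 2) / (Ct * T) = -(Wd ^ 2 / (Ct * T)) := by ring
    have e4 : -(Wd ^ 2) / (Ct * Xz) = -(Wd ^ 2 / (Ct * Xz)) := by ring
    rw [e3, e4]
    apply neg_le_neg
    apply div_le_div_of_nonneg_left (by positivity) (by positivity)
    exact mul_le_mul_of_nonneg_left hTX hCt.le
  -- exchange
  have hpt : ∀ r ∈ (Weq j).filter (fun r => ¬ ∑ e ∈ E.filter (fun e => ¬ Actv q Wd r e),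
        traceProb q (Xb (xD D) e) r.reverse ≤ εw * MkR q r), MkR q r ≤
      (1 / εw) * ∑ e ∈ E, (if Actv q Wd r e then 0 else traceProb q (Xb (xD D) e) r.reverse) := by
    intro r hr
    have h2 := (mem_filter.mp hr).2
    rw [not_le] at h2
    have h3 : ∑ e ∈ E, (if Actv q Wd r e then 0 else traceProb q (Xb (xD D) e) r.reverse) =
        ∑ e ∈ E.filter (fun e => ¬ Actv q Wd r e), traceProb q (Xb (xD D) e) r.reverse := by
      rw [sum_filter]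
      apply sum_congr rfl
      intro e _
      by_cases h : Actv q Wd r e <;> simp [h]
    rw [h3, div_mul_eq_mul_div, one_mul, le_div_iff₀ hεw]
    linarith
  refine (sum_le_sum hpt).trans ?_
  rw [← mul_sum]
  apply mul_le_mul_of_nonneg_left _ (by positivity)
  have hsub : ∑ r ∈ (Weq j).filter (fun r => ¬ ∑ e ∈ E.filter (fun e => ¬ Actv q Wd r e),
        traceProb q (Xb (xD D) e) r.reverse ≤ εw * MkR q r),
        ∑ e ∈ E, (if Actv q Wd r e then 0 else traceProb q (Xb (xD D) e) r.reverse) ≤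
      ∑ r ∈ Weq j, ∑ e ∈ E, (if Actv q Wd r e then 0 else traceProb q (Xb (xD D) e) r.reverse) := by
    apply sum_le_sum_of_subset_of_nonneg (filter_subset _ _)
    intro r _ _
    apply sum_nonneg
    intro e _
    split_ifs
    · exact le_rfl
    · exact traceProb_nonneg h0 h1 _ _
  refine hsub.trans ?_
  rw [sum_comm]
  refine (sum_le_sum hone).trans ?_
  rw [sum_const, nsmul_eq_mul]

end active

section numeric

theorem qv_part1 {K₁ C₂ CE l r a s w : ℝ} (hK₁ : 0 < K₁) (hC₂ : 0 < C₂) (hCE : 0 < CE)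
    (hl : 3840 * (96 * C₂ + 8 * CE) * K₁ ^ 2 + 1 ≤ l)
    (hr1 : 1 ≤ r) (ha0 : 0 < a) (ha2 : a ^ 2 ≤ r) (hs1 : 1 ≤ s) (hkey : l ^ 7 * r * s ≤ a ^ 3)
    (hwa : a / 2 ≤ w) :
    2 * (2 * ((2 * (l * r) + 1) / a ^ 2 + 1)) * (8 * 6 * (C₂ / w) + 8 * (CE * l * (s * (1 / a)))) ≤
      1 / (240 * K₁ ^ 2 * l ^ 3) := by
  set K₃ : ℝ := 96 * C₂ + 8 * CE with hK₃
  have hK₃0 : 0 < K₃ := by positivity
  have hK20 : 0 < K₁ ^ 2 := by positivity
  have hl1 : 1 ≤ l := by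
    have : 0 < 3840 * K₃ * K₁ ^ 2 := by positivity
    linarith
  have hl0 : 0 < l := by linarith
  have hw0 : 0 < w := by linarith [div_pos ha0 (by norm_num : (0 : ℝ) < 2)]
  have hls : 1 ≤ l * s := one_le_mul_of_one_le_of_one_le hl1 hs1
  have hlr : 1 ≤ l * r := one_le_mul_of_one_le_of_one_le hl1 hr1
  have hrlr : r ≤ l * r := by nlinarith
  have ha20 : 0 < a ^ 2 := by positivity
  have ha30 : 0 < a ^ 3 := by positivity
  have hna : 2 * ((2 * (l * r) + 1) / a ^ 2 + 1) ≤ 8 * (l * r) / a ^ 2 := by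
    rw [le_div_iff₀ ha20]
    have e : 2 * ((2 * (l * r) + 1) / a ^ 2 + 1) * a ^ 2 = 2 * (2 * (l * r) + 1 + a ^ 2) := by
      field_simp
    rw [e]
    linarith
  have hmba : C₂ / w ≤ 2 * C₂ / a := by
    rw [div_le_div_iff₀ hw0 ha0]
    nlinarith
  have hsec : 8 * 6 * (C₂ / w) + 8 * (CE * l * (s * (1 / a))) ≤ K₃ * (l * s) / a := by
    have e1 : 8 * 6 * (2 * C₂ / a) + 8 * (CE * l * (s * (1 / a))) = (96 * C₂ + 8 * CE * (l * s)) / a := by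
      field_simp
      ring
    have h2 : (96 * C₂ + 8 * CE * (l * s)) / a ≤ K₃ * (l * s) / a := by
      apply div_le_div_of_nonneg_right _ ha0.le
      rw [hK₃]
      nlinarith
    linarith
  have hsec0 : 0 ≤ 8 * 6 * (C₂ / w) + 8 * (CE * l * (s * (1 / a))) := by positivity
  have h3 : 2 * ((2 * ((2 * (l * r) + 1) / a ^ 2 + 1))) * (8 * 6 * (C₂ / w) + 8 * (CE * l * (s * (1 / a)))) ≤
      2 * (8 * (l * r) / a ^ 2) * (K₃ * (l * s) / a) := by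
    apply mul_le_mul (by linarith) hsec hsec0 (by positivity)
  refine h3.trans ?_
  have e : 2 * (8 * (l * r) / a ^ 2) * (K₃ * (l * s) / a) = 16 * K₃ * l ^ 2 * (r * s) / a ^ 3 := by
    field_simp
    norm_num
  rw [e, div_le_div_iff₀ ha30 (by positivity)]
  have hk2 : l ^ 7 * (r * s) ≤ a ^ 3 := by linarith [hkey, (by ring : l ^ 7 * r * s = l ^ 7 * (r * s))]
  have hl2 : l ≤ l ^ 2 := by
    calc l = l ^ 1 := (pow_one l).symm
      _ ≤ l ^ 2 := pow_le_pow_right₀ hl1 (by norm_num)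
  have h5 : 3840 * K₃ * K₁ ^ 2 ≤ l ^ 2 := by linarith
  have h7 : 0 ≤ l ^ 3 * a ^ 3 := by positivity
  have h6 : (16 * K₃ * l ^ 2 * (r * s)) * (240 * K₁ ^ 2 * l ^ 3) = (3840 * K₃ * K₁ ^ 2) * l ^ 3 * (l ^ 2 * (r * s)) := by ring
  rw [h6]
  calc (3840 * K₃ * K₁ ^ 2) * l ^ 3 * (l ^ 2 * (r * s)) ≤ l ^ 2 * l ^ 3 * (l ^ 2 * (r * s)) := by
        apply mul_le_mul_of_nonneg_right _ (by positivity)
        exact mul_le_mul_of_nonneg_right h5 (by positivity)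
    _ = l ^ 7 * (r * s) := by ring
    _ ≤ a ^ 3 := hk2
    _ = 1 * a ^ 3 := by ring

theorem qv_part2 {K₁ l i n : ℝ} (hK₁ : 0 < K₁) (hl : 480 * K₁ ^ 2 + 1 ≤ l) (hn : n ≤ i) (hn0 : 0 ≤ n) :
    2 * (n + 1) * (1 / (l ^ 2 * (i + 1))) ^ 2 ≤ 1 / (240 * K₁ ^ 2 * l ^ 3) := by
  have hK20 : 0 < K₁ ^ 2 := by positivity
  have hl1 : 1 ≤ l := by
    have : 0 < 480 * K₁ ^ 2 := by positivity
    linarith
  have hl0 : 0 < l := by linarith
  have hi1 : 0 < i + 1 := by linarith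
  have e : 2 * (n + 1) * (1 / (l ^ 2 * (i + 1))) ^ 2 = 2 * (n + 1) / (l ^ 4 * (i + 1) ^ 2) := by
    field_simp
  rw [e, div_le_div_iff₀ (by positivity) (by positivity)]
  have h5 : 480 * K₁ ^ 2 ≤ l := by linarith
  have h6 : n + 1 ≤ i + 1 := by linarith
  have h7 : 1 ≤ i + 1 := by linarith
  have h8 : n + 1 ≤ (i + 1) ^ 2 := by nlinarith
  calc 2 * (n + 1) * (240 * K₁ ^ 2 * l ^ 3) = (480 * K₁ ^ 2) * l ^ 3 * (n + 1) := by ring
    _ ≤ l * l ^ 3 * (i + 1) ^ 2 := by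
        apply mul_le_mul (mul_le_mul_of_nonneg_right h5 (by positivity)) h8 (by linarith) (by positivity)
    _ = _ := by ring

theorem qv_part3 {K₁ C₂ l w : ℝ} (hK₁ : 0 < K₁) (hC₂ : 0 < C₂) (hl : 3840 * C₂ ^ 2 * K₁ ^ 2 + 1 ≤ l)
    (hwl : l ^ 3 / 2 ≤ w) : 4 * (C₂ / w) ^ 2 ≤ 1 / (240 * K₁ ^ 2 * l ^ 3) := by
  have hK20 : 0 < K₁ ^ 2 := by positivity
  have hp : 0 < 3840 * C₂ ^ 2 * K₁ ^ 2 := by positivity
  have hl1 : 1 ≤ l := by linarith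
  have hl0 : 0 < l := by linarith
  have hl3 : l ≤ l ^ 3 := by
    calc l = l ^ 1 := (pow_one l).symm
      _ ≤ l ^ 3 := pow_le_pow_right₀ hl1 (by norm_num)
  have hw0 : 0 < w := by
    have : 0 < l ^ 3 / 2 := by positivity
    linarith
  have hmb0 : 0 ≤ C₂ / w := by positivity
  have hmbl : C₂ / w ≤ 2 * C₂ / l ^ 3 := by
    rw [div_le_div_iff₀ hw0 (by positivity)]
    nlinarith
  have h4 : (C₂ / w) ^ 2 ≤ (2 * C₂ / l ^ 3) ^ 2 := pow_le_pow_left₀ hmb0 hmbl 2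
  have h5 : 4 * (2 * C₂ / l ^ 3) ^ 2 ≤ 1 / (240 * K₁ ^ 2 * l ^ 3) := by
    have e : 4 * (2 * C₂ / l ^ 3) ^ 2 = 16 * C₂ ^ 2 / l ^ 6 := by
      field_simp
      ring
    rw [e, div_le_div_iff₀ (by positivity) (by positivity)]
    have h6 : 3840 * C₂ ^ 2 * K₁ ^ 2 ≤ l ^ 3 := by linarith
    calc 16 * C₂ ^ 2 * (240 * K₁ ^ 2 * l ^ 3) = (3840 * C₂ ^ 2 * K₁ ^ 2) * l ^ 3 := by ring
      _ ≤ l ^ 3 * l ^ 3 := mul_le_mul_of_nonneg_right h6 (by positivity)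
      _ = 1 * l ^ 6 := by ring
  linarith

/-- The numerical inequality behind the bound for the sum of squares. -/
theorem qv_hU_real {K₁ C₂ CE l r a s w i n : ℝ} (hK₁ : 0 < K₁) (hC₂ : 0 < C₂) (hCE : 0 < CE)
    (hl : 3840 * (96 * C₂ + 8 * CE) * K₁ ^ 2 + 480 * K₁ ^ 2 + 3840 * C₂ ^ 2 * K₁ ^ 2 + 1 ≤ l)
    (hr1 : 1 ≤ r) (ha0 : 0 < a) (ha2 : a ^ 2 ≤ r) (hs1 : 1 ≤ s) (hkey : l ^ 7 * r * s ≤ a ^ 3)
    (hwa : a / 2 ≤ w) (hwl : l ^ 3 / 2 ≤ w) (hn : n ≤ i) (hn0 : 0 ≤ n) :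
    2 * (2 * ((2 * (l * r) + 1) / a ^ 2 + 1)) * (8 * 6 * (C₂ / w) + 8 * (CE * l * (s * (1 / a)))) +
      2 * (n + 1) * (1 / (l ^ 2 * (i + 1))) ^ 2 + 4 * (C₂ / w) ^ 2 ≤ 1 / (80 * K₁ ^ 2 * l ^ 3) := by
  have hK20 : 0 < K₁ ^ 2 := by positivity
  have hp1 : 0 < 3840 * (96 * C₂ + 8 * CE) * K₁ ^ 2 := by positivity
  have hp2 : 0 < 480 * K₁ ^ 2 := by positivity
  have hp3 : 0 < 3840 * C₂ ^ 2 * K₁ ^ 2 := by positivity
  have hl1 : 1 ≤ l := by linarith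
  have hl0 : 0 < l := by linarith
  have hB3 : 1 / (80 * K₁ ^ 2 * l ^ 3) = 3 * (1 / (240 * K₁ ^ 2 * l ^ 3)) := by
    field_simp
    norm_num
  have h1 := qv_part1 hK₁ hC₂ hCE (by linarith) hr1 ha0 ha2 hs1 hkey hwa
  have h2 := qv_part2 (i := i) hK₁ (l := l) (by linarith) hn hn0
  have h3 := qv_part3 hK₁ hC₂ (l := l) (w := w) (by linarith) hwl
  rw [hB3]
  linarith

/-- The final numerical inequality of the first part. -/
theorem qv_E1_real {Ct Xz k Ee l : ℝ} {lam : ℕ} (hCt : 0 < Ct) (hlam : l = lam) (hl : Ct ≤ l) (hl1 : 1 ≤ l)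
    (hXz1 : 1 ≤ Xz) (hXz : Xz ≤ Real.exp (l / 16)) (hk : k ≤ Xz) (hk0 : 0 ≤ k) (hEe : Ee ≤ 2 * k) (hEe0 : 0 ≤ Ee) :
    (4 * Xz) * (2 * Real.exp 2 * (1 / 2) ^ lam + 2 * Real.exp (-l) +
      (l ^ 2 * (4 * Xz + 1)) * (Ee * (Ct * Real.exp (-(l ^ 2 / Ct))))) ≤
      (8 * Real.exp 2 + 8 + 5120 * Ct) * Real.exp (-(7 / 16 * l)) := by
  have hl0 : 0 < l := by linarith
  have hX0 : 0 < Xz := by linarith
  have hE := Real.exp_pos (-(7 / 16 * l))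
  have hb1 : (4 * Xz) * (2 * Real.exp 2 * (1 / 2) ^ lam) ≤ 8 * Real.exp 2 * Real.exp (-(7 / 16 * l)) := by
    have h2 : (1 / 2 : ℝ) ^ lam ≤ Real.exp (-(1 / 2 * l)) := by
      rw [hlam]
      exact half_pow_le lam
    have h3 : Xz * (1 / 2 : ℝ) ^ lam ≤ Real.exp (l / 16) * Real.exp (-(1 / 2 * l)) :=
      mul_le_mul hXz h2 (by positivity) (by positivity)
    have h4 : Real.exp (l / 16) * Real.exp (-(1 / 2 * l)) = Real.exp (-(7 / 16 * l)) := by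
      rw [← Real.exp_add]
      congr 1
      ring
    rw [h4] at h3
    have h5 := Real.exp_pos (2 : ℝ)
    calc (4 * Xz) * (2 * Real.exp 2 * (1 / 2) ^ lam) = 8 * Real.exp 2 * (Xz * (1 / 2) ^ lam) := by ring
      _ ≤ _ := mul_le_mul_of_nonneg_left h3 (by positivity)
  have hb2 : (4 * Xz) * (2 * Real.exp (-l)) ≤ 8 * Real.exp (-(7 / 16 * l)) := by
    have h3 : Xz * Real.exp (-l) ≤ Real.exp (l / 16) * Real.exp (-l) :=
      mul_le_mul_of_nonneg_right hXz (Real.exp_pos _).le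
    have h4 : Real.exp (l / 16) * Real.exp (-l) ≤ Real.exp (-(7 / 16 * l)) := by
      rw [← Real.exp_add]
      apply Real.exp_le_exp.mpr
      linarith
    calc (4 * Xz) * (2 * Real.exp (-l)) = 8 * (Xz * Real.exp (-l)) := by ring
      _ ≤ _ := mul_le_mul_of_nonneg_left (h3.trans h4) (by norm_num)
  have hb3 : (4 * Xz) * ((l ^ 2 * (4 * Xz + 1)) * (Ee * (Ct * Real.exp (-(l ^ 2 / Ct))))) ≤
      5120 * Ct * Real.exp (-(7 / 16 * l)) := by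
    have hq : l ^ 2 ≤ 128 * Real.exp (l / 8) := by
      have := Real.quadratic_le_exp_of_nonneg (by positivity : 0 ≤ l / 8)
      nlinarith
    have hexp : Real.exp (-(l ^ 2 / Ct)) ≤ Real.exp (-l) := by
      apply Real.exp_le_exp.mpr
      apply neg_le_neg
      rw [le_div_iff₀ hCt]
      nlinarith
    have hX3 : Xz ^ 3 ≤ Real.exp (3 * (l / 16)) := by
      have := pow_le_pow_left₀ hX0.le hXz 3
      rwa [← Real.exp_nat_mul] at this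
    have h41 : 4 * Xz + 1 ≤ 5 * Xz := by linarith
    have hEe2 : Ee ≤ 2 * Xz := by linarith
    have hprod : (4 * Xz) * ((4 * Xz + 1) * Ee) ≤ 40 * Xz ^ 3 := by
      have h5 : (4 * Xz + 1) * Ee ≤ (5 * Xz) * (2 * Xz) := mul_le_mul h41 hEe2 hEe0 (by positivity)
      calc (4 * Xz) * ((4 * Xz + 1) * Ee) ≤ (4 * Xz) * ((5 * Xz) * (2 * Xz)) :=
            mul_le_mul_of_nonneg_left h5 (by positivity)
        _ = _ := by ring
    have hcomb : l ^ 2 * (Xz ^ 3 * Real.exp (-(l ^ 2 / Ct))) ≤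
        (128 * Real.exp (l / 8)) * (Real.exp (3 * (l / 16)) * Real.exp (-l)) := by
      apply mul_le_mul hq _ (by positivity) (by positivity)
      exact mul_le_mul hX3 hexp (by positivity) (by positivity)
    have hfin : (128 * Real.exp (l / 8)) * (Real.exp (3 * (l / 16)) * Real.exp (-l)) ≤ 128 * Real.exp (-(7 / 16 * l)) := by
      have e : (128 * Real.exp (l / 8)) * (Real.exp (3 * (l / 16)) * Real.exp (-l)) =
          128 * Real.exp (l / 8 + 3 * (l / 16) + -l) := by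
        rw [Real.exp_add, Real.exp_add]
        ring
      rw [e]
      apply mul_le_mul_of_nonneg_left _ (by norm_num)
      apply Real.exp_le_exp.mpr
      linarith
    have hpos : 0 ≤ Ct * (l ^ 2 * Real.exp (-(l ^ 2 / Ct))) := by positivity
    calc (4 * Xz) * ((l ^ 2 * (4 * Xz + 1)) * (Ee * (Ct * Real.exp (-(l ^ 2 / Ct)))))
        = ((4 * Xz) * ((4 * Xz + 1) * Ee)) * (Ct * (l ^ 2 * Real.exp (-(l ^ 2 / Ct)))) := by ring
      _ ≤ (40 * Xz ^ 3) * (Ct * (l ^ 2 * Real.exp (-(l ^ 2 / Ct)))) := mul_le_mul_of_nonneg_right hprod hpos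
      _ = 40 * Ct * (l ^ 2 * (Xz ^ 3 * Real.exp (-(l ^ 2 / Ct)))) := by ring
      _ ≤ 40 * Ct * (128 * Real.exp (-(7 / 16 * l))) :=
          mul_le_mul_of_nonneg_left (hcomb.trans hfin) (by positivity)
      _ = _ := by ring
  rw [mul_add, mul_add, add_mul, add_mul]
  linarith

end numeric

section first

variable {q : ℝ}

theorem qv_hmb {K₁ C₂ l w : ℝ} (hK₁ : 0 < K₁) (hC₂ : 0 < C₂) (hl : 8 * K₁ * C₂ + 1 ≤ l) (hwl : l ^ 3 / 2 ≤ w) :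
    K₁ * (C₂ / w) * l ≤ 1 / 4 := by
  have hp : 0 < 8 * K₁ * C₂ := by positivity
  have hl1 : 1 ≤ l := by linarith
  have hl0 : 0 < l := by linarith
  have hw0 : 0 < w := by
    have : 0 < l ^ 3 / 2 := by positivity
    linarith
  rw [mul_assoc, mul_comm (C₂ / w), ← mul_div_assoc, mul_div_assoc' , div_le_iff₀ hw0]
  have hl2 : l ≤ l ^ 2 := by
    calc l = l ^ 1 := (pow_one l).symm
      _ ≤ l ^ 2 := pow_le_pow_right₀ hl1 (by norm_num)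
  have h5 : 8 * K₁ * C₂ ≤ l ^ 2 := by linarith
  have h6 : (8 * K₁ * C₂) * l ≤ l ^ 2 * l := mul_le_mul_of_nonneg_right h5 hl0.le
  have e : l ^ 2 * l = l ^ 3 := by ring
  nlinarith

theorem qv_hmbΛ {K₁ C₂ l w : ℝ} (hK₁ : 0 < K₁) (hC₂ : 0 < C₂) (hl : 640 * C₂ ^ 2 * K₁ ^ 2 + 1 ≤ l) (hwl : l ^ 3 / 2 ≤ w) :
    8 * (C₂ / w) ^ 2 ≤ 1 / (20 * K₁ ^ 2 * l ^ 2) := by
  have hp : 0 < 640 * C₂ ^ 2 * K₁ ^ 2 := by positivity
  have hl1 : 1 ≤ l := by linarith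
  have hl0 : 0 < l := by linarith
  have hw0 : 0 < w := by
    have : 0 < l ^ 3 / 2 := by positivity
    linarith
  have hmb0 : 0 ≤ C₂ / w := by positivity
  have hmbl : C₂ / w ≤ 2 * C₂ / l ^ 3 := by
    rw [div_le_div_iff₀ hw0 (by positivity)]
    nlinarith
  have h4 : (C₂ / w) ^ 2 ≤ (2 * C₂ / l ^ 3) ^ 2 := pow_le_pow_left₀ hmb0 hmbl 2
  have h5 : 8 * (2 * C₂ / l ^ 3) ^ 2 ≤ 1 / (20 * K₁ ^ 2 * l ^ 2) := by
    have e : 8 * (2 * C₂ / l ^ 3) ^ 2 = 32 * C₂ ^ 2 / l ^ 6 := by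
      field_simp
      ring
    rw [e, div_le_div_iff₀ (by positivity) (by positivity)]
    have hl4 : l ≤ l ^ 4 := by
      calc l = l ^ 1 := (pow_one l).symm
        _ ≤ l ^ 4 := pow_le_pow_right₀ hl1 (by norm_num)
    have h6 : 640 * C₂ ^ 2 * K₁ ^ 2 ≤ l ^ 4 := by linarith
    calc 32 * C₂ ^ 2 * (20 * K₁ ^ 2 * l ^ 2) = (640 * C₂ ^ 2 * K₁ ^ 2) * l ^ 2 := by ring
      _ ≤ l ^ 4 * l ^ 2 := mul_le_mul_of_nonneg_right h6 (by positivity)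
      _ = 1 * l ^ 6 := by ring
  linarith

open Classical in
/-- The first stage of the lower tail: the ratio is rarely small. -/
theorem qv_B1 (h0 : 0 < q) (h1 : q < 1) {Ct CE C₂ : ℝ} (hCt : 0 < Ct) (hCE : 0 < CE) (hC₂ : 0 < C₂)
    (htail : ∀ (D : Finset ℤ) (X : ℕ) (u : ℝ), 1 ≤ X → 0 ≤ u → u ≤ X → (D.card : ℝ) * u ≤ X →
      ∑ t ∈ (W (2 * X)).filter (fun t => u ≤ |(X : ℝ) - H t - kap1 q * t.length|),
        trW q (2 * X) t * (cnt (blockStr D 0 X) t : ℝ) ≤ Ct * Real.exp (-(u ^ 2) / (Ct * X)))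
    (lam A δ Xz W₀ : ℕ) (D : Finset ℤ) (hδ : 1 ≤ δ) (hD1 : ∀ d ∈ D, 1 ≤ d) (hS : Spaced D δ)
    (hlam : 3840 * (96 * C₂ + 8 * CE) * ((1 + q) / q) ^ 2 + 480 * ((1 + q) / q) ^ 2 + 3840 * C₂ ^ 2 * ((1 + q) / q) ^ 2 + 1 +
      8 * ((1 + q) / q) * C₂ + 640 * C₂ ^ 2 * ((1 + q) / q) ^ 2 ≤ (lam : ℝ))
    (hX1 : 1 ≤ Xz) (hlam1 : 1 ≤ lam)
    (ha2 : (δ : ℝ) ≤ √(Xz : ℝ)) (hs1 : 1 ≤ √(D.card : ℝ))
    (hkey : (lam : ℝ) ^ 7 * √(Xz : ℝ) * √(D.card : ℝ) ≤ √(δ : ℝ) ^ 3)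
    (hwa : √(δ : ℝ) / 2 ≤ W₀) (hwl : (lam : ℝ) ^ 3 / 2 ≤ W₀)
    (hs : ∀ r, (chainS (xD D) (2 * A) h0 h1 (xD_zero D)).Gs r ≤ (C₂ / W₀) * (chainS (xD D) (2 * A) h0 h1 (xD_zero D)).Pre r)
    (hE : ∀ T : ℕ, 2 * T ∈ runEnds (xD D) (2 * A) → 1 ≤ T ∧ (T : ℝ) ≤ Xz ∧ (lam : ℝ) * √(Xz : ℝ) ≤ T ∧
      (D.card : ℝ) * ((lam : ℝ) * √(Xz : ℝ)) ≤ T)
    (hfar : ∀ (n b : ℕ), ∑ e ∈ (runEnds (xD D) (2 * A)).filter (fun e => b + 2 * δ < e),
        QE q (xD D b) n ((Xb (xD D) e).drop b) ≤ CE * (lam : ℝ) * (√(D.card : ℝ) * (1 / √(δ : ℝ)))) :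
    ∑ r ∈ (Weq (4 * Xz)).filter (fun r => (chainS (xD D) (2 * A) h0 h1 (xD_zero D)).Pre r < MkR q r / 2), MkR q r ≤
      (4 * (Xz : ℝ)) * (2 * Real.exp 2 * (1 / 2) ^ lam + 2 * Real.exp (-(lam : ℝ)) +
        (((lam : ℝ) ^ 2 * (4 * (Xz : ℝ) + 1)) * (((runEnds (xD D) (2 * A)).card : ℝ) *
          (Ct * Real.exp (-((lam : ℝ) ^ 2 / Ct)))))) := by
  set x := xD D with hx
  set Ch := chainS x (2 * A) h0 h1 (xD_zero D) with hCh
  set l : ℝ := (lam : ℝ) with hl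
  set K₁ : ℝ := (1 + q) / q with hK₁
  have hK₁0 : 0 < K₁ := by positivity
  have hK20 : 0 < K₁ ^ 2 := by positivity
  have hp1 : 0 < 3840 * (96 * C₂ + 8 * CE) * K₁ ^ 2 := by positivity
  have hp2 : 0 < 480 * K₁ ^ 2 := by positivity
  have hp3 : 0 < 3840 * C₂ ^ 2 * K₁ ^ 2 := by positivity
  have hp4 : 0 < 8 * K₁ * C₂ := by positivity
  have hp5 : 0 < 640 * C₂ ^ 2 * K₁ ^ 2 := by positivity
  have hl1 : 1 ≤ l := by linarith
  have hl0 : 0 < l := by linarith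
  set a : ℝ := √(δ : ℝ) with ha
  have hδ0 : (0 : ℝ) < δ := by exact_mod_cast hδ
  have ha0 : 0 < a := Real.sqrt_pos.mpr hδ0
  have hasq : a ^ 2 = δ := Real.sq_sqrt hδ0.le
  set rr : ℝ := √(Xz : ℝ) with hrr
  have hX0 : (1 : ℝ) ≤ Xz := by exact_mod_cast hX1
  have hrr1 : 1 ≤ rr := Real.one_le_sqrt.mpr hX0
  have hrrsq : rr ^ 2 = Xz := Real.sq_sqrt (by linarith)
  set s : ℝ := √(D.card : ℝ) with hs'
  have hw0 : (0 : ℝ) < W₀ := by
    have : 0 < a / 2 := by positivity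
    linarith
  set mb : ℝ := C₂ / W₀ with hmb
  have hmb0 : 0 ≤ mb := by positivity
  set Λ : ℝ := 1 / (20 * K₁ ^ 2 * l ^ 2) with hΛ
  set B : ℝ := 1 / (80 * K₁ ^ 2 * l ^ 3) with hB
  set Wd : ℝ := l * rr with hWd
  have hWd0 : 0 ≤ Wd := by positivity
  set i : ℕ := 4 * Xz with hi
  set εw : ℝ := 1 / (l ^ 2 * ((i : ℝ) + 1)) with hεw
  have hεw0 : 0 < εw := by positivity
  set S : ℝ := CE * l * (s * (1 / a)) with hSdef
  have hS0 : 0 ≤ S := by positivity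
  set na : ℝ := 2 * ((2 * Wd + 1) / (δ : ℝ) + 1) with hna
  have hna0 : 0 ≤ na := by positivity
  set Aux : Word → Prop := fun r => ∑ e ∈ (runEnds x (2 * A)).filter (fun e => ¬ Actv q Wd r e),
    traceProb q (Xb x e) r.reverse ≤ εw * MkR q r with hAux
  have hU : ∀ f : Word, f.length ≤ i → Ch.Gd Λ Aux f → Ch.Up Λ Aux (i - f.length) f ≤ B := by
    intro f hf hg
    have hup := Up_bound x (2 * A) h0 h1 (xD_zero D) (Actv q Wd) (i - f.length) δ (mb := mb) (S := S) (na := na) (NN := 6)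
      (εw := εw) hs hmb0 hS0 hna0 hεw0.le (fun r _ h => h)
      (fun r => active_count D hD1 hδ hS (2 * A) hWd0 r) (fun b => near_count D hD1 hδ hS (2 * A) b)
      (fun b _ => hfar (i - f.length) b) hg
    refine hup.trans ?_
    have hn : (((i - f.length : ℕ)) : ℝ) ≤ (i : ℝ) := by exact_mod_cast Nat.sub_le _ _
    have hreal := qv_hU_real (K₁ := K₁) (C₂ := C₂) (CE := CE) (l := l) (r := rr) (a := a) (s := s) (w := W₀)
      (i := (i : ℝ)) (n := ((i - f.length : ℕ) : ℝ)) hK₁0 hC₂ hCE (by linarith) hrr1 ha0 (by rw [hasq]; exact ha2) hs1 hkey hwa hwl hn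
      (by positivity)
    rw [hasq] at hreal
    exact hreal
  have hAuxm : ∀ j ≤ i, ∑ r ∈ (Weq j).filter (fun r => ¬ Aux r), MkR q r ≤
      (1 / εw) * (((runEnds x (2 * A)).card : ℝ) * (Ct * Real.exp (-(Wd ^ 2) / (Ct * Xz)))) := by
    intro j _
    have := inactive_mass h0 h1 hCt htail D (2 * A) j Xz hWd0 hεw0 hE
    convert this using 2
  have hfin := Ch.qv_tail (l := lam) (Λ := Λ) (B := B) (mb := mb) h0 h1 hlam1 hs hmb0 (by
      have := qv_hmb hK₁0 hC₂ (l := l) (w := W₀) (by linarith) hwl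
      exact this) (by positivity) (by
      have h5 : 20 * K₁ ^ 2 * l ^ 2 * Λ = 1 := by
        rw [hΛ]
        field_simp
      exact h5.le) (by
      have := qv_hmbΛ hK₁0 hC₂ (l := l) (w := W₀) (by linarith) hwl
      exact this) (by positivity) hAuxm hU
  refine hfin.trans (le_of_eq ?_)
  have e1 : Λ / (4 * B) = l := by
    rw [hΛ, hB]
    field_simp
    norm_num
  have e2 : -(Wd ^ 2) / (Ct * (Xz : ℝ)) = -(l ^ 2 / Ct) := by
    rw [hWd, mul_pow, hrrsq]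
    field_simp
  have e3 : 1 / εw = l ^ 2 * (4 * (Xz : ℝ) + 1) := by
    rw [hεw, hi]
    push_cast
    field_simp
  rw [e1, e2, e3, hi]
  push_cast
  ring

end first

section main

variable {q : ℝ}

/-- The last numerical step. -/
theorem qv_final_real {Ct Cn K₀ C l E₁ : ℝ} (hCt : 0 < Ct) (hCn : 0 < Cn)
    (hK₀ : K₀ = 9 * Ct + 16 + (8 * Real.exp 2 + 8 + 5120 * Ct))
    (hl1 : Ct ≤ l) (hl2 : 16 * Cn ≤ l) (hl3 : 2 * K₀ / (7 / 16) ≤ l) (hl0 : 1 ≤ l) (hC : 16 ≤ C)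
    (hE₁ : E₁ ≤ (8 * Real.exp 2 + 8 + 5120 * Ct) * Real.exp (-(7 / 16 * l))) :
    Ct * Real.exp (-(l ^ 2 / Ct)) + E₁ +
      8 * (Ct * Real.exp (-(l ^ 2 / Ct)) + 2 * Real.exp (-(l ^ 2 / (16 * Cn)))) ≤ Real.exp (-l / C) := by
  have hlpos : 0 < l := by linarith
  have hy := Real.exp_pos (-(7 / 16 * l))
  have b1 : Real.exp (-(l ^ 2 / Ct)) ≤ Real.exp (-(7 / 16 * l)) := by
    apply Real.exp_le_exp.mpr
    apply neg_le_neg
    rw [le_div_iff₀ hCt]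
    nlinarith
  have b2 : Real.exp (-(l ^ 2 / (16 * Cn))) ≤ Real.exp (-(7 / 16 * l)) := by
    apply Real.exp_le_exp.mpr
    apply neg_le_neg
    rw [le_div_iff₀ (by positivity)]
    nlinarith
  have hK₀0 : 0 < K₀ := by
    have := Real.exp_pos (2 : ℝ)
    rw [hK₀]
    positivity
  have hsum : Ct * Real.exp (-(l ^ 2 / Ct)) + E₁ +
      8 * (Ct * Real.exp (-(l ^ 2 / Ct)) + 2 * Real.exp (-(l ^ 2 / (16 * Cn)))) ≤ K₀ * Real.exp (-(7 / 16 * l)) := by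
    have h2 := mul_le_mul_of_nonneg_left b1 hCt.le
    rw [hK₀]
    nlinarith
  refine hsum.trans ?_
  have hfin := final_numeric (c := 7 / 16) (K := K₀) (by norm_num) hK₀0 l hl3
  refine hfin.trans ?_
  apply Real.exp_le_exp.mpr
  have hCpos : 0 < C := by linarith
  have h3 : l / C ≤ 7 / 16 / 2 * l := by
    rw [div_le_iff₀ hCpos]
    nlinarith
  have e3 : -l / C = -(l / C) := by ring
  rw [e3]
  linarith

/-- Real consequences of the hypotheses. -/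
theorem qv_reals {l k δ Xz : ℝ} (hl16 : 16 ≤ l) (hdc : 1 ≤ k) (hδ0 : 1 ≤ δ) (hkey0 : l ^ 14 * Xz * k ≤ δ ^ 3)
    (hδ2 : δ ^ 2 ≤ Xz) :
    1 ≤ Xz ∧ δ ≤ √Xz ∧ δ ≤ Xz ∧ 1 ≤ √Xz ∧ 0 < √δ ∧ 1 ≤ √k ∧ l ^ 7 * √Xz * √k ≤ √δ ^ 3 ∧ l ^ 7 * √k ≤ √δ ∧
      l ^ 3 ≤ √δ ∧ k * l ^ 3 ≤ √Xz ∧ k ≤ Xz := by
  have hl1 : 1 ≤ l := by linarith
  have hl0 : 0 < l := by linarith
  have hXz1R : 1 ≤ Xz := by nlinarith
  set r : ℝ := √Xz with hr
  set a : ℝ := √δ with ha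
  set s : ℝ := √k with hs
  have hr0 : 0 ≤ r := Real.sqrt_nonneg _
  have hrsq : r ^ 2 = Xz := Real.sq_sqrt (by linarith)
  have hasq : a ^ 2 = δ := Real.sq_sqrt (by linarith)
  have hssq : s ^ 2 = k := Real.sq_sqrt (by linarith)
  have ha0 : 0 < a := Real.sqrt_pos.mpr (by linarith)
  have hs1 : 1 ≤ s := Real.one_le_sqrt.mpr hdc
  have hδr : δ ≤ r := Real.le_sqrt_of_sq_le hδ2
  have hr1 : 1 ≤ r := by linarith
  have hδXzR : δ ≤ Xz := by nlinarith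
  have hkey : l ^ 7 * r * s ≤ a ^ 3 := by
    have h2 : (l ^ 7 * r * s) ^ 2 ≤ (a ^ 3) ^ 2 := by
      have e1 : (l ^ 7 * r * s) ^ 2 = l ^ 14 * r ^ 2 * s ^ 2 := by ring
      have e2 : (a ^ 3) ^ 2 = (a ^ 2) ^ 3 := by ring
      rw [e1, e2, hrsq, hssq, hasq]
      exact hkey0
    exact (sq_le_sq₀ (by positivity) (by positivity)).mp h2
  have hl7s : l ^ 7 * s ≤ a := by
    have h2 : (l ^ 7 * s) * a ^ 2 ≤ a * a ^ 2 := by
      have h3 : l ^ 7 * s * a ^ 2 ≤ l ^ 7 * r * s := by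
        rw [hasq]
        have : 0 ≤ l ^ 7 * s := by positivity
        nlinarith
      calc _ ≤ _ := h3
        _ ≤ a ^ 3 := hkey
        _ = _ := by ring
    exact le_of_mul_le_mul_right h2 (by positivity)
  have hl37 : l ^ 3 ≤ l ^ 7 := pow_le_pow_right₀ hl1 (by norm_num)
  have hl3a : l ^ 3 ≤ a := by
    have : l ^ 7 * 1 ≤ l ^ 7 * s := mul_le_mul_of_nonneg_left hs1 (by positivity)
    linarith
  have hkr : k * l ^ 3 ≤ r := by
    have hl14 : l ^ 3 ≤ l ^ 14 := pow_le_pow_right₀ hl1 (by norm_num)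
    have h2 : (l ^ 14 * k) * r ^ 2 ≤ r * r ^ 2 := by
      have h3 : δ ^ 3 ≤ r ^ 3 := pow_le_pow_left₀ (by linarith) hδr 3
      have h4 : l ^ 14 * Xz * k = (l ^ 14 * k) * r ^ 2 := by rw [hrsq]; ring
      calc (l ^ 14 * k) * r ^ 2 = l ^ 14 * Xz * k := h4.symm
        _ ≤ _ := hkey0
        _ ≤ r ^ 3 := h3
        _ = _ := by ring
    have h5 : l ^ 14 * k ≤ r := le_of_mul_le_mul_right h2 (by positivity)
    have h6 : k * l ^ 3 ≤ k * l ^ 14 := mul_le_mul_of_nonneg_left hl14 (by linarith)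
    linarith
  have hkXz : k ≤ Xz := by
    have h2 : k * 1 ≤ k * l ^ 3 := mul_le_mul_of_nonneg_left (one_le_pow₀ hl1) (by linarith)
    nlinarith
  exact ⟨hXz1R, hδr, hδXzR, hr1, ha0, hs1, hkey, hl7s, hl3a, hkr, hkXz⟩

/-- The run ends are in the range of the tail estimate. -/
theorem qv_hE (D : Finset ℤ) (A Xz : ℕ) {l k r δ₁ : ℝ} (hδ₁ : 0 ≤ δ₁)
    (hsites : ∀ d ∈ D, (Xz : ℤ) ≤ 4 * d ∧ d ≤ (Xz : ℤ)) (hl16 : 16 ≤ l) (hk : k = (D.card : ℝ)) (hdc : 1 ≤ k)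
    (hr0 : 0 ≤ r) (hrsq : r ^ 2 = Xz) (hkr : k * l ^ 3 ≤ r) (T : ℕ) (hT : 2 * T ∈ runEnds (xD D) (2 * A)) :
    1 ≤ T ∧ (T : ℝ) ≤ Xz ∧ l * r ≤ T ∧ (D.card : ℝ) * (l * r) ≤ T := by
  rw [← hk]
  have hl1 : 1 ≤ l := by linarith
  have hl0 : 0 < l := by linarith
  obtain ⟨T', hTT, hT'⟩ := runEnds_xD D (2 * A) (2 * T) hT
  have hTe : T = T' := by omega
  subst hTe
  have hz : (Xz : ℤ) ≤ 4 * ((T : ℤ) + 1) ∧ (T : ℤ) ≤ Xz := by
    rcases hT' with h2 | h2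
    · have h3 := hsites _ h2
      omega
    · have h3 := hsites _ h2
      push_cast at h3
      omega
  have hz1 : (Xz : ℝ) ≤ 4 * ((T : ℝ) + 1) := by exact_mod_cast hz.1
  have hz2 : (T : ℝ) ≤ Xz := by exact_mod_cast hz.2
  have hl3 : (16 : ℝ) ≤ l ^ 3 := by
    have : l ≤ l ^ 3 := pow_ge_self hl1 3 (by norm_num)
    linarith
  have hr16 : 16 ≤ r := by
    have h2 : k * 1 ≤ k * l ^ 3 := mul_le_mul_of_nonneg_left (one_le_pow₀ hl1) (by linarith)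
    nlinarith
  have hXz16 : (256 : ℝ) ≤ Xz := by nlinarith
  have hT8 : (Xz : ℝ) / 8 ≤ T := by linarith
  have hT1R : (1 : ℝ) ≤ T := by linarith
  have hT1 : 1 ≤ T := by exact_mod_cast hT1R
  have hkl : k * (l * r) ≤ T := by
    have h2 : (k * l ^ 3) * r ≤ r * r := mul_le_mul_of_nonneg_right hkr hr0
    have h3 : 8 ≤ l ^ 2 := by nlinarith
    have h4 : k * l * r * 8 ≤ k * l * r * l ^ 2 := mul_le_mul_of_nonneg_left h3 (by positivity)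
    have e : k * l * r * l ^ 2 = (k * l ^ 3) * r := by ring
    have e2 : r * r = Xz := by rw [← hrsq]; ring
    have h5 : k * (l * r) * 8 ≤ Xz := by
      calc k * (l * r) * 8 = k * l * r * 8 := by ring
        _ ≤ k * l * r * l ^ 2 := h4
        _ = (k * l ^ 3) * r := e
        _ ≤ r * r := h2
        _ = Xz := e2
    linarith
  have hlr : l * r ≤ k * (l * r) := by
    have : 0 ≤ l * r := by positivity
    nlinarith
  exact ⟨hT1, hz2, by linarith, hkl⟩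

theorem qv_small {C' l s a : ℝ} (hl1 : 1 ≤ l) (ha0 : 0 < a) (hs0 : 0 ≤ s) (hl7s : l ^ 7 * s ≤ a) (hC' : C' ≤ l) (hC'0 : 0 ≤ C') :
    C' * l * (s * (1 / a)) ≤ 1 := by
  have e : C' * l * (s * (1 / a)) = (C' * l * s) / a := by ring
  rw [e, div_le_one ha0]
  have h2 : l ^ 2 ≤ l ^ 7 := pow_le_pow_right₀ hl1 (by norm_num)
  have h3 : C' * l ≤ l ^ 2 := by nlinarith
  calc C' * l * s ≤ l ^ 2 * s := mul_le_mul_of_nonneg_right h3 hs0
    _ ≤ l ^ 7 * s := mul_le_mul_of_nonneg_right h2 hs0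
    _ ≤ a := hl7s

theorem qv_wa {δ : ℕ} (hW1 : 1 ≤ Nat.sqrt δ) : √(δ : ℝ) / 2 ≤ (Nat.sqrt δ : ℝ) := by
  have hW3' : δ < (Nat.sqrt δ + 1) ^ 2 := by
    rw [sq]
    exact Nat.lt_succ_sqrt δ
  have hlt : √(δ : ℝ) < (Nat.sqrt δ : ℝ) + 1 := by
    rw [Real.sqrt_lt' (by positivity)]
    have : ((δ : ℕ) : ℝ) < (((Nat.sqrt δ + 1) ^ 2 : ℕ) : ℝ) := by exact_mod_cast hW3'
    push_cast at this
    exact this
  have h1W : (1 : ℝ) ≤ (Nat.sqrt δ : ℝ) := by exact_mod_cast hW1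
  linarith

theorem qv_zone {δ Lm : ℝ} (hδ : 1 ≤ δ) (hLm : 0 ≤ Lm) (hLm2 : Lm + 1 ≤ δ ^ 2) : (1 / δ) * √(Lm + 1) ≤ 1 := by
  have h2 : √(Lm + 1) ≤ δ := Real.sqrt_le_iff.mpr ⟨by linarith, hLm2⟩
  rw [div_mul_eq_mul_div, one_mul, div_le_one (by linarith)]
  exact h2

theorem qv_C_parts {a b c d e f g h l : ℝ} (ha : 0 ≤ a) (hb : 0 ≤ b) (hc : 0 ≤ c) (hd : 0 ≤ d) (he : 0 ≤ e) (hf : 0 ≤ f)
    (hg : 0 ≤ g) (hh : 0 ≤ h) (hl : a + 1 + b + 16 + c + d + e + f + g + h ≤ l) :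
    a + 1 ≤ l ∧ b ≤ l ∧ 16 + c ≤ l ∧ d ≤ l ∧ e ≤ l ∧ f ≤ l ∧ g ≤ l ∧ h ≤ l ∧ 16 ≤ l := by
  refine ⟨?_, ?_, ?_, ?_, ?_, ?_, ?_, ?_, ?_⟩ <;> linarith

/-- Main theorem of the second version of the module: the hypothesis is on the product of the
range of the sites and their number, instead of their number alone. -/
theorem lower_tail_B (h0 : 0 < q) (h1 : q < 1) :
    ∃ c C : ℝ, 0 < c ∧ 0 < C ∧ ∀ (lam A δ Xz Lm : ℕ) (D : Finset ℤ), C ≤ lam → 1 ≤ δ →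
      (∀ d ∈ D, (δ : ℤ) ≤ d ∧ (Xz : ℤ) ≤ 4 * d ∧ d ≤ (Xz : ℤ)) →
      (∀ d ∈ D, ∀ d' ∈ D, d ≠ d' → (δ : ℤ) ≤ |d - d'|) →
      (∀ d ∈ D, ∀ d' ∈ D, |d - d'| ≤ Lm) →
      ((Lm : ℝ) + 1 ≤ (δ : ℝ) ^ 2) →
      (∑ j ∈ range (Lm + 3), 1 / ((j : ℝ) + 1) ≤ (lam : ℝ)) →
      (lam : ℝ) ^ 14 * Xz * D.card ≤ (δ : ℝ) ^ 3 →
      (δ : ℝ) ^ 2 ≤ Xz →
      (Xz : ℝ) ≤ Real.exp ((lam : ℝ) / C) →
      (Xz : ℝ) * (lam : ℝ) ^ 8 ≤ A →
      ∑ t ∈ (W (2 * A)).filter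
          (fun t => (cnt (blockStr D 0 A) t : ℝ) < c * (cnt (blockStr ∅ 0 A) t : ℝ)),
        trW q (2 * A) t * (cnt (blockStr ∅ 0 A) t : ℝ) ≤ Real.exp (-(lam : ℝ) / C) := by
  have hκ := kap1_pos h0 h1
  have hθ0 : 0 < q ^ 2 := by positivity
  have hθ1 : q ^ 2 < 1 := by nlinarith
  obtain ⟨Ct, hCt, htail⟩ := tailX h0 h1
  obtain ⟨Cn, hCn, hbase⟩ := base_window_tail h0 h1
  obtain ⟨C₂, δ₀, hC₂, hspread⟩ := spread_bound h0 h1
  obtain ⟨C₀, s₀, hC₀, hs₀, hNB⟩ := NB_compare hθ0 hθ1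
  obtain ⟨Λ₀, hΛ₀, hpar⟩ := params_compare hθ0 hκ hC₀ hs₀
  obtain ⟨CE, hCE, hfe⟩ := far_energy h0 h1
  obtain ⟨K₀, hK₀⟩ : ∃ K₀ : ℝ, K₀ = 9 * Ct + 16 + (8 * Real.exp 2 + 8 + 5120 * Ct) := ⟨_, rfl⟩
  have hK₀0 : 0 < K₀ := by
    have := Real.exp_pos (2 : ℝ)
    rw [hK₀]
    positivity
  obtain ⟨L₀, hL₀⟩ : ∃ L₀ : ℝ, L₀ = 3840 * (96 * C₂ + 8 * CE) * ((1 + q) / q) ^ 2 + 480 * ((1 + q) / q) ^ 2 +
      3840 * C₂ ^ 2 * ((1 + q) / q) ^ 2 + 1 + 8 * ((1 + q) / q) * C₂ + 640 * C₂ ^ 2 * ((1 + q) / q) ^ 2 := ⟨_, rfl⟩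
  have hL₀0 : 0 < L₀ := by
    rw [hL₀]
    positivity
  obtain ⟨C, hC⟩ : ∃ C : ℝ, C = (δ₀ : ℝ) + 1 + Λ₀ + 16 + 8 * (1 + kap1 q) + L₀ + Ct + 16 * Cn + CE + 2 * K₀ / (7 / 16) := ⟨_, rfl⟩
  have hδ₀R : (0 : ℝ) ≤ δ₀ := by positivity
  have hpos1 : 0 ≤ 8 * (1 + kap1 q) := by positivity
  have hpos2 : 0 < 2 * K₀ / (7 / 16) := by positivity
  have hCpos : 0 < C := by rw [hC]; positivity
  refine ⟨1 / 20, C, by norm_num, hCpos, ?_⟩
  intro lam A δ Xz Lm D hlam hδ hsites hsp hLm hLm2 hharm hkey0 hδ2 hXzexp hA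
  simp only [trW_cnt]
  by_cases hD : D = ∅
  · subst hD
    rw [filter_false_of_mem]
    · simp only [sum_empty]
      positivity
    · intro t _
      have : (0 : ℝ) ≤ (cnt (blockStr ∅ 0 A) t : ℝ) := by positivity
      linarith
  obtain ⟨d, hd⟩ := Finset.nonempty_iff_ne_empty.mpr hD
  have hdc : (1 : ℝ) ≤ (D.card : ℝ) := by
    have : 1 ≤ D.card := Finset.card_pos.mpr ⟨d, hd⟩
    exact_mod_cast this
  set l : ℝ := (lam : ℝ) with hl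
  set k : ℝ := (D.card : ℝ) with hk
  have hlC : C ≤ l := hlam
  rw [hC] at hlC
  obtain ⟨hl_a, hl_b, hl_c, hl_d, hl_e, hl_f, hl_g, hl_h, hl16⟩ := qv_C_parts hδ₀R (le_trans (by norm_num) hΛ₀) hpos1 hL₀0.le hCt.le (by positivity)
    hCE.le hpos2.le hlC
  have hl1 : 1 ≤ l := le_trans (by norm_num) hl16
  have hl0 : 0 < l := lt_of_lt_of_le (by norm_num) hl16
  have hlN : 16 ≤ lam := by
    have : (16 : ℝ) ≤ lam := hl16
    exact_mod_cast this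
  have hδ0 : (1 : ℝ) ≤ δ := by exact_mod_cast hδ
  obtain ⟨hXz1R, hδr, hδXzR, hr1, ha0, hs1, hkey, hl7s, hl3a, hkr, hkXz⟩ := qv_reals hl16 hdc hδ0 hkey0 hδ2
  have hXz1 : 1 ≤ Xz := by exact_mod_cast hXz1R
  have hδXz : δ ≤ Xz := by exact_mod_cast hδXzR
  have hcard' : (1 : ℝ) * l ^ 3 ≤ √(δ : ℝ) := by
    rw [one_mul]
    exact hl3a
  obtain ⟨hrX1, hrA, hrAs, hrXs, hWX, hA4, hA1, _, hm, hu0, hu1, hΓ, hWm⟩ :=
    lt_setup hκ (lam := lam) (A := A) (δ := Xz) (Xz := Xz) (dc := k) hl_c hdc hkr le_rfl hA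
  obtain ⟨hW1, hW2, hW3, hW4, hW5⟩ := width_facts (δ := δ) (Xz := Xz) (A := A) (lam := lam) (dc := 1) (le_refl _) hlN hcard' hδXz hA
  have hδ₀ : δ₀ ≤ δ := lt_delta (δ₀ := δ₀) (dc := 1) (le_refl _) hl_a hcard'
  have hsites2 : ∀ e ∈ D, (δ : ℤ) ≤ e ∧ e ≤ (Xz : ℤ) := fun e he => ⟨(hsites e he).1, (hsites e he).2.2⟩
  have hG := hspread A δ (Nat.sqrt δ) Xz D hδ₀ hW1 hW2 hW3 hsites2 hsp hW4
  have hD1 : ∀ e ∈ D, 1 ≤ e := by
    intro e he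
    have h2 := (hsites e he).1
    have h3 : (1 : ℤ) ≤ δ := by exact_mod_cast hδ
    omega
  have hwl : l ^ 3 / 2 ≤ (Nat.sqrt δ : ℝ) := by
    have : (1 : ℝ) * l ^ 3 / 2 ≤ (Nat.sqrt δ : ℝ) := hW5
    rwa [one_mul] at this
  have hzone : (1 / (δ : ℝ)) * √((Lm : ℝ) + 1) ≤ 1 := qv_zone hδ0 (by positivity) hLm2
  have hfar : ∀ (n b : ℕ), ∑ e ∈ (runEnds (xD D) (2 * A)).filter (fun e => b + 2 * δ < e),
        QE q (xD D b) n ((Xb (xD D) e).drop b) ≤ CE * l * (√k * (1 / √(δ : ℝ))) := by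
    intro n b
    exact hfe δ Lm (2 * A) n l D b hδ hD1 hsp hLm hl1 hharm hzone
      (qv_small hl1 ha0 (Real.sqrt_nonneg _) hl7s hl_g hCE.le)
  have hE := qv_hE D A Xz (δ₁ := 0) le_rfl (fun e he => (hsites e he).2) hl16 hk hdc (Real.sqrt_nonneg _)
    (Real.sq_sqrt (le_trans (by norm_num) hXz1R)) hkr
  have hB1 := qv_B1 h0 h1 hCt hCE hC₂ htail lam A δ Xz (Nat.sqrt δ) D hδ hD1 hsp (by
      rw [← hL₀]
      exact hl_d) hXz1 (by omega) hδr hs1 hkey (qv_wa hW1) hwl hG hE hfar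
  have hDXz : ∀ e ∈ D, e ≤ (Xz : ℤ) := fun e he => (hsites e he).2.2
  have hcore := core h0 h1 hCn htail hbase hNB hpar D A Xz l √(A : ℝ) √(Xz : ℝ) hDXz hl_b hrX1 hrA hrAs
    hrXs hWX hA4 hA1 hXz1 hm hu0 hu1 hΓ hWm hB1
  refine hcore.trans ?_
  obtain ⟨e1, e2⟩ := exponents_eq (l := l) hCt hCn (by exact_mod_cast hA1) hXz1R hrAs hrXs
  rw [e1, e2]
  have hEe : (((runEnds (xD D) (2 * A)).card : ℕ) : ℝ) ≤ 2 * k := by
    have h2 := card_runEnds D hD1 (2 * A)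
    rw [hk]
    exact_mod_cast h2
  have hC16 : 16 ≤ C := by
    rw [hC]
    have h9 : (0 : ℝ) ≤ (δ₀ : ℝ) + 1 + Λ₀ + 8 * (1 + kap1 q) + L₀ + Ct + 16 * Cn + CE + 2 * K₀ / (7 / 16) := by positivity
    linarith only [h9]
  have hX16 : (Xz : ℝ) ≤ Real.exp (l / 16) := by
    refine hXzexp.trans (Real.exp_le_exp.mpr ?_)
    apply div_le_div_of_nonneg_left hl0.le (by norm_num) hC16
  have hEone := qv_E1_real (Ct := Ct) (Xz := (Xz : ℝ)) (k := k) (Ee := ((runEnds (xD D) (2 * A)).card : ℝ)) (l := l) (lam := lam)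
    hCt rfl hl_e hl1 hXz1R hX16 hkXz (le_trans (by norm_num) hdc) hEe (by positivity)
  exact qv_final_real hCt hCn hK₀ hl_e hl_f hl_h hl1 hC16 hEone

end main

end Vale.Agent.Lib.P321
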