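import Vale.Agent.Lib.P321.TwoPoint
import Vale.Agent.Lib.P321.LowerTail
import Vale.Agent.Lib.P321.Count

/-!
P321: reduction of the Hellinger distance to the reference norm of count differences.
See BLUEPRINT.md, point 2 of the Chain section.

Write `P_x t = trW q (2A) t * cnt x t` (this is `traceProb q x t` by `cnt_eq_count`),
`N₀ t = cnt (blockStr ∅ 0 A) t = multichoose (m+1) S`, `S = A - H t`, `m = |t|`.

Proof of `reduce`. Split `W (2A)`:
* `¬Typ`: `(√P_x - √P_y)² ≤ P_x + P_y`.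
* `Typ`, and `cnt x t < c N₀` and `cnt y t < c N₀`: `(√P_x-√P_y)² ≤ P_x+P_y ≤ 2c P₀`, third term (the filter only
  looks at `x`).
* `Typ`, and `c N₀ ≤ cnt x t` or `c N₀ ≤ cnt y t`: `(√P_x-√P_y)² ≤ (P_x-P_y)²/(P_x+P_y) ≤ (P_x-P_y)²/(c P₀) =
  trW * (Δ cnt)² / (c N₀)`.
  For typical `t`: `S/(S+m)` is within `C lam/√A` of `q²`, hence there is a grid point `u = u_g` (`u_g = q²+g/√A`,
  `|g| ≤ Cg lam`) with `|u - S/(S+m)| ≤ 1/√A`. With `binom_mode_lower` and `log(1+x) ≥ x - 2x²`: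
  `1/N₀ ≤ C √A u^S (1-u)^(m+1)`.
  With `θ = q √u` (`th q A g`): `(1-θ)² ≥ (1-q²)(1-u)` (difference is `(q-√u)²`) and `H+S=A` give the exact inequality
  `trW q (2A) t * u^S (1-u)^(m+1) ≤ piT q t * ((1-θ)^(m+1) * θ^S)²`.
-/

namespace Vale.Agent.Lib.P321

open Finset

theorem exp_sub_two_sq_le {x : ℝ} (hx : |x| ≤ 1 / 2) : Real.exp (x - 2 * x ^ 2) ≤ 1 + x := by
  have hx1 : |(-x)| < 1 := by rw [abs_neg]; linarith
  have h := Real.abs_log_sub_add_sum_range_le hx1 1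
  simp only [Finset.sum_range_one, abs_neg] at h
  have hpos : 0 < 1 + x := by
    have := abs_le.mp hx
    linarith [this.1]
  have hle : |x| ^ (1 + 1) / (1 - |x|) ≤ 2 * x ^ 2 := by
    rw [show (1 + 1 : ℕ) = 2 from rfl, sq_abs, div_le_iff₀ (by linarith)]
    nlinarith [sq_nonneg x]
  have h2 := abs_le.mp (h.trans hle)
  have e : Real.log (1 - -x) = Real.log (1 + x) := by rw [sub_neg_eq_add]
  rw [e] at h2
  have h3 : x - 2 * x ^ 2 ≤ Real.log (1 + x) := by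
    have := h2.1
    norm_num at this
    linarith
  calc Real.exp (x - 2 * x ^ 2) ≤ Real.exp (Real.log (1 + x)) := Real.exp_le_exp.mpr h3
    _ = 1 + x := Real.exp_log hpos

/-- Moving the base of the binomial term away from the mode costs a bounded factor. -/
theorem pow_ratio {u₀ u : ℝ} {S m : ℕ} (h0 : 0 < u₀) (h1 : u₀ < 1) (hS : (S : ℝ) = u₀ * (S + m))
    (hx1 : |(u - u₀) / u₀| ≤ 1 / 2) (hx2 : |(u - u₀) / (1 - u₀)| ≤ 1 / 2) :
    Real.exp (-(2 * (u - u₀) ^ 2 * (S + m) * (1 / u₀ + 1 / (1 - u₀)))) * (u₀ ^ S * (1 - u₀) ^ m)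
      ≤ u ^ S * (1 - u) ^ m := by
  have h1' : 0 < 1 - u₀ := by linarith
  set δ := u - u₀ with hδ
  have e1 : u = u₀ * (1 + δ / u₀) := by rw [hδ]; field_simp; ring
  have e2 : 1 - u = (1 - u₀) * (1 + -(δ / (1 - u₀))) := by rw [hδ]; field_simp; ring
  have hx2' : |-(δ / (1 - u₀))| ≤ 1 / 2 := by rwa [abs_neg]
  have p1 := exp_sub_two_sq_le hx1
  have p2 := exp_sub_two_sq_le hx2'
  have p1' : Real.exp (δ / u₀ - 2 * (δ / u₀) ^ 2) ^ S ≤ (1 + δ / u₀) ^ S :=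
    pow_le_pow_left₀ (Real.exp_pos _).le p1 S
  have p2' : Real.exp (-(δ / (1 - u₀)) - 2 * (-(δ / (1 - u₀))) ^ 2) ^ m ≤ (1 + -(δ / (1 - u₀))) ^ m :=
    pow_le_pow_left₀ (Real.exp_pos _).le p2 m
  have hm : (m : ℝ) = (1 - u₀) * (S + m) := by
    have : (1 - u₀) * ((S : ℝ) + m) = (S + m) - u₀ * (S + m) := by ring
    rw [this, ← hS]; ring
  rw [← Real.exp_nat_mul] at p1' p2'
  have hexp : -(2 * δ ^ 2 * (S + m) * (1 / u₀ + 1 / (1 - u₀))) =
      (S : ℝ) * (δ / u₀ - 2 * (δ / u₀) ^ 2) + (m : ℝ) * (-(δ / (1 - u₀)) - 2 * (-(δ / (1 - u₀))) ^ 2) := by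
    have a1 : (S : ℝ) * (δ / u₀ - 2 * (δ / u₀) ^ 2) = (S + m) * (δ - 2 * δ ^ 2 / u₀) := by
      calc (S : ℝ) * (δ / u₀ - 2 * (δ / u₀) ^ 2) = (u₀ * (S + m)) * (δ / u₀ - 2 * (δ / u₀) ^ 2) := by
            rw [← hS]
        _ = _ := by field_simp
    have a2 : (m : ℝ) * (-(δ / (1 - u₀)) - 2 * (-(δ / (1 - u₀))) ^ 2) =
        (S + m) * (-δ - 2 * δ ^ 2 / (1 - u₀)) := by
      calc (m : ℝ) * (-(δ / (1 - u₀)) - 2 * (-(δ / (1 - u₀))) ^ 2)
          = ((1 - u₀) * (S + m)) * (-(δ / (1 - u₀)) - 2 * (-(δ / (1 - u₀))) ^ 2) := by rw [← hm]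
        _ = _ := by field_simp
    rw [a1, a2]
    field_simp
    ring
  rw [hexp, Real.exp_add]
  have hu0 : 0 ≤ u₀ ^ S := by positivity
  have hu1 : 0 ≤ (1 - u₀) ^ m := by positivity
  calc Real.exp ((S : ℝ) * (δ / u₀ - 2 * (δ / u₀) ^ 2)) *
        Real.exp ((m : ℝ) * (-(δ / (1 - u₀)) - 2 * (-(δ / (1 - u₀))) ^ 2)) * (u₀ ^ S * (1 - u₀) ^ m)
      = (Real.exp ((S : ℝ) * (δ / u₀ - 2 * (δ / u₀) ^ 2)) * u₀ ^ S) *
        (Real.exp ((m : ℝ) * (-(δ / (1 - u₀)) - 2 * (-(δ / (1 - u₀))) ^ 2)) * (1 - u₀) ^ m) := by ring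
    _ ≤ ((1 + δ / u₀) ^ S * u₀ ^ S) * ((1 + -(δ / (1 - u₀))) ^ m * (1 - u₀) ^ m) := by
        apply mul_le_mul
        · exact mul_le_mul_of_nonneg_right p1' hu0
        · exact mul_le_mul_of_nonneg_right p2' hu1
        · positivity
        · have : 0 ≤ 1 + δ / u₀ := by
            have := abs_le.mp hx1
            linarith [this.1]
          positivity
    _ = u ^ S * (1 - u) ^ m := by
        have e3 : u ^ S * (1 - u) ^ m =
            (u₀ * (1 + δ / u₀)) ^ S * ((1 - u₀) * (1 + -(δ / (1 - u₀)))) ^ m := by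
          rw [← e1, ← e2]
        rw [e3, mul_pow, mul_pow]
        ring


theorem root_lower {A S m : ℕ} (hS0 : (0 : ℝ) < S) (hm0 : (0 : ℝ) < m) (hA0 : (0 : ℝ) < A) (hmA : m ≤ 2 * A) :
    1 / (√2 * √(A : ℝ)) ≤ √(((S : ℝ) + m) / ((S : ℝ) * m)) := by
  have e2 : √2 * √(A : ℝ) = √(2 * (A : ℝ)) := (Real.sqrt_mul (by norm_num) _).symm
  rw [e2, one_div, ← Real.sqrt_inv]
  apply Real.sqrt_le_sqrt
  rw [inv_le_comm₀ (by positivity) (by positivity), inv_div]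
  have h2 : (m : ℝ) ≤ 2 * A := by exact_mod_cast hmA
  rw [div_le_iff₀ (by positivity)]
  have h3 : (S : ℝ) * m ≤ S * (2 * A) := mul_le_mul_of_nonneg_left h2 hS0.le
  have h4 : 0 ≤ (m : ℝ) * (2 * A) := by positivity
  linarith

/-- Bounded cost of moving the base, in the setting of the mode bound. -/
theorem ratio_bound {q : ℝ} (hq2 : 0 < q ^ 2) (hq21 : 0 < 1 - q ^ 2) {A S m : ℕ} {u u₀ : ℝ}
    (hS0 : (0 : ℝ) < S) (hm0 : (0 : ℝ) < m) (hA0 : (0 : ℝ) < A) (hSA : S ≤ A) (hmA : m ≤ 2 * A)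
    (hu₀ : u₀ = (S : ℝ) / (S + m)) (hL1 : q ^ 2 / 2 ≤ u₀) (hu02 : u₀ ≤ (1 + q ^ 2) / 2)
    (hdist : |u - u₀| * √(A : ℝ) ≤ 1) (hAlarge : 4 / (q ^ 2 * (1 - q ^ 2)) ≤ √(A : ℝ)) :
    Real.exp (-(12 / (q ^ 2 * (1 - q ^ 2)))) * (u₀ ^ S * (1 - u₀) ^ m) ≤ u ^ S * (1 - u) ^ m := by
  have hsA : 0 < √(A : ℝ) := Real.sqrt_pos.mpr hA0
  have hn0 : 0 < (S : ℝ) + m := by positivity
  have hu₀0 : 0 < u₀ := by linarith [div_pos hq2 (two_pos : (0 : ℝ) < 2)]
  have hu₀1 : u₀ < 1 := by linarith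
  have hSeq : (S : ℝ) = u₀ * ((S : ℝ) + m) := by
    rw [hu₀]
    field_simp
  have hL2 : (1 - q ^ 2) / 2 ≤ 1 - u₀ := by linarith
  have hδ : |u - u₀| ≤ 1 / √(A : ℝ) := by
    rw [le_div_iff₀ hsA]
    exact hdist
  have hqa : 4 / q ^ 2 ≤ √(A : ℝ) := by
    refine le_trans ?_ hAlarge
    rw [div_le_div_iff₀ hq2 (by positivity)]
    nlinarith
  have hqb : 4 / (1 - q ^ 2) ≤ √(A : ℝ) := by
    refine le_trans ?_ hAlarge
    rw [div_le_div_iff₀ hq21 (by positivity)]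
    nlinarith
  have hsm : |u - u₀| / (q ^ 2 / 2) ≤ 1 / 2 := by
    rw [div_le_iff₀ (by positivity)]
    refine hδ.trans ?_
    rw [div_le_iff₀ hsA]
    rw [div_le_iff₀ hq2] at hqa
    nlinarith
  have hsm2 : |u - u₀| / ((1 - q ^ 2) / 2) ≤ 1 / 2 := by
    rw [div_le_iff₀ (by positivity)]
    refine hδ.trans ?_
    rw [div_le_iff₀ hsA]
    rw [div_le_iff₀ hq21] at hqb
    nlinarith
  have hx1 : |(u - u₀) / u₀| ≤ 1 / 2 := by
    rw [abs_div, abs_of_pos hu₀0]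
    refine le_trans ?_ hsm
    exact div_le_div_of_nonneg_left (abs_nonneg _) (by positivity) hL1
  have hx2 : |(u - u₀) / (1 - u₀)| ≤ 1 / 2 := by
    rw [abs_div, abs_of_pos (by linarith : 0 < 1 - u₀)]
    refine le_trans ?_ hsm2
    exact div_le_div_of_nonneg_left (abs_nonneg _) (by positivity) hL2
  have hratio := pow_ratio (S := S) (m := m) (u := u) hu₀0 hu₀1 hSeq hx1 hx2
  have hexpo : 2 * (u - u₀) ^ 2 * ((S : ℝ) + m) * (1 / u₀ + 1 / (1 - u₀)) ≤ 12 / (q ^ 2 * (1 - q ^ 2)) := by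
    have a1 : (u - u₀) ^ 2 ≤ 1 / (A : ℝ) := by
      have : (u - u₀) ^ 2 = |u - u₀| ^ 2 := (sq_abs _).symm
      rw [this]
      calc |u - u₀| ^ 2 ≤ (1 / √(A : ℝ)) ^ 2 := pow_le_pow_left₀ (abs_nonneg _) hδ 2
        _ = 1 / (A : ℝ) := by
          rw [div_pow, Real.sq_sqrt hA0.le]
          norm_num
    have a2 : (S : ℝ) + m ≤ 3 * A := by
      have h1 : (S : ℝ) ≤ A := by exact_mod_cast hSA
      have h2 : (m : ℝ) ≤ 2 * A := by exact_mod_cast hmA
      linarith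
    have a3 : 1 / u₀ ≤ 1 / (q ^ 2 / 2) := one_div_le_one_div_of_le (by positivity) hL1
    have a4 : 1 / (1 - u₀) ≤ 1 / ((1 - q ^ 2) / 2) :=
      one_div_le_one_div_of_le (by positivity) hL2
    have a5 : 1 / u₀ + 1 / (1 - u₀) ≤ 1 / (q ^ 2 / 2) + 1 / ((1 - q ^ 2) / 2) := add_le_add a3 a4
    have a6 : 1 / (q ^ 2 / 2) + 1 / ((1 - q ^ 2) / 2) = 2 / (q ^ 2 * (1 - q ^ 2)) := by
      have hr : ∀ r : ℝ, r ≠ 0 → 1 - r ≠ 0 → 1 / (r / 2) + 1 / ((1 - r) / 2) = 2 / (r * (1 - r)) := by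
        intro r hr1 hr2
        field_simp
        ring
      exact hr _ hq2.ne' hq21.ne'
    have a7 : (u - u₀) ^ 2 * ((S : ℝ) + m) ≤ 3 := by
      calc (u - u₀) ^ 2 * ((S : ℝ) + m) ≤ (1 / (A : ℝ)) * (3 * A) :=
            mul_le_mul a1 a2 (by positivity) (by positivity)
        _ = 3 := by field_simp
    have a8 : 0 ≤ 1 / u₀ + 1 / (1 - u₀) := by
      have : 0 < 1 - u₀ := by linarith
      positivity
    calc 2 * (u - u₀) ^ 2 * ((S : ℝ) + m) * (1 / u₀ + 1 / (1 - u₀))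
        = 2 * ((u - u₀) ^ 2 * ((S : ℝ) + m)) * (1 / u₀ + 1 / (1 - u₀)) := by ring
      _ ≤ 2 * 3 * (2 / (q ^ 2 * (1 - q ^ 2))) := by
        rw [← a6]
        apply mul_le_mul _ a5 a8 (by norm_num)
        linarith
      _ = 12 / (q ^ 2 * (1 - q ^ 2)) := by ring
  refine le_trans ?_ hratio
  apply mul_le_mul_of_nonneg_right _ (by positivity)
  apply Real.exp_le_exp.mpr
  linarith

/-- The mode bound for the inverse of the base count, at a point close to the mode. -/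
theorem inv_choose_le {q : ℝ} (h0 : 0 < q) (h1 : q < 1) :
    ∃ C₁ : ℝ, 0 < C₁ ∧ ∀ (A S m : ℕ) (u : ℝ), 1 ≤ S → 1 ≤ m → S ≤ A → m ≤ 2 * A →
      q ^ 2 / 2 ≤ (S : ℝ) / (S + m) → (S : ℝ) / (S + m) ≤ (1 + q ^ 2) / 2 →
      q ^ 2 / 2 ≤ u → u ≤ (1 + q ^ 2) / 2 → |u - (S : ℝ) / (S + m)| * √(A : ℝ) ≤ 1 →
      4 / (q ^ 2 * (1 - q ^ 2)) ≤ √(A : ℝ) →
      1 ≤ C₁ * √(A : ℝ) * (((S + m).choose m : ℝ) * (u ^ S * (1 - u) ^ (m + 1))) := by
  obtain ⟨c₀, hc₀, hmode⟩ := binom_mode_lower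
  have hq2 : 0 < q ^ 2 := by positivity
  have hq21 : 0 < 1 - q ^ 2 := by nlinarith
  refine ⟨2 * √2 * Real.exp (12 / (q ^ 2 * (1 - q ^ 2))) / (c₀ * (1 - q ^ 2)), by positivity, ?_⟩
  intro A S m u hS hm hSA hmA hu01 hu02 hu1 hu2 hdist hAlarge
  have hS0 : (0 : ℝ) < S := by exact_mod_cast hS
  have hm0 : (0 : ℝ) < m := by exact_mod_cast hm
  have hA1 : 1 ≤ A := le_trans hS hSA
  have hA0 : (0 : ℝ) < A := by exact_mod_cast hA1
  have hsA : 0 < √(A : ℝ) := Real.sqrt_pos.mpr hA0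
  have hstep2 := ratio_bound (u := u) hq2 hq21 hS0 hm0 hA0 hSA hmA rfl hu01 hu02 hdist hAlarge
  obtain ⟨E, hE⟩ : ∃ E, E = 12 / (q ^ 2 * (1 - q ^ 2)) := ⟨_, rfl⟩
  rw [← hE] at hstep2 ⊢
  obtain ⟨u₀, hu₀⟩ : ∃ u₀, u₀ = (S : ℝ) / (S + m) := ⟨_, rfl⟩
  rw [← hu₀] at hstep2
  have hn0 : 0 < (S : ℝ) + m := by positivity
  have h1u₀ : (m : ℝ) / ((S : ℝ) + m) = 1 - u₀ := by
    rw [hu₀]
    field_simp
    ring
  have hmode' := hmode S m hS hm
  rw [← hu₀, h1u₀] at hmode'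
  have hroot := root_lower hS0 hm0 hA0 hmA
  obtain ⟨N, hN⟩ : ∃ N : ℝ, N = ((S + m).choose m : ℝ) := ⟨_, rfl⟩
  rw [← hN] at hmode' ⊢
  have hNpos : 0 < N := by
    rw [hN]
    exact_mod_cast Nat.choose_pos (by omega)
  have hstep1 : c₀ * (1 / (√2 * √(A : ℝ))) ≤ N * (u₀ ^ S * (1 - u₀) ^ m) := by
    calc c₀ * (1 / (√2 * √(A : ℝ))) ≤ c₀ * √(((S : ℝ) + m) / ((S : ℝ) * m)) :=
          mul_le_mul_of_nonneg_left hroot hc₀.le
      _ ≤ N * u₀ ^ S * (1 - u₀) ^ m := hmode'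
      _ = N * (u₀ ^ S * (1 - u₀) ^ m) := by ring
  have h1u : (1 - q ^ 2) / 2 ≤ 1 - u := by linarith
  have hupos : 0 ≤ u := by linarith [hu1, hq2]
  have hstep3 : (1 - q ^ 2) / 2 * (u ^ S * (1 - u) ^ m) ≤ u ^ S * (1 - u) ^ (m + 1) := by
    have h1u0 : 0 ≤ 1 - u := by linarith
    rw [pow_succ]
    have h5 : 0 ≤ u ^ S * (1 - u) ^ m := by positivity
    have h6 := mul_le_mul_of_nonneg_left h1u h5
    calc (1 - q ^ 2) / 2 * (u ^ S * (1 - u) ^ m) = u ^ S * (1 - u) ^ m * ((1 - q ^ 2) / 2) := by ring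
      _ ≤ u ^ S * (1 - u) ^ m * (1 - u) := h6
      _ = u ^ S * ((1 - u) ^ m * (1 - u)) := by ring
  have hs2 : (0 : ℝ) < √2 := by positivity
  have hexpE : 0 < Real.exp E := Real.exp_pos _
  have hexpm : Real.exp (-E) * Real.exp E = 1 := by
    rw [← Real.exp_add]; simp
  have hkey : c₀ * (1 / (√2 * √(A : ℝ))) * Real.exp (-E) * ((1 - q ^ 2) / 2) ≤
      N * (u ^ S * (1 - u) ^ (m + 1)) := by
    calc c₀ * (1 / (√2 * √(A : ℝ))) * Real.exp (-E) * ((1 - q ^ 2) / 2)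
        ≤ (N * (u₀ ^ S * (1 - u₀) ^ m)) * Real.exp (-E) * ((1 - q ^ 2) / 2) := by
          apply mul_le_mul_of_nonneg_right _ (by positivity)
          exact mul_le_mul_of_nonneg_right hstep1 (Real.exp_pos _).le
      _ = N * (Real.exp (-E) * (u₀ ^ S * (1 - u₀) ^ m)) * ((1 - q ^ 2) / 2) := by ring
      _ ≤ N * (u ^ S * (1 - u) ^ m) * ((1 - q ^ 2) / 2) := by
          apply mul_le_mul_of_nonneg_right _ (by positivity)
          exact mul_le_mul_of_nonneg_left hstep2 hNpos.le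
      _ = N * ((1 - q ^ 2) / 2 * (u ^ S * (1 - u) ^ m)) := by ring
      _ ≤ N * (u ^ S * (1 - u) ^ (m + 1)) := mul_le_mul_of_nonneg_left hstep3 hNpos.le
  have hfinal : 2 * √2 * Real.exp E / (c₀ * (1 - q ^ 2)) * √(A : ℝ) *
      (c₀ * (1 / (√2 * √(A : ℝ))) * Real.exp (-E) * ((1 - q ^ 2) / 2)) = 1 := by
    have : 2 * √2 * Real.exp E / (c₀ * (1 - q ^ 2)) * √(A : ℝ) *
      (c₀ * (1 / (√2 * √(A : ℝ))) * Real.exp (-E) * ((1 - q ^ 2) / 2)) =
        Real.exp (-E) * Real.exp E := by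
      field_simp
    rw [this, hexpm]
  refine le_trans (le_of_eq hfinal.symm) ?_
  exact mul_le_mul_of_nonneg_left hkey (by positivity)

/-- The exact inequality comparing the trace weight with the reference weight. -/
theorem trW_le_piT {q u : ℝ} (h0 : 0 < q) (h1 : q < 1) (hu0 : 0 ≤ u) (hu1 : u ≤ 1) (A S : ℕ) (t : Word)
    (hHS : H t + S = A) (hm : t.length ≤ 2 * A) :
    trW q (2 * A) t * (u ^ S * (1 - u) ^ (t.length + 1)) ≤
      piT q t * ((1 - q * √u) ^ (t.length + 1) * (q * √u) ^ S) ^ 2 := by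
  set m := t.length with hmdef
  set θ := q * √u with hθ
  have hq21 : 0 < 1 - q ^ 2 := by nlinarith
  have hsq : √u ^ 2 = u := Real.sq_sqrt hu0
  have hθ2 : θ ^ 2 = q ^ 2 * u := by rw [hθ, mul_pow, hsq]
  have hw : (1 - q ^ 2) * (1 - u) ≤ (1 - θ) ^ 2 := by
    have : (1 - θ) ^ 2 - (1 - q ^ 2) * (1 - u) = (q - √u) ^ 2 := by
      rw [hθ]
      nlinarith [hsq]
    nlinarith [sq_nonneg (q - √u)]
  have hw0 : 0 ≤ (1 - q ^ 2) * (1 - u) := mul_nonneg hq21.le (by linarith)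
  have hpw := pow_le_pow_left₀ hw0 hw (m + 1)
  have hA : q ^ (2 * A) = q ^ (2 * H t) * q ^ (2 * S) := by rw [← pow_add, ← hHS]; ring_nf
  have hA2 : q ^ (2 * A) = q ^ (2 * A - m) * q ^ m := by rw [← pow_add]; congr 1; omega
  have hpi : piT q t * ((1 - θ) ^ (m + 1) * θ ^ S) ^ 2 =
      (1 / (1 - q ^ 2)) * (1 / (q * (1 + q))) ^ m * q ^ (2 * A) * u ^ S * ((1 - θ) ^ 2) ^ (m + 1) := by
    unfold piT
    rw [hA, mul_pow, ← pow_mul, ← pow_mul, mul_comm S 2, mul_comm (m + 1) 2, pow_mul θ 2 S, hθ2, mul_pow,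
      pow_mul (1 - θ) 2 (m + 1), ← pow_mul q 2 S]
    ring
  rw [hpi]
  have hpos : 0 ≤ (1 / (1 - q ^ 2)) * (1 / (q * (1 + q))) ^ m * q ^ (2 * A) * u ^ S := by positivity
  have hlow := mul_le_mul_of_nonneg_left hpw hpos
  refine le_trans (le_of_eq ?_) hlow
  unfold trW
  rw [← hmdef, mul_pow (1 - q ^ 2) (1 - u) (m + 1), hA2]
  have h1q : 1 - q ^ 2 = (1 - q) * (1 + q) := by ring
  have hqne : q ≠ 0 := h0.ne'
  have h1qne : 1 + q ≠ 0 := by positivity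
  have h1q2 : (1 - q) ≠ 0 := by linarith
  rw [pow_succ (1 - q ^ 2) m, h1q]
  rw [div_pow, mul_pow, mul_pow, one_pow]
  field_simp

/-- The elementary inequality for differences of square roots. -/
theorem sqrt_diff_sq_mul {a b : ℝ} (ha : 0 ≤ a) (hb : 0 ≤ b) :
    (√a - √b) ^ 2 * (a + b) ≤ (a - b) ^ 2 := by
  have h1 := Real.sq_sqrt ha
  have h2 := Real.sq_sqrt hb
  have e : (a - b) ^ 2 - (√a - √b) ^ 2 * (a + b) = (√a - √b) ^ 2 * (2 * (√a * √b)) := by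
    have : a - b = (√a - √b) * (√a + √b) := by nlinarith
    rw [this]
    have ea : a = √a ^ 2 := h1.symm
    have eb : b = √b ^ 2 := h2.symm
    generalize √a = x at *
    generalize √b = y at *
    subst ea eb
    ring
  have : 0 ≤ (√a - √b) ^ 2 * (2 * (√a * √b)) := by positivity
  linarith

theorem sqrt_diff_sq_le {a b : ℝ} (ha : 0 ≤ a) (hb : 0 ≤ b) : (√a - √b) ^ 2 ≤ a + b := by
  have h1 := Real.sq_sqrt ha
  have h2 := Real.sq_sqrt hb
  have : 0 ≤ √a * √b := by positivity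
  nlinarith


/-- Typical traces: length at least `(1-q)A/2` and `A - H t` within `lam √A` of `κ₁ |t|`. -/
def Typ (q : ℝ) (lam A : ℕ) (t : Word) : Prop :=
  (1 - q) * A / 2 ≤ t.length ∧ |(A : ℝ) - H t - kap1 q * t.length| ≤ lam * √(A : ℝ)

/-- The grid of ratios: `θ_g = q √(q² + g/√A)`. -/
noncomputable def th (q : ℝ) (A : ℕ) (g : ℤ) : ℝ := q * √(q ^ 2 + g / √(A : ℝ))

/-- Distance of the empirical ratio from `q²`, multiplied by `√A`. -/
theorem ratio_close {q : ℝ} (h0 : 0 < q) (h1 : q < 1) {lam sA A m S : ℝ} (hsA0 : 0 < sA) (hAs : sA * sA = A)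
    (hS0 : 0 < S) (hm0 : 0 < m) (hlen : (1 - q) * A / 2 ≤ m) (he : |S - kap1 q * m| ≤ lam * sA) :
    |S / (S + m) - q ^ 2| * sA ≤ 2 / (1 - q) * lam := by
  have hq21 : 0 < 1 - q ^ 2 := by nlinarith
  have hp : 0 < 1 - q := by linarith
  have hn : 0 < S + m := by positivity
  have hkap : kap1 q * (1 - q ^ 2) = q ^ 2 := by
    unfold kap1
    field_simp
  have e1 : S / (S + m) - q ^ 2 = (1 - q ^ 2) * (S - kap1 q * m) / (S + m) := by
    have : (1 - q ^ 2) * (S - kap1 q * m) = (1 - q ^ 2) * S - (kap1 q * (1 - q ^ 2)) * m := by ring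
    rw [this, hkap]
    field_simp
    ring
  have hA0 : 0 < A := by rw [← hAs]; positivity
  have hq2 : 0 < q ^ 2 := by positivity
  have e2 : |S / (S + m) - q ^ 2| * (S + m) ≤ lam * sA := by
    rw [e1, abs_div, abs_of_pos hn, abs_mul, abs_of_pos hq21, div_mul_cancel₀ _ hn.ne']
    have : (1 - q ^ 2) * |S - kap1 q * m| ≤ 1 * |S - kap1 q * m| :=
      mul_le_mul_of_nonneg_right (by linarith) (abs_nonneg _)
    linarith
  obtain ⟨x, hx⟩ : ∃ x, x = |S / (S + m) - q ^ 2| := ⟨_, rfl⟩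
  rw [← hx] at e2 ⊢
  have hx0 : 0 ≤ x := by rw [hx]; exact abs_nonneg _
  have e3 : x * ((1 - q) * A / 2) ≤ lam * sA := by
    refine le_trans (mul_le_mul_of_nonneg_left ?_ hx0) e2
    linarith
  rw [← hAs] at e3
  have e4 : (x * sA) * ((1 - q) / 2) * sA ≤ lam * sA := by
    calc (x * sA) * ((1 - q) / 2) * sA = x * ((1 - q) * (sA * sA) / 2) := by ring
      _ ≤ _ := e3
  have e5 : (x * sA) * ((1 - q) / 2) ≤ lam := le_of_mul_le_mul_right e4 hsA0
  rw [div_mul_eq_mul_div, le_div_iff₀ hp]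
  have e6 : x * sA * (1 - q) = 2 * ((x * sA) * ((1 - q) / 2)) := by ring
  rw [e6]
  linarith

/-- The grid point nearest to the empirical ratio. -/
theorem grid_real {q K D lam sA u₀ : ℝ} (hD0 : 0 < D) (hDq : D ≤ q ^ 2) (hDq' : D ≤ 1 - q ^ 2)
    (hlam1 : 1 ≤ lam) (hsA0 : 0 < sA) (hsAlam : lam * lam ≤ sA) (hlamD : K + 1 ≤ D / 2 * lam)
    (hclose : |u₀ - q ^ 2| * sA ≤ K * lam) :
    ∃ g : ℤ, |(g : ℝ)| ≤ (K + 1) * lam ∧ q ^ 2 / 2 ≤ u₀ ∧ u₀ ≤ (1 + q ^ 2) / 2 ∧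
      q ^ 2 / 2 ≤ q ^ 2 + g / sA ∧ q ^ 2 + g / sA ≤ (1 + q ^ 2) / 2 ∧ |q ^ 2 + g / sA - u₀| * sA ≤ 1 := by
  have hlam0 : 0 < lam := by linarith
  obtain ⟨r, hr⟩ : ∃ r, r = (u₀ - q ^ 2) * sA := ⟨_, rfl⟩
  have hrabs : |r| ≤ K * lam := by
    rw [hr, abs_mul, abs_of_pos hsA0]
    exact hclose
  have hfl1 : ((⌊r⌋ : ℤ) : ℝ) ≤ r := Int.floor_le r
  have hfl2 : r < ⌊r⌋ + 1 := Int.lt_floor_add_one r
  obtain ⟨g, hg⟩ : ∃ g : ℤ, g = ⌊r⌋ := ⟨_, rfl⟩
  rw [← hg] at hfl1 hfl2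
  have hrabs' := abs_le.mp hrabs
  have hgup : (g : ℝ) ≤ K * lam := by linarith [hrabs'.2]
  have hglow : -(K * lam) - 1 ≤ (g : ℝ) := by linarith [hrabs'.1]
  have hgabs : |(g : ℝ)| ≤ (K + 1) * lam := by
    rw [abs_le]
    constructor <;> nlinarith
  have hu₀close : |u₀ - q ^ 2| ≤ D / 2 := by
    have h7 : |u₀ - q ^ 2| * (lam * lam) ≤ K * lam :=
      le_trans (mul_le_mul_of_nonneg_left hsAlam (abs_nonneg _)) hclose
    have h8 : |u₀ - q ^ 2| * lam ≤ K := by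
      have : (|u₀ - q ^ 2| * lam) * lam ≤ K * lam := by
        calc (|u₀ - q ^ 2| * lam) * lam = |u₀ - q ^ 2| * (lam * lam) := by ring
          _ ≤ _ := h7
      exact le_of_mul_le_mul_right this hlam0
    have h9 : |u₀ - q ^ 2| * lam ≤ D / 2 * lam := by linarith
    exact le_of_mul_le_mul_right h9 hlam0
  have hgclose : |(g : ℝ) / sA| ≤ D / 2 := by
    rw [abs_div, abs_of_pos hsA0, div_le_iff₀ hsA0]
    have h6 : (K + 1) * lam ≤ (D / 2 * lam) * lam := mul_le_mul_of_nonneg_right hlamD hlam0.le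
    have h7 : (D / 2 * lam) * lam ≤ D / 2 * sA := by
      calc (D / 2 * lam) * lam = D / 2 * (lam * lam) := by ring
        _ ≤ _ := mul_le_mul_of_nonneg_left hsAlam (by positivity)
    linarith
  have hu₀c := abs_le.mp hu₀close
  have hgc := abs_le.mp hgclose
  refine ⟨g, hgabs, by linarith [hu₀c.1], by linarith [hu₀c.2], by linarith [hgc.1], by linarith [hgc.2], ?_⟩
  have e : q ^ 2 + (g : ℝ) / sA - u₀ = ((g : ℝ) - r) / sA := by
    rw [hr]
    field_simp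
    ring
  rw [e, abs_div, abs_of_pos hsA0, div_mul_cancel₀ _ hsA0.ne', abs_le]
  constructor <;> linarith

theorem typ_grid {q : ℝ} (h0 : 0 < q) (h1 : q < 1) :
    ∃ (L : ℝ) (Cg : ℕ), 0 < L ∧ ∀ (lam A : ℕ) (t : Word), L ≤ lam → (lam : ℝ) ^ 4 ≤ A →
      t.length ≤ 2 * A → Typ q lam A t →
      ∃ (S : ℕ) (g : ℤ), H t + S = A ∧ 1 ≤ S ∧ 1 ≤ t.length ∧
        g ∈ Icc (-(Cg * lam : ℤ)) (Cg * lam : ℤ) ∧
        q ^ 2 / 2 ≤ (S : ℝ) / (S + t.length) ∧ (S : ℝ) / (S + t.length) ≤ (1 + q ^ 2) / 2 ∧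
        q ^ 2 / 2 ≤ q ^ 2 + g / √(A : ℝ) ∧ q ^ 2 + g / √(A : ℝ) ≤ (1 + q ^ 2) / 2 ∧
        |q ^ 2 + g / √(A : ℝ) - (S : ℝ) / (S + t.length)| * √(A : ℝ) ≤ 1 ∧
        4 / (q ^ 2 * (1 - q ^ 2)) ≤ √(A : ℝ) := by
  have hp : 0 < 1 - q := by linarith
  have hq2 : 0 < q ^ 2 := by positivity
  have hq21 : 0 < 1 - q ^ 2 := by nlinarith
  have hkap : 0 < kap1 q := by unfold kap1; positivity
  obtain ⟨D, hD⟩ : ∃ D, D = q ^ 2 * (1 - q ^ 2) := ⟨_, rfl⟩
  have hD0 : 0 < D := by rw [hD]; positivity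
  have hDq : D ≤ q ^ 2 := by rw [hD]; nlinarith
  have hDq' : D ≤ 1 - q ^ 2 := by rw [hD]; nlinarith
  obtain ⟨K, hK⟩ : ∃ K, K = 2 / (1 - q) := ⟨_, rfl⟩
  have hK0 : 0 < K := by rw [hK]; positivity
  obtain ⟨a, ha⟩ : ∃ a, a = 4 / (kap1 q * (1 - q)) := ⟨_, rfl⟩
  have ha0 : 0 < a := by rw [ha]; positivity
  obtain ⟨b, hb⟩ : ∃ b, b = 4 / D := ⟨_, rfl⟩
  have hb0 : 0 < b := by rw [hb]; positivity
  obtain ⟨c, hc⟩ : ∃ c, c = 2 * (K + 1) / D := ⟨_, rfl⟩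
  have hc0 : 0 < c := by rw [hc]; positivity
  refine ⟨1 + a + b + c, ⌈K⌉₊ + 1, by positivity, ?_⟩
  intro lam A t hlam hA hmA hTyp
  obtain ⟨hlen, hdev⟩ := hTyp
  have hlam1 : (1 : ℝ) ≤ lam := by linarith
  have hlama : a ≤ lam := by linarith
  have hlamb : b ≤ lam := by linarith
  have hlamc : c ≤ lam := by linarith
  have hlam0 : (0 : ℝ) < lam := by linarith
  have hA1 : (1 : ℝ) ≤ A := by
    refine le_trans ?_ hA
    exact one_le_pow₀ hlam1
  have hA0 : (0 : ℝ) < A := by linarith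
  obtain ⟨sA, hsA⟩ : ∃ sA, sA = √(A : ℝ) := ⟨_, rfl⟩
  rw [← hsA] at hdev ⊢
  have hsA0 : 0 < sA := by rw [hsA]; positivity
  have hAs : sA * sA = A := by rw [hsA]; exact Real.mul_self_sqrt hA0.le
  have hlam2 : (lam : ℝ) * lam ≤ sA := by
    rw [hsA]
    apply Real.le_sqrt_of_sq_le
    calc ((lam : ℝ) * lam) ^ 2 = (lam : ℝ) ^ 4 := by ring
      _ ≤ (A : ℝ) := hA
  have hlam2' : (lam : ℝ) ≤ sA := by nlinarith
  -- the deviation is small compared with `A`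
  have hw : lam * (lam * sA) ≤ A := by
    rw [← hAs]
    calc (lam : ℝ) * (lam * sA) = ((lam : ℝ) * lam) * sA := by ring
      _ ≤ sA * sA := mul_le_mul_of_nonneg_right hlam2 hsA0.le
  have hw2 : lam * sA ≤ kap1 q * (1 - q) * A / 4 := by
    have h4 : 4 ≤ lam * (kap1 q * (1 - q)) := by
      have : 4 / (kap1 q * (1 - q)) ≤ lam := by rw [← ha]; exact hlama
      rwa [div_le_iff₀ (by positivity)] at this
    have h5 : 0 ≤ lam * sA := by positivity
    have h6 : 0 < kap1 q * (1 - q) := by positivity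
    have h7 : 4 * (lam * sA) ≤ (lam * (kap1 q * (1 - q))) * (lam * sA) :=
      mul_le_mul_of_nonneg_right h4 h5
    have h8 : (lam * (kap1 q * (1 - q))) * (lam * sA) = (kap1 q * (1 - q)) * (lam * (lam * sA)) := by ring
    have h9 : (kap1 q * (1 - q)) * (lam * (lam * sA)) ≤ (kap1 q * (1 - q)) * A :=
      mul_le_mul_of_nonneg_left hw h6.le
    linarith
  have hm0 : (0 : ℝ) < t.length := by
    have : 0 < (1 - q) * A / 2 := by positivity
    linarith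
  have hm1 : 1 ≤ t.length := by
    have : 0 < t.length := by exact_mod_cast hm0
    omega
  have hdevl := (abs_le.mp hdev).1
  have hkm : kap1 q * ((1 - q) * A / 2) ≤ kap1 q * t.length := mul_le_mul_of_nonneg_left hlen hkap.le
  have hSpos : (H t : ℝ) < A := by
    have h5 : 0 < kap1 q * (1 - q) * A / 4 := by positivity
    have h6 : kap1 q * ((1 - q) * A / 2) = kap1 q * (1 - q) * A / 4 + kap1 q * (1 - q) * A / 4 := by ring
    linarith
  have hHA : H t < A := by exact_mod_cast hSpos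
  obtain ⟨S, hS⟩ : ∃ S : ℕ, S = A - H t := ⟨_, rfl⟩
  have hS1 : 1 ≤ S := by omega
  have hScast : (S : ℝ) = (A : ℝ) - H t := by
    rw [hS, Nat.cast_sub hHA.le]
  have hS0 : (0 : ℝ) < S := by exact_mod_cast hS1
  have hclose := ratio_close h0 h1 (lam := lam) hsA0 hAs hS0 hm0 hlen (by rw [hScast]; exact hdev)
  rw [← hK] at hclose
  have hlamD : (K + 1) ≤ D / 2 * lam := by
    have : 2 * (K + 1) / D ≤ lam := by rw [← hc]; exact hlamc
    rw [div_le_iff₀ hD0] at this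
    linarith
  obtain ⟨g, hgabs, h3, h4, h5, h6, h7⟩ := grid_real hD0 hDq hDq' hlam1 hsA0 hlam2 hlamD hclose
  refine ⟨S, g, by omega, hS1, hm1, ?_, h3, h4, h5, h6, h7, ?_⟩
  · have hKc : K ≤ ((⌈K⌉₊ : ℕ) : ℝ) := Nat.le_ceil K
    have hCg : (K + 1) * lam ≤ (((⌈K⌉₊ : ℕ) : ℝ) + 1) * lam :=
      mul_le_mul_of_nonneg_right (by linarith) hlam0.le
    have hgg := abs_le.mp (hgabs.trans hCg)
    rw [mem_Icc]
    constructor
    · have h8 : (-((((⌈K⌉₊ + 1 : ℕ) : ℤ) * (lam : ℤ) : ℤ)) : ℝ) ≤ ((g : ℤ) : ℝ) := by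
        push_cast
        linarith [hgg.1]
      exact_mod_cast h8
    · have h8 : ((g : ℤ) : ℝ) ≤ ((((⌈K⌉₊ + 1 : ℕ) : ℤ) * (lam : ℤ) : ℤ) : ℝ) := by
        push_cast
        linarith [hgg.2]
      exact_mod_cast h8
  · rw [← hD, ← hb]
    have : (lam : ℝ) * 1 ≤ lam * lam := mul_le_mul_of_nonneg_left hlam1 hlam0.le
    linarith


/-- The trace law in terms of embedding counts. -/
theorem traceProb_eq_trW (q : ℝ) {A : ℕ} {x : Word} (hx : x.length = 2 * A) (t : Word) :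
    traceProb q x t = trW q (2 * A) t * cnt x t := by
  unfold traceProb trW
  rw [hx, ← cnt_eq_count]
  ring

theorem trW_pos {q : ℝ} (h0 : 0 < q) (h1 : q < 1) (n : ℕ) (t : Word) : 0 < trW q n t := by
  unfold trW
  have : 0 < 1 - q := by linarith
  positivity

/-- The base count as a binomial coefficient. -/
theorem cnt_base_choose {A S : ℕ} {t : Word} (hHS : H t + S = A) :
    cnt (blockStr ∅ 0 A) t = (S + t.length).choose t.length := by
  rw [cnt_base, if_pos (by omega), Nat.multichoose_eq]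
  have e1 : A - H t = S := by omega
  have e2 : t.length + 1 + S - 1 = S + t.length := by omega
  rw [e1, e2]
  exact Nat.choose_symm_add

/-- The main pointwise estimate, for typical traces on which one of the two counts is not small. -/
theorem point_typ {q : ℝ} (h0 : 0 < q) (h1 : q < 1) {C₁ c : ℝ} (hC₁ : 0 < C₁) (hc : 0 < c) {A S : ℕ} {x y t : Word}
    {g : ℤ} (hx : x.length = 2 * A) (hy : y.length = 2 * A) (hHS : H t + S = A) (hm : t.length ≤ 2 * A)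
    (hA0 : (0 : ℝ) < A) (hu0 : 0 ≤ q ^ 2 + g / √(A : ℝ)) (hu1 : q ^ 2 + g / √(A : ℝ) ≤ 1)
    (hone : 1 ≤ C₁ * √(A : ℝ) * (((S + t.length).choose t.length : ℝ) *
      ((q ^ 2 + g / √(A : ℝ)) ^ S * (1 - (q ^ 2 + g / √(A : ℝ))) ^ (t.length + 1))))
    (hlarge : c * (cnt (blockStr ∅ 0 A) t : ℝ) ≤ (cnt x t : ℝ) + cnt y t) :
    (√(traceProb q x t) - √(traceProb q y t)) ^ 2 ≤
      C₁ / c * √(A : ℝ) * (piT q t * (((cnt x t : ℝ) - cnt y t) * (1 - th q A g) ^ (t.length + 1) *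
        th q A g ^ ((A : ℤ) - (H t : ℤ))) ^ 2) := by
  obtain ⟨u, hu⟩ : ∃ u, u = q ^ 2 + (g : ℝ) / √(A : ℝ) := ⟨_, rfl⟩
  rw [← hu] at hu0 hu1 hone
  have hth : th q A g = q * √u := by rw [hu]; rfl
  have hzpow : (A : ℤ) - (H t : ℤ) = (S : ℤ) := by omega
  rw [hth, hzpow, zpow_natCast]
  rw [traceProb_eq_trW q hx, traceProb_eq_trW q hy]
  rw [cnt_base_choose hHS] at hlarge
  obtain ⟨Wt, hWt⟩ : ∃ w, w = trW q (2 * A) t := ⟨_, rfl⟩
  have hWpos : 0 < Wt := by rw [hWt]; exact trW_pos h0 h1 _ _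
  rw [← hWt]
  obtain ⟨a, ha⟩ : ∃ a : ℝ, a = (cnt x t : ℝ) := ⟨_, rfl⟩
  obtain ⟨b, hb⟩ : ∃ b : ℝ, b = (cnt y t : ℝ) := ⟨_, rfl⟩
  rw [← ha, ← hb] at hlarge ⊢
  have ha0 : 0 ≤ a := by rw [ha]; positivity
  have hb0 : 0 ≤ b := by rw [hb]; positivity
  obtain ⟨N, hN⟩ : ∃ N : ℝ, N = ((S + t.length).choose t.length : ℝ) := ⟨_, rfl⟩
  rw [← hN] at hlarge hone
  have hNpos : 0 < N := by
    rw [hN]
    exact_mod_cast Nat.choose_pos (by omega)
  obtain ⟨T, hT⟩ : ∃ T, T = (√(Wt * a) - √(Wt * b)) ^ 2 := ⟨_, rfl⟩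
  rw [← hT]
  have hT0 : 0 ≤ T := by rw [hT]; positivity
  have hsq := sqrt_diff_sq_mul (mul_nonneg hWpos.le ha0) (mul_nonneg hWpos.le hb0)
  rw [← hT] at hsq
  -- `T c N ≤ W (a-b)²`
  have hTcN : T * (c * N) ≤ Wt * (a - b) ^ 2 := by
    have h2 : T * (Wt * (c * N)) ≤ T * (Wt * a + Wt * b) := by
      apply mul_le_mul_of_nonneg_left _ hT0
      have := mul_le_mul_of_nonneg_left hlarge hWpos.le
      linarith
    have h3 : Wt * (T * (c * N)) ≤ Wt * (Wt * (a - b) ^ 2) := by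
      calc Wt * (T * (c * N)) = T * (Wt * (c * N)) := by ring
        _ ≤ T * (Wt * a + Wt * b) := h2
        _ ≤ (Wt * a - Wt * b) ^ 2 := hsq
        _ = Wt * (Wt * (a - b) ^ 2) := by ring
    exact le_of_mul_le_mul_left h3 hWpos
  obtain ⟨X, hX⟩ : ∃ X, X = u ^ S * (1 - u) ^ (t.length + 1) := ⟨_, rfl⟩
  rw [← hX] at hone
  have hX0 : 0 ≤ X := by
    rw [hX]
    have : 0 ≤ 1 - u := by linarith
    positivity
  have hexact := trW_le_piT h0 h1 hu0 hu1 A S t hHS hm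
  rw [← hWt, ← hX] at hexact
  have hsA : 0 ≤ √(A : ℝ) := Real.sqrt_nonneg _
  have h2 : T * c ≤ C₁ * √(A : ℝ) * ((a - b) ^ 2 * (piT q t * ((1 - q * √u) ^ (t.length + 1) * (q * √u) ^ S) ^ 2)) := by
    have h3 : T * c * 1 ≤ T * c * (C₁ * √(A : ℝ) * (N * X)) :=
      mul_le_mul_of_nonneg_left hone (by positivity)
    have h4 : T * c * (C₁ * √(A : ℝ) * (N * X)) = C₁ * √(A : ℝ) * X * (T * (c * N)) := by ring
    have h5 : C₁ * √(A : ℝ) * X * (T * (c * N)) ≤ C₁ * √(A : ℝ) * X * (Wt * (a - b) ^ 2) :=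
      mul_le_mul_of_nonneg_left hTcN (by positivity)
    have h6 : C₁ * √(A : ℝ) * X * (Wt * (a - b) ^ 2) = C₁ * √(A : ℝ) * ((a - b) ^ 2 * (Wt * X)) := by ring
    have h7 : C₁ * √(A : ℝ) * ((a - b) ^ 2 * (Wt * X)) ≤
        C₁ * √(A : ℝ) * ((a - b) ^ 2 * (piT q t * ((1 - q * √u) ^ (t.length + 1) * (q * √u) ^ S) ^ 2)) := by
      apply mul_le_mul_of_nonneg_left _ (by positivity)
      exact mul_le_mul_of_nonneg_left hexact (by positivity)
    linarith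
  have e : C₁ / c * √(A : ℝ) * (piT q t * ((a - b) * (1 - q * √u) ^ (t.length + 1) * (q * √u) ^ S) ^ 2) =
      (C₁ * √(A : ℝ) * ((a - b) ^ 2 * (piT q t * ((1 - q * √u) ^ (t.length + 1) * (q * √u) ^ S) ^ 2))) / c := by
    ring
  rw [e, le_div_iff₀ hc]
  exact h2

theorem piT_nonneg {q : ℝ} (h0 : 0 < q) (h1 : q < 1) (t : Word) : 0 ≤ piT q t := by
  unfold piT
  have hq21 : 0 < 1 - q ^ 2 := by nlinarith
  positivity

open Classical in
/-- Reduction to count differences in the reference norm. -/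
theorem reduce {q : ℝ} (h0 : 0 < q) (h1 : q < 1) :
    ∃ (C : ℝ) (Cg : ℕ), 0 < C ∧ ∀ (lam A : ℕ) (x y : Word) (c : ℝ), C ≤ lam → (lam : ℝ) ^ 4 ≤ A →
      x.length = 2 * A → y.length = 2 * A → 0 < c →
      Hell q (2 * A) x y ≤
        C / c * √(A : ℝ) * ∑ g ∈ Icc (-(Cg * lam : ℤ)) (Cg * lam : ℤ),
            ∑ t ∈ (W (2 * A)).filter (Typ q lam A), piT q t *
              (((cnt x t : ℝ) - cnt y t) * (1 - th q A g) ^ (t.length + 1) *
                th q A g ^ ((A : ℤ) - (H t : ℤ))) ^ 2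
          + 2 * c * ∑ t ∈ (W (2 * A)).filter
              (fun t => (cnt x t : ℝ) < c * (cnt (blockStr ∅ 0 A) t : ℝ)),
              trW q (2 * A) t * (cnt (blockStr ∅ 0 A) t : ℝ)
          + ∑ t ∈ (W (2 * A)).filter (fun t => ¬ Typ q lam A t),
              trW q (2 * A) t * ((cnt x t : ℝ) + cnt y t) := by
  obtain ⟨L, Cg, hL, hgrid⟩ := typ_grid h0 h1
  obtain ⟨C₁, hC₁, hinv⟩ := inv_choose_le h0 h1
  have hq2 : 0 < q ^ 2 := by positivity
  have hq21 : 0 < 1 - q ^ 2 := by nlinarith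
  refine ⟨L + C₁, Cg, by positivity, ?_⟩
  intro lam A x y c hlam hA hx hy hc
  have hlamL : L ≤ lam := by linarith
  have hKc : C₁ / c * √(A : ℝ) ≤ (L + C₁) / c * √(A : ℝ) := by
    apply mul_le_mul_of_nonneg_right _ (Real.sqrt_nonneg _)
    exact div_le_div_of_nonneg_right (by linarith) hc.le
  have hK0 : 0 ≤ (L + C₁) / c * √(A : ℝ) := by positivity
  obtain ⟨KK, hKK⟩ : ∃ KK, KK = (L + C₁) / c * √(A : ℝ) := ⟨_, rfl⟩
  rw [← hKK] at hKc hK0 ⊢
  obtain ⟨G, hG⟩ : ∃ G, G = Icc (-(Cg * lam : ℤ)) (Cg * lam : ℤ) := ⟨_, rfl⟩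
  rw [← hG]
  have hpoint : ∀ t ∈ W (2 * A), (√(traceProb q x t) - √(traceProb q y t)) ^ 2 ≤
      KK * (∑ g ∈ G, if Typ q lam A t then piT q t * (((cnt x t : ℝ) - cnt y t) * (1 - th q A g) ^ (t.length + 1) *
                th q A g ^ ((A : ℤ) - (H t : ℤ))) ^ 2 else 0)
        + 2 * c * (if (cnt x t : ℝ) < c * (cnt (blockStr ∅ 0 A) t : ℝ) then
              trW q (2 * A) t * (cnt (blockStr ∅ 0 A) t : ℝ) else 0)
        + (if ¬ Typ q lam A t then trW q (2 * A) t * ((cnt x t : ℝ) + cnt y t) else 0) := by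
    intro t ht
    have hmA : t.length ≤ 2 * A := mem_W.mp ht
    have hWpos := trW_pos h0 h1 (2 * A) t
    have hPx : 0 ≤ traceProb q x t := traceProb_nonneg h0 h1 x t
    have hPy : 0 ≤ traceProb q y t := traceProb_nonneg h0 h1 y t
    have hcx : (0 : ℝ) ≤ (cnt x t : ℝ) := by positivity
    have hcy : (0 : ℝ) ≤ (cnt y t : ℝ) := by positivity
    have hbase : (0 : ℝ) ≤ (cnt (blockStr ∅ 0 A) t : ℝ) := by positivity
    have hsum1 : 0 ≤ ∑ g ∈ G, if Typ q lam A t then piT q t * (((cnt x t : ℝ) - cnt y t) * (1 - th q A g) ^ (t.length + 1) *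
                th q A g ^ ((A : ℤ) - (H t : ℤ))) ^ 2 else 0 := by
      apply sum_nonneg
      intro g _
      split_ifs
      · exact mul_nonneg (piT_nonneg h0 h1 t) (sq_nonneg _)
      · exact le_rfl
    have hsec : 0 ≤ 2 * c * (if (cnt x t : ℝ) < c * (cnt (blockStr ∅ 0 A) t : ℝ) then
              trW q (2 * A) t * (cnt (blockStr ∅ 0 A) t : ℝ) else 0) := by
      split_ifs
      · positivity
      · simp
    by_cases hTyp : Typ q lam A t
    · rw [if_neg (not_not.mpr hTyp)]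
      by_cases hsmall : (cnt x t : ℝ) < c * (cnt (blockStr ∅ 0 A) t : ℝ) ∧
          (cnt y t : ℝ) < c * (cnt (blockStr ∅ 0 A) t : ℝ)
      · rw [if_pos hsmall.1]
        have hle := sqrt_diff_sq_le hPx hPy
        rw [traceProb_eq_trW q hx t, traceProb_eq_trW q hy t] at hle ⊢
        have h5 : trW q (2 * A) t * (cnt x t : ℝ) + trW q (2 * A) t * (cnt y t : ℝ) ≤
            2 * c * (trW q (2 * A) t * (cnt (blockStr ∅ 0 A) t : ℝ)) := by
          have h6 := mul_le_mul_of_nonneg_left hsmall.1.le hWpos.le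
          have h7 := mul_le_mul_of_nonneg_left hsmall.2.le hWpos.le
          nlinarith
        have h8 : 0 ≤ KK * ∑ g ∈ G, if Typ q lam A t then piT q t * (((cnt x t : ℝ) - cnt y t) * (1 - th q A g) ^ (t.length + 1) *
                th q A g ^ ((A : ℤ) - (H t : ℤ))) ^ 2 else 0 := mul_nonneg hK0 hsum1
        linarith
      · obtain ⟨S, g, hHS, hS1, hm1, hgmem, hu01, hu02, hu1, hu2, hdist, hAlarge⟩ := hgrid lam A t hlamL hA hmA hTyp
        have hA1 : 1 ≤ A := by omega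
        have hA0 : (0 : ℝ) < A := by exact_mod_cast hA1
        have hone := hinv A S t.length (q ^ 2 + g / √(A : ℝ)) hS1 hm1 (by omega) hmA hu01 hu02 hu1 hu2 hdist hAlarge
        have hlarge : c * (cnt (blockStr ∅ 0 A) t : ℝ) ≤ (cnt x t : ℝ) + cnt y t := by
          by_contra hcon
          push Not at hcon
          apply hsmall
          constructor <;> linarith
        have hmain := point_typ h0 h1 hC₁ hc hx hy hHS hmA hA0 (by linarith [div_pos hq2 two_pos])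
          (by linarith) hone hlarge
        have hpi : 0 ≤ piT q t * (((cnt x t : ℝ) - cnt y t) * (1 - th q A g) ^ (t.length + 1) *
            th q A g ^ ((A : ℤ) - (H t : ℤ))) ^ 2 := mul_nonneg (piT_nonneg h0 h1 t) (sq_nonneg _)
        have hsingle : piT q t * (((cnt x t : ℝ) - cnt y t) * (1 - th q A g) ^ (t.length + 1) *
            th q A g ^ ((A : ℤ) - (H t : ℤ))) ^ 2 ≤ ∑ g ∈ G, if Typ q lam A t then piT q t *
              (((cnt x t : ℝ) - cnt y t) * (1 - th q A g) ^ (t.length + 1) *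
                th q A g ^ ((A : ℤ) - (H t : ℤ))) ^ 2 else 0 := by
          have hgG : g ∈ G := by rw [hG]; exact hgmem
          have := single_le_sum (f := fun g => if Typ q lam A t then piT q t *
              (((cnt x t : ℝ) - cnt y t) * (1 - th q A g) ^ (t.length + 1) *
                th q A g ^ ((A : ℤ) - (H t : ℤ))) ^ 2 else 0) (s := G) (fun g _ => by
            rw [if_pos hTyp]
            exact mul_nonneg (piT_nonneg h0 h1 t) (sq_nonneg _)) hgG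
          rwa [if_pos hTyp] at this
        have h9 : C₁ / c * √(A : ℝ) * (piT q t * (((cnt x t : ℝ) - cnt y t) * (1 - th q A g) ^ (t.length + 1) *
            th q A g ^ ((A : ℤ) - (H t : ℤ))) ^ 2) ≤ KK * ∑ g ∈ G, if Typ q lam A t then piT q t *
              (((cnt x t : ℝ) - cnt y t) * (1 - th q A g) ^ (t.length + 1) *
                th q A g ^ ((A : ℤ) - (H t : ℤ))) ^ 2 else 0 :=
          mul_le_mul hKc hsingle hpi hK0
        linarith
    · rw [if_pos hTyp]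
      have hle := sqrt_diff_sq_le hPx hPy
      rw [traceProb_eq_trW q hx t, traceProb_eq_trW q hy t] at hle ⊢
      have h8 : 0 ≤ KK * ∑ g ∈ G, if Typ q lam A t then piT q t * (((cnt x t : ℝ) - cnt y t) * (1 - th q A g) ^ (t.length + 1) *
                th q A g ^ ((A : ℤ) - (H t : ℤ))) ^ 2 else 0 := mul_nonneg hK0 hsum1
      nlinarith
  have hsum := sum_le_sum hpoint
  rw [sum_add_distrib, sum_add_distrib, ← mul_sum, ← mul_sum, sum_comm] at hsum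
  simp only [sum_filter]
  exact hsum

/-- A generating function for the length of the trace. -/
theorem gen_fun {q z : ℝ} (h0 : 0 < q) (h1 : q < 1) (hz : 0 ≤ z) {n : ℕ} {x : Word} (hx : x.length = n) :
    ∑ t ∈ W n, trW q n t * z ^ t.length * (cnt x t : ℝ) = ((1 - q) * z + q) ^ n := by
  have hp : 0 < 1 - q := by linarith
  obtain ⟨r, hr⟩ : ∃ r, r = (1 - q) * z + q := ⟨_, rfl⟩
  have hr0 : 0 < r := by rw [hr]; positivity
  have hsum := traceProb_sum (q := q / r) x (le_of_eq hx)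
  have hone : 1 - q / r = (1 - q) * z / r := by
    rw [hr]
    field_simp
    ring
  have key : ∀ t ∈ W n, trW q n t * z ^ t.length * (cnt x t : ℝ) = r ^ n * traceProb (q / r) x t := by
    intro t ht
    have hm : t.length ≤ n := mem_W.mp ht
    unfold trW traceProb
    rw [hx, hone, cnt_eq_count, div_pow, div_pow, mul_pow]
    have e : r ^ n = r ^ t.length * r ^ (n - t.length) := by
      rw [← pow_add]
      congr 1
      omega
    rw [e]
    field_simp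
  rw [sum_congr rfl key, ← mul_sum, hsum, mul_one, hr]

/-- The length of the trace is rarely small. -/
theorem length_tail {q : ℝ} (h0 : 0 < q) (h1 : q < 1) (A : ℕ) {x : Word} (hx : x.length = 2 * A) :
    ∑ t ∈ W (2 * A), (if (t.length : ℝ) < (1 - q) * A / 2 then trW q (2 * A) t * (cnt x t : ℝ) else 0) ≤
      Real.exp (-((1 - q) * A / 2)) := by
  have hp : 0 < 1 - q := by linarith
  obtain ⟨a, ha⟩ : ∃ a, a = (1 - q) * A / 2 := ⟨_, rfl⟩
  rw [← ha]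
  have hz0 : 0 ≤ Real.exp (-1) := (Real.exp_pos _).le
  have hpt : ∀ t ∈ W (2 * A), (if (t.length : ℝ) < a then trW q (2 * A) t * (cnt x t : ℝ) else 0) ≤
      Real.exp a * (trW q (2 * A) t * Real.exp (-1) ^ t.length * (cnt x t : ℝ)) := by
    intro t _
    have hW := trW_pos h0 h1 (2 * A) t
    have hc : (0 : ℝ) ≤ (cnt x t : ℝ) := by positivity
    split_ifs with hlt
    · have h2 : 1 ≤ Real.exp a * Real.exp (-1) ^ t.length := by
        rw [← Real.exp_nat_mul, ← Real.exp_add]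
        apply Real.one_le_exp
        linarith
      calc trW q (2 * A) t * (cnt x t : ℝ) = 1 * (trW q (2 * A) t * (cnt x t : ℝ)) := by ring
        _ ≤ (Real.exp a * Real.exp (-1) ^ t.length) * (trW q (2 * A) t * (cnt x t : ℝ)) :=
          mul_le_mul_of_nonneg_right h2 (by positivity)
        _ = _ := by ring
    · positivity
  refine (sum_le_sum hpt).trans ?_
  rw [← mul_sum, gen_fun h0 h1 hz0 hx]
  have hez : Real.exp (-1) ≤ 1 / 2 := by
    rw [Real.exp_neg, inv_eq_one_div]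
    apply one_div_le_one_div_of_le (by norm_num)
    have := Real.exp_one_gt_d9
    linarith
  have hr : (1 - q) * Real.exp (-1) + q ≤ Real.exp (-((1 - q) / 2)) := by
    have h2 := Real.add_one_le_exp (-((1 - q) / 2))
    have h3 : (1 - q) * Real.exp (-1) ≤ (1 - q) * (1 / 2) := mul_le_mul_of_nonneg_left hez hp.le
    linarith
  have hr0 : 0 ≤ (1 - q) * Real.exp (-1) + q := by positivity
  have hpow := pow_le_pow_left₀ hr0 hr (2 * A)
  rw [← Real.exp_nat_mul] at hpow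
  calc Real.exp a * ((1 - q) * Real.exp (-1) + q) ^ (2 * A)
      ≤ Real.exp a * Real.exp (((2 * A : ℕ) : ℝ) * -((1 - q) / 2)) :=
        mul_le_mul_of_nonneg_left hpow (Real.exp_pos _).le
    _ = Real.exp (-a) := by
        rw [← Real.exp_add]
        congr 1
        rw [ha]
        push_cast
        ring

open Classical in
/-- Atypical traces have tiny probability for any of our strings, by `tailX` and a Chernoff bound for the
length of the trace. -/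
theorem typical_tail {q : ℝ} (h0 : 0 < q) (h1 : q < 1) :
    ∃ C : ℝ, 0 < C ∧ ∀ (lam A : ℕ) (D : Finset ℤ), C ≤ lam → (lam : ℝ) ^ 4 ≤ A →
      (D.card : ℝ) * (lam * √(A : ℝ)) ≤ A →
      ∑ t ∈ (W (2 * A)).filter (fun t => ¬ Typ q lam A t),
        trW q (2 * A) t * (cnt (blockStr D 0 A) t : ℝ) ≤ Real.exp (-((lam : ℝ) ^ 2) / C) := by
  obtain ⟨Ct, hCt, htail⟩ := tailX h0 h1
  have hp : 0 < 1 - q := by linarith
  obtain ⟨κ, hκ⟩ : ∃ κ, κ = min ((1 - q) / 2) (1 / Ct) := ⟨_, rfl⟩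
  have hκ0 : 0 < κ := by
    rw [hκ]
    exact lt_min (by positivity) (by positivity)
  have hκ1 : κ ≤ (1 - q) / 2 := by rw [hκ]; exact min_le_left _ _
  have hκ2 : κ ≤ 1 / Ct := by rw [hκ]; exact min_le_right _ _
  refine ⟨2 * (1 + Ct) / κ + 1, by positivity, ?_⟩
  intro lam A D hlam hA hD
  have hlam1 : (1 : ℝ) ≤ lam := by
    have : 0 ≤ 2 * (1 + Ct) / κ := by positivity
    linarith
  have hlam2 : 2 * (1 + Ct) / κ ≤ lam := by linarith
  have hlam0 : (0 : ℝ) < lam := by linarith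
  have hA1' : (1 : ℝ) ≤ A := le_trans (one_le_pow₀ hlam1) hA
  have hA1 : 1 ≤ A := by exact_mod_cast hA1'
  have hA0 : (0 : ℝ) < A := by linarith
  obtain ⟨sA, hsA⟩ : ∃ sA, sA = √(A : ℝ) := ⟨_, rfl⟩
  rw [← hsA] at hD
  have hsA0 : 0 < sA := by rw [hsA]; positivity
  have hAs : sA * sA = A := by rw [hsA]; exact Real.mul_self_sqrt hA0.le
  have hlams : (lam : ℝ) * lam ≤ sA := by
    rw [hsA]
    apply Real.le_sqrt_of_sq_le
    calc ((lam : ℝ) * lam) ^ 2 = (lam : ℝ) ^ 4 := by ring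
      _ ≤ (A : ℝ) := hA
  have hu0 : 0 ≤ (lam : ℝ) * sA := by positivity
  have hlam3 : (lam : ℝ) ≤ lam * lam := by nlinarith
  have huA : (lam : ℝ) * sA ≤ A := by
    rw [← hAs]
    have : (lam : ℝ) ≤ sA := le_trans hlam3 hlams
    exact mul_le_mul_of_nonneg_right this hsA0.le
  have hT := htail D A ((lam : ℝ) * sA) hA1 hu0 huA hD
  have hLen := length_tail h0 h1 A (x := blockStr D 0 A) (by rw [length_blockStr])
  rw [sum_filter] at hT ⊢
  have hpt : ∀ t ∈ W (2 * A), (if ¬ Typ q lam A t then trW q (2 * A) t * (cnt (blockStr D 0 A) t : ℝ) else 0) ≤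
      (if (t.length : ℝ) < (1 - q) * A / 2 then trW q (2 * A) t * (cnt (blockStr D 0 A) t : ℝ) else 0) +
      (if (lam : ℝ) * sA ≤ |(A : ℝ) - H t - kap1 q * t.length| then trW q (2 * A) t * (cnt (blockStr D 0 A) t : ℝ) else 0) := by
    intro t _
    have hnn : 0 ≤ trW q (2 * A) t * (cnt (blockStr D 0 A) t : ℝ) :=
      mul_nonneg (trW_pos h0 h1 _ _).le (by positivity)
    by_cases hTyp : Typ q lam A t
    · rw [if_neg (not_not.mpr hTyp)]
      split_ifs <;> linarith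
    · rw [if_pos hTyp]
      unfold Typ at hTyp
      rw [not_and_or] at hTyp
      rcases hTyp with h | h
      · rw [if_pos (not_le.mp h)]
        split_ifs <;> linarith
      · have : (lam : ℝ) * sA ≤ |(A : ℝ) - H t - kap1 q * t.length| := by
          rw [← hsA] at h
          exact (not_le.mp h).le
        rw [if_pos this]
        split_ifs <;> linarith
  refine (sum_le_sum hpt).trans ?_
  rw [sum_add_distrib]
  -- the two exponentials
  have hu2 : ((lam : ℝ) * sA) ^ 2 / (Ct * (A : ℝ)) = (lam : ℝ) ^ 2 / Ct := by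
    have : ((lam : ℝ) * sA) ^ 2 = (lam : ℝ) ^ 2 * A := by rw [← hAs]; ring
    rw [this]
    field_simp
  have hneg : -(((lam : ℝ) * sA) ^ 2) / (Ct * (A : ℝ)) = -((lam : ℝ) ^ 2 / Ct) := by
    rw [neg_div, hu2]
  rw [hneg] at hT
  have hl2 : (lam : ℝ) ^ 2 ≤ A := by
    refine le_trans ?_ hA
    apply pow_le_pow_right₀ hlam1
    norm_num
  have he1 : Real.exp (-((1 - q) * A / 2)) ≤ Real.exp (-(κ * (lam : ℝ) ^ 2)) := by
    apply Real.exp_le_exp.mpr
    have h2 : κ * (lam : ℝ) ^ 2 ≤ ((1 - q) / 2) * A :=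
      mul_le_mul hκ1 hl2 (by positivity) (by positivity)
    linarith
  have he2 : Ct * Real.exp (-((lam : ℝ) ^ 2 / Ct)) ≤ Ct * Real.exp (-(κ * (lam : ℝ) ^ 2)) := by
    apply mul_le_mul_of_nonneg_left _ hCt.le
    apply Real.exp_le_exp.mpr
    have h2 : κ * (lam : ℝ) ^ 2 ≤ (1 / Ct) * (lam : ℝ) ^ 2 :=
      mul_le_mul_of_nonneg_right hκ2 (by positivity)
    have h3 : (1 / Ct) * (lam : ℝ) ^ 2 = (lam : ℝ) ^ 2 / Ct := by ring
    linarith
  obtain ⟨Y, hY⟩ : ∃ Y, Y = κ * (lam : ℝ) ^ 2 := ⟨_, rfl⟩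
  rw [← hY] at he1 he2
  have hY0 : 0 < Y := by rw [hY]; positivity
  -- `1 + Ct ≤ exp (Y/2)`
  have hbig : 1 + Ct ≤ Y / 2 := by
    have h2 : 2 * (1 + Ct) ≤ lam * κ := by
      rwa [div_le_iff₀ hκ0] at hlam2
    have h3 : (lam : ℝ) * κ ≤ Y := by
      rw [hY]
      nlinarith
    linarith
  have hexpY : 1 + Ct ≤ Real.exp (Y / 2) := by
    have := Real.add_one_le_exp (Y / 2)
    linarith
  have hfin : (1 + Ct) * Real.exp (-Y) ≤ Real.exp (-(Y / 2)) := by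
    have h2 : Real.exp (Y / 2) * Real.exp (-Y) = Real.exp (-(Y / 2)) := by
      rw [← Real.exp_add]
      congr 1
      ring
    rw [← h2]
    exact mul_le_mul_of_nonneg_right hexpY (Real.exp_pos _).le
  have hconst : -(Y / 2) ≤ -((lam : ℝ) ^ 2) / (2 * (1 + Ct) / κ + 1) := by
    rw [le_div_iff₀ (by positivity)]
    have h2 : (Y / 2) * (2 * (1 + Ct) / κ + 1) = (lam : ℝ) ^ 2 * (1 + Ct) + Y / 2 := by
      rw [hY]
      field_simp
    have h3 : 0 ≤ (lam : ℝ) ^ 2 * Ct := by positivity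
    have h4 : (lam : ℝ) ^ 2 * (1 + Ct) = (lam : ℝ) ^ 2 + (lam : ℝ) ^ 2 * Ct := by ring
    have h5 : -(Y / 2) * (2 * (1 + Ct) / κ + 1) = -((Y / 2) * (2 * (1 + Ct) / κ + 1)) := by ring
    rw [h5, h2, h4]
    linarith
  have hfinal := Real.exp_le_exp.mpr hconst
  refine le_trans ?_ hfinal
  refine le_trans ?_ hfin
  have h9 : (1 + Ct) * Real.exp (-Y) = Real.exp (-Y) + Ct * Real.exp (-Y) := by ring
  rw [h9]
  exact add_le_add (hLen.trans he1) (hT.trans he2)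

end Vale.Agent.Lib.P321
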