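import Vale.Agent.Lib.P321.Volterra

/-!
P321: sums over spaced sites.
-/

namespace Vale.Agent.Lib.P321

open Finset

/-- Rearrangement: a decreasing function sums best on an initial segment. -/
theorem anti_sum_le {φ : ℕ → ℝ} (hφ : Antitone φ) (T : Finset ℕ) :
    ∑ j ∈ T, φ j ≤ ∑ j ∈ range T.card, φ j := by
  induction hn : T.card generalizing T with
  | zero =>
    have : T = ∅ := card_eq_zero.mp hn
    simp [this]
  | succ n ih =>
    have hne : T.Nonempty := by
      rw [← card_pos]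
      omega
    set m := T.max' hne with hm
    have hmem : m ∈ T := T.max'_mem hne
    have hcard : (T.erase m).card = n := by
      rw [card_erase_of_mem hmem]
      omega
    have h1 := ih (T.erase m) hcard
    rw [← add_sum_erase T φ hmem, sum_range_succ, add_comm]
    apply add_le_add h1
    apply hφ
    have hsub : T ⊆ range (m + 1) := by
      intro x hx
      have := T.le_max' x hx
      simp only [mem_range]
      omega
    have := card_le_card hsub
    simp only [card_range] at this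
    omega

/-- Spaced points at distance at least `δ` to the left of `X + 1`. -/
theorem spaced_rho_pow {S : Finset ℤ} {δ : ℕ} (hδ : 1 ≤ δ) (hS : Spaced S δ) {X : ℤ}
    (hX : ∀ d ∈ S, (δ : ℤ) ≤ X - d + 1) (e : ℕ) :
    ∑ d ∈ S, rhoL (X - d) ^ e ≤ ∑ j ∈ range S.card, (1 / √(((j : ℝ) + 1) * δ)) ^ e := by
  have hδ0 : (0 : ℝ) < δ := by exact_mod_cast hδ
  have hδz : (0 : ℤ) < δ := by exact_mod_cast hδ
  set g : ℤ → ℕ := fun d => ((X - d + 1) / (δ : ℤ)).toNat - 1 with hg
  set φ : ℕ → ℝ := fun j => (1 / √(((j : ℝ) + 1) * δ)) ^ e with hφ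
  have hanti : Antitone φ := by
    intro a b hab
    apply pow_le_pow_left₀ (by positivity)
    apply one_div_le_one_div_of_le (by positivity)
    apply Real.sqrt_le_sqrt
    have : (a : ℝ) ≤ b := by exact_mod_cast hab
    nlinarith
  have hdiv : ∀ d ∈ S, (1 : ℤ) ≤ (X - d + 1) / (δ : ℤ) := by
    intro d hd
    have := hX d hd
    exact (Int.le_ediv_iff_mul_le hδz).mpr (by omega)
  have hgv : ∀ d ∈ S, ((g d : ℕ) : ℤ) + 1 = (X - d + 1) / (δ : ℤ) := by
    intro d hd
    have := hdiv d hd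
    simp only [hg]
    omega
  have hinj : Set.InjOn g S := by
    intro a ha b hb hab
    have ha' : a ∈ S := ha
    have hb' : b ∈ S := hb
    by_contra hne
    have h1 := hS a ha' b hb' hne
    have h2 := hgv a ha'
    have h3 := hgv b hb'
    have h4 : (X - a + 1) / (δ : ℤ) = (X - b + 1) / (δ : ℤ) := by
      rw [← h2, ← h3, hab]
    have h5 := Int.emod_add_mul_ediv (X - a + 1) δ
    have h6 := Int.emod_add_mul_ediv (X - b + 1) δ
    rw [h4] at h5
    have h7 := Int.emod_nonneg (X - a + 1) hδz.ne'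
    have h8 := Int.emod_lt_of_pos (X - a + 1) hδz
    have h9 := Int.emod_nonneg (X - b + 1) hδz.ne'
    have h10 := Int.emod_lt_of_pos (X - b + 1) hδz
    have h11 : a - b = (X - b + 1) % (δ : ℤ) - (X - a + 1) % (δ : ℤ) := by linarith
    have h12 : |a - b| < (δ : ℤ) := by
      rw [h11, abs_lt]
      constructor <;> omega
    omega
  have hterm : ∀ d ∈ S, rhoL (X - d) ^ e ≤ φ (g d) := by
    intro d hd
    apply pow_le_pow_left₀ (rhoL_nonneg _)
    unfold rhoL
    have h2 := hgv d hd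
    have h3 : ((g d : ℤ) + 1) * (δ : ℤ) ≤ X - d + 1 := by
      rw [h2]
      exact Int.ediv_mul_le _ hδz.ne'
    have h4 : (((g d : ℝ) + 1) * δ) ≤ ((X - d : ℤ) : ℝ) + 1 := by
      have : ((((g d : ℤ) + 1) * (δ : ℤ) : ℤ) : ℝ) ≤ ((X - d + 1 : ℤ) : ℝ) := by exact_mod_cast h3
      push_cast at this ⊢
      linarith
    apply one_div_le_one_div_of_le (by positivity)
    exact Real.sqrt_le_sqrt h4
  calc ∑ d ∈ S, rhoL (X - d) ^ e ≤ ∑ d ∈ S, φ (g d) := sum_le_sum hterm
    _ = ∑ j ∈ S.image g, φ j := (sum_image hinj).symm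
    _ ≤ ∑ j ∈ range (S.image g).card, φ j := anti_sum_le hanti _
    _ = ∑ j ∈ range S.card, φ j := by rw [card_image_of_injOn hinj]

theorem sqrt_mul_cast_inv (j δ : ℝ) (hj : 0 ≤ j) (hδ : 0 ≤ δ) :
    1 / √(j * δ) = (1 / √j) * (1 / √δ) := by
  rw [Real.sqrt_mul hj]
  field_simp

/-- First power of the spaced sum. -/
theorem spaced_rho1 {S : Finset ℤ} {δ k : ℕ} (hδ : 1 ≤ δ) (hS : Spaced S δ) (hk : S.card ≤ k) {X : ℤ}
    (hX : ∀ d ∈ S, (δ : ℤ) ≤ X - d + 1) :
    ∑ d ∈ S, rhoL (X - d) ≤ 2 * √(k : ℝ) * (1 / √(δ : ℝ)) := by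
  have h := spaced_rho_pow hδ hS hX 1
  simp only [pow_one] at h
  refine h.trans ?_
  have e : ∀ j ∈ range S.card, 1 / √(((j : ℝ) + 1) * δ) = (1 / √((j : ℝ) + 1)) * (1 / √(δ : ℝ)) := by
    intro j _
    exact sqrt_mul_cast_inv _ _ (by positivity) (by positivity)
  rw [sum_congr rfl e, ← sum_mul]
  apply mul_le_mul_of_nonneg_right _ (by positivity)
  refine (sum_inv_sqrt_le _).trans ?_
  apply mul_le_mul_of_nonneg_left _ (by norm_num)
  apply Real.sqrt_le_sqrt
  exact_mod_cast hk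

theorem sum_inv_sqrt_cube_le (n : ℕ) : ∑ j ∈ range n, (1 / √((j : ℝ) + 1)) ^ 3 ≤ 3 := by
  have key : ∀ n : ℕ, ∑ j ∈ range (n + 1), (1 / √((j : ℝ) + 1)) ^ 3 ≤ 3 - 2 * (1 / √((n : ℝ) + 1)) := by
    intro n
    induction n with
    | zero =>
      simp
      norm_num
    | succ n ih =>
      rw [sum_range_succ]
      set a : ℝ := √((n : ℝ) + 1) with ha
      set b : ℝ := √(((n + 1 : ℕ) : ℝ) + 1) with hb
      have ha0 : 0 < a := by
        apply Real.sqrt_pos.mpr
        positivity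
      have hb0 : 0 < b := by
        apply Real.sqrt_pos.mpr
        positivity
      have ha2 : a ^ 2 = (n : ℝ) + 1 := Real.sq_sqrt (by positivity)
      have hb2 : b ^ 2 = (n : ℝ) + 2 := by
        rw [hb, Real.sq_sqrt (by positivity)]
        push_cast
        ring
      have hab : a ≤ b := by
        apply Real.sqrt_le_sqrt
        push_cast
        linarith
      have hstep : (1 / b) ^ 3 ≤ 2 * (1 / a) - 2 * (1 / b) := by
        have h1 : b ^ 2 - a ^ 2 = 1 := by rw [ha2, hb2]; ring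
        have h2 : (b - a) * (b + a) = 1 := by nlinarith
        have h3 : 2 * (1 / a) - 2 * (1 / b) = 2 * (b - a) / (a * b) := by
          field_simp
        rw [h3, div_pow, one_pow, div_le_div_iff₀ (by positivity) (by positivity)]
        have h4 : b + a ≤ 2 * b := by linarith
        have h5 : 0 < b - a := by
          by_contra hn
          push Not at hn
          nlinarith
        have h6 : a * b * 1 = a * b * ((b - a) * (b + a)) := by rw [h2]
        have h7 : a * b ≤ 2 * (b - a) * b ^ 3 := by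
          have : a * b * ((b - a) * (b + a)) ≤ a * b * ((b - a) * (2 * b)) := by
            apply mul_le_mul_of_nonneg_left _ (by positivity)
            apply mul_le_mul_of_nonneg_left h4 h5.le
          have h8 : a * b * ((b - a) * (2 * b)) ≤ b * b * ((b - a) * (2 * b)) := by
            apply mul_le_mul_of_nonneg_right _ (by positivity)
            nlinarith
          nlinarith
        linarith
      linarith
  cases n with
  | zero => simp
  | succ n =>
    have := key n
    have h2 : 0 ≤ 2 * (1 / √((n : ℝ) + 1)) := by positivity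
    linarith

/-- Third power of the spaced sum. -/
theorem spaced_rho3 {S : Finset ℤ} {δ : ℕ} (hδ : 1 ≤ δ) (hS : Spaced S δ) {X : ℤ}
    (hX : ∀ d ∈ S, (δ : ℤ) ≤ X - d + 1) :
    ∑ d ∈ S, rhoL (X - d) ^ 3 ≤ 3 * (1 / √(δ : ℝ)) ^ 3 := by
  have h := spaced_rho_pow hδ hS hX 3
  refine h.trans ?_
  have e : ∀ j ∈ range S.card, (1 / √(((j : ℝ) + 1) * δ)) ^ 3 = (1 / √((j : ℝ) + 1)) ^ 3 * (1 / √(δ : ℝ)) ^ 3 := by
    intro j _
    rw [sqrt_mul_cast_inv _ _ (by positivity) (by positivity), mul_pow]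
  rw [sum_congr rfl e, ← sum_mul]
  apply mul_le_mul_of_nonneg_right _ (by positivity)
  exact sum_inv_sqrt_cube_le _

theorem Spaced_neg {S : Finset ℤ} {δ : ℕ} (hS : Spaced S δ) : Spaced (S.image fun d => -d) δ := by
  intro x hx y hy hxy
  obtain ⟨a, ha, rfl⟩ := mem_image.mp hx
  obtain ⟨b, hb, rfl⟩ := mem_image.mp hy
  have hne : a ≠ b := fun h => hxy (by rw [h])
  have := hS a ha b hb hne
  have e : -a - -b = -(a - b) := by ring
  rw [e, abs_neg]
  exact this

/-- Spaced points at distance at least `δ` to the right. -/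
theorem spaced_rho1_right {S : Finset ℤ} {δ k : ℕ} (hδ : 1 ≤ δ) (hS : Spaced S δ) (hk : S.card ≤ k) {Y : ℤ}
    (hY : ∀ d ∈ S, (δ : ℤ) ≤ d - Y + 1) :
    ∑ d ∈ S, rhoL (d - Y) ≤ 2 * √(k : ℝ) * (1 / √(δ : ℝ)) := by
  have h := spaced_rho1 (S := S.image fun d => -d) (X := -Y) hδ (Spaced_neg hS)
    (card_image_le.trans hk) (by
      intro d hd
      obtain ⟨a, ha, rfl⟩ := mem_image.mp hd
      have := hY a ha
      omega)
  rwa [sum_image (fun a _ b _ hab => by simpa using hab), sum_congr rfl (g := fun x => rhoL (x - Y)) (fun x _ => by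
    congr 1
    ring)] at h

theorem spaced_rho3_right {S : Finset ℤ} {δ : ℕ} (hδ : 1 ≤ δ) (hS : Spaced S δ) {Y : ℤ}
    (hY : ∀ d ∈ S, (δ : ℤ) ≤ d - Y + 1) :
    ∑ d ∈ S, rhoL (d - Y) ^ 3 ≤ 3 * (1 / √(δ : ℝ)) ^ 3 := by
  have h := spaced_rho3 (S := S.image fun d => -d) (X := -Y) hδ (Spaced_neg hS) (by
      intro d hd
      obtain ⟨a, ha, rfl⟩ := mem_image.mp hd
      have := hY a ha
      omega)
  rwa [sum_image (fun a _ b _ hab => by simpa using hab), sum_congr rfl (g := fun x => rhoL (x - Y) ^ 3) (fun x _ => by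
    congr 2
    ring)] at h

/-- Subset of a spaced set. -/
theorem Spaced.mono {S T : Finset ℤ} {δ : ℕ} (hS : Spaced S δ) (h : T ⊆ S) : Spaced T δ :=
  fun x hx y hy hxy => hS x (h hx) y (h hy) hxy

/-- The uniform bound on the sum of weights. -/
theorem E_bound {S : Finset ℤ} {δ k : ℕ} {ε : ℝ} (hδ : 1 ≤ δ) (hS : Spaced S δ) (hk : S.card ≤ k)
    (hkδ : (k : ℝ) ≤ √(δ : ℝ)) (hε : 0 ≤ ε) (hεδ : ε ≤ 1 / δ) (i : ℤ) :
    ∑ d ∈ S.filter (· ≤ i), (rhoL (i - d) + 1 / δ + ε) ≤ 5 := by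
  have hδ0 : (0 : ℝ) < δ := by exact_mod_cast hδ
  have hδ1 : (1 : ℝ) ≤ δ := by exact_mod_cast hδ
  set T := S.filter (· ≤ i) with hT
  have hTsub : T ⊆ S := filter_subset _ _
  have hTcard : T.card ≤ k := (card_le_card hTsub).trans hk
  have hsδ1 : 1 ≤ √(δ : ℝ) := by
    rw [Real.one_le_sqrt]
    exact hδ1
  by_cases hne : T.Nonempty
  · set d₁ := T.max' hne with hd₁
    have hmem : d₁ ∈ T := T.max'_mem hne
    have hle : d₁ ≤ i := (mem_filter.mp hmem).2
    have hE : ∀ d ∈ T.erase d₁, (δ : ℤ) ≤ i - d + 1 := by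
      intro d hd
      obtain ⟨hne', hdT⟩ := mem_erase.mp hd
      have h1 := hS d (hTsub hdT) d₁ (hTsub hmem) hne'
      have h2 := T.le_max' d hdT
      have h3 : d - d₁ ≤ 0 := by omega
      rw [abs_of_nonpos h3] at h1
      omega
    have h1 := spaced_rho1 hδ (hS.mono (Finset.erase_subset d₁ T |>.trans hTsub)) (k := k)
      ((card_le_card (Finset.erase_subset d₁ T)).trans hTcard) hE
    have h2 : rhoL (i - d₁) ≤ 1 := rhoL_le_one (by omega)
    have h3 : ∑ d ∈ T, rhoL (i - d) ≤ 3 := by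
      rw [← add_sum_erase T _ hmem]
      have h4 : 2 * √(k : ℝ) * (1 / √(δ : ℝ)) ≤ 2 := by
        have hk0 : (0:ℝ) ≤ k := by positivity
        have : √(k : ℝ) ≤ √(δ : ℝ) := by
          apply Real.sqrt_le_sqrt
          have : √(δ : ℝ) ≤ δ := by
            nlinarith [Real.sq_sqrt hδ0.le, Real.sqrt_nonneg (δ : ℝ)]
          linarith
        have h5 : √(k : ℝ) * (1 / √(δ : ℝ)) ≤ 1 := by
          rw [mul_one_div, div_le_one (by positivity)]
          exact this
        linarith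
      linarith
    rw [sum_add_distrib, sum_add_distrib, sum_const]
    have h6 : (T.card : ℝ) ≤ k := by exact_mod_cast hTcard
    have h7 : (T.card : ℝ) • (1 / (δ : ℝ)) ≤ 1 := by
      rw [smul_eq_mul, mul_one_div, div_le_one hδ0]
      have : √(δ : ℝ) ≤ δ := by
        nlinarith [Real.sq_sqrt hδ0.le, Real.sqrt_nonneg (δ : ℝ)]
      linarith
    have h8 : ∑ _d ∈ T, ε ≤ 1 := by
      rw [sum_const]
      rw [nsmul_eq_mul]
      have h9 : (T.card : ℝ) * ε ≤ T.card * (1 / (δ : ℝ)) :=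
        mul_le_mul_of_nonneg_left hεδ (by positivity)
      have h10 : (T.card : ℝ) * (1 / (δ : ℝ)) ≤ 1 := by simpa using h7
      linarith
    simp only [nsmul_eq_mul] at h7 ⊢
    have h11 : (T.card : ℝ) * (1 / (δ : ℝ)) ≤ 1 := by simpa using h7
    linarith
  · rw [not_nonempty_iff_eq_empty] at hne
    rw [hne]
    simp

end Vale.Agent.Lib.P321
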