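import Vale.Agent.Lib.P321.Count

/-!
P321: tokens. A token of `t` is a decomposition `t = w ++ a :: b :: w'`.
-/

namespace Vale.Agent.Lib.P321

open Finset

/-- A token: `(w, a, b, w')` stands for `w ++ a :: b :: w'`. -/
abbrev Spl := Word × Bool × Bool × Word

/-- The word of a token. -/
def joinS (s : Spl) : Word := s.1 ++ s.2.1 :: s.2.2.1 :: s.2.2.2

/-- All tokens of a word, left to right. -/
def splits : Word → List Spl
  | [] => []
  | [_] => []
  | a :: b :: l => ([], a, b, l) :: (splits (b :: l)).map fun s => (a :: s.1, s.2)

@[simp] theorem splits_nil : splits [] = [] := rfl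
@[simp] theorem splits_single (a : Bool) : splits [a] = [] := rfl
theorem splits_cons_cons (a b : Bool) (l : Word) :
    splits (a :: b :: l) = ([], a, b, l) :: (splits (b :: l)).map fun s => (a :: s.1, s.2) := rfl

theorem mem_splits {s : Spl} {t : Word} : s ∈ splits t ↔ joinS s = t := by
  induction t using List.twoStepInduction generalizing s with
  | nil =>
    simp only [splits_nil, List.not_mem_nil, false_iff]
    simp [joinS]
  | singleton a =>
    simp only [splits_single, List.not_mem_nil, false_iff]
    rcases s with ⟨w, a', b', w'⟩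
    simp only [joinS]
    intro h
    have := congrArg List.length h
    simp at this
    omega
  | cons_cons a b l _ ih =>
    rcases s with ⟨w, a', b', w'⟩
    rw [splits_cons_cons]
    simp only [List.mem_cons, List.mem_map]
    constructor
    · rintro (h | ⟨s, hs, h⟩)
      · simp only [Prod.mk.injEq] at h
        obtain ⟨rfl, rfl, rfl, rfl⟩ := h
        rfl
      · have h2 := (ih b).mp hs
        rcases s with ⟨w1, a1, b1, w1'⟩
        simp only [Prod.mk.injEq] at h
        obtain ⟨rfl, rfl, rfl, rfl⟩ := h
        simp only [joinS] at h2 ⊢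
        simp [h2]
    · intro h
      simp only [joinS] at h
      cases w with
      | nil =>
        left
        simp only [List.nil_append, List.cons.injEq] at h
        obtain ⟨rfl, rfl, rfl⟩ := h
        rfl
      | cons c w =>
        right
        simp only [List.cons_append, List.cons.injEq] at h
        obtain ⟨rfl, h⟩ := h
        refine ⟨(w, a', b', w'), (ih b).mpr ?_, rfl⟩
        simp only [joinS]
        exact h

theorem splits_nodup (t : Word) : (splits t).Nodup := by
  induction t using List.twoStepInduction with
  | nil => simp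
  | singleton a => simp
  | cons_cons a b l _ ih =>
    rw [splits_cons_cons, List.nodup_cons]
    constructor
    · simp
    · refine List.Nodup.map ?_ (ih b)
      rintro ⟨w, x⟩ ⟨w', x'⟩ h
      simpa using h

/-- Sum over tokens as a finset sum. -/
theorem sum_splits (φ : Spl → ℝ) (t : Word) :
    ((splits t).map φ).sum = ∑ s ∈ (splits t).toFinset, φ s :=
  (List.sum_toFinset φ (splits_nodup t)).symm

/-- Tokens of total length at most `B`. -/
def Quad (B : ℕ) : Finset Spl :=
  ((W B) ×ˢ (univ ×ˢ (univ ×ˢ (W B)))).filter fun s => s.1.length + s.2.2.2.length + 2 ≤ B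

theorem mem_Quad {B : ℕ} {s : Spl} : s ∈ Quad B ↔ (joinS s).length ≤ B := by
  rcases s with ⟨w, a, b, w'⟩
  simp only [Quad, mem_filter, mem_product, mem_W, mem_univ, true_and, joinS, List.length_append,
    List.length_cons]
  omega

/-- Summation over words and tokens is summation over tokens. -/
theorem sum_W_splits (B : ℕ) (φ : Spl → ℝ) :
    ∑ t ∈ W B, ((splits t).map φ).sum = ∑ s ∈ Quad B, φ s := by
  have h : Quad B = (W B).biUnion fun t => (splits t).toFinset := by
    ext s
    simp only [mem_Quad, mem_biUnion, List.mem_toFinset, mem_splits, mem_W]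
    constructor
    · intro h
      exact ⟨_, h, rfl⟩
    · rintro ⟨t, ht, rfl⟩
      exact ht
  rw [h, sum_biUnion]
  · exact sum_congr rfl fun t _ => sum_splits φ t
  · intro t _ t' _ hne
    simp only [Function.onFun]
    rw [disjoint_left]
    intro s hs hs'
    rw [List.mem_toFinset, mem_splits] at hs hs'
    exact hne (hs.symm.trans hs')

/-- The sign of a token. -/
def sg : Bool → Bool → ℝ
  | true, false => 1
  | false, true => -1
  | _, _ => 0

/-- The connection cost of a `(1,0)` token, `u` the letter before, `v` the letter after;
by convention an empty left part acts as `1` and an empty right part as `0`. -/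
def cTok (u v : Bool) : ℕ := (if u then 1 else 0) + (if v then 0 else 1)

theorem cTok_le (u v : Bool) : cTok u v ≤ 2 := by cases u <;> cases v <;> decide

/-- `H` of a concatenation with a nonempty right part, written with `getLastD`. -/
theorem H_append_cons (w : Word) (c : Bool) (l : Word) (hw : w ≠ []) :
    H (w ++ c :: l) + 1 = H w + pc (w.getLastD true) c + H (c :: l) := by
  induction w with
  | nil => exact absurd rfl hw
  | cons a w ih =>
    cases w with
    | nil =>
      simp only [List.cons_append, List.nil_append, H_cons_cons, H_single, List.getLastD_cons,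
        List.getLastD_nil]
      omega
    | cons b w =>
      have := ih (by simp)
      simp only [List.cons_append] at this ⊢
      rw [H_cons_cons, H_cons_cons]
      simp only [List.getLastD_cons] at this ⊢
      omega

/-- `H (false :: w')`. -/
theorem H_false_cons (w' : Word) :
    H (false :: w') = H w' + (if w'.headD false then 0 else 1) := by
  cases w' with
  | nil => simp
  | cons b l =>
    rw [H_cons_cons]
    cases b <;> simp <;> omega

/-- Cost of a `(1,0)` token. -/
theorem H_join_tf (w w' : Word) :
    H (w ++ true :: false :: w') = H w + H w' + cTok (w.getLastD true) (w'.headD false) := by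
  have h1 := H_false_cons w'
  have h2 : H (true :: false :: w') = H (false :: w') + 1 := by rw [H_true_cons]
  cases w with
  | nil =>
    simp only [List.nil_append, cTok, List.getLastD_nil, if_true]
    rw [h2, h1, H_nil]
    omega
  | cons a l =>
    have h3 := H_append_cons (a :: l) true (false :: w') (by simp)
    have h4 : pc ((a :: l).getLastD true) true = (if (a :: l).getLastD true then 1 else 0) := by
      cases (a :: l).getLastD true <;> rfl
    rw [h4, h2, h1] at h3
    simp only [cTok]
    omega

/-- Cost of a `(0,1)` token. -/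
theorem H_join_ft (w w' : Word) : H (w ++ false :: true :: w') = H w + H w' + 1 := by
  cases w with
  | nil =>
    simp only [List.nil_append, H_nil]
    rw [H_ft]
    omega
  | cons a l =>
    have h3 := H_append_cons (a :: l) false (true :: w') (by simp)
    have h4 : pc ((a :: l).getLastD true) false = 1 := by
      cases (a :: l).getLastD true <;> rfl
    rw [h4, H_ft] at h3
    omega

/-- The weight of a token in the chain expansion. -/
noncomputable def nu (θ : ℝ) (s : Spl) : ℝ :=
  sg s.2.1 s.2.2.1 * (1 - θ) *
    θ ^ ((1 : ℤ) + (H s.1 : ℤ) + (H s.2.2.2 : ℤ) - (H (joinS s) : ℤ))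

theorem nu_tf (θ : ℝ) (w w' : Word) :
    nu θ (w, true, false, w') =
      (1 - θ) * θ ^ ((1 : ℤ) - (cTok (w.getLastD true) (w'.headD false) : ℤ)) := by
  simp only [nu, sg, joinS, H_join_tf]
  push_cast
  rw [one_mul]
  congr 2
  ring

theorem nu_ft (θ : ℝ) (w w' : Word) : nu θ (w, false, true, w') = -(1 - θ) := by
  simp only [nu, sg, joinS, H_join_ft]
  push_cast
  have : (1 : ℤ) + (H w : ℤ) + (H w' : ℤ) - ((H w : ℤ) + (H w' : ℤ) + 1) = 0 := by ring
  rw [this]
  simp

@[simp] theorem nu_tt (θ : ℝ) (w w' : Word) : nu θ (w, true, true, w') = 0 := by simp [nu, sg]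
@[simp] theorem nu_ff (θ : ℝ) (w w' : Word) : nu θ (w, false, false, w') = 0 := by simp [nu, sg]

/-- `nu` sees the right part only through its first letter. -/
theorem nu_append_right (θ : ℝ) (w : Word) (a b : Bool) (c : Bool) (l l' : Word) :
    nu θ (w, a, b, (c :: l) ++ l') = nu θ (w, a, b, c :: l) := by
  cases a <;> cases b <;> simp [nu_tf, nu_ft]

/-- Length factor of `piT`. -/
noncomputable def om (q : ℝ) (c : ℕ) : ℝ := (1 - q ^ 2) * (1 / (q * (1 + q))) ^ 2 * q ^ (2 * c)

theorem piT_join (q : ℝ) (hq : 1 - q ^ 2 ≠ 0) (w w' : Word) (a b : Bool) (c : ℕ)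
    (h : H (w ++ a :: b :: w') = H w + H w' + c) :
    piT q (joinS (w, a, b, w')) = piT q w * piT q w' * om q c := by
  simp only [piT, joinS, om, List.length_append, List.length_cons, h]
  have e1 : (1 / (q * (1 + q))) ^ (w.length + (w'.length + 1 + 1)) =
      (1 / (q * (1 + q))) ^ w.length * (1 / (q * (1 + q))) ^ w'.length * (1 / (q * (1 + q))) ^ 2 := by
    ring
  have e2 : q ^ (2 * (H w + H w' + c)) = q ^ (2 * H w) * q ^ (2 * H w') * q ^ (2 * c) := by ring
  rw [e1, e2]
  field_simp

/-- The constant of the token sum. -/
noncomputable def kapT (q θ : ℝ) : ℝ := (1 - q) * (1 - θ) / (1 + q)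

/-- The correction factor of the token sum. -/
noncomputable def rh (q θ : ℝ) (c : ℕ) : ℝ := (q ^ 2 / θ) ^ ((c : ℤ) - 1)

theorem om_nu (q θ : ℝ) (h0 : 0 < q) (h1 : q < 1) (hθ : 0 < θ) (c : ℕ) (hc : c ≤ 2) :
    om q c * ((1 - θ) * θ ^ ((1 : ℤ) - (c : ℤ))) = kapT q θ * rh q θ c := by
  have hq2 : 1 - q ^ 2 = (1 - q) * (1 + q) := by ring
  have hq1 : (1 + q) ≠ 0 := by positivity
  have hq0 : q ≠ 0 := h0.ne'
  have hθ0 : θ ≠ 0 := hθ.ne'
  interval_cases c <;> simp only [om, kapT, rh, hq2] <;> norm_num <;> field_simp

/-- The token sum. -/
theorem token_sum (q θ : ℝ) (h0 : 0 < q) (h1 : q < 1) (hθ : 0 < θ) (w w' : Word)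
    (Ψ : Bool → Bool → ℝ) :
    ∑ a : Bool, ∑ b : Bool, piT q (joinS (w, a, b, w')) * nu θ (w, a, b, w') * Ψ a b =
      piT q w * piT q w' * kapT q θ *
        (rh q θ (cTok (w.getLastD true) (w'.headD false)) * Ψ true false - Ψ false true) := by
  have hq : 1 - q ^ 2 ≠ 0 := by nlinarith
  simp only [Fintype.sum_bool, nu_tt, nu_ff, mul_zero, zero_mul, add_zero, zero_add]
  rw [piT_join q hq w w' true false _ (H_join_tf w w'), piT_join q hq w w' false true 1 (H_join_ft w w')]
  rw [nu_tf, nu_ft]
  have e1 := om_nu q θ h0 h1 hθ _ (cTok_le (w.getLastD true) (w'.headD false))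
  have e2 := om_nu q θ h0 h1 hθ 1 (by norm_num)
  simp only [Nat.cast_one, sub_self, zpow_zero, mul_one] at e2
  have e3 : rh q θ 1 = 1 := by simp [rh]
  rw [e3] at e2
  calc piT q w * piT q w' * om q (cTok (w.getLastD true) (w'.headD false)) *
        ((1 - θ) * θ ^ ((1 : ℤ) - (cTok (w.getLastD true) (w'.headD false) : ℤ))) * Ψ true false +
        piT q w * piT q w' * om q 1 * -(1 - θ) * Ψ false true
      = piT q w * piT q w' * (om q (cTok (w.getLastD true) (w'.headD false)) *
        ((1 - θ) * θ ^ ((1 : ℤ) - (cTok (w.getLastD true) (w'.headD false) : ℤ)))) * Ψ true false -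
        piT q w * piT q w' * (om q 1 * (1 - θ)) * Ψ false true := by ring
    _ = _ := by rw [e1, e2]; ring

/-- Tokens with nonempty right part. -/
def splitsNE (t : Word) : List Spl := (splits t).filter fun s => s.2.2.2 ≠ []

/-- Tokens lying at least one letter before the token `s'` (as tokens of the big word). -/
def before (s' : Spl) : List Spl :=
  (splitsNE s'.1).map fun s => (s.1, s.2.1, s.2.2.1, s.2.2.2 ++ s'.2.1 :: s'.2.2.1 :: s'.2.2.2)

/-- Quadratic form of a list. -/
def pairP : List ℝ → ℝ
  | [] => 0
  | x :: L => x * (L.drop 2).sum + pairP L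

theorem list_sq (L : List ℝ) :
    L.sum ^ 2 + 2 * (L.headD 0) ^ 2 + (L.getD 1 0) ^ 2 ≤ 5 * (L.map (· ^ 2)).sum + 2 * pairP L := by
  induction L with
  | nil => simp [pairP]
  | cons x L ih =>
    simp only [List.sum_cons, List.map_cons, pairP, List.headD_cons]
    cases L with
    | nil => simp [pairP] at ih ⊢; nlinarith [sq_nonneg x]
    | cons y L =>
      cases L with
      | nil =>
        simp [pairP] at ih ⊢
        nlinarith [sq_nonneg x, sq_nonneg y, sq_nonneg (x - y)]
      | cons z L =>
        simp only [List.sum_cons, List.map_cons, List.headD_cons, List.drop_succ_cons, List.drop_zero,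
          List.getD_cons_succ, List.getD_cons_zero, pairP] at ih ⊢
        nlinarith [sq_nonneg (x - y), sq_nonneg (x - z)]

theorem splits_filter_drop (t : Word) (k : ℕ) :
    (splits t).filter (fun s => k ≤ s.1.length) = (splits t).drop k := by
  induction t using List.twoStepInduction generalizing k with
  | nil => simp
  | singleton a => simp
  | cons_cons a b l _ ih =>
    rw [splits_cons_cons]
    cases k with
    | zero => simp
    | succ k =>
      rw [List.filter_cons_of_neg (by simp), List.drop_succ_cons, List.filter_map, ← List.map_drop,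
        ← ih b k]
      congr 1
      apply List.filter_congr
      intro x _
      simp

theorem splitsNE_cons_cons_cons (a e e' : Bool) (l : Word) :
    splitsNE (a :: e :: e' :: l) =
      ([], a, e, e' :: l) :: (splitsNE (e :: e' :: l)).map fun s => (a :: s.1, s.2) := by
  simp only [splitsNE]
  rw [splits_cons_cons, List.filter_cons_of_pos (by simp), List.filter_map]
  rfl

theorem before_cons (a b : Bool) (l : Word) (s' : Spl) (hs' : s' ∈ splits (b :: l)) :
    before (a :: s'.1, s'.2) =
      (if 2 ≤ s'.1.length then [(([], a, b, l) : Spl)] else []) ++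
        (before s').map fun s => (a :: s.1, s.2) := by
  rcases s' with ⟨w, c, d, w2⟩
  have hj := mem_splits.mp hs'
  simp only [joinS] at hj
  match w, hj with
  | [], _ => simp [before, splitsNE]
  | [e], _ =>
    simp [before, splitsNE, splits_cons_cons]
  | e :: e' :: w3, hj =>
    simp only [List.cons_append, List.cons.injEq] at hj
    obtain ⟨rfl, rfl⟩ := hj
    simp only [before]
    rw [splitsNE_cons_cons_cons]
    simp [List.map_map]

/-- The off-diagonal quadratic form over tokens. -/
theorem pair_eq (A : Spl → ℝ) (t : Word) :
    pairP ((splits t).map A) =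
      ((splits t).map fun s' => A s' * ((before s').map A).sum).sum := by
  induction t using List.twoStepInduction generalizing A with
  | nil => simp [pairP]
  | singleton a => simp [pairP]
  | cons_cons a b l _ ih =>
    rw [splits_cons_cons]
    simp only [List.map_cons, List.map_map, pairP, List.sum_cons]
    have hb0 : before (([], a, b, l) : Spl) = [] := by simp [before, splitsNE]
    rw [hb0]
    simp only [List.map_nil, List.sum_nil, mul_zero, zero_add]
    set A' : Spl → ℝ := A ∘ fun s => (a :: s.1, s.2) with hA'
    have h1 := ih b A'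
    rw [h1]
    have h2 : ((splits (b :: l)).map ((fun s' => A s' * ((before s').map A).sum) ∘
        fun s : Spl => ((a :: s.1, s.2) : Spl))).sum =
        ((splits (b :: l)).map fun s' => A' s' * (if 2 ≤ s'.1.length then A ([], a, b, l) else 0)).sum +
        ((splits (b :: l)).map fun s' => A' s' * ((before s').map A').sum).sum := by
      rw [← List.sum_map_add]
      apply congrArg List.sum
      apply List.map_congr_left
      intro s' hs'
      simp only [Function.comp]
      rw [before_cons a b l s' hs']
      simp only [hA', List.map_append, List.sum_append, List.map_map, Function.comp_def]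
      split_ifs <;> simp [mul_add]
    rw [h2]
    congr 1
    -- the head term
    have h3 : ((List.map A' (splits (b :: l))).drop 2).sum * A ([], a, b, l) =
        ((splits (b :: l)).map fun s' => A' s' * (if 2 ≤ s'.1.length then A ([], a, b, l) else 0)).sum := by
      rw [← List.map_drop, ← splits_filter_drop]
      generalize splits (b :: l) = L
      induction L with
      | nil => simp
      | cons s L ihL =>
        simp only [List.map_cons, List.sum_cons]
        by_cases h : 2 ≤ s.1.length
        · rw [List.filter_cons_of_pos (by simpa using h)]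
          simp only [List.map_cons, List.sum_cons, if_pos h, add_mul, ihL]
        · rw [List.filter_cons_of_neg (by simpa using h)]
          simp only [if_neg h, mul_zero, zero_add, ihL]
    rw [← h3]
    ring

/-- Pointwise bound for the square of a token sum. -/
theorem token_sum_sq (A : Spl → ℝ) (t : Word) :
    ((splits t).map A).sum ^ 2 ≤ 5 * ((splits t).map fun s => A s ^ 2).sum +
      2 * ((splits t).map fun s' => A s' * ((before s').map A).sum).sum := by
  have h := list_sq ((splits t).map A)
  rw [pair_eq] at h
  simp only [List.map_map, Function.comp_def] at h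
  nlinarith [sq_nonneg ((List.map A (splits t)).headD 0), sq_nonneg ((List.map A (splits t)).getD 1 0)]

end Vale.Agent.Lib.P321
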