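import Vale.Agent.Lib.P321.OLcore

/-!
P321: visit lemmas. Sums over words of block values along the word.
-/

namespace Vale.Agent.Lib.P321

open Finset

/-- Product of flip weights along a word started at `a`. -/
noncomputable def msFrom (q : ℝ) : Bool → Word → ℝ
  | _, [] => 1
  | a, b :: l => flipW q a b * msFrom q b l

/-- Stationary Markov law on words. -/
noncomputable def Ms (q : ℝ) : Word → ℝ
  | [] => 1
  | a :: l => (1 / 2) * msFrom q a l

theorem flipW_nonneg {q : ℝ} (h0 : 0 < q) (a b : Bool) : 0 ≤ flipW q a b := by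
  unfold flipW
  split_ifs <;> positivity

theorem flipW_sum_left {q : ℝ} (h0 : 0 < q) (b : Bool) : flipW q false b + flipW q true b = 1 := by
  have : (1 + q) ≠ 0 := by positivity
  cases b <;> simp [flipW] <;> field_simp <;> ring

theorem msFrom_nonneg {q : ℝ} (h0 : 0 < q) (a : Bool) (l : Word) : 0 ≤ msFrom q a l := by
  induction l generalizing a with
  | nil => simp [msFrom]
  | cons b l ih => exact mul_nonneg (flipW_nonneg h0 a b) (ih b)

theorem Ms_nonneg {q : ℝ} (h0 : 0 < q) (w : Word) : 0 ≤ Ms q w := by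
  cases w with
  | nil => simp [Ms]
  | cons a l => exact mul_nonneg (by norm_num) (msFrom_nonneg h0 a l)

theorem Ms_cons_sum {q : ℝ} (h0 : 0 < q) (w : Word) : Ms q (false :: w) + Ms q (true :: w) = Ms q w := by
  cases w with
  | nil => simp [Ms, msFrom]; norm_num
  | cons b l =>
    simp only [Ms, msFrom]
    have := flipW_sum_left h0 b
    calc (1 / 2) * (flipW q false b * msFrom q b l) + (1 / 2) * (flipW q true b * msFrom q b l)
        = (1 / 2) * ((flipW q false b + flipW q true b) * msFrom q b l) := by ring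
      _ = _ := by rw [this, one_mul]

theorem sum_Weq_succ (r : ℕ) (g : Word → ℝ) :
    ∑ w ∈ Weq (r + 1), g w = ∑ w ∈ Weq r, (g (false :: w) + g (true :: w)) := by
  simp only [Weq]
  rw [sum_biUnion]
  · apply sum_congr rfl
    intro l _
    rw [sum_pair (by simp)]
  · intro l _ l' _ hne
    simp only [Function.onFun, disjoint_left, mem_insert, mem_singleton]
    rintro x (rfl | rfl) (h | h) <;> simp_all

/-- Lifting by one letter on the left. -/
theorem sum_Ms_tail {q : ℝ} (h0 : 0 < q) (r : ℕ) (ψ : Word → ℝ) :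
    ∑ w ∈ Weq (r + 1), Ms q w * ψ w.tail = ∑ w ∈ Weq r, Ms q w * ψ w := by
  rw [sum_Weq_succ]
  apply sum_congr rfl
  intro w _
  simp only [List.tail_cons]
  rw [← Ms_cons_sum h0 w]
  ring

theorem sum_Ms_Weq {q : ℝ} (h0 : 0 < q) (r : ℕ) : ∑ w ∈ Weq r, Ms q w = 1 := by
  induction r with
  | zero => simp [Weq, Ms]
  | succ r ih =>
    have := sum_Ms_tail h0 r (fun _ => 1)
    simpa [ih] using this

/-- Marginal of a suffix. -/
theorem sum_Ms_drop {q : ℝ} (h0 : 0 < q) (L l : ℕ) (hl : l ≤ L) (φ : Word → ℝ) :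
    ∑ w ∈ Weq l, Ms q w * φ w = ∑ w ∈ Weq L, Ms q w * φ (w.drop (L - l)) := by
  induction L, hl using Nat.le_induction with
  | base => simp
  | succ L hL ih =>
    rw [ih, ← sum_Ms_tail h0 L (fun w => φ (w.drop (L - l)))]
    apply sum_congr rfl
    intro w _
    have : L + 1 - l = (L - l) + 1 := by omega
    rw [this, List.drop_tail]

/-- Sum over words of length at most `B` as a double sum. -/
theorem sum_W (B : ℕ) (g : Word → ℝ) :
    ∑ w ∈ W B, g w = ∑ l ∈ range (B + 1), ∑ w ∈ Weq l, g w := by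
  unfold W
  rw [sum_biUnion]
  intro l _ l' _ hne
  simp only [Function.onFun, disjoint_left, mem_Weq]
  intro x hx hx'
  exact hne (hx.symm.trans hx')

/-- Lifting all prefixes to a bound over paths. -/
theorem sum_Ms_path {q : ℝ} (h0 : 0 < q) (L : ℕ) (φ : Word → ℝ) (b : ℝ)
    (hb : ∀ w : Word, w.length = L → ∑ l ∈ range (L + 1), φ (w.drop (L - l)) ≤ b) :
    ∑ l ∈ range (L + 1), ∑ w ∈ Weq l, Ms q w * φ w ≤ b := by
  have e : ∑ l ∈ range (L + 1), ∑ w ∈ Weq l, Ms q w * φ w =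
      ∑ w ∈ Weq L, Ms q w * ∑ l ∈ range (L + 1), φ (w.drop (L - l)) := by
    simp only [mul_sum]
    rw [sum_comm]
    apply sum_congr rfl
    intro l hl
    rw [sum_Ms_drop h0 L l (by simpa [Nat.lt_succ_iff] using hl)]
  rw [e]
  calc ∑ w ∈ Weq L, Ms q w * ∑ l ∈ range (L + 1), φ (w.drop (L - l))
      ≤ ∑ w ∈ Weq L, Ms q w * b := by
        apply sum_le_sum
        intro w hw
        exact mul_le_mul_of_nonneg_left (hb w (mem_Weq.mp hw)) (Ms_nonneg h0 w)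
    _ = b := by rw [← sum_mul, sum_Ms_Weq h0, one_mul]

/-- Bit of a letter. -/
def bv (a : Bool) : ℕ := if a then 1 else 0

theorem msFrom_formula {q : ℝ} (h0 : 0 < q) (a : Bool) (l : Word) :
    msFrom q a l * q ^ bv a * q ^ 2 =
      (1 / (q * (1 + q))) ^ l.length * q ^ (2 * H (a :: l)) * q ^ bv (l.getLastD a) := by
  have hq : q ≠ 0 := h0.ne'
  have hq1 : (1 + q) ≠ 0 := by positivity
  induction l generalizing a with
  | nil =>
    simp [msFrom, H]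
    ring
  | cons b l ih =>
    simp only [msFrom, List.length_cons, List.getLastD_cons]
    rw [H_cons_cons, pow_succ (1 / (q * (1 + q)))]
    have h2 := ih b
    have e : flipW q a b * q ^ bv a * q ^ (0 : ℕ) = (1 / (q * (1 + q))) * q ^ (2 * pc a b) * q ^ bv b := by
      cases a <;> cases b <;> simp [flipW, bv, pc] <;> field_simp <;> simp
    have e2 : 2 * (pc a b + H (b :: l)) = 2 * pc a b + 2 * H (b :: l) := by ring
    rw [e2, pow_add q (2 * pc a b)]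
    calc flipW q a b * msFrom q b l * q ^ bv a * q ^ 2
        = (flipW q a b * q ^ bv a * q ^ (0 : ℕ)) * (msFrom q b l * q ^ 2) := by ring
      _ = ((1 / (q * (1 + q))) * q ^ (2 * pc a b) * q ^ bv b) * (msFrom q b l * q ^ 2) := by rw [e]
      _ = (1 / (q * (1 + q))) * q ^ (2 * pc a b) * (msFrom q b l * q ^ bv b * q ^ 2) := by ring
      _ = _ := by rw [h2]; ring

theorem piT_le_Ms {q : ℝ} (h0 : 0 < q) (h1 : q < 1) (w : Word) :
    piT q w ≤ (2 / (1 - q ^ 2)) * Ms q w := by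
  have hq2 : 0 < 1 - q ^ 2 := by nlinarith
  cases w with
  | nil =>
    simp only [piT, Ms, List.length_nil, pow_zero, H_nil, mul_zero, mul_one]
    rw [div_le_div_iff₀ hq2 hq2]
    nlinarith
  | cons a l =>
    have hf := msFrom_formula h0 a l
    have hm := msFrom_nonneg h0 a l
    simp only [piT, Ms, List.length_cons]
    have hq : 0 < q * (1 + q) := by positivity
    have key : (1 / (q * (1 + q))) ^ (l.length + 1) * q ^ (2 * H (a :: l)) ≤ msFrom q a l := by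
      have h3 : (1 / (q * (1 + q))) ^ l.length * q ^ (2 * H (a :: l)) =
          msFrom q a l * q ^ bv a * q ^ 2 / q ^ bv (l.getLastD a) := by
        rw [hf]
        field_simp
      rw [pow_succ, mul_right_comm, h3]
      have hb1 : q ^ bv a * q ^ 2 / q ^ bv (l.getLastD a) * (1 / (q * (1 + q))) ≤ 1 := by
        have h4 : q ^ bv a ≤ 1 := pow_le_one₀ h0.le h1.le
        have h5 : bv (l.getLastD a) ≤ 1 := by unfold bv; split_ifs <;> omega
        have h6 : q ≤ q ^ bv (l.getLastD a) := by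
          have : bv (l.getLastD a) = 0 ∨ bv (l.getLastD a) = 1 := by omega
          rcases this with h | h <;> rw [h] <;> simp <;> linarith
        have h7 : 0 < q ^ bv (l.getLastD a) := by positivity
        rw [div_mul_div_comm, mul_one, div_le_one (by positivity)]
        have h8 : q ^ bv a * q ^ 2 ≤ q * q := by
          have : q ^ 2 = q * q := by ring
          rw [this]
          nlinarith [mul_pos h0 h0]
        have h9 : q * q ≤ q ^ bv (l.getLastD a) * (q * (1 + q)) := by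
          nlinarith [mul_pos h0 h0]
        linarith
      calc msFrom q a l * q ^ bv a * q ^ 2 / q ^ bv (l.getLastD a) * (1 / (q * (1 + q)))
          = msFrom q a l * (q ^ bv a * q ^ 2 / q ^ bv (l.getLastD a) * (1 / (q * (1 + q)))) := by ring
        _ ≤ msFrom q a l * 1 := mul_le_mul_of_nonneg_left hb1 hm
        _ = _ := by ring
    calc 1 / (1 - q ^ 2) * (1 / (q * (1 + q))) ^ (l.length + 1) * q ^ (2 * H (a :: l))
        = 1 / (1 - q ^ 2) * ((1 / (q * (1 + q))) ^ (l.length + 1) * q ^ (2 * H (a :: l))) := by ring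
      _ ≤ 1 / (1 - q ^ 2) * msFrom q a l := mul_le_mul_of_nonneg_left key (by positivity)
      _ = _ := by ring

/-- The path of `H` along the suffixes of a word. -/
def hPath (w : Word) (l : ℕ) : ℤ := H (w.drop (w.length - l))

theorem hPath_nonneg (w : Word) (l : ℕ) : 0 ≤ hPath w l := by
  unfold hPath; positivity

theorem hPath_inc (w : Word) (l : ℕ) : hPath w (l + 1) = hPath w l ∨ hPath w (l + 1) = hPath w l + 1 := by
  unfold hPath
  by_cases hl : l < w.length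
  · have e : w.length - l = (w.length - (l + 1)) + 1 := by omega
    rw [e]
    obtain ⟨a, ha⟩ : ∃ a, w.drop (w.length - (l + 1)) = a :: w.drop (w.length - (l + 1) + 1) := by
      have hlt : w.length - (l + 1) < w.length := by omega
      exact ⟨w[w.length - (l + 1)], (List.drop_eq_getElem_cons hlt)⟩
    rw [ha]
    have h1 := H_cons_ge a (w.drop (w.length - (l + 1) + 1))
    have h2 := H_cons_le a (w.drop (w.length - (l + 1) + 1))
    omega
  · have e1 : w.length - (l + 1) = 0 := by omega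
    have e2 : w.length - l = 0 := by omega
    rw [e1, e2]
    left
    rfl

/-- The basic renewal estimate along a path with a block family. -/
theorem visit_path {θ : ℝ} (hθ0 : 0 < θ) (hθ1 : θ < 1) {β : Blk} (hβ : IsBlk θ β) {r₀ : ℕ} {b₀ : ℝ}
    (hb : L1le (β r₀) b₀) (g : ℕ → ℤ) (hg0 : ∀ l, 0 ≤ g l)
    (hinc : ∀ l, g (l + 1) = g l ∨ g (l + 1) = g l + 1) (z : ℤ) (L : ℕ) :
    ∑ l ∈ range L, |β (l + 1 + r₀) (z - g l)| ≤ (2 / θ) * b₀ := by
  have hb0 : 0 ≤ b₀ := by simpa using hb ∅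
  have h1 : ∀ l ∈ range L, |β (l + 1 + r₀) (z - g l)| ≤
      ∑ i ∈ Icc 0 (max z 0), NB θ (l + 1) (i - g l) * |β r₀ (z - i)| := by
    intro l _
    rw [blk_conv_shift hβ (l + 1) r₀ (g l) z 0 (max z 0) (hg0 l) (le_max_left _ _)]
    refine (abs_sum_le_sum_abs _ _).trans (le_of_eq ?_)
    apply sum_congr rfl
    intro i _
    rw [abs_mul, abs_of_nonneg (NB_nonneg hθ0 hθ1 _ _)]
  refine (sum_le_sum h1).trans ?_
  rw [sum_comm]
  calc ∑ i ∈ Icc 0 (max z 0), ∑ l ∈ range L, NB θ (l + 1) (i - g l) * |β r₀ (z - i)|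
      ≤ ∑ i ∈ Icc 0 (max z 0), (2 / θ) * |β r₀ (z - i)| := by
        apply sum_le_sum
        intro i _
        rw [← sum_mul]
        exact mul_le_mul_of_nonneg_right (renewal_bound hθ0 hθ1 g hinc i L) (abs_nonneg _)
    _ = (2 / θ) * ∑ i ∈ Icc 0 (max z 0), |β r₀ (z - i)| := by rw [mul_sum]
    _ ≤ (2 / θ) * b₀ := by
        apply mul_le_mul_of_nonneg_left _ (by positivity)
        have := hb ((Icc 0 (max z 0)).image fun i => z - i)
        rwa [sum_image] at this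
        intro a _ b _ hab
        simpa using hab

/-- Main visit estimate for a block family with an antitone weight. -/
theorem visit_main {q θ : ℝ} (h0 : 0 < q) (h1 : q < 1) (hθ0 : 0 < θ) (hθ1 : θ < 1) {β : Blk}
    (hβ : IsBlk θ β) {r₀ : ℕ} {b₀ : ℝ} (hb : L1le (β r₀) b₀) {c₁ : ℕ} (hc₁ : 1 ≤ c₁) (hc : c₁ ≤ r₀ + 1)
    (Wt : ℕ → ℝ) (hW0 : ∀ r, 0 ≤ Wt r) (hW : ∀ r r', 1 ≤ r → r ≤ r' → Wt r' ≤ Wt r) (z : ℤ) {ε : ℝ}
    (hε : ∀ r, r ≤ r₀ → ∀ y, z - r₀ ≤ y → |β r y| ≤ ε) (B : ℕ) :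
    ∑ w ∈ W B, piT q w * Wt (w.length + c₁) * |β (w.length + c₁) (z - H w)| ≤
      (2 / (1 - q ^ 2)) * (Wt (r₀ + 1) * ((2 / θ) * b₀) + (r₀ + 1) * (Wt 1 * ε)) := by
  have hq2 : 0 < 1 - q ^ 2 := by nlinarith
  have hb0 : 0 ≤ b₀ := by simpa using hb ∅
  have hε0 : 0 ≤ ε := (abs_nonneg _).trans (hε 0 (Nat.zero_le _) z (by omega))
  set g₁ : Word → ℝ := fun w => if r₀ < w.length + c₁ then Wt (r₀ + 1) * |β (w.length + c₁) (z - H w)| else 0
    with hg₁
  set g₂ : Word → ℝ := fun w => if w.length + c₁ ≤ r₀ then Wt 1 * ε else 0 with hg₂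
  have hg₁0 : ∀ w, 0 ≤ g₁ w := by
    intro w
    simp only [hg₁]
    split_ifs
    · exact mul_nonneg (hW0 _) (abs_nonneg _)
    · rfl
  have hg₂0 : ∀ w, 0 ≤ g₂ w := by
    intro w
    simp only [hg₂]
    split_ifs
    · exact mul_nonneg (hW0 _) hε0
    · rfl
  have hterm : ∀ w, Wt (w.length + c₁) * |β (w.length + c₁) (z - H w)| ≤ g₁ w + g₂ w := by
    intro w
    by_cases hw : r₀ < w.length + c₁
    · have e1 : g₁ w = Wt (r₀ + 1) * |β (w.length + c₁) (z - H w)| := by simp [hg₁, hw]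
      have e2 : g₂ w = 0 := by simp [hg₂, not_le.mpr hw]
      rw [e1, e2, add_zero]
      exact mul_le_mul_of_nonneg_right (hW _ _ (by omega) (by omega)) (abs_nonneg _)
    · have e1 : g₁ w = 0 := by simp [hg₁, hw]
      have e2 : g₂ w = Wt 1 * ε := by simp [hg₂, not_lt.mp hw]
      rw [e1, e2, zero_add]
      have hHw := H_le_length w
      apply mul_le_mul (hW _ _ (by omega) (by omega)) _ (abs_nonneg _) (hW0 _)
      apply hε _ (not_lt.mp hw)
      have : (w.length : ℤ) + c₁ ≤ r₀ := by exact_mod_cast not_lt.mp hw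
      have h3 : (H w : ℤ) ≤ w.length := by exact_mod_cast hHw
      have h4 : (1 : ℤ) ≤ c₁ := by exact_mod_cast hc₁
      omega
  have hstep1 : ∑ w ∈ W B, piT q w * g₁ w ≤ (2 / (1 - q ^ 2)) * (Wt (r₀ + 1) * ((2 / θ) * b₀)) := by
    have hle : ∑ w ∈ W B, piT q w * g₁ w ≤ ∑ w ∈ W B, (2 / (1 - q ^ 2)) * (Ms q w * g₁ w) := by
      apply sum_le_sum
      intro w _
      calc piT q w * g₁ w ≤ ((2 / (1 - q ^ 2)) * Ms q w) * g₁ w :=
            mul_le_mul_of_nonneg_right (piT_le_Ms h0 h1 w) (hg₁0 w)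
        _ = _ := by ring
    refine hle.trans ?_
    rw [← mul_sum]
    apply mul_le_mul_of_nonneg_left _ (by positivity)
    rw [sum_W]
    apply sum_Ms_path h0
    intro w hw
    -- along a fixed path
    have hlen : ∀ l ∈ range (B + 1), (w.drop (B - l)).length = l := by
      intro l hl
      have : l < B + 1 := mem_range.mp hl
      rw [List.length_drop, hw]
      omega
    have e : ∑ l ∈ range (B + 1), g₁ (w.drop (B - l)) =
        Wt (r₀ + 1) * ∑ l ∈ (range (B + 1)).filter (fun l => r₀ < l + c₁),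
          |β (l + c₁) (z - hPath w l)| := by
      rw [sum_filter, mul_sum]
      apply sum_congr rfl
      intro l hl
      have hl' := hlen l hl
      simp only [hg₁, hl', hPath, hw]
      split_ifs
      · push_cast; rfl
      · simp
    rw [e]
    apply mul_le_mul_of_nonneg_left _ (hW0 _)
    -- reindex
    set l₀ := r₀ + 1 - c₁ with hl₀
    have hsum : ∑ l ∈ (range (B + 1)).filter (fun l => r₀ < l + c₁), |β (l + c₁) (z - hPath w l)| ≤
        ∑ l' ∈ range (B + 1), |β (l' + 1 + r₀) (z - hPath w (l' + l₀))| := by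
      have hinj : ∑ l ∈ (range (B + 1)).filter (fun l => r₀ < l + c₁), |β (l + c₁) (z - hPath w l)| =
          ∑ l' ∈ ((range (B + 1)).filter (fun l => r₀ < l + c₁)).image (fun l => l - l₀),
            |β (l' + 1 + r₀) (z - hPath w (l' + l₀))| := by
        rw [sum_image]
        · apply sum_congr rfl
          intro l hl
          have hl2 := (mem_filter.mp hl).2
          have e1 : l - l₀ + 1 + r₀ = l + c₁ := by omega
          have e2 : l - l₀ + l₀ = l := by omega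
          rw [e1, e2]
        · intro a ha b hb' hab
          have h3 := (mem_filter.mp ha).2
          have h4 := (mem_filter.mp hb').2
          simp only at hab
          omega
      rw [hinj]
      apply sum_le_sum_of_subset_of_nonneg
      · intro l' hl'
        simp only [mem_image, mem_filter, mem_range] at hl' ⊢
        obtain ⟨l, hl, rfl⟩ := hl'
        omega
      · intros
        exact abs_nonneg _
    refine hsum.trans ?_
    apply visit_path hθ0 hθ1 hβ hb (fun l' => hPath w (l' + l₀)) (fun l => hPath_nonneg w _)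
    intro l
    have := hPath_inc w (l + l₀)
    have e3 : l + 1 + l₀ = l + l₀ + 1 := by ring
    simp only [e3]
    exact this
  have hstep2 : ∑ w ∈ W B, piT q w * g₂ w ≤ (2 / (1 - q ^ 2)) * ((r₀ + 1) * (Wt 1 * ε)) := by
    have hle : ∑ w ∈ W B, piT q w * g₂ w ≤ ∑ w ∈ W B, (2 / (1 - q ^ 2)) * (Ms q w * g₂ w) := by
      apply sum_le_sum
      intro w _
      calc piT q w * g₂ w ≤ ((2 / (1 - q ^ 2)) * Ms q w) * g₂ w :=
            mul_le_mul_of_nonneg_right (piT_le_Ms h0 h1 w) (hg₂0 w)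
        _ = _ := by ring
    refine hle.trans ?_
    rw [← mul_sum]
    apply mul_le_mul_of_nonneg_left _ (by positivity)
    rw [sum_W]
    have hWε : 0 ≤ Wt 1 * ε := mul_nonneg (hW0 _) hε0
    have h5 : ∀ l, ∑ w ∈ Weq l, Ms q w * g₂ w ≤ if l < r₀ then Wt 1 * ε else 0 := by
      intro l
      by_cases hl : l < r₀
      · rw [if_pos hl]
        calc ∑ w ∈ Weq l, Ms q w * g₂ w ≤ ∑ w ∈ Weq l, Ms q w * (Wt 1 * ε) := by
              apply sum_le_sum
              intro w _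
              apply mul_le_mul_of_nonneg_left _ (Ms_nonneg h0 w)
              simp only [hg₂]
              split_ifs
              · exact le_refl _
              · exact hWε
          _ = Wt 1 * ε := by rw [← sum_mul, sum_Ms_Weq h0, one_mul]
      · rw [if_neg hl]
        apply le_of_eq
        apply sum_eq_zero
        intro w hw
        have : w.length = l := mem_Weq.mp hw
        simp only [hg₂]
        rw [if_neg (by omega)]
        ring
    calc ∑ l ∈ range (B + 1), ∑ w ∈ Weq l, Ms q w * g₂ w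
        ≤ ∑ l ∈ range (B + 1), (if l < r₀ then Wt 1 * ε else 0) := sum_le_sum fun l _ => h5 l
      _ ≤ ∑ l ∈ range r₀, Wt 1 * ε := by
          rw [← sum_filter]
          apply sum_le_sum_of_subset_of_nonneg
          · intro l hl
            simp only [mem_filter, mem_range] at hl ⊢
            exact hl.2
          · intros
            exact hWε
      _ = (r₀ : ℝ) * (Wt 1 * ε) := by simp
      _ ≤ _ := by
          apply mul_le_mul_of_nonneg_right _ hWε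
          linarith
  calc ∑ w ∈ W B, piT q w * Wt (w.length + c₁) * |β (w.length + c₁) (z - H w)|
      ≤ ∑ w ∈ W B, (piT q w * g₁ w + piT q w * g₂ w) := by
        apply sum_le_sum
        intro w _
        rw [mul_assoc, ← mul_add]
        exact mul_le_mul_of_nonneg_left (hterm w) (piT_pos h0 h1 w).le
    _ = ∑ w ∈ W B, piT q w * g₁ w + ∑ w ∈ W B, piT q w * g₂ w := sum_add_distrib
    _ ≤ _ := by
        rw [mul_add]
        exact add_le_add hstep1 hstep2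

theorem isBlk_ker (θ : ℝ) (as : List ℕ) : IsBlk θ (ker θ as) :=
  ⟨fun r _ hz => ker_of_neg as r hz, fun a b y => ker_conv as a b y⟩

theorem ker_nil (θ : ℝ) (r : ℕ) (z : ℤ) : ker θ [] r z = NB θ r z := rfl
theorem ker_cons (θ : ℝ) (a : ℕ) (as : List ℕ) (r : ℕ) (z : ℤ) :
    ker θ (a :: as) r z = ker θ as r z - ker θ as r (z - a) := rfl

/-- Crude visit bound for `NB`. -/
theorem visit_NB_crude {q θ : ℝ} (h0 : 0 < q) (h1 : q < 1) (hθ0 : 0 < θ) (hθ1 : θ < 1) {c₁ : ℕ}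
    (hc₁ : 1 ≤ c₁) (hc₁3 : c₁ ≤ 3) (y : ℤ) (B : ℕ) :
    ∑ w ∈ W B, piT q w * |NB θ (w.length + c₁) (y - H w)| ≤
      (2 / (1 - q ^ 2)) * ((2 / θ) + 3) := by
  have hβ : IsBlk θ (NB θ) := ⟨fun _ _ hz => NB_of_neg hz, fun a b y => NB_conv θ a b y⟩
  have hb : L1le (NB θ (c₁ - 1)) 1 := by
    intro S
    have : ∑ z ∈ S, |NB θ (c₁ - 1) z| = ∑ z ∈ S, NB θ (c₁ - 1) z :=
      sum_congr rfl fun z _ => abs_of_nonneg (NB_nonneg hθ0 hθ1 _ _)
    rw [this]
    exact NB_sum_le hθ0 hθ1 _ S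
  have hm := visit_main h0 h1 hθ0 hθ1 hβ hb hc₁ (by omega) (fun _ => 1) (fun _ => zero_le_one)
    (fun _ _ _ _ => le_refl _) y (ε := 1)
    (fun r _ y' _ => by
      rw [abs_of_nonneg (NB_nonneg hθ0 hθ1 _ _)]
      exact NB_le_one hθ0 hθ1 _ _) B
  simp only [mul_one, one_mul] at hm
  refine hm.trans ?_
  have hq2 : 0 < 1 - q ^ 2 := by nlinarith
  apply mul_le_mul_of_nonneg_left _ (by positivity)
  have : ((c₁ - 1 : ℕ) : ℝ) + 1 ≤ 3 := by
    have : c₁ - 1 ≤ 2 := by omega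
    have h2 : ((c₁ - 1 : ℕ) : ℝ) ≤ 2 := by exact_mod_cast this
    linarith
  linarith

/-- Crude visit bound for kernels. -/
theorem visit_ker_crude {q θ : ℝ} (h0 : 0 < q) (h1 : q < 1) (hθ0 : 0 < θ) (hθ1 : θ < 1) (as : List ℕ)
    {c₁ : ℕ} (hc₁ : 1 ≤ c₁) (hc₁3 : c₁ ≤ 3) (y : ℤ) (B : ℕ) :
    ∑ w ∈ W B, piT q w * |ker θ as (w.length + c₁) (y - H w)| ≤
      2 ^ as.length * ((2 / (1 - q ^ 2)) * ((2 / θ) + 3)) := by
  induction as generalizing y with
  | nil => simpa [ker_nil] using visit_NB_crude h0 h1 hθ0 hθ1 hc₁ hc₁3 y B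
  | cons a as ih =>
    have h2 := ih y
    have h3 := ih (y - a)
    have hle : ∑ w ∈ W B, piT q w * |ker θ (a :: as) (w.length + c₁) (y - H w)| ≤
        ∑ w ∈ W B, piT q w * |ker θ as (w.length + c₁) (y - H w)| +
        ∑ w ∈ W B, piT q w * |ker θ as (w.length + c₁) (y - a - H w)| := by
      rw [← sum_add_distrib]
      apply sum_le_sum
      intro w _
      rw [← mul_add, ker_cons]
      apply mul_le_mul_of_nonneg_left _ (piT_pos h0 h1 w).le
      have e : y - (H w : ℤ) - a = y - a - H w := by ring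
      rw [e]
      exact abs_sub _ _
    refine hle.trans ?_
    simp only [List.length_cons]
    rw [pow_succ (2 : ℝ) as.length]
    linarith

/-- A polynomial times a geometric sequence is bounded. -/
theorem poly_geom_bound (K : ℕ) : ∃ C : ℝ, 0 < C ∧ ∀ u : ℕ,
    ((u : ℝ) + 2) * ((u : ℝ) + 1) ^ K * (1 / 8 : ℝ) ^ u ≤ C := by
  have h := tendsto_pow_const_mul_const_pow_of_abs_lt_one (K + 1) (r := (1 / 2 : ℝ)) (by norm_num [abs_of_pos])
  obtain ⟨C, hC⟩ := h.bddAbove_range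
  refine ⟨max C 1 * 4 ^ (K + 1) + 1, by positivity, fun u => ?_⟩
  have h1 := hC (Set.mem_range_self (u + 2))
  have h2 : ((u : ℝ) + 2) * ((u : ℝ) + 1) ^ K ≤ ((u : ℝ) + 2) ^ (K + 1) := by
    rw [pow_succ']
    apply mul_le_mul_of_nonneg_left _ (by positivity)
    exact pow_le_pow_left₀ (by positivity) (by linarith) _
  have h3 : (1 / 8 : ℝ) ^ u ≤ (1 / 2 : ℝ) ^ (u + 2) * 4 := by
    have : (1 / 2 : ℝ) ^ (u + 2) * 4 = (1 / 2 : ℝ) ^ u := by ring
    rw [this]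
    exact pow_le_pow_left₀ (by norm_num) (by norm_num) _
  have h4 : ((u + 2 : ℕ) : ℝ) ^ (K + 1) * (1 / 2 : ℝ) ^ (u + 2) ≤ max C 1 := (h1).trans (le_max_left _ _)
  push_cast at h4
  calc ((u : ℝ) + 2) * ((u : ℝ) + 1) ^ K * (1 / 8 : ℝ) ^ u
      ≤ ((u : ℝ) + 2) ^ (K + 1) * ((1 / 2 : ℝ) ^ (u + 2) * 4) := by
        apply mul_le_mul h2 h3 (by positivity) (by positivity)
    _ = (((u : ℝ) + 2) ^ (K + 1) * (1 / 2 : ℝ) ^ (u + 2)) * 4 := by ring
    _ ≤ max C 1 * 4 := by linarith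
    _ ≤ max C 1 * 4 ^ (K + 1) := by
        apply mul_le_mul_of_nonneg_left _ (by positivity)
        calc (4 : ℝ) = 4 ^ 1 := by norm_num
          _ ≤ 4 ^ (K + 1) := pow_le_pow_right₀ (by norm_num) (by omega)
    _ ≤ _ := by linarith

/-- Smallness of short blocks. -/
theorem mvl_eps {θ ρ : ℝ} (hθ0 : 0 < θ) (hθ1 : θ < 1) (hρ0 : 0 < ρ) (hρ1 : ρ < 1)
    (hρθ : 2 * θ / (1 + θ) ≤ ρ) (as : List ℕ) {M : ℕ} (hM' : 1 ≤ M) (hM : ρ ^ M ≤ 1 / 4) {n u : ℕ}
    (hu1 : 4 * M * u ≤ n) (hn : 64 ≤ n) (hu3 : u * 4 ≤ n) {L c₂ : ℤ} (hnL : (n : ℤ) = L + 1) (hc₂ : 0 ≤ c₂)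
    (hc₂2 : c₂ ≤ 2) (hS : (as.sum : ℤ) * 4 ≤ L + 1) (r : ℕ) (hr : r ≤ u + 1) (y : ℤ)
    (hy : (L - c₂) - ((u + 1 : ℕ) : ℤ) ≤ y) :
    |ker θ as r y| ≤ 2 ^ as.length * 2 * (1 / ρ ^ 4) * (1 / 8 : ℝ) ^ u := by
  have hsum : (as.sum : ℤ) * 4 ≤ n := by omega
  push_cast at hy
  have hu5 : (u : ℤ) * 4 ≤ n := by exact_mod_cast hu3
  have hy0 : (as.sum : ℤ) ≤ y := by omega
  obtain ⟨k, hk⟩ : ∃ k : ℕ, (k : ℤ) = y := ⟨y.toNat, by omega⟩
  have hk2 : as.sum ≤ k := by omega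
  rw [← hk]
  have hb1 := ker_exp_bound hθ0 hθ1 as r k hk2
  refine hb1.trans ?_
  have hρθ0 : 0 ≤ 2 * θ / (1 + θ) := by positivity
  set m := k - as.sum with hm
  have hm0 : (m : ℤ) = k - as.sum := by omega
  have h7 : n / 2 ≤ m + 4 := by omega
  have hm2 : 2 * M * u ≤ m + 4 := by
    have h8 : 2 * M * u ≤ n / 2 := by
      apply (Nat.le_div_iff_mul_le (by norm_num)).mpr
      nlinarith
    omega
  have h2r : (2 : ℝ) ^ r ≤ 2 ^ (u + 1) := pow_le_pow_right₀ (by norm_num) hr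
  have hpow : (2 * θ / (1 + θ)) ^ m ≤ (1 / ρ ^ 4) * (1 / 16 : ℝ) ^ u := by
    calc (2 * θ / (1 + θ)) ^ m ≤ ρ ^ m := pow_le_pow_left₀ hρθ0 hρθ _
      _ = (1 / ρ ^ 4) * ρ ^ (m + 4) := by
          rw [pow_add]
          field_simp
      _ ≤ (1 / ρ ^ 4) * ρ ^ (2 * M * u) := by
          apply mul_le_mul_of_nonneg_left _ (by positivity)
          exact pow_le_pow_of_le_one hρ0.le hρ1.le hm2
      _ = (1 / ρ ^ 4) * ((ρ ^ M) ^ 2) ^ u := by
          congr 1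
          rw [← pow_mul, ← pow_mul]
          congr 1
          ring
      _ ≤ (1 / ρ ^ 4) * (1 / 16 : ℝ) ^ u := by
          apply mul_le_mul_of_nonneg_left _ (by positivity)
          apply pow_le_pow_left₀ (by positivity)
          have : (ρ ^ M) ^ 2 ≤ (1 / 4 : ℝ) ^ 2 := pow_le_pow_left₀ (by positivity) hM 2
          calc (ρ ^ M) ^ 2 ≤ (1 / 4 : ℝ) ^ 2 := this
            _ = 1 / 16 := by norm_num
  calc (2 : ℝ) ^ as.length * 2 ^ r * (2 * θ / (1 + θ)) ^ m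
      ≤ 2 ^ as.length * 2 ^ (u + 1) * ((1 / ρ ^ 4) * (1 / 16 : ℝ) ^ u) := by
        apply mul_le_mul _ hpow (by positivity) (by positivity)
        exact mul_le_mul_of_nonneg_left h2r (by positivity)
    _ = 2 ^ as.length * 2 * (1 / ρ ^ 4) * ((2 : ℝ) ^ u * (1 / 16 : ℝ) ^ u) := by
        rw [pow_succ (2 : ℝ) u]
        ring
    _ = 2 ^ as.length * 2 * (1 / ρ ^ 4) * (1 / 8 : ℝ) ^ u := by
        rw [← mul_pow]
        norm_num

/-- The geometric term against a power of `1/√n`. -/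
theorem mvl_geo {K M u n : ℕ} {Cg : ℝ} (hgeo : ((u : ℝ) + 2) * ((u : ℝ) + 1) ^ K * (1 / 8 : ℝ) ^ u ≤ Cg)
    (hM' : 1 ≤ M) (hn1 : 1 ≤ n) (hu2 : n ≤ 4 * M * (u + 1)) :
    ((u : ℝ) + 2) * (1 / 8 : ℝ) ^ u ≤ (4 * M : ℝ) ^ K * Cg * (1 / √(n : ℝ)) ^ K := by
  have hn1R : (1 : ℝ) ≤ n := by exact_mod_cast hn1
  have hsq : 0 < √(n : ℝ) := Real.sqrt_pos.mpr (by linarith)
  have hMR : (1 : ℝ) ≤ (M : ℝ) := by exact_mod_cast hM'
  have h9 : (0 : ℝ) ≤ u := by positivity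
  have h7 : (n : ℝ) ≤ 4 * M * ((u : ℝ) + 1) := by exact_mod_cast hu2
  have h8 : (1 : ℝ) ≤ 4 * M * ((u : ℝ) + 1) := by nlinarith
  have h6 : √(n : ℝ) ^ K ≤ (4 * M * ((u : ℝ) + 1)) ^ K := by
    apply pow_le_pow_left₀ hsq.le
    calc √(n : ℝ) ≤ √(4 * M * ((u : ℝ) + 1)) := Real.sqrt_le_sqrt h7
      _ ≤ 4 * M * ((u : ℝ) + 1) := by
          rw [Real.sqrt_le_left (by positivity)]
          nlinarith
  have hp : (1 / √(n : ℝ)) ^ K * √(n : ℝ) ^ K = 1 := by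
    rw [← mul_pow]
    have : 1 / √(n : ℝ) * √(n : ℝ) = 1 := by field_simp
    rw [this, one_pow]
  have h10 : (0 : ℝ) < (1 / √(n : ℝ)) ^ K := by positivity
  have h12 : ((u : ℝ) + 2) * (1 / 8 : ℝ) ^ u * √(n : ℝ) ^ K ≤ (4 * M : ℝ) ^ K * Cg := by
    calc ((u : ℝ) + 2) * (1 / 8 : ℝ) ^ u * √(n : ℝ) ^ K
        ≤ ((u : ℝ) + 2) * (1 / 8 : ℝ) ^ u * (4 * M * ((u : ℝ) + 1)) ^ K :=
          mul_le_mul_of_nonneg_left h6 (by positivity)
      _ = (4 * M : ℝ) ^ K * (((u : ℝ) + 2) * ((u : ℝ) + 1) ^ K * (1 / 8 : ℝ) ^ u) := by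
          rw [mul_pow]
          ring
      _ ≤ _ := mul_le_mul_of_nonneg_left hgeo (by positivity)
  calc ((u : ℝ) + 2) * (1 / 8 : ℝ) ^ u
      = ((u : ℝ) + 2) * (1 / 8 : ℝ) ^ u * ((1 / √(n : ℝ)) ^ K * √(n : ℝ) ^ K) := by
        rw [hp, mul_one]
    _ = (((u : ℝ) + 2) * (1 / 8 : ℝ) ^ u * √(n : ℝ) ^ K) * (1 / √(n : ℝ)) ^ K := by ring
    _ ≤ _ := mul_le_mul_of_nonneg_right h12 h10.le

/-- Arithmetic of the monomial visit lemma in the main case. -/
theorem mvl_arith {D P Wa Ba sn Wb Bb th th0 G1 G2 : ℝ} {t e : ℕ} (hD : 0 ≤ D) (hP : 1 ≤ P) (hsn : 0 ≤ sn)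
    (hWa0 : 0 ≤ Wa) (hWa : Wa ≤ Wb * sn ^ e) (hBa0 : 0 ≤ Ba) (hBa : Ba ≤ Bb * sn ^ t) (hWb : 0 ≤ Wb)
    (hBb : 0 ≤ Bb) (hth0 : 0 ≤ th) (hth : th ≤ th0) (hG1 : 0 ≤ G1) (hG : G1 ≤ G2 * sn ^ (t + e)) :
    D * (Wa * (th * (P * Ba)) + G1) ≤ (D * (Wb * (th0 * Bb) + G2)) * P * sn ^ (t + e) := by
  have h1 : Wa * (th * (P * Ba)) ≤ (Wb * sn ^ e) * (th0 * (P * (Bb * sn ^ t))) := by
    apply mul_le_mul hWa _ (by positivity) (by positivity)
    apply mul_le_mul hth _ (by positivity) (by linarith)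
    exact mul_le_mul_of_nonneg_left hBa (by linarith)
  have h2 : G1 ≤ P * (G2 * sn ^ (t + e)) := by
    have : 0 ≤ G2 * sn ^ (t + e) := hG1.trans hG
    nlinarith
  have h3 := add_le_add h1 h2
  calc D * (Wa * (th * (P * Ba)) + G1)
      ≤ D * ((Wb * sn ^ e) * (th0 * (P * (Bb * sn ^ t))) + P * (G2 * sn ^ (t + e))) :=
        mul_le_mul_of_nonneg_left h3 hD
    _ = _ := by
        rw [pow_add sn t e]
        ring

/-- The monomial visit lemma for short distances. -/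
theorem mvl_small {q θ θ₀ C₀ : ℝ} {n n₀ t e c₁ : ℕ} (h0 : 0 < q) (h1 : q < 1) (hθ₀ : 0 < θ₀) (hθ0 : 0 < θ)
    (hθ1 : θ < 1) (hθ₀θ : θ₀ ≤ θ) (as : List ℕ) (hlen : as.length = t) (hc₁ : 1 ≤ c₁) (hc₁3 : c₁ ≤ 3)
    (B : ℕ) (c₂ L : ℤ) (hsq : 0 < √(n : ℝ)) (hn0 : (n : ℝ) ≤ n₀)
    (hC₀ : C₀ = (2 / (1 - q ^ 2)) * ((2 / θ₀) + 3)) (hC₀0 : 0 < C₀) (hP : (1 : ℝ) ≤ (as.prod : ℝ)) :
    ∑ w ∈ W B, piT q w * (1 / √((w.length : ℝ) + c₁)) ^ e *
          |ker θ as (w.length + c₁) (L - H w - c₂)| ≤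
      (2 ^ t * C₀ * (√(n₀ : ℝ)) ^ (t + e)) * (as.prod : ℝ) * (1 / √(n : ℝ)) ^ (t + e) := by
  have hq2 : 0 < 1 - q ^ 2 := by nlinarith
  have hcr := visit_ker_crude h0 h1 hθ0 hθ1 as hc₁ hc₁3 (L - c₂) B
  rw [hlen] at hcr
  have hW1 : ∀ w : Word, (1 / √((w.length : ℝ) + c₁)) ^ e ≤ 1 := by
    intro w
    apply pow_le_one₀ (by positivity)
    have h3 : (1 : ℝ) ≤ (w.length : ℝ) + c₁ := by
      have : (1 : ℝ) ≤ c₁ := by exact_mod_cast hc₁
      have h4 : (0 : ℝ) ≤ w.length := by positivity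
      linarith
    rw [div_le_one (Real.sqrt_pos.mpr (by linarith))]
    exact Real.one_le_sqrt.mpr h3
  have hs1 : ∑ w ∈ W B, piT q w * (1 / √((w.length : ℝ) + c₁)) ^ e *
        |ker θ as (w.length + c₁) (L - H w - c₂)| ≤
      ∑ w ∈ W B, piT q w * |ker θ as (w.length + c₁) (L - c₂ - H w)| := by
    apply sum_le_sum
    intro w _
    have e2 : L - (H w : ℤ) - c₂ = L - c₂ - H w := by ring
    rw [e2]
    have hp := piT_pos h0 h1 w
    calc piT q w * (1 / √((w.length : ℝ) + c₁)) ^ e * |ker θ as (w.length + c₁) (L - c₂ - H w)|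
        ≤ piT q w * 1 * |ker θ as (w.length + c₁) (L - c₂ - H w)| := by
          apply mul_le_mul_of_nonneg_right _ (abs_nonneg _)
          exact mul_le_mul_of_nonneg_left (hW1 w) hp.le
      _ = _ := by ring
  refine hs1.trans (hcr.trans ?_)
  have h3 : (1 : ℝ) ≤ (√(n₀ : ℝ)) ^ (t + e) * (1 / √(n : ℝ)) ^ (t + e) := by
    rw [← mul_pow]
    apply one_le_pow₀
    rw [mul_one_div, le_div_iff₀ hsq, one_mul]
    exact Real.sqrt_le_sqrt hn0
  have hθinv : (2 / (1 - q ^ 2)) * ((2 / θ) + 3) ≤ C₀ := by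
    rw [hC₀]
    apply mul_le_mul_of_nonneg_left _ (by positivity)
    have := div_le_div_of_nonneg_left (by norm_num : (0 : ℝ) ≤ 2) hθ₀ hθ₀θ
    linarith
  have h4 : (0 : ℝ) ≤ (1 / √(n : ℝ)) ^ (t + e) := by positivity
  have h5 : 0 ≤ 2 ^ t * C₀ := by positivity
  calc (2 : ℝ) ^ t * ((2 / (1 - q ^ 2)) * ((2 / θ) + 3))
      ≤ 2 ^ t * C₀ := mul_le_mul_of_nonneg_left hθinv (by positivity)
    _ = 2 ^ t * C₀ * 1 := by ring
    _ ≤ 2 ^ t * C₀ * ((√(n₀ : ℝ)) ^ (t + e) * (1 / √(n : ℝ)) ^ (t + e)) :=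
        mul_le_mul_of_nonneg_left h3 h5
    _ = (2 ^ t * C₀ * (√(n₀ : ℝ)) ^ (t + e)) * (1 / √(n : ℝ)) ^ (t + e) := by ring
    _ ≤ _ := by
        apply mul_le_mul_of_nonneg_right _ h4
        have : 0 ≤ 2 ^ t * C₀ * (√(n₀ : ℝ)) ^ (t + e) := by positivity
        nlinarith

/-- The monomial visit lemma. -/
theorem MVL {q θ₀ θ₁ : ℝ} (h0 : 0 < q) (h1 : q < 1) (hθ₀ : 0 < θ₀) (hθ₁ : θ₁ < 1) (t e : ℕ) :
    ∃ C : ℝ, 0 < C ∧ ∀ θ ∈ Set.Icc θ₀ θ₁, ∀ as : List ℕ, as.length = t → (∀ a ∈ as, 1 ≤ a) →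
      ∀ (B c₁ : ℕ) (c₂ L : ℤ), 1 ≤ c₁ → c₁ ≤ 3 → 0 ≤ c₂ → c₂ ≤ 2 → 0 ≤ L →
      ((as.sum : ℤ) * 4 ≤ L + 1 ∨ L + 1 ≤ 8) →
      ∑ w ∈ W B, piT q w * (1 / √((w.length : ℝ) + c₁)) ^ e *
          |ker θ as (w.length + c₁) (L - H w - c₂)| ≤
        C * (as.prod : ℝ) * (1 / √((L : ℝ) + 1)) ^ (t + e) := by
  obtain ⟨CL, hCL, hker⟩ := ker_L1 (θ₀ := θ₀) (θ₁ := θ₁) hθ₀ hθ₁ t
  have hq2 : 0 < 1 - q ^ 2 := by nlinarith
  by_cases hrange : θ₀ ≤ θ₁
  swap
  · refine ⟨1, one_pos, fun θ hθ => absurd (hθ.1.trans hθ.2) hrange⟩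
  have hθ₁0 : 0 < θ₁ := lt_of_lt_of_le hθ₀ hrange
  obtain ⟨ρ, hρ⟩ : ∃ ρ : ℝ, ρ = 2 * θ₁ / (1 + θ₁) := ⟨_, rfl⟩
  have hρ0 : 0 < ρ := by rw [hρ]; positivity
  have hρ1 : ρ < 1 := by
    rw [hρ, div_lt_one (by positivity)]
    linarith
  obtain ⟨M, hM⟩ : ∃ M : ℕ, ρ ^ M ≤ 1 / 4 := by
    obtain ⟨M, hM⟩ := exists_pow_lt_of_lt_one (by norm_num : (0 : ℝ) < 1 / 4) hρ1
    exact ⟨M, hM.le⟩
  have hM' : 1 ≤ M := by
    by_contra h
    have : M = 0 := by omega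
    rw [this] at hM
    norm_num at hM
  obtain ⟨Cg, hCg, hgeo⟩ := poly_geom_bound (t + e)
  obtain ⟨n₀, hn₀⟩ : ∃ n₀ : ℕ, n₀ = 4 * M * 4 + 64 := ⟨_, rfl⟩
  obtain ⟨C₀, hC₀⟩ : ∃ C₀ : ℝ, C₀ = (2 / (1 - q ^ 2)) * ((2 / θ₀) + 3) := ⟨_, rfl⟩
  have hC₀0 : 0 < C₀ := by rw [hC₀]; positivity
  obtain ⟨Cmain, hCmain⟩ : ∃ Cmain : ℝ, Cmain = (2 / (1 - q ^ 2)) * ((√(4 * M : ℝ)) ^ e * ((2 / θ₀) * (CL * √(4 * M : ℝ)) ^ t) +
      2 ^ t * 2 * (1 / ρ ^ 4) * ((4 * M : ℝ) ^ (t + e) * Cg)) := ⟨_, rfl⟩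
  have hCmain0 : 0 < Cmain := by rw [hCmain]; positivity
  obtain ⟨Csmall, hCsmall⟩ : ∃ Csmall : ℝ, Csmall = 2 ^ t * C₀ * (√(n₀ : ℝ)) ^ (t + e) := ⟨_, rfl⟩
  have hCsmall0 : 0 < Csmall := by
    have : (0 : ℝ) < n₀ := by
      have : 0 < n₀ := by omega
      exact_mod_cast this
    rw [hCsmall]
    positivity
  refine ⟨Cmain + Csmall, by positivity, ?_⟩
  intro θ hθ as hlen has B c₁ c₂ L hc₁ hc₁3 hc₂ hc₂2 hL hS
  have hθ0 : 0 < θ := lt_of_lt_of_le hθ₀ hθ.1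
  have hθ1 : θ < 1 := lt_of_le_of_lt hθ.2 hθ₁
  have hP : (1 : ℝ) ≤ (as.prod : ℝ) := by
    have : 1 ≤ as.prod := List.one_le_prod_of_one_le has
    exact_mod_cast this
  obtain ⟨n, hn⟩ : ∃ n : ℕ, (n : ℤ) = L + 1 := ⟨(L + 1).toNat, by omega⟩
  have hnR : (n : ℝ) = (L : ℝ) + 1 := by
    have : ((n : ℤ) : ℝ) = ((L + 1 : ℤ) : ℝ) := by rw [hn]
    push_cast at this
    exact this
  have hn1 : 1 ≤ n := by omega
  have hn1R : (1 : ℝ) ≤ n := by exact_mod_cast hn1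
  rw [← hnR]
  have hsq : 0 < √(n : ℝ) := Real.sqrt_pos.mpr (by linarith)
  by_cases hbig : n₀ ≤ n
  · -- main case
    have hS' : (as.sum : ℤ) * 4 ≤ L + 1 := by
      rcases hS with h | h
      · exact h
      · exfalso
        have : 64 ≤ n := by omega
        omega
    obtain ⟨u, hu⟩ : ∃ u : ℕ, u = n / (4 * M) := ⟨_, rfl⟩
    have hu1 : 4 * M * u ≤ n := by rw [hu]; exact Nat.mul_div_le n (4 * M)
    have hu2 : n < 4 * M * (u + 1) := by
      have := Nat.lt_mul_div_succ n (by omega : 0 < 4 * M)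
      simpa [hu] using this
    have hu3 : u * 4 ≤ n := by nlinarith
    have hu4 : 4 ≤ u := by
      have : 4 * M * 4 ≤ n := by omega
      rw [hu]
      exact (Nat.le_div_iff_mul_le (by omega)).mpr (by linarith)
    have hr₀n : (n : ℝ) ≤ 4 * M * ((u + 1 : ℕ) : ℝ) := by exact_mod_cast hu2.le
    have hMpos : (0 : ℝ) < M := by exact_mod_cast hM'
    have hr₀0 : (0 : ℝ) < ((u + 1 : ℕ) : ℝ) := by positivity
    -- comparison of square roots
    have hsqrt : ∀ r : ℝ, ((u + 1 : ℕ) : ℝ) ≤ r → 1 / √r ≤ √(4 * M : ℝ) * (1 / √(n : ℝ)) := by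
      intro r hr
      have hrpos : 0 < r := by linarith
      have h3 : √(n : ℝ) ≤ √(4 * M : ℝ) * √r := by
        rw [← Real.sqrt_mul (by positivity)]
        apply Real.sqrt_le_sqrt
        have : (4 * M : ℝ) * ((u + 1 : ℕ) : ℝ) ≤ (4 * M : ℝ) * r := mul_le_mul_of_nonneg_left hr (by positivity)
        linarith
      have h4 : 0 < √r := Real.sqrt_pos.mpr hrpos
      rw [mul_one_div, div_le_div_iff₀ h4 hsq]
      linarith
    have hb : L1le (ker θ as (u + 1)) ((as.prod : ℝ) * (CL / √((u + 1 : ℕ) : ℝ)) ^ t) :=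
      hker θ hθ as hlen has (u + 1) (by omega)
    have hρθ : 2 * θ / (1 + θ) ≤ ρ := by
      rw [hρ, div_le_div_iff₀ (by positivity) (by positivity)]
      nlinarith [hθ.2]
    have hεb : ∀ r, r ≤ u + 1 → ∀ y, (L - c₂) - ((u + 1 : ℕ) : ℤ) ≤ y →
        |ker θ as r y| ≤ 2 ^ t * 2 * (1 / ρ ^ 4) * (1 / 8 : ℝ) ^ u := by
      intro r hr y hy
      have := mvl_eps hθ0 hθ1 hρ0 hρ1 hρθ as hM' hM hu1 (by omega) hu3 hn hc₂ hc₂2 hS' r hr y hy
      rwa [hlen] at this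
    have hWt0 : ∀ r : ℕ, 0 ≤ (1 / √((r : ℝ))) ^ e := fun r => by positivity
    have hWt : ∀ r r' : ℕ, 1 ≤ r → r ≤ r' → (1 / √((r' : ℝ))) ^ e ≤ (1 / √((r : ℝ))) ^ e := by
      intro r r' hr hrr
      apply pow_le_pow_left₀ (by positivity)
      have h1r : (0 : ℝ) < r := by exact_mod_cast hr
      apply one_div_le_one_div_of_le (Real.sqrt_pos.mpr h1r)
      apply Real.sqrt_le_sqrt
      exact_mod_cast hrr
    have hv := visit_main h0 h1 hθ0 hθ1 (isBlk_ker θ as) hb hc₁ (by omega)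
      (fun r => (1 / √((r : ℝ))) ^ e) hWt0 hWt (L - c₂) hεb B
    have e1 : ∑ w ∈ W B, piT q w * (1 / √((w.length : ℝ) + c₁)) ^ e *
          |ker θ as (w.length + c₁) (L - H w - c₂)| =
        ∑ w ∈ W B, piT q w * (1 / √(((w.length + c₁ : ℕ) : ℝ))) ^ e *
          |ker θ as (w.length + c₁) ((L - c₂) - H w)| := by
      apply sum_congr rfl
      intro w _
      have e2 : L - (H w : ℤ) - c₂ = L - c₂ - H w := by ring
      push_cast
      rw [e2]
    rw [e1]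
    refine hv.trans ?_
    -- final arithmetic
    have hW1 : (1 / √(((u + 1 + 1 : ℕ) : ℝ))) ^ e ≤ (√(4 * M : ℝ)) ^ e * (1 / √(n : ℝ)) ^ e := by
      rw [← mul_pow]
      apply pow_le_pow_left₀ (by positivity)
      apply hsqrt
      push_cast
      linarith
    have hb2 : (CL / √((u + 1 : ℕ) : ℝ)) ^ t ≤ (CL * √(4 * M : ℝ)) ^ t * (1 / √(n : ℝ)) ^ t := by
      rw [← mul_pow]
      apply pow_le_pow_left₀ (by positivity)
      have := hsqrt (((u + 1 : ℕ) : ℝ)) (le_refl _)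
      calc CL / √((u + 1 : ℕ) : ℝ) = CL * (1 / √((u + 1 : ℕ) : ℝ)) := by ring
        _ ≤ CL * (√(4 * M : ℝ) * (1 / √(n : ℝ))) := mul_le_mul_of_nonneg_left this hCL.le
        _ = _ := by ring
    have hθinv : 2 / θ ≤ 2 / θ₀ := div_le_div_of_nonneg_left (by norm_num) hθ₀ hθ.1
    have hg := mvl_geo (hgeo u) hM' hn1 hu2.le
    have hW2 : (1 / √(((1 : ℕ) : ℝ))) ^ e = 1 := by simp
    rw [hW2, one_mul]
    have e3 : (((u + 1 : ℕ) : ℝ) + 1) * (2 ^ t * 2 * (1 / ρ ^ 4) * (1 / 8 : ℝ) ^ u) =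
        2 ^ t * 2 * (1 / ρ ^ 4) * (((u : ℝ) + 2) * (1 / 8 : ℝ) ^ u) := by
      push_cast
      ring
    rw [e3]
    have hA := mvl_arith (D := 2 / (1 - q ^ 2)) (P := (as.prod : ℝ))
      (Wa := (1 / √(((u + 1 + 1 : ℕ) : ℝ))) ^ e) (Ba := (CL / √((u + 1 : ℕ) : ℝ)) ^ t)
      (sn := 1 / √(n : ℝ)) (Wb := (√(4 * M : ℝ)) ^ e) (Bb := (CL * √(4 * M : ℝ)) ^ t)
      (th := 2 / θ) (th0 := 2 / θ₀) (G1 := 2 ^ t * 2 * (1 / ρ ^ 4) * (((u : ℝ) + 2) * (1 / 8 : ℝ) ^ u))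
      (G2 := 2 ^ t * 2 * (1 / ρ ^ 4) * ((4 * M : ℝ) ^ (t + e) * Cg)) (t := t) (e := e)
      (by positivity) hP (by positivity) (by positivity) hW1 (by positivity) hb2 (by positivity)
      (by positivity) (by positivity) hθinv (by positivity)
      (by
        have h13 : (0 : ℝ) ≤ 2 ^ t * 2 * (1 / ρ ^ 4) := by positivity
        calc 2 ^ t * 2 * (1 / ρ ^ 4) * (((u : ℝ) + 2) * (1 / 8 : ℝ) ^ u)
            ≤ 2 ^ t * 2 * (1 / ρ ^ 4) * ((4 * M : ℝ) ^ (t + e) * Cg * (1 / √(n : ℝ)) ^ (t + e)) :=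
              mul_le_mul_of_nonneg_left hg h13
          _ = _ := by ring)
    have e4 : (2 / (1 - q ^ 2) * (((√(4 * M : ℝ)) ^ e) * ((2 / θ₀) * ((CL * √(4 * M : ℝ)) ^ t)) +
        2 ^ t * 2 * (1 / ρ ^ 4) * ((4 * M : ℝ) ^ (t + e) * Cg))) = Cmain := by
      rw [hCmain]
    rw [e4] at hA
    have hPp : 0 ≤ (as.prod : ℝ) := by linarith
    have hfin : Cmain * (as.prod : ℝ) * (1 / √(n : ℝ)) ^ (t + e) ≤
        (Cmain + Csmall) * (as.prod : ℝ) * (1 / √(n : ℝ)) ^ (t + e) := by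
      apply mul_le_mul_of_nonneg_right _ (by positivity)
      apply mul_le_mul_of_nonneg_right _ hPp
      linarith
    refine le_trans (le_of_eq ?_) (hA.trans hfin)
    ring
  · -- small case
    have hn0 : (n : ℝ) ≤ n₀ := by
      have : n ≤ n₀ := by omega
      exact_mod_cast this
    have := mvl_small (e := e) h0 h1 hθ₀ hθ0 hθ1 hθ.1 as hlen hc₁ hc₁3 B c₂ L hsq hn0 hC₀ hC₀0 hP
    have h4 : (0 : ℝ) ≤ (1 / √(n : ℝ)) ^ (t + e) := by positivity
    refine this.trans ?_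
    rw [← hCsmall]
    apply mul_le_mul_of_nonneg_right _ h4
    apply mul_le_mul_of_nonneg_right _ (by linarith)
    linarith

end Vale.Agent.Lib.P321
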