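import Vale.Agent.Lib.P321.FarOL

/-!
P321: the Volterra expansion with a general source.
-/

namespace Vale.Agent.Lib.P321

open Finset

/-- Volterra expansion with source `F`, sites listed in decreasing order. -/
noncomputable def VV (θ : ℝ) (F : ℤ → Word → ℝ) : List ℤ → ℤ → Word → ℝ
  | [], X, t => F X t
  | d :: ds, X, t => VV θ F ds X t + Tk θ (NB θ) d X (VV θ F ds (d - 1)) t

theorem VV_nil (θ : ℝ) (F : ℤ → Word → ℝ) : VV θ F [] = F := rfl

theorem VV_cons (θ : ℝ) (F : ℤ → Word → ℝ) (d : ℤ) (ds : List ℤ) (X : ℤ) (t : Word) :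
    VV θ F (d :: ds) X t = VV θ F ds X t + Tk θ (NB θ) d X (VV θ F ds (d - 1)) t := rfl

/-- The source of the plain count expansion. -/
noncomputable def F0 (θ : ℝ) (s : ℤ) : ℤ → Word → ℝ :=
  fun X t => NB θ (t.length + 1) (X - s - H t)

theorem UU_eq_VV (θ : ℝ) (s : ℤ) (L : List ℤ) (X : ℤ) (t : Word) :
    UU θ s L X t = VV θ (F0 θ s) L X t := by
  induction L generalizing X t with
  | nil => rfl
  | cons d ds ih =>
    simp only [UU, VV_cons]
    rw [ih]
    congr 1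
    have : UU θ s ds (d - 1) = VV θ (F0 θ s) ds (d - 1) := by
      funext t'
      exact ih (d - 1) t'
    rw [this]

/-- Composition of expansions. -/
theorem VV_append (θ : ℝ) (F : ℤ → Word → ℝ) (R M : List ℤ) (X : ℤ) (t : Word) :
    VV θ F (R ++ M) X t = VV θ (VV θ F M) R X t := by
  induction R generalizing X t with
  | nil => rfl
  | cons d ds ih =>
    simp only [List.cons_append, VV_cons]
    rw [ih]
    congr 1
    have : VV θ F (ds ++ M) (d - 1) = VV θ (VV θ F M) ds (d - 1) := by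
      funext t'
      exact ih (d - 1) t'
    rw [this]

/-- `Tk` is linear in the left function: difference. -/
theorem Tk_sub (θ : ℝ) (β : Blk) (d X : ℤ) (g₁ g₂ : Word → ℝ) (t : Word) :
    Tk θ β d X (fun w => g₁ w - g₂ w) t = Tk θ β d X g₁ t - Tk θ β d X g₂ t := by
  simp only [Tk]
  generalize splits t = L
  induction L with
  | nil => simp
  | cons s L ih =>
    simp only [List.map_cons, List.sum_cons]
    rw [ih]
    ring

/-- `Tk` is linear in the left function: sum. -/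
theorem Tk_add (θ : ℝ) (β : Blk) (d X : ℤ) (g₁ g₂ : Word → ℝ) (t : Word) :
    Tk θ β d X (fun w => g₁ w + g₂ w) t = Tk θ β d X g₁ t + Tk θ β d X g₂ t := by
  simp only [Tk]
  generalize splits t = L
  induction L with
  | nil => simp
  | cons s L ih =>
    simp only [List.map_cons, List.sum_cons]
    rw [ih]
    ring

/-- `Tk` is linear in the block family: difference. -/
theorem Tk_sub_blk (θ : ℝ) (β₁ β₂ : Blk) (d X : ℤ) (g : Word → ℝ) (t : Word) :
    Tk θ (fun r z => β₁ r z - β₂ r z) d X g t = Tk θ β₁ d X g t - Tk θ β₂ d X g t := by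
  simp only [Tk]
  generalize splits t = L
  induction L with
  | nil => simp
  | cons s L ih =>
    simp only [List.map_cons, List.sum_cons]
    rw [ih]
    ring

/-- Translation: the transfer operator only sees `X - d`. -/
theorem Tk_shift (θ : ℝ) (β : Blk) (d X : ℤ) (g : Word → ℝ) (t : Word) :
    Tk θ β (d + 1) X g t = Tk θ β d (X - 1) g t := by
  simp only [Tk]
  have : ∀ s : Spl, X - (d + 1) - (H s.2.2.2 : ℤ) = X - 1 - d - H s.2.2.2 := by
    intro s
    ring
  simp only [this]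

/-- Step of the end point. -/
theorem Tk_ker_step (θ : ℝ) (as : List ℕ) (d X : ℤ) (g : Word → ℝ) (t : Word) :
    Tk θ (ker θ as) d X g t - Tk θ (ker θ as) d (X - 1) g t = Tk θ (ker θ (1 :: as)) d X g t := by
  have e : Tk θ (ker θ (1 :: as)) d X g t =
      Tk θ (fun r z => ker θ as r z - ker θ as r (z - 1)) d X g t := by
    simp only [Tk]
    apply congrArg List.sum
    apply List.map_congr_left
    intro s _
    rw [ker_cons]
    simp
  rw [e]
  simp only [Tk]
  generalize splits t = L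
  induction L with
  | nil => simp
  | cons s L ih =>
    simp only [List.map_cons, List.sum_cons]
    rw [← ih]
    have : X - 1 - d - (H s.2.2.2 : ℤ) = X - d - H s.2.2.2 - 1 := by ring
    rw [this]
    ring

/-- Step of the site. -/
theorem Tk_ker_site (θ : ℝ) (as : List ℕ) (d X : ℤ) (g : Word → ℝ) (t : Word) :
    Tk θ (ker θ as) (d + 1) X g t - Tk θ (ker θ as) d X g t = -Tk θ (ker θ (1 :: as)) d X g t := by
  rw [Tk_shift, ← Tk_ker_step]
  ring

/-- Linearity of the expansion in the source. -/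
theorem VV_sub (θ : ℝ) (F G : ℤ → Word → ℝ) (R : List ℤ) (X : ℤ) (t : Word) :
    VV θ (fun X t => F X t - G X t) R X t = VV θ F R X t - VV θ G R X t := by
  induction R generalizing X t with
  | nil => rfl
  | cons d ds ih =>
    simp only [VV_cons]
    rw [ih]
    have : VV θ (fun X t => F X t - G X t) ds (d - 1) =
        fun w => VV θ F ds (d - 1) w - VV θ G ds (d - 1) w := by
      funext w
      exact ih (d - 1) w
    rw [this, Tk_sub]
    ring

/-- Linearity of the expansion in the source: negation-free congruence. -/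
theorem VV_congr (θ : ℝ) {F G : ℤ → Word → ℝ} (h : ∀ X t, F X t = G X t) (R : List ℤ) :
    VV θ F R = VV θ G R := by
  have : F = G := by
    funext X t
    exact h X t
  rw [this]

/-- Tk with left function zero. -/
theorem Tk_zero (θ : ℝ) (β : Blk) (d X : ℤ) (t : Word) :
    Tk θ β d X (fun _ => 0) t = 0 := by
  simp only [Tk]
  apply List.sum_eq_zero
  intro x hx
  simp only [List.mem_map] at hx
  obtain ⟨s, _, rfl⟩ := hx
  ring

/-- The expansion does not see sites beyond the end point. -/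
theorem VV_cons_of_lt (θ : ℝ) (F : ℤ → Word → ℝ) (d : ℤ) (ds : List ℤ) {X : ℤ} (h : X < d) (t : Word) :
    VV θ F (d :: ds) X t = VV θ F ds X t := by
  rw [VV_cons, Tk_of_lt θ (fun r z hz => NB_of_neg hz) h]
  ring

theorem VV_cons_of_lt_fun (θ : ℝ) (F : ℤ → Word → ℝ) (d : ℤ) (ds : List ℤ) {X : ℤ} (h : X < d) :
    VV θ F (d :: ds) X = VV θ F ds X := by
  funext t
  exact VV_cons_of_lt θ F d ds h t

/-- The Volterra equation. -/
theorem VV_volterra (θ : ℝ) (F : ℤ → Word → ℝ) (R : List ℤ) (hR : R.Pairwise (· > ·)) (X : ℤ) (t : Word) :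
    VV θ F R X t = F X t + Yk θ (NB θ) R.toFinset (fun d => VV θ F R (d - 1)) X t := by
  rw [Yk_eq_sum_Tk]
  induction R generalizing X t with
  | nil => simp [VV]
  | cons d ds ih =>
    have hds : ds.Pairwise (· > ·) := (List.pairwise_cons.mp hR).2
    have hlt : ∀ d' ∈ ds, d > d' := (List.pairwise_cons.mp hR).1
    have hnot : d ∉ ds.toFinset := by
      intro hd
      exact lt_irrefl d (hlt d (List.mem_toFinset.mp hd))
    rw [List.toFinset_cons, sum_insert hnot, VV_cons, ih hds X t]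
    have e1 : VV θ F (d :: ds) (d - 1) = VV θ F ds (d - 1) :=
      VV_cons_of_lt_fun θ F d ds (by omega)
    rw [e1]
    have e2 : ∑ x ∈ ds.toFinset, Tk θ (NB θ) x X (VV θ F (d :: ds) (x - 1)) t =
        ∑ x ∈ ds.toFinset, Tk θ (NB θ) x X (VV θ F ds (x - 1)) t := by
      apply sum_congr rfl
      intro x hx
      have := hlt x (List.mem_toFinset.mp hx)
      rw [VV_cons_of_lt_fun θ F d ds (by omega : x - 1 < d)]
    rw [e2]
    ring

/-- Support of a transfer operator. -/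
theorem Tk_supp {θ : ℝ} {β : Blk} (hβ : ∀ r z, z < 0 → β r z = 0) {g : Word → ℝ} {b : ℤ}
    (hg : ∀ w, g w ≠ 0 → (w.length : ℤ) ≤ b) (d X : ℤ) (t : Word) (h : Tk θ β d X g t ≠ 0) :
    (t.length : ℤ) ≤ b + 2 + 2 * (X - d) := by
  by_contra hcon
  apply h
  simp only [Tk]
  apply List.sum_eq_zero
  intro x hx
  simp only [List.mem_map] at hx
  obtain ⟨s, hs, rfl⟩ := hx
  have hj := mem_splits.mp hs
  by_cases h1 : g s.1 = 0
  · rw [h1]
    ring
  · by_cases h2 : X - d - (H s.2.2.2 : ℤ) < 0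
    · rw [hβ _ _ h2]
      ring
    · exfalso
      apply hcon
      have h3 := hg _ h1
      have h4 := length_le_two_H s.2.2.2
      rw [← hj]
      simp only [joinS, List.length_append, List.length_cons]
      push_cast
      omega

/-- Support condition for a family of functions. -/
def SuppS (f : ℤ → Word → ℝ) (s : ℤ) : Prop := ∀ X w, f X w ≠ 0 → (w.length : ℤ) ≤ 2 * (X - s)

theorem VV_supp {θ : ℝ} {F : ℤ → Word → ℝ} {s : ℤ} (hF : SuppS F s) (R : List ℤ) : SuppS (VV θ F R) s := by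
  induction R with
  | nil => exact hF
  | cons d ds ih =>
    intro X w hw
    rw [VV_cons] at hw
    by_cases h1 : VV θ F ds X w = 0
    · rw [h1, zero_add] at hw
      have := Tk_supp (θ := θ) (β := NB θ) (fun r z hz => NB_of_neg hz) (g := VV θ F ds (d - 1))
        (b := 2 * (d - 1 - s)) (fun w' hw' => ih (d - 1) w' hw') d X w hw
      omega
    · exact ih X w h1

/-- First block with a kernel. -/
noncomputable def Fk (θ : ℝ) (as : List ℕ) (s : ℤ) : ℤ → Word → ℝ :=
  fun X t => ker θ as (t.length + 1) (X - s - H t)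

theorem Fk_nil (θ : ℝ) (s : ℤ) : Fk θ [] s = F0 θ s := rfl

theorem Fk_supp (θ : ℝ) (as : List ℕ) (s : ℤ) : SuppS (Fk θ as s) s := by
  intro X w hw
  have h : ¬ (X - s - (H w : ℤ) < 0) := fun hn => hw (ker_of_neg as _ hn)
  have := length_le_two_H w
  omega

/-- Inserting a site. -/
noncomputable def Ins (θ : ℝ) (g : ℤ → Word → ℝ) (b : ℤ) : ℤ → Word → ℝ :=
  fun X t => Tk θ (NB θ) b X (g (b - 1)) t

/-- Displacing a site. -/
noncomputable def Disp (θ : ℝ) (g : ℤ → Word → ℝ) (d : ℤ) : ℤ → Word → ℝ :=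
  fun X t => Tk θ (NB θ) (d + 1) X (g d) t - Tk θ (NB θ) d X (g (d - 1)) t

theorem Ins_supp {θ : ℝ} {g : ℤ → Word → ℝ} {s : ℤ} (hg : SuppS g s) (b : ℤ) : SuppS (Ins θ g b) s := by
  intro X w hw
  have := Tk_supp (θ := θ) (β := NB θ) (fun r z hz => NB_of_neg hz) (g := g (b - 1))
    (b := 2 * (b - 1 - s)) (fun w' hw' => hg (b - 1) w' hw') b X w hw
  omega

theorem Disp_supp {θ : ℝ} {g : ℤ → Word → ℝ} {s : ℤ} (hg : SuppS g s) (d : ℤ) : SuppS (Disp θ g d) s := by
  intro X w hw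
  by_cases h1 : Tk θ (NB θ) (d + 1) X (g d) w = 0
  · have h2 : Tk θ (NB θ) d X (g (d - 1)) w ≠ 0 := by
      intro h2
      apply hw
      simp only [Disp, h1, h2, sub_zero]
    have := Tk_supp (θ := θ) (β := NB θ) (fun r z hz => NB_of_neg hz) (g := g (d - 1))
      (b := 2 * (d - 1 - s)) (fun w' hw' => hg (d - 1) w' hw') d X w h2
    omega
  · have := Tk_supp (θ := θ) (β := NB θ) (fun r z hz => NB_of_neg hz) (g := g d)
      (b := 2 * (d - s)) (fun w' hw' => hg d w' hw') (d + 1) X w h1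
    omega

theorem SuppS_sub {f g : ℤ → Word → ℝ} {s : ℤ} (hf : SuppS f s) (hg : SuppS g s) :
    SuppS (fun X t => f X t - g X t) s := by
  intro X w hw
  by_cases h1 : f X w = 0
  · apply hg
    intro h2
    apply hw
    simp only [h1, h2, sub_zero]
  · exact hf X w h1

/-- Adding a site as a source. -/
theorem VV_cons_sub (θ : ℝ) (F : ℤ → Word → ℝ) (b : ℤ) (M : List ℤ) (X : ℤ) (t : Word) :
    VV θ F (b :: M) X t - VV θ F M X t = Ins θ (VV θ F M) b X t := by
  rw [VV_cons, Ins]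
  ring

/-- Displacing a site as a source. -/
theorem VV_disp (θ : ℝ) (F : ℤ → Word → ℝ) (d : ℤ) (M : List ℤ) (X : ℤ) (t : Word) :
    VV θ F ((d + 1) :: M) X t - VV θ F (d :: M) X t = Disp θ (VV θ F M) d X t := by
  rw [VV_cons, VV_cons, Disp]
  have : d + 1 - 1 = d := by ring
  rw [this]
  ring

/-- Displacing a site in the middle. -/
theorem VV_disp_mid (θ : ℝ) (F : ℤ → Word → ℝ) (R : List ℤ) (d : ℤ) (M : List ℤ) (X : ℤ) (t : Word) :
    VV θ F (R ++ (d + 1) :: M) X t - VV θ F (R ++ d :: M) X t =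
      VV θ (Disp θ (VV θ F M) d) R X t := by
  rw [VV_append, VV_append, ← VV_sub]
  congr 1
  funext X' t'
  exact VV_disp θ F d M X' t'

/-- `Disp` is linear. -/
theorem Disp_sub (θ : ℝ) (g₁ g₂ : ℤ → Word → ℝ) (d X : ℤ) (t : Word) :
    Disp θ (fun X w => g₁ X w - g₂ X w) d X t = Disp θ g₁ d X t - Disp θ g₂ d X t := by
  simp only [Disp]
  rw [Tk_sub, Tk_sub]
  ring

/-- The double displacement. -/
theorem VV_disp_disp (θ : ℝ) (F : ℤ → Word → ℝ) (R₂ : List ℤ) (d' : ℤ) (R₁ : List ℤ) (d : ℤ) (M : List ℤ)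
    (X : ℤ) (t : Word) :
    (VV θ F (R₂ ++ (d' + 1) :: (R₁ ++ (d + 1) :: M)) X t - VV θ F (R₂ ++ d' :: (R₁ ++ (d + 1) :: M)) X t) -
      (VV θ F (R₂ ++ (d' + 1) :: (R₁ ++ d :: M)) X t - VV θ F (R₂ ++ d' :: (R₁ ++ d :: M)) X t) =
    VV θ (Disp θ (VV θ (Disp θ (VV θ F M) d) R₁) d') R₂ X t := by
  rw [VV_disp_mid, VV_disp_mid, ← VV_sub]
  congr 1
  funext X' t'
  rw [← Disp_sub]
  congr 1
  funext X'' t''
  exact VV_disp_mid θ F R₁ d M X'' t''

/-- Decomposition of a displacement source into the operators at the distances. -/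
theorem Disp_eq (θ : ℝ) (g : ℤ → Word → ℝ) (d X : ℤ) (t : Word) :
    Disp θ g d X t = Tk θ (ker θ []) (d + 1) X (fun w => g d w - g (d - 1) w) t -
      Tk θ (ker θ [1]) d X (g (d - 1)) t := by
  have h := Tk_ker_site θ [] d X (g (d - 1)) t
  rw [Tk_sub, ker_nil_fun]
  rw [ker_nil_fun] at h
  simp only [Disp]
  linarith

/-- Its difference in the end point. -/
theorem Disp_step (θ : ℝ) (g : ℤ → Word → ℝ) (d X : ℤ) (t : Word) :
    Disp θ g d X t - Disp θ g d (X - 1) t =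
      Tk θ (ker θ [1]) (d + 1) X (fun w => g d w - g (d - 1) w) t -
      Tk θ (ker θ [1, 1]) d X (g (d - 1)) t := by
  rw [Disp_eq, Disp_eq]
  have h1 := Tk_ker_step θ [] (d + 1) X (fun w => g d w - g (d - 1) w) t
  have h2 := Tk_ker_step θ [1] d X (g (d - 1)) t
  linarith

/-- Difference of the expansion in the end point. -/
theorem VV_step (θ : ℝ) (F : ℤ → Word → ℝ) (R : List ℤ) (hR : R.Pairwise (· > ·)) (X : ℤ) (t : Word) :
    VV θ F R X t - VV θ F R (X - 1) t = (F X t - F (X - 1) t) +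
      Yk θ (ker θ [1]) R.toFinset (fun d => VV θ F R (d - 1)) X t := by
  rw [VV_volterra θ F R hR X t, VV_volterra θ F R hR (X - 1) t, Yk_eq_sum_Tk, Yk_eq_sum_Tk, Yk_eq_sum_Tk]
  have : ∑ d ∈ R.toFinset, Tk θ (ker θ [1]) d X (VV θ F R (d - 1)) t =
      ∑ d ∈ R.toFinset, Tk θ (NB θ) d X (VV θ F R (d - 1)) t -
      ∑ d ∈ R.toFinset, Tk θ (NB θ) d (X - 1) (VV θ F R (d - 1)) t := by
    rw [← sum_sub_distrib]
    apply sum_congr rfl
    intro d _
    have := Tk_ker_step θ [] d X (VV θ F R (d - 1)) t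
    rw [ker_nil_fun] at this
    exact this.symm
  rw [this]
  ring

theorem nsq_congr {q : ℝ} {B : ℕ} {f g : Word → ℝ} (h : ∀ t, f t = g t) : nsq q B f = nsq q B g := by
  have : f = g := funext h
  rw [this]

theorem nsq_add_le {q : ℝ} (h0 : 0 < q) (h1 : q < 1) (B : ℕ) (f g : Word → ℝ) :
    nsq q B (fun t => f t + g t) ≤ 2 * nsq q B f + 2 * nsq q B g := by
  unfold nsq
  rw [mul_sum, mul_sum, ← sum_add_distrib]
  apply sum_le_sum
  intro w _
  have hp := piT_pos h0 h1 w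
  have : (f w + g w) ^ 2 ≤ 2 * f w ^ 2 + 2 * g w ^ 2 := by nlinarith [sq_nonneg (f w - g w)]
  calc piT q w * (f w + g w) ^ 2 ≤ piT q w * (2 * f w ^ 2 + 2 * g w ^ 2) :=
        mul_le_mul_of_nonneg_left this hp.le
    _ = _ := by ring

theorem nsq_sub_le {q : ℝ} (h0 : 0 < q) (h1 : q < 1) (B : ℕ) (f g : Word → ℝ) :
    nsq q B (fun t => f t - g t) ≤ 2 * nsq q B f + 2 * nsq q B g := by
  unfold nsq
  rw [mul_sum, mul_sum, ← sum_add_distrib]
  apply sum_le_sum
  intro w _
  have hp := piT_pos h0 h1 w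
  have : (f w - g w) ^ 2 ≤ 2 * f w ^ 2 + 2 * g w ^ 2 := by nlinarith [sq_nonneg (f w + g w)]
  calc piT q w * (f w - g w) ^ 2 ≤ piT q w * (2 * f w ^ 2 + 2 * g w ^ 2) :=
        mul_le_mul_of_nonneg_left this hp.le
    _ = _ := by ring

/-- Norm bound along the sites from the weighted estimate. -/
theorem volterra_bound {q θ₀ θ₁ : ℝ} (h0 : 0 < q) (h1 : q < 1) (hθ₀ : 0 < θ₀) (hθ₁ : θ₁ < 1) :
    ∃ C : ℝ, 0 < C ∧ ∀ θ ∈ Set.Icc θ₀ θ₁,
      ∀ (δ : ℕ) (S : Finset ℤ) (F V : ℤ → Word → ℝ) (B₀ : ℕ) (I₀ : ℤ) (Lmax : ℕ) (𝓛 : ℝ) (Φ : ℤ → ℝ),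
        1 ≤ δ → Spaced S δ → (∀ d ∈ S, I₀ ≤ d) → (∀ d ∈ S, ∀ w, V (d - 1) w ≠ 0 → w.length ≤ B₀) →
        1 ≤ 𝓛 → (∑ j ∈ range (Lmax + 3), 1 / ((j : ℝ) + 1) ≤ 𝓛) →
        (1 / (δ : ℝ) + |θ - q ^ 2|) * √((Lmax : ℝ) + 1) ≤ 1 →
        (∀ d ∈ S, d - 1 - I₀ ≤ Lmax) → (∀ d ∈ S, 2 * (d - 1 - I₀) ≤ (B₀ : ℤ)) →
        (∀ X t, V X t = F X t + Yk θ (NB θ) S (fun d => V (d - 1)) X t) →
        (∀ d ∈ S, nsq q B₀ (F (d - 1)) ≤ Φ d) → (∀ d ∈ S, 0 ≤ Φ d) →
        (∀ d ∈ S, 4 * C * 𝓛 * ∑ d' ∈ S.filter (· < d), Φ d' * rhoL (d - 1 - d') ≤ Φ d) →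
        ∀ d ∈ S, nsq q B₀ (V (d - 1)) ≤ 4 * Φ d := by
  obtain ⟨C, hC, hW⟩ := OL_weighted (θ₀ := θ₀) (θ₁ := θ₁) h0 h1 hθ₀ hθ₁
  refine ⟨C, hC, ?_⟩
  intro θ hθ δ S F V B₀ I₀ Lmax 𝓛 Φ hδ hS hI hsupp h𝓛 hharm hzone hLm hB hV hF hΦ hadm
  have key : ∀ n : ℕ, ∀ d ∈ S, d < I₀ + n → nsq q B₀ (V (d - 1)) ≤ 4 * Φ d := by
    intro n
    induction n with
    | zero =>
      intro d hd hlt
      have := hI d hd
      push_cast at hlt
      omega
    | succ n ih =>
      intro d hd hlt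
      have e : V (d - 1) = fun t => F (d - 1) t + Yk θ (NB θ) S (fun d => V (d - 1)) (d - 1) t := by
        funext t
        exact hV _ t
      rw [e]
      refine (nsq_add_le h0 h1 B₀ _ _).trans ?_
      have hY := hW θ hθ δ S (fun d => V (d - 1)) B₀ I₀ Lmax 𝓛 hδ hS hI hsupp h𝓛 hharm hzone (d - 1)
        (hLm d hd) (by
          intro d' hd'
          have h3 := hB d hd
          have h4 := hI d' hd'
          omega)
      have hfil : S.filter (· ≤ d - 1) = S.filter (· < d) := by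
        apply filter_congr
        intro x _
        omega
      rw [hfil] at hY
      have hsum : ∑ d' ∈ S.filter (· < d), nsq q B₀ (V (d' - 1)) * rhoL (d - 1 - d') ≤
          4 * ∑ d' ∈ S.filter (· < d), Φ d' * rhoL (d - 1 - d') := by
        rw [mul_sum]
        apply sum_le_sum
        intro d' hd'
        obtain ⟨hd'S, hd'lt⟩ := mem_filter.mp hd'
        have := ih d' hd'S (by push_cast at hlt; omega)
        have hr := rhoL_nonneg (d - 1 - d')
        calc nsq q B₀ (V (d' - 1)) * rhoL (d - 1 - d') ≤ (4 * Φ d') * rhoL (d - 1 - d') :=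
              mul_le_mul_of_nonneg_right this hr
          _ = _ := by ring
      have hC𝓛 : 0 ≤ C * 𝓛 := by positivity
      have h5 := mul_le_mul_of_nonneg_left hsum hC𝓛
      have h6 := hadm d hd
      have h7 := hF d hd
      have h8 : 4 * C * 𝓛 * ∑ d' ∈ S.filter (· < d), Φ d' * rhoL (d - 1 - d') =
          C * 𝓛 * (4 * ∑ d' ∈ S.filter (· < d), Φ d' * rhoL (d - 1 - d')) := by ring
      linarith
  intro d hd
  have := hI d hd
  exact key ((d - I₀).toNat + 1) d hd (by push_cast; omega)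

end Vale.Agent.Lib.P321
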